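-- KEEP
import Claimed.Agent.R255.Base.Seq

/-!
# Row 255 (BR paper), Sections 6 + 8 = block (B) "matched plane": DEFINITIONS      (architect helper7)

PURE REAL ANALYSIS.  Nothing here knows entropy: the matched process enters only through the package `Prof` (Sec. 6.1) and the
pointwise rate transfer `Rate4` / `Rate3` (= Prop. 7.1, `rt_distinct` / `rt_tied`).  EXIT: `plane_false` (Plane/Top.lean).

* `Cfg.sh z ξ h = z + h ξ`, `Cfg.Cone m`, `Cfg.Bx R`  (same bodies as `Cfg.shift`, `Cfg.InCone`, `Cfg.Bd` of Rate/Contracts.lean).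
* `Prof γ β m` : profile `f` on `Cfg.Adm m`, time profile `S`, contact curve `b`, root level `τ` with (P1)-(P5).
* `Tr4`, `Tr3` : trace points (same bodies as `RtTrace4`, `RtTrace3`), `Rate4`, `Rate3` : conclusions of Prop. 7.1 at all trace points.
* `MpIn N` : input of the ABSTRACT trace theorem (Thm 6.1) on `Fin N → ℝ`: plane vectors `e`, `t`, capacities `d`, finitely many
  linear constraints `lam` vanishing on `e`, `t`, label index `v`.  Coordinates are ORDERED BY CLOCK, label last: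
  `om α β = e α * t β - t α * e β > 0` for `α < β`.   `V α = (- t α, e α)` = the plane direction which keeps coordinate `α` fixed.
* `MpOut T Λ u₁ u₂` : output = trace fields `A α`, scales `hs`, affine blow-up a.e., directional `L¹`-Lipschitz bound ("BV along `V α`").
* `mbx b u₀ ρ τ sg` : flattened one-sided box at the contact point, `MStr a b u₀ sg T` : strong one-sided trace.
Definitions are FROZEN (ask helper7).
-/

set_option autoImplicit false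

namespace Claimed.Agent.R255

open Filter Topology MeasureTheory Set

/-! ## configurations -/

/-- `z + h ξ` -/
def Cfg.sh (z ξ : Cfg) (h : ℝ) : Cfg :=
  ⟨z.LX + h * ξ.LX, z.LY + h * ξ.LY, z.LW + h * ξ.LW, z.LZ + h * ξ.LZ, z.v + h * ξ.v⟩

/-- the resolution cone (6.8) -/
def Cfg.Cone (m : ℝ) (ξ : Cfg) : Prop :=
  ξ.LY - ξ.LX ≤ ξ.v ∧ ξ.LW - ξ.LX ≤ m * ξ.v ∧ ξ.LZ - ξ.LW ≤ ξ.v ∧ ξ.LZ - ξ.LY ≤ m * ξ.v

def Cfg.Bx (R : ℝ) (ξ : Cfg) : Prop :=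
  |ξ.LX| ≤ R ∧ |ξ.LY| ≤ R ∧ |ξ.LW| ≤ R ∧ |ξ.LZ| ≤ R ∧ |ξ.v| ≤ R

/-- the five coordinate directions `X, Y, W, Z, v` -/
def cfgE : Fin 5 → Cfg
  | 0 => ⟨1, 0, 0, 0, 0⟩
  | 1 => ⟨0, 1, 0, 0, 0⟩
  | 2 => ⟨0, 0, 1, 0, 0⟩
  | 3 => ⟨0, 0, 0, 1, 0⟩
  | 4 => ⟨0, 0, 0, 0, 1⟩

/-- the capacities `1, 1, 1, 1, 1 + m` -/
def cfgCap (m : ℝ) : Fin 5 → ℝ
  | 4 => 1 + m
  | _ => 1

/-! ## the profile package (Sec. 6.1) -/

/-- (P1)-(P5).  `β` is the growth exponent, `τ` the limiting root level. -/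
structure Prof (γ β m : ℝ) where
  f : Cfg → ℝ
  S : ℝ → ℝ
  b : ℝ → ℝ
  τ : ℝ
  /-- (P1) monotone, increments at most the capacity; both end points admissible (closed faces included) -/
  cap : ∀ (k : Fin 5) (z : Cfg) (d : ℝ), 0 ≤ d → z.Adm m → (z.sh (cfgE k) d).Adm m →
    0 ≤ f (z.sh (cfgE k) d) - f z ∧ f (z.sh (cfgE k) d) - f z ≤ cfgCap m k * d
  /-- (P2) mixed rectangle differences are nonpositive; four admissible corners -/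
  rect : ∀ (k l : Fin 5), k ≠ l → ∀ (z : Cfg) (d d' : ℝ), 0 ≤ d → 0 ≤ d' → z.Adm m → (z.sh (cfgE k) d).Adm m →
    (z.sh (cfgE l) d').Adm m → ((z.sh (cfgE k) d).sh (cfgE l) d').Adm m →
    f ((z.sh (cfgE k) d).sh (cfgE l) d') - f (z.sh (cfgE k) d) - f (z.sh (cfgE l) d') + f z ≤ 0
  /-- (P3) -/
  S_lip : ∀ r t : ℝ, 0 < r → r ≤ t → t < 1 → |S t - S r| ≤ t - r
  /-- (P4) the obstacle for all apertures `(B, A)` with the orientation prefix `m v` -/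
  obst : ∀ B A v : ℝ, 0 < v → v < 1 → 0 ≤ B → B ≤ A → A ≤ B + m * v → A + v ≤ 1 + m →
    (1 + γ) * B + (1 - γ) * A + 2 * S v - β * v - τ ≤ f ⟨B, B + v, A, A + v, v⟩
  /-- (P4) contact -/
  cont : ∀ u : ℝ, 0 < u → u < 1 →
    f (plane m (b u) u) = 2 * b u + (1 - γ) * m * u + 2 * S u - β * u - τ
  /-- (P5) -/
  b_nonneg : ∀ u, 0 < u → u < 1 → 0 ≤ b u
  b_top : ∀ u, 0 < u → u < 1 → b u + (1 + m) * u ≤ 1 + m
  b_anti : ∀ r t, 0 < r → r ≤ t → t < 1 → b t ≤ b r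
  b_lip : ∀ r t, 0 < r → r ≤ t → t < 1 → b r - b t ≤ (1 + m) * (t - r)

/-! ## trace points and rate transfer -/

/-- trace point, distinct clocks (= `RtTrace4`) -/
structure Tr4 (m : ℝ) (f : Cfg → ℝ) (S : ℝ → ℝ) (i u x y w z D s : ℝ) : Prop where
  ipos : 0 < i
  upos : 0 < u
  ult : u < 1
  cap : 0 ≤ x ∧ x ≤ 1 ∧ 0 ≤ y ∧ y ≤ 1 ∧ 0 ≤ w ∧ w ≤ 1 ∧ 0 ≤ z ∧ z ≤ 1
  blow : ∃ h : ℕ → ℝ, (∀ l, 0 < h l) ∧ Tendsto h atTop (𝓝 0) ∧ ∀ R η : ℝ, 0 < η → ∀ᶠ l in atTop,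
    ∀ ξ : Cfg, ξ.Cone m → ξ.Bx R →
      |f ((plane m i u).sh ξ (h l)) - f (plane m i u)
        - h l * (x * ξ.LX + y * ξ.LY + w * ξ.LW + z * ξ.LZ + D * ξ.v)| ≤ η * h l
  dS : HasDerivAt S s u

/-- trace point, tied clocks (= `RtTrace3`) -/
structure Tr3 (m : ℝ) (f : Cfg → ℝ) (S : ℝ → ℝ) (i u x q z D s : ℝ) : Prop where
  ipos : 0 < i
  upos : 0 < u
  ult : u < 1
  cap : 0 ≤ x ∧ x ≤ 1 ∧ 0 ≤ q ∧ q ≤ 2 ∧ 0 ≤ z ∧ z ≤ 1
  blow : ∃ h : ℕ → ℝ, (∀ l, 0 < h l) ∧ Tendsto h atTop (𝓝 0) ∧ ∀ R η : ℝ, 0 < η → ∀ᶠ l in atTop,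
    ∀ ξ : Cfg, ξ.Cone m → ξ.Bx R → ξ.LY = ξ.LW →
      |f ((plane m i u).sh ξ (h l)) - f (plane m i u)
        - h l * (x * ξ.LX + q * ξ.LY + z * ξ.LZ + D * ξ.v)| ≤ η * h l
  dS : HasDerivAt S s u

/-- Proposition 7.1 (1) at every trace point -/
def Rate4 (m : ℝ) (f : Cfg → ℝ) (S : ℝ → ℝ) (σ : ℝ) : Prop :=
  ∀ i u x y w z D s : ℝ, Tr4 m f S i u x y w z D s →
    0 < s ∧ s ≤ 1 ∧ (0 < x → min 1 (x + s) ≤ y) ∧ (0 < w → min 1 (w + s) ≤ z) ∧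
      (0 < x → min 1 (x + σ) ≤ w) ∧ (0 < y → min 1 (y + σ) ≤ z)

/-- Proposition 7.1 (2) at every trace point -/
def Rate3 (m : ℝ) (f : Cfg → ℝ) (S : ℝ → ℝ) : Prop :=
  ∀ i u x q z D s : ℝ, Tr3 m f S i u x q z D s →
    0 < s ∧ s ≤ 1 ∧ (0 < x → s ≤ q) ∧ (0 < x → z < 1 → x + s ≤ z) ∧ (z < 1 → q ≤ 2 - s)

/-! ## the abstract trace theorem: input -/

/-- input data of Theorem 6.1 -/
structure MpIn (N : ℕ) where
  e : Fin N → ℝ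
  t : Fin N → ℝ
  d : Fin N → ℝ
  M : ℕ
  lam : Fin M → Fin N → ℝ
  v : Fin N
  f : (Fin N → ℝ) → ℝ

namespace MpIn

variable {N : ℕ} (T : MpIn N)

/-- the cone `𝒦` -/
def Cone (ξ : Fin N → ℝ) : Prop := ∀ l, ∑ α, T.lam l α * ξ α ≤ 0

/-- the closed-sided domain `𝒟` -/
def Dom (z : Fin N → ℝ) : Prop := T.Cone z ∧ 0 < z T.v ∧ z T.v < 1

/-- the plane `Π(i,u) = i e + u t` -/
def pl (q : ℝ × ℝ) : Fin N → ℝ := fun α => q.1 * T.e α + q.2 * T.t α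

/-- the characteristic direction of coordinate `α` -/
def V (α : Fin N) : ℝ × ℝ := (- T.t α, T.e α)

/-- `om α β` = speed of coordinate `β` along `V α` -/
def om (α β : Fin N) : ℝ := T.e α * T.t β - T.t α * T.e β

/-- the hypotheses of Theorem 6.1 (rectangle form, no distributions) -/
structure Ok : Prop where
  om_pos : ∀ α β, α < β → 0 < T.om α β
  lam_e : ∀ l, ∑ α, T.lam l α * T.e α = 0
  lam_t : ∀ l, ∑ α, T.lam l α * T.t α = 0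
  lam_v : ∀ l, T.lam l T.v < 0
  e_v : T.e T.v = 0
  t_v : T.t T.v = 1
  cap : ∀ (α : Fin N) (z : Fin N → ℝ) (h : ℝ), 0 ≤ h → T.Dom z → T.Dom (z + Pi.single α h) →
    0 ≤ T.f (z + Pi.single α h) - T.f z ∧ T.f (z + Pi.single α h) - T.f z ≤ T.d α * h
  rect : ∀ (α β : Fin N), α ≠ β → ∀ (z : Fin N → ℝ) (h k : ℝ), 0 ≤ h → 0 ≤ k → T.Dom z →
    T.Dom (z + Pi.single α h) → T.Dom (z + Pi.single β k) → T.Dom (z + Pi.single α h + Pi.single β k) →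
    T.f (z + Pi.single α h + Pi.single β k) - T.f (z + Pi.single α h) - T.f (z + Pi.single β k) + T.f z ≤ 0

/-- affine blow-up (6.9) on the cone at the plane point `q`, along the scales `hs`, with gradient `a` -/
def AffAt (q : ℝ × ℝ) (hs : ℕ → ℝ) (a : Fin N → ℝ) : Prop :=
  ∀ R ε : ℝ, 0 < ε → ∀ᶠ l in atTop, ∀ ξ : Fin N → ℝ, T.Cone ξ → (∀ α, |ξ α| ≤ R) →
    |T.f (T.pl q + hs l • ξ) - T.f (T.pl q) - hs l * ∑ α, a α * ξ α| ≤ ε * hs l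

end MpIn

/-- open plane patch with margin `r` -/
def mpatch (Λ u₁ u₂ r : ℝ) : Set (ℝ × ℝ) := Ioo (-Λ + r) (Λ - r) ×ˢ Ioo (u₁ + r) (u₂ - r)

/-- output of Theorem 6.1 on the patch `(-Λ, Λ) × (u₁, u₂)` -/
structure MpOut {N : ℕ} (T : MpIn N) (Λ u₁ u₂ : ℝ) where
  A : Fin N → ℝ × ℝ → ℝ
  hs : ℕ → ℝ
  meas : ∀ α, Measurable (A α)
  bd : ∀ α q, 0 ≤ A α q ∧ A α q ≤ T.d α
  hs_pos : ∀ l, 0 < hs l
  hs_lim : Tendsto hs atTop (𝓝 0)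
  /-- Theorem 6.1 (3) -/
  aff : ∀ᵐ q : ℝ × ℝ, q ∈ mpatch Λ u₁ u₂ 0 → T.AffAt q hs (fun α => A α q)
  /-- `V α (A α)` is a measure, in translation form -/
  bv : ∀ r : ℝ, 0 < r → ∀ α, ∃ C s₀ : ℝ, 0 < s₀ ∧ ∀ s : ℝ, 0 < s → s < s₀ →
    ∫ q in mpatch Λ u₁ u₂ r, |A α (q + s • T.V α) - A α q| ≤ C * s

/-! ## one-sided boxes at a curve and strong traces -/

/-- flattened one-sided box: `|u - u₀| < ρ`, `0 < sg (i - b u) < τ`  (`sg = 1`: plus side, `sg = -1`: minus side) -/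
def mbx (b : ℝ → ℝ) (u₀ ρ τ sg : ℝ) : Set (ℝ × ℝ) :=
  {q | |q.2 - u₀| < ρ ∧ 0 < sg * (q.1 - b q.2) ∧ sg * (q.1 - b q.2) < τ}

/-- strong one-sided trace `T` of the field `a` at the curve point `(b u₀, u₀)` -/
def MStr (a : ℝ × ℝ → ℝ) (b : ℝ → ℝ) (u₀ sg T : ℝ) : Prop :=
  Tendsto (fun ρ : ℝ => (ρ ^ 2)⁻¹ * ∫ q in mbx b u₀ ρ ρ sg, |a q - T|) (𝓝[>] 0) (𝓝 0)

theorem mp_defs_eqns_cite : True := by
  have := @Cfg.sh.eq_1
  have := @Cfg.Cone.eq_1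
  have := @Cfg.Bx.eq_1
  have := @cfgE.eq_1
  have := @cfgCap.eq_1
  have := @Rate4.eq_1
  have := @Rate3.eq_1
  have := @MpIn.Cone.eq_1
  have := @MpIn.Dom.eq_1
  have := @MpIn.pl.eq_1
  have := @MpIn.V.eq_1
  have := @MpIn.om.eq_1
  have := @MpIn.AffAt.eq_1
  have := @mpatch.eq_1
  have := @mbx.eq_1
  have := @MStr.eq_1
  trivial

end Claimed.Agent.R255
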