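-- KEEP
import Claimed.Agent.R255.Plane.Defs

/-!
# Row 255, block (B), chapter C, file 1: API of flattened boxes `mbx` and strong traces `MStr`      (architect helper7)

PAPER-FREE, Mathlib only.  `sg` is always `1` or `-1`.  The shear `(r,u) ↦ (b u + sg r, u)` preserves Lebesgue measure (`MeasurePreserving.skew_product` or Tonelli by hand).
LEAVES: BOX-1 (`mbx_meas`, `mbx_volume`, `mbx_integral`, `mbx_mono`), BOX-2 (`MStr` calculus), BOX-3 (`mstr_markov`, `mpz_select`), BOX-4 (`mstr_zero_of_thin`, `mpz_prop_le`), BOX-5 (`mpz_intB`, `mpz_intV`).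
-/

set_option autoImplicit false

namespace Claimed.Agent.R255

open Filter Topology MeasureTheory Set
open scoped NNReal

/-! ## BOX-1 -/

theorem mbx_meas (b : ℝ → ℝ) (hb : Measurable b) (u₀ ρ τ sg : ℝ) : MeasurableSet (mbx b u₀ ρ τ sg) := by
  have h1 : Measurable fun q : ℝ × ℝ => |q.2 - u₀| :=
    continuous_abs.measurable.comp (measurable_snd.sub_const u₀)
  have h2 : Measurable fun q : ℝ × ℝ => sg * (q.1 - b q.2) :=
    (measurable_fst.sub (hb.comp measurable_snd)).const_mul sg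
  exact (measurableSet_lt h1 measurable_const).inter
    ((measurableSet_lt measurable_const h2).inter (measurableSet_lt h2 measurable_const))

/-- helper: the shear `(u, r) ↦ (b u + sg r, u)` as a measure preserving measurable equivalence -/
theorem mbx_shear (b : ℝ → ℝ) (hb : Measurable b) (sg : ℝ) (hsg : sg = 1 ∨ sg = -1) :
    ∃ Φ : ℝ × ℝ ≃ᵐ ℝ × ℝ, (∀ p, Φ p = (b p.1 + sg * p.2, p.1)) ∧
      MeasurePreserving Φ (volume : Measure (ℝ × ℝ)) volume := by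
  have hsq : sg * sg = 1 := by
    rcases hsg with h | h <;> rw [h] <;> norm_num
  have hm1 : Measurable fun p : ℝ × ℝ => (b p.1 + sg * p.2, p.1) :=
    ((hb.comp measurable_fst).add (measurable_snd.const_mul sg)).prodMk measurable_fst
  have hm2 : Measurable fun q : ℝ × ℝ => (q.2, sg * (q.1 - b q.2)) :=
    measurable_snd.prodMk ((measurable_fst.sub (hb.comp measurable_snd)).const_mul sg)
  refine ⟨⟨⟨fun p => (b p.1 + sg * p.2, p.1), fun q => (q.2, sg * (q.1 - b q.2)), ?_, ?_⟩, hm1, hm2⟩,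
    fun _ => rfl, ?_⟩
  · intro p
    refine Prod.ext rfl ?_
    show sg * (b p.1 + sg * p.2 - b p.1) = p.2
    calc sg * (b p.1 + sg * p.2 - b p.1) = (sg * sg) * p.2 := by ring
      _ = p.2 := by rw [hsq, one_mul]
  · intro q
    refine Prod.ext ?_ rfl
    show b q.2 + sg * (sg * (q.1 - b q.2)) = q.1
    calc b q.2 + sg * (sg * (q.1 - b q.2)) = b q.2 + (sg * sg) * (q.1 - b q.2) := by ring
      _ = q.1 := by rw [hsq, one_mul]; ring
  · have hmap : ∀ u : ℝ, Measure.map (fun r : ℝ => b u + sg * r) volume = volume := by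
      intro u
      rcases hsg with h | h
      · simp only [h, one_mul]
        exact (measurePreserving_add_left volume (b u)).map_eq
      · have e : (fun r : ℝ => b u + sg * r) = fun r => b u - r := by
          funext r
          rw [h]
          ring
        rw [e]
        exact (Measure.measurePreserving_sub_left volume (b u)).map_eq
    have hΨ : MeasurePreserving (fun p : ℝ × ℝ => (p.1, b p.1 + sg * p.2))
        ((volume : Measure ℝ).prod volume) ((volume : Measure ℝ).prod volume) :=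
      MeasurePreserving.skew_product (f := fun u : ℝ => u) (MeasurePreserving.id volume)
        (g := fun u r => b u + sg * r)
        ((hb.comp measurable_fst).add (measurable_snd.const_mul sg)) (ae_of_all _ hmap)
    exact (Measure.measurePreserving_swap (μ := (volume : Measure ℝ)) (ν := (volume : Measure ℝ))).comp hΨ

/-- helper: the box in flattened coordinates -/
theorem mbx_shear_preimage (b : ℝ → ℝ) (u₀ ρ τ sg : ℝ) (hsg : sg = 1 ∨ sg = -1) (Φ : ℝ × ℝ → ℝ × ℝ)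
    (hΦ : ∀ p, Φ p = (b p.1 + sg * p.2, p.1)) :
    Φ ⁻¹' mbx b u₀ ρ τ sg = Ioo (u₀ - ρ) (u₀ + ρ) ×ˢ Ioo 0 τ := by
  have hsq : sg * sg = 1 := by
    rcases hsg with h | h <;> rw [h] <;> norm_num
  ext p
  have e : sg * (b p.1 + sg * p.2 - b p.1) = p.2 := by
    calc sg * (b p.1 + sg * p.2 - b p.1) = (sg * sg) * p.2 := by ring
      _ = p.2 := by rw [hsq, one_mul]
  simp only [mbx, mem_preimage, hΦ, Set.mem_ofPred_eq, e, mem_prod, mem_Ioo, abs_lt]
  constructor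
  · rintro ⟨⟨h1, h2⟩, h3, h4⟩
    exact ⟨⟨by linarith, by linarith⟩, h3, h4⟩
  · rintro ⟨⟨h1, h2⟩, h3, h4⟩
    exact ⟨⟨by linarith, by linarith⟩, h3, h4⟩

theorem mbx_volume (b : ℝ → ℝ) (hb : Measurable b) (u₀ ρ τ sg : ℝ) (hsg : sg = 1 ∨ sg = -1) (hρ : 0 < ρ) (hτ : 0 < τ) :
    volume (mbx b u₀ ρ τ sg) = ENNReal.ofReal (2 * ρ * τ) := by
  obtain ⟨Φ, hΦ, hmp⟩ := mbx_shear b hb sg hsg
  rw [← hmp.measure_preimage (mbx_meas b hb u₀ ρ τ sg).nullMeasurableSet,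
    mbx_shear_preimage b u₀ ρ τ sg hsg Φ hΦ, Measure.volume_eq_prod, Measure.prod_prod,
    Real.volume_Ioo, Real.volume_Ioo, ← ENNReal.ofReal_mul (by linarith)]
  congr 1
  ring

/-- Fubini in flattened coordinates -/
theorem mbx_integral (b : ℝ → ℝ) (hb : Measurable b) (u₀ ρ τ sg : ℝ) (hsg : sg = 1 ∨ sg = -1) (hρ : 0 < ρ) (hτ : 0 < τ)
    (g : ℝ × ℝ → ℝ) (hg : Measurable g) (C : ℝ) (hC : ∀ q, |g q| ≤ C) :
    ∫ q in mbx b u₀ ρ τ sg, g q = ∫ u in (u₀ - ρ)..(u₀ + ρ), ∫ r in (0 : ℝ)..τ, g (b u + sg * r, u) := by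
  obtain ⟨Φ, hΦ, hmp⟩ := mbx_shear b hb sg hsg
  rw [← hmp.setIntegral_preimage_emb Φ.measurableEmbedding g (mbx b u₀ ρ τ sg),
    mbx_shear_preimage b u₀ ρ τ sg hsg Φ hΦ, Measure.volume_eq_prod]
  have hint : IntegrableOn (fun p => g (Φ p)) (Ioo (u₀ - ρ) (u₀ + ρ) ×ˢ Ioo 0 τ)
      ((volume : Measure ℝ).prod volume) := by
    refine Measure.integrableOn_of_bounded (M := C) ?_ (hg.comp Φ.measurable).aestronglyMeasurable
      (ae_of_all _ fun p => ?_)
    · rw [Measure.prod_prod, Real.volume_Ioo, Real.volume_Ioo]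
      exact ENNReal.mul_ne_top ENNReal.ofReal_ne_top ENNReal.ofReal_ne_top
    · rw [Real.norm_eq_abs]
      exact hC _
  rw [setIntegral_prod _ hint, intervalIntegral.integral_of_le (by linarith),
    integral_Ioc_eq_integral_Ioo]
  refine setIntegral_congr_fun measurableSet_Ioo fun u _ => ?_
  show ∫ r in Ioo 0 τ, g (Φ (u, r)) = _
  rw [intervalIntegral.integral_of_le hτ.le, integral_Ioc_eq_integral_Ioo]
  simp only [hΦ]

theorem mbx_mono (b : ℝ → ℝ) (u₀ ρ ρ' τ τ' sg : ℝ) (hρ : ρ ≤ ρ') (hτ : τ ≤ τ') : mbx b u₀ ρ τ sg ⊆ mbx b u₀ ρ' τ' sg := by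
  rintro q ⟨h1, h2, h3⟩
  exact ⟨h1.trans_le hρ, h2, h3.trans_le hτ⟩

/-! ## BOX-2: calculus of strong traces -/

/-- helper: bounded measurable functions are integrable on boxes -/
theorem mbx_integrableOn (b : ℝ → ℝ) (hb : Measurable b) (u₀ ρ τ sg : ℝ) (hsg : sg = 1 ∨ sg = -1) (hρ : 0 < ρ) (hτ : 0 < τ)
    (g : ℝ × ℝ → ℝ) (hg : Measurable g) (C : ℝ) (hC : ∀ q, |g q| ≤ C) : IntegrableOn g (mbx b u₀ ρ τ sg) := by
  refine Measure.integrableOn_of_bounded (M := C) ?_ hg.aestronglyMeasurable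
    (ae_of_all _ fun q => by rw [Real.norm_eq_abs]; exact hC q)
  rw [mbx_volume b hb u₀ ρ τ sg hsg hρ hτ]
  exact ENNReal.ofReal_ne_top

/-- helper: the deviation from a constant is integrable on boxes -/
theorem mbx_dev_integrableOn (b : ℝ → ℝ) (hb : Measurable b) (u₀ ρ τ sg : ℝ) (hsg : sg = 1 ∨ sg = -1) (hρ : 0 < ρ) (hτ : 0 < τ)
    (a : ℝ × ℝ → ℝ) (ha : Measurable a) (C : ℝ) (hC : ∀ q, |a q| ≤ C) (T : ℝ) :
    IntegrableOn (fun q => |a q - T|) (mbx b u₀ ρ τ sg) :=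
  mbx_integrableOn b hb u₀ ρ τ sg hsg hρ hτ _ (continuous_abs.measurable.comp (ha.sub_const T)) (C + |T|)
    fun q => by
      rw [abs_abs]
      exact (abs_sub _ _).trans (add_le_add (hC q) le_rfl)

/-- helper: squeeze at `0+` -/
theorem mstr_of_le {F G : ℝ → ℝ} (hG : Tendsto G (𝓝[>] 0) (𝓝 0)) (h : ∀ ρ, 0 < ρ → 0 ≤ F ρ ∧ F ρ ≤ G ρ) :
    Tendsto F (𝓝[>] 0) (𝓝 0) :=
  squeeze_zero' (eventually_nhdsWithin_of_forall fun ρ hρ => (h ρ hρ).1)
    (eventually_nhdsWithin_of_forall fun ρ hρ => (h ρ hρ).2) hG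

theorem mstr_const (b : ℝ → ℝ) (u₀ sg c : ℝ) : MStr (fun _ => c) b u₀ sg c := by
  unfold MStr
  simp

theorem mstr_add (b : ℝ → ℝ) (hb : Measurable b) (u₀ sg : ℝ) (hsg : sg = 1 ∨ sg = -1) (a a' : ℝ × ℝ → ℝ) (ha : Measurable a) (ha' : Measurable a')
    (C : ℝ) (hC : ∀ q, |a q| ≤ C) (hC' : ∀ q, |a' q| ≤ C) (T T' : ℝ) (h : MStr a b u₀ sg T) (h' : MStr a' b u₀ sg T') :
    MStr (fun q => a q + a' q) b u₀ sg (T + T') := by
  unfold MStr at h h' ⊢
  have hG := h.add h'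
  rw [add_zero] at hG
  refine mstr_of_le hG fun ρ hρ =>
    ⟨mul_nonneg (inv_nonneg.2 (sq_nonneg ρ)) (integral_nonneg fun q => abs_nonneg _), ?_⟩
  have I1 := mbx_dev_integrableOn b hb u₀ ρ ρ sg hsg hρ hρ a ha C hC T
  have I2 := mbx_dev_integrableOn b hb u₀ ρ ρ sg hsg hρ hρ a' ha' C hC' T'
  rw [← mul_add]
  refine mul_le_mul_of_nonneg_left ?_ (inv_nonneg.2 (sq_nonneg ρ))
  rw [← integral_add I1 I2]
  refine integral_mono_of_nonneg (ae_of_all _ fun q => abs_nonneg _) (I1.add I2) (ae_of_all _ fun q => ?_)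
  have e : a q + a' q - (T + T') = (a q - T) + (a' q - T') := by ring
  show |a q + a' q - (T + T')| ≤ |a q - T| + |a' q - T'|
  rw [e]
  exact abs_add_le _ _

theorem mstr_smul (b : ℝ → ℝ) (u₀ sg : ℝ) (a : ℝ × ℝ → ℝ) (c T : ℝ) (h : MStr a b u₀ sg T) :
    MStr (fun q => c * a q) b u₀ sg (c * T) := by
  unfold MStr at h ⊢
  have e : ∀ ρ : ℝ, (ρ ^ 2)⁻¹ * ∫ q in mbx b u₀ ρ ρ sg, |c * a q - c * T|
      = |c| * ((ρ ^ 2)⁻¹ * ∫ q in mbx b u₀ ρ ρ sg, |a q - T|) := by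
    intro ρ
    have e1 : ∀ q, |c * a q - c * T| = |c| * |a q - T| := fun q => by rw [← mul_sub, abs_mul]
    simp only [e1, integral_const_mul]
    ring
  simp only [e]
  simpa using h.const_mul |c|

theorem mstr_sum (b : ℝ → ℝ) (hb : Measurable b) (u₀ sg : ℝ) (hsg : sg = 1 ∨ sg = -1) {K : ℕ} (a : Fin K → ℝ × ℝ → ℝ) (ha : ∀ k, Measurable (a k))
    (C : ℝ) (hC : ∀ k q, |a k q| ≤ C) (T : Fin K → ℝ) (h : ∀ k, MStr (a k) b u₀ sg (T k)) :
    MStr (fun q => ∑ k, a k q) b u₀ sg (∑ k, T k) := by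
  unfold MStr at h ⊢
  have hG : Tendsto (fun ρ : ℝ => ∑ k, (ρ ^ 2)⁻¹ * ∫ q in mbx b u₀ ρ ρ sg, |a k q - T k|) (𝓝[>] 0) (𝓝 0) := by
    have h1 := tendsto_finsetSum (Finset.univ : Finset (Fin K)) fun k _ => h k
    simpa using h1
  refine mstr_of_le hG fun ρ hρ =>
    ⟨mul_nonneg (inv_nonneg.2 (sq_nonneg ρ)) (integral_nonneg fun q => abs_nonneg _), ?_⟩
  have I : ∀ k, IntegrableOn (fun q => |a k q - T k|) (mbx b u₀ ρ ρ sg) := fun k =>
    mbx_dev_integrableOn b hb u₀ ρ ρ sg hsg hρ hρ (a k) (ha k) C (hC k) (T k)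
  rw [← Finset.mul_sum]
  refine mul_le_mul_of_nonneg_left ?_ (inv_nonneg.2 (sq_nonneg ρ))
  rw [← integral_finsetSum _ fun k _ => I k]
  refine integral_mono_of_nonneg (ae_of_all _ fun q => abs_nonneg _)
    (integrable_finsetSum _ fun k _ => I k) (ae_of_all _ fun q => ?_)
  show |∑ k, a k q - ∑ k, T k| ≤ ∑ k, |a k q - T k|
  rw [← Finset.sum_sub_distrib]
  exact Finset.abs_sum_le_sum_abs _ _

/-- a function of `u` alone: a Lebesgue point gives a strong trace -/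
theorem mstr_snd (b : ℝ → ℝ) (hb : Measurable b) (u₀ sg : ℝ) (hsg : sg = 1 ∨ sg = -1) (φ : ℝ → ℝ) (hφ : Measurable φ) (C : ℝ) (hC : ∀ u, |φ u| ≤ C) (T : ℝ)
    (h : Tendsto (fun ρ : ℝ => ρ⁻¹ * ∫ u in (u₀ - ρ)..(u₀ + ρ), |φ u - T|) (𝓝[>] 0) (𝓝 0)) :
    MStr (fun q => φ q.2) b u₀ sg T := by
  unfold MStr
  refine h.congr' ?_
  filter_upwards [self_mem_nhdsWithin] with ρ hρ
  have hρ' : 0 < ρ := hρ
  rw [mbx_integral b hb u₀ ρ ρ sg hsg hρ' hρ' (fun q => |φ q.2 - T|)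
    (continuous_abs.measurable.comp ((hφ.comp measurable_snd).sub_const T)) (C + |T|)
    (fun q => by
      rw [abs_abs]
      exact (abs_sub _ _).trans (add_le_add (hC _) le_rfl))]
  simp only [intervalIntegral.integral_const, sub_zero, smul_eq_mul, intervalIntegral.integral_const_mul]
  field_simp

/-- traces respect closed bounds -/
theorem mstr_le (b : ℝ → ℝ) (hb : Measurable b) (u₀ sg : ℝ) (hsg : sg = 1 ∨ sg = -1) (a : ℝ × ℝ → ℝ) (ha : Measurable a) (C c T : ℝ) (hC : ∀ q, |a q| ≤ C)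
    (hc : ∀ q, a q ≤ c) (h : MStr a b u₀ sg T) : T ≤ c := by
  by_contra hcon
  push Not at hcon
  have hev : ∀ᶠ ρ in 𝓝[>] (0 : ℝ), 2 * (T - c) ≤ (ρ ^ 2)⁻¹ * ∫ q in mbx b u₀ ρ ρ sg, |a q - T| := by
    filter_upwards [self_mem_nhdsWithin] with ρ hρ
    have hρ' : 0 < ρ := hρ
    have h1 : ∫ _q in mbx b u₀ ρ ρ sg, (T - c) ≤ ∫ q in mbx b u₀ ρ ρ sg, |a q - T| := by
      refine integral_mono
        (mbx_integrableOn b hb u₀ ρ ρ sg hsg hρ' hρ' _ measurable_const |T - c| fun _ => le_rfl)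
        (mbx_dev_integrableOn b hb u₀ ρ ρ sg hsg hρ' hρ' a ha C hC T) (fun q => ?_)
      have h2 := hc q
      show T - c ≤ |a q - T|
      rw [abs_sub_comm]
      exact le_trans (by linarith) (le_abs_self _)
    rw [setIntegral_const, measureReal_def, mbx_volume b hb u₀ ρ ρ sg hsg hρ' hρ',
      ENNReal.toReal_ofReal (by positivity), smul_eq_mul] at h1
    rw [← div_eq_inv_mul, le_div_iff₀ (by positivity)]
    calc 2 * (T - c) * ρ ^ 2 = 2 * ρ * ρ * (T - c) := by ring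
      _ ≤ _ := h1
  have h3 := ge_of_tendsto h hev
  linarith

theorem mstr_ge (b : ℝ → ℝ) (hb : Measurable b) (u₀ sg : ℝ) (hsg : sg = 1 ∨ sg = -1) (a : ℝ × ℝ → ℝ) (ha : Measurable a) (C c T : ℝ) (hC : ∀ q, |a q| ≤ C)
    (hc : ∀ q, c ≤ a q) (h : MStr a b u₀ sg T) : c ≤ T := by
  have h1 := mstr_smul b u₀ sg a (-1) T h
  have h2 := mstr_le b hb u₀ sg hsg (fun q => -1 * a q) (ha.const_mul (-1)) C (-c) (-1 * T)
    (fun q => by simpa using hC q) (fun q => by linarith [hc q]) h1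
  linarith

/-- change of the size of the box by a fixed factor -/
theorem mstr_scale (a : ℝ × ℝ → ℝ) (b : ℝ → ℝ) (u₀ sg T K : ℝ) (hK : 0 < K) (h : MStr a b u₀ sg T) :
    Tendsto (fun ρ : ℝ => (ρ ^ 2)⁻¹ * ∫ q in mbx b u₀ (K * ρ) (K * ρ) sg, |a q - T|) (𝓝[>] 0) (𝓝 0) := by
  unfold MStr at h
  have hK' : Tendsto (fun ρ : ℝ => K * ρ) (𝓝[>] 0) (𝓝[>] 0) := by
    refine tendsto_nhdsWithin_iff.2 ⟨?_, ?_⟩
    · have h0 : Tendsto (fun ρ : ℝ => K * ρ) (𝓝 0) (𝓝 (K * 0)) :=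
        (continuous_const.mul continuous_id).tendsto 0
      rw [mul_zero] at h0
      exact h0.mono_left nhdsWithin_le_nhds
    · filter_upwards [self_mem_nhdsWithin] with ρ hρ
      exact mul_pos hK hρ
  have h1 := (h.comp hK').const_mul (K ^ 2)
  rw [mul_zero] at h1
  refine h1.congr' ?_
  filter_upwards [self_mem_nhdsWithin] with ρ hρ
  have hρ' : ρ ≠ 0 := ne_of_gt hρ
  simp only [Function.comp]
  field_simp

/-! ## BOX-3: selection -/

/-- Markov: the set where `a` is `ε`-far from its trace has vanishing proportion -/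
theorem mstr_markov (b : ℝ → ℝ) (hb : Measurable b) (u₀ sg : ℝ) (hsg : sg = 1 ∨ sg = -1) (a : ℝ × ℝ → ℝ) (ha : Measurable a) (C T : ℝ) (hC : ∀ q, |a q| ≤ C)
    (h : MStr a b u₀ sg T) (ε η : ℝ) (hε : 0 < ε) (hη : 0 < η) :
    ∀ᶠ ρ in 𝓝[>] (0 : ℝ), volume ({q | ε < |a q - T|} ∩ mbx b u₀ ρ ρ sg) ≤ ENNReal.ofReal (η * ρ ^ 2) := by
  have e2 : ∀ᶠ ρ in 𝓝[>] (0 : ℝ), (ρ ^ 2)⁻¹ * ∫ q in mbx b u₀ ρ ρ sg, |a q - T| < ε * η :=
    (tendsto_order.1 h).2 (ε * η) (mul_pos hε hη)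
  filter_upwards [e2, self_mem_nhdsWithin] with ρ h2 hρ
  have hρ' : 0 < ρ := hρ
  have hρ2 : 0 < ρ ^ 2 := by positivity
  have hI := mbx_dev_integrableOn b hb u₀ ρ ρ sg hsg hρ' hρ' a ha C hC T
  have hM := mul_meas_ge_le_integral_of_nonneg (μ := volume.restrict (mbx b u₀ ρ ρ sg))
    (f := fun q => |a q - T|) (ae_of_all _ fun q => abs_nonneg _) hI ε
  have h3 : ∫ q in mbx b u₀ ρ ρ sg, |a q - T| < ρ ^ 2 * (ε * η) := by
    rwa [inv_mul_lt_iff₀ hρ2] at h2
  have hms : MeasurableSet {q | ε ≤ |a q - T|} :=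
    measurableSet_le measurable_const (continuous_abs.measurable.comp (ha.sub_const T))
  have h4 : (volume.restrict (mbx b u₀ ρ ρ sg)).real {q | ε ≤ |a q - T|} ≤ η * ρ ^ 2 := by
    have h5 : ε * (volume.restrict (mbx b u₀ ρ ρ sg)).real {q | ε ≤ |a q - T|} < ε * (η * ρ ^ 2) := by
      calc ε * (volume.restrict (mbx b u₀ ρ ρ sg)).real {q | ε ≤ |a q - T|}
          ≤ ∫ q in mbx b u₀ ρ ρ sg, |a q - T| := hM
        _ < ρ ^ 2 * (ε * η) := h3
        _ = ε * (η * ρ ^ 2) := by ring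
    exact (lt_of_mul_lt_mul_left h5 hε.le).le
  rw [measureReal_def, Measure.restrict_apply hms] at h4
  have hfin : volume ({q | ε ≤ |a q - T|} ∩ mbx b u₀ ρ ρ sg) ≠ ⊤ := by
    refine ne_top_of_le_ne_top ?_ (measure_mono inter_subset_right)
    rw [mbx_volume b hb u₀ ρ ρ sg hsg hρ' hρ']
    exact ENNReal.ofReal_ne_top
  calc volume ({q | ε < |a q - T|} ∩ mbx b u₀ ρ ρ sg)
      ≤ volume ({q | ε ≤ |a q - T|} ∩ mbx b u₀ ρ ρ sg) :=
        measure_mono (inter_subset_inter_left _ fun q (hq : ε < |a q - T|) => (le_of_lt hq : ε ≤ |a q - T|))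
    _ = ENNReal.ofReal (volume ({q | ε ≤ |a q - T|} ∩ mbx b u₀ ρ ρ sg)).toReal :=
        (ENNReal.ofReal_toReal hfin).symm
    _ ≤ ENNReal.ofReal (η * ρ ^ 2) := ENNReal.ofReal_le_ofReal h4

/-- SELECTION: a set of positive proportion of the box contains a point which is generic (`Pr`) and where finitely many fields are `ε`-close to their traces -/
theorem mpz_select (b : ℝ → ℝ) (hb : Measurable b) (u₀ sg : ℝ) (hsg : sg = 1 ∨ sg = -1) {K : ℕ} (g : Fin K → ℝ × ℝ → ℝ) (hg : ∀ k, Measurable (g k))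
    (C : ℝ) (hC : ∀ k q, |g k q| ≤ C) (T : Fin K → ℝ) (h : ∀ k, MStr (g k) b u₀ sg (T k))
    (E : ℝ → Set (ℝ × ℝ)) (c : ℝ) (hc : 0 < c)
    (hE : ∀ᶠ ρ in 𝓝[>] (0 : ℝ), E ρ ⊆ mbx b u₀ ρ ρ sg ∧ ENNReal.ofReal (c * ρ ^ 2) ≤ volume (E ρ))
    (Pr : ℝ × ℝ → Prop) (hP : ∀ᶠ ρ in 𝓝[>] (0 : ℝ), ∀ᵐ q : ℝ × ℝ, q ∈ mbx b u₀ ρ ρ sg → Pr q) (ε : ℝ) (hε : 0 < ε) :
    ∀ᶠ ρ in 𝓝[>] (0 : ℝ), ∃ q ∈ E ρ, Pr q ∧ ∀ k, |g k q - T k| ≤ ε := by
  obtain ⟨η, hη, hKη⟩ : ∃ η : ℝ, 0 < η ∧ K * η < c := by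
    refine ⟨c / (2 * (K + 1)), by positivity, ?_⟩
    rw [← mul_div_assoc, div_lt_iff₀ (by positivity)]
    have hK0 : (0 : ℝ) ≤ K := Nat.cast_nonneg K
    nlinarith
  have hbad : ∀ᶠ ρ in 𝓝[>] (0 : ℝ), ∀ k,
      volume ({q | ε < |g k q - T k|} ∩ mbx b u₀ ρ ρ sg) ≤ ENNReal.ofReal (η * ρ ^ 2) :=
    eventually_all.2 fun k => mstr_markov b hb u₀ sg hsg (g k) (hg k) C (T k) (hC k) (h k) ε η hε hη
  filter_upwards [hbad, hE, hP, self_mem_nhdsWithin] with ρ h1 h2 h3 hρ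
  have hρ' : 0 < ρ := hρ
  by_contra hcon
  push Not at hcon
  have hsub : E ρ ⊆ (⋃ k, {q | ε < |g k q - T k|} ∩ mbx b u₀ ρ ρ sg)
      ∪ {q | ¬ (q ∈ mbx b u₀ ρ ρ sg → Pr q)} := by
    intro q hq
    by_cases hPq : Pr q
    · obtain ⟨k, hk⟩ := hcon q hq hPq
      exact Or.inl (mem_iUnion.2 ⟨k, hk, h2.1 hq⟩)
    · exact Or.inr fun himp => hPq (himp (h2.1 hq))
  have hnull : volume {q | ¬ (q ∈ mbx b u₀ ρ ρ sg → Pr q)} = 0 := ae_iff.1 h3
  have hle : volume (E ρ) ≤ ENNReal.ofReal (K * η * ρ ^ 2) := by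
    calc volume (E ρ)
        ≤ volume (⋃ k, {q | ε < |g k q - T k|} ∩ mbx b u₀ ρ ρ sg)
          + volume {q | ¬ (q ∈ mbx b u₀ ρ ρ sg → Pr q)} :=
          (measure_mono hsub).trans (measure_union_le _ _)
      _ = volume (⋃ k, {q | ε < |g k q - T k|} ∩ mbx b u₀ ρ ρ sg) := by rw [hnull, add_zero]
      _ ≤ ∑ k, volume ({q | ε < |g k q - T k|} ∩ mbx b u₀ ρ ρ sg) := measure_iUnion_fintype_le _ _
      _ ≤ ∑ _k : Fin K, ENNReal.ofReal (η * ρ ^ 2) := Finset.sum_le_sum fun k _ => h1 k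
      _ = ENNReal.ofReal (K * η * ρ ^ 2) := by
          rw [Finset.sum_const, Finset.card_univ, Fintype.card_fin, nsmul_eq_mul,
            ← ENNReal.ofReal_natCast, ← ENNReal.ofReal_mul (Nat.cast_nonneg K)]
          congr 1
          ring
  have h5 := h2.2.trans hle
  rw [ENNReal.ofReal_le_ofReal_iff (by positivity)] at h5
  have hρ2 : 0 < ρ ^ 2 := by positivity
  nlinarith

/-! ## BOX-4 -/

/-- a strong trace whose integrals over the thin strips `τ = a ρ` are `O(a² ρ²)` vanishes -/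
theorem mstr_zero_of_thin (b : ℝ → ℝ) (hb : Measurable b) (u₀ sg : ℝ) (hsg : sg = 1 ∨ sg = -1) (g : ℝ × ℝ → ℝ) (hg : Measurable g) (C κ K : ℝ) (hC : ∀ q, |g q| ≤ C)
    (h : MStr g b u₀ sg κ)
    (hthin : ∀ a : ℝ, 0 < a → a ≤ 1 → ∀ η : ℝ, 0 < η → ∀ᶠ ρ in 𝓝[>] (0 : ℝ), |∫ q in mbx b u₀ ρ (a * ρ) sg, g q| ≤ (K * a ^ 2 + η) * ρ ^ 2) :
    κ = 0 := by
  -- key inequality
  have key : ∀ a : ℝ, 0 < a → a ≤ 1 → ∀ η : ℝ, 0 < η → 2 * a * |κ| ≤ K * a ^ 2 + 2 * η := by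
    intro a ha0 ha1 η hη
    have e1 := hthin a ha0 ha1 η hη
    have e2 : ∀ᶠ ρ in 𝓝[>] (0 : ℝ), (ρ ^ 2)⁻¹ * ∫ q in mbx b u₀ ρ ρ sg, |g q - κ| < η :=
      (tendsto_order.1 h).2 η hη
    have e3 : ∀ᶠ ρ in 𝓝[>] (0 : ℝ), 0 < ρ := eventually_mem_nhdsWithin
    obtain ⟨ρ, h1, h2, hρ⟩ := (e1.and (e2.and e3)).exists
    have hρ2 : 0 < ρ ^ 2 := by positivity
    have haρ : 0 < a * ρ := by positivity
    set St := mbx b u₀ ρ (a * ρ) sg with hSt
    set Bx := mbx b u₀ ρ ρ sg with hBx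
    have hStm : MeasurableSet St := mbx_meas b hb _ _ _ _
    have hBxm : MeasurableSet Bx := mbx_meas b hb _ _ _ _
    have hsub : St ⊆ Bx := mbx_mono b u₀ ρ ρ (a * ρ) ρ sg le_rfl (by nlinarith)
    have hvSt : volume St = ENNReal.ofReal (2 * ρ * (a * ρ)) := mbx_volume b hb _ _ _ _ hsg hρ haρ
    have hvBx : volume Bx = ENNReal.ofReal (2 * ρ * ρ) := mbx_volume b hb _ _ _ _ hsg hρ hρ
    have hfinSt : volume St ≠ ⊤ := by rw [hvSt]; exact ENNReal.ofReal_ne_top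
    have hfinBx : volume Bx ≠ ⊤ := by rw [hvBx]; exact ENNReal.ofReal_ne_top
    have hrSt : volume.real St = 2 * ρ * (a * ρ) := by
      rw [Measure.real, hvSt, ENNReal.toReal_ofReal (by positivity)]
    -- integrability
    have hintg : ∀ s : Set (ℝ × ℝ), volume s ≠ ⊤ → IntegrableOn g s := by
      intro s hs
      refine Measure.integrableOn_of_bounded hs hg.aestronglyMeasurable (M := C) ?_
      exact Eventually.of_forall fun q => by rw [Real.norm_eq_abs]; exact hC q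
    have hintd : ∀ s : Set (ℝ × ℝ), volume s ≠ ⊤ → IntegrableOn (fun q => |g q - κ|) s := by
      intro s hs
      refine Measure.integrableOn_of_bounded hs ((hg.sub_const κ).abs).aestronglyMeasurable (M := C + |κ|) ?_
      refine Eventually.of_forall fun q => ?_
      rw [Real.norm_eq_abs, abs_abs]
      exact (abs_sub _ _).trans (add_le_add (hC q) le_rfl)
    have hconst : ∫ _q in St, κ = (2 * ρ * (a * ρ)) * κ := by
      rw [setIntegral_const, hrSt, smul_eq_mul]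
    have hsplit : ∫ _q in St, κ = (∫ q in St, g q) - ∫ q in St, (g q - κ) := by
      rw [integral_sub (hintg St hfinSt) (integrableOn_const hfinSt)]
      ring
    have hb1 : |∫ q in St, (g q - κ)| ≤ ∫ q in St, |g q - κ| := abs_integral_le_integral_abs
    have hb2 : ∫ q in St, |g q - κ| ≤ ∫ q in Bx, |g q - κ| :=
      setIntegral_mono_set (hintd Bx hfinBx) (Eventually.of_forall fun q => abs_nonneg _)
        (LE.le.eventuallyLE hsub)
    have hb3 : ∫ q in Bx, |g q - κ| < η * ρ ^ 2 := by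
      rwa [inv_mul_lt_iff₀ hρ2, mul_comm] at h2
    have : |(2 * ρ * (a * ρ)) * κ| ≤ (K * a ^ 2 + η) * ρ ^ 2 + η * ρ ^ 2 := by
      rw [← hconst, hsplit]
      calc |(∫ q in St, g q) - ∫ q in St, (g q - κ)| ≤ |∫ q in St, g q| + |∫ q in St, (g q - κ)| := abs_sub _ _
        _ ≤ (K * a ^ 2 + η) * ρ ^ 2 + η * ρ ^ 2 := by linarith
    rw [abs_mul, abs_of_pos (by positivity : 0 < 2 * ρ * (a * ρ))] at this
    have h5 : (2 * a * |κ|) * ρ ^ 2 ≤ (K * a ^ 2 + 2 * η) * ρ ^ 2 := by nlinarith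
    exact le_of_mul_le_mul_right h5 hρ2
  have key2 : ∀ a : ℝ, 0 < a → a ≤ 1 → 2 * |κ| ≤ K * a := by
    intro a ha0 ha1
    have : 2 * a * |κ| ≤ K * a ^ 2 := by
      refine le_of_forall_pos_le_add fun η hη => ?_
      have := key a ha0 ha1 (η / 2) (by positivity)
      linarith
    have h6 : (2 * |κ|) * a ≤ (K * a) * a := by nlinarith
    exact le_of_mul_le_mul_right h6 ha0
  by_contra hκ
  have hpos : 0 < |κ| := abs_pos.2 hκ
  have hK : 0 < K := by
    have := key2 1 one_pos le_rfl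
    linarith
  have := key2 (min 1 (|κ| / K)) (lt_min one_pos (by positivity)) (min_le_left _ _)
  have h7 : K * min 1 (|κ| / K) ≤ K * (|κ| / K) := mul_le_mul_of_nonneg_left (min_le_right _ _) hK.le
  have h8 : K * (|κ| / K) = |κ| := by field_simp
  linarith

/-- `∫_B g ≤ 0`, `g ≥ -C` ⟹ `{g ≤ ε}` has proportion at least `ε/(C+ε)` -/
theorem mpz_prop_le (B : Set (ℝ × ℝ)) (hB : MeasurableSet B) (hBf : volume B ≠ ⊤) (g : ℝ × ℝ → ℝ) (hg : Measurable g) (C ε : ℝ) (hC0 : 0 ≤ C) (hε : 0 < ε)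
    (hC : ∀ q, |g q| ≤ C) (hint : ∫ q in B, g q ≤ 0) :
    ENNReal.ofReal (ε / (C + ε)) * volume B ≤ volume ({q | g q ≤ ε} ∩ B) := by
  set E : Set (ℝ × ℝ) := {q | g q ≤ ε} ∩ B with hE
  set F : Set (ℝ × ℝ) := B \ E with hF
  have hEm : MeasurableSet E := (measurableSet_le hg measurable_const).inter hB
  have hFm : MeasurableSet F := hB.diff hEm
  have hEB : E ⊆ B := inter_subset_right
  have hEf : volume E ≠ ⊤ := ne_top_of_le_ne_top hBf (measure_mono hEB)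
  have hFf : volume F ≠ ⊤ := ne_top_of_le_ne_top hBf (measure_mono sdiff_subset)
  have hintg : ∀ s : Set (ℝ × ℝ), volume s ≠ ⊤ → IntegrableOn g s := by
    intro s hs
    refine Measure.integrableOn_of_bounded hs hg.aestronglyMeasurable (M := C) ?_
    exact Eventually.of_forall fun q => by rw [Real.norm_eq_abs]; exact hC q
  have hunion : B = E ∪ F := by rw [hF, union_sdiff_cancel hEB]
  have hdisj : Disjoint E F := disjoint_sdiff_right
  have hsum : ∫ q in B, g q = (∫ q in E, g q) + ∫ q in F, g q := by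
    conv_lhs => rw [hunion]
    exact setIntegral_union hdisj hFm (hintg E hEf) (hintg F hFf)
  have hvol : volume.real B = volume.real E + volume.real F := by
    conv_lhs => rw [hunion]
    exact measureReal_union hdisj hFm
  have h1 : -C * volume.real E ≤ ∫ q in E, g q := by
    have : ∫ _q in E, (-C) ≤ ∫ q in E, g q :=
      setIntegral_mono_on (integrableOn_const hEf) (hintg E hEf) hEm fun q _ => (abs_le.1 (hC q)).1
    rwa [setIntegral_const, smul_eq_mul, mul_comm] at this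
  have h2 : ε * volume.real F ≤ ∫ q in F, g q := by
    have : ∫ _q in F, ε ≤ ∫ q in F, g q := by
      refine setIntegral_mono_on (integrableOn_const hFf) (hintg F hFf) hFm fun q hq => ?_
      have : ¬ (g q ≤ ε) := fun hle => hq.2 ⟨hle, hq.1⟩
      exact (not_le.1 this).le
    rwa [setIntegral_const, smul_eq_mul, mul_comm] at this
  have hCε : 0 < C + ε := by linarith
  have h3 : ε / (C + ε) * volume.real B ≤ volume.real E := by
    rw [div_mul_eq_mul_div, div_le_iff₀ hCε]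
    nlinarith
  have h4 : ENNReal.ofReal (ε / (C + ε)) * volume B = ENNReal.ofReal (ε / (C + ε) * volume.real B) := by
    rw [ENNReal.ofReal_mul (by positivity), Measure.real, ENNReal.ofReal_toReal hBf]
  rw [h4]
  calc ENNReal.ofReal (ε / (C + ε) * volume.real B) ≤ ENNReal.ofReal (volume.real E) :=
        ENNReal.ofReal_le_ofReal h3
    _ = volume E := by rw [Measure.real, ENNReal.ofReal_toReal hEf]

/-! ## BOX-5: the two integral identities for a Lipschitz potential vanishing on the curve -/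

/-- the shear preserves null sets, in both orders of Fubini -/
theorem mbx5_ae (b : ℝ → ℝ) (hb : Measurable b) (sg : ℝ) (hsg : sg = 1 ∨ sg = -1) (P : ℝ × ℝ → Prop)
    (h : ∀ᵐ q : ℝ × ℝ, P q) :
    (∀ᵐ u : ℝ, ∀ᵐ r : ℝ, P (b u + sg * r, u)) ∧ (∀ᵐ r : ℝ, ∀ᵐ u : ℝ, P (b u + sg * r, u)) := by
  have hmap : ∀ u : ℝ, Measure.map (fun r : ℝ => b u + sg * r) volume = volume := by
    intro u
    rcases hsg with rfl | rfl
    · simpa using (measurePreserving_add_left volume (b u)).map_eq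
    · have := (Measure.measurePreserving_sub_left volume (b u)).map_eq
      have e : (fun r : ℝ => b u + -1 * r) = fun r => b u - r := by funext r; ring
      rw [e]; exact this
  have mp : MeasurePreserving (fun p : ℝ × ℝ => (p.1, b p.1 + sg * p.2))
      ((volume : Measure ℝ).prod volume) ((volume : Measure ℝ).prod volume) :=
    MeasurePreserving.skew_product (g := fun u r => b u + sg * r) (MeasurePreserving.id _)
      (by
        show Measurable fun p : ℝ × ℝ => b p.1 + sg * p.2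
        exact (hb.comp measurable_fst).add (measurable_snd.const_mul sg))
      (ae_of_all _ hmap)
  have h1 : ∀ᵐ z ∂((volume : Measure ℝ).prod (volume : Measure ℝ)), P z.swap :=
    (Measure.measurePreserving_swap (μ := (volume : Measure ℝ)) (ν := (volume : Measure ℝ))).quasiMeasurePreserving.ae
      (by rw [← Measure.volume_eq_prod]; exact h)
  have h2 : ∀ᵐ z ∂((volume : Measure ℝ).prod (volume : Measure ℝ)), P (b z.1 + sg * z.2, z.1) :=
    mp.quasiMeasurePreserving.ae h1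
  refine ⟨Measure.ae_ae_of_ae_prod h2, ?_⟩
  have h3 : ∀ᵐ z ∂((volume : Measure ℝ).prod (volume : Measure ℝ)), P (b z.2 + sg * z.1, z.2) :=
    (Measure.measurePreserving_swap (μ := (volume : Measure ℝ)) (ν := (volume : Measure ℝ))).quasiMeasurePreserving.ae h2
  exact Measure.ae_ae_of_ae_prod h3

/-- FTC for a Lipschitz function with an a.e. known derivative -/
theorem mbx5_ftc (f f' : ℝ → ℝ) (K : ℝ≥0) (hf : LipschitzWith K f) (a c : ℝ) (hac : a ≤ c)
    (h : ∀ᵐ x : ℝ, x ∈ Ioo a c → HasDerivAt f (f' x) x) : ∫ x in a..c, f' x = f c - f a := by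
  rw [← (hf.lipschitzOnWith (s := uIcc a c)).absolutelyContinuousOnInterval.integral_deriv_eq_sub]
  refine intervalIntegral.integral_congr_ae ?_
  have hne : ∀ᵐ x : ℝ, x ≠ c := by
    rw [ae_iff]; simp
  filter_upwards [h, hne] with x hx hxc hmem
  rw [uIoc_of_le hac] at hmem
  exact (hx ⟨hmem.1, lt_of_le_of_ne hmem.2 hxc⟩).deriv.symm

theorem mbx5_sq (sg : ℝ) (hsg : sg = 1 ∨ sg = -1) : sg * sg = 1 := by
  rcases hsg with rfl | rfl <;> norm_num

theorem mbx5_abs (sg : ℝ) (hsg : sg = 1 ∨ sg = -1) : |sg| = 1 := by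
  rcases hsg with rfl | rfl <;> simp

theorem mbx5_mem (b : ℝ → ℝ) (u₀ ρ τ sg : ℝ) (hsg : sg = 1 ∨ sg = -1) (u r : ℝ) (hu : |u - u₀| < ρ) (h0 : 0 < r)
    (h1 : r < τ) : (b u + sg * r, u) ∈ mbx b u₀ ρ τ sg := by
  have e : sg * (b u + sg * r - b u) = r := by
    have := mbx5_sq sg hsg
    calc sg * (b u + sg * r - b u) = (sg * sg) * r := by ring
      _ = r := by rw [this, one_mul]
  exact ⟨hu, by show 0 < sg * (b u + sg * r - b u); rw [e]; exact h0,
    by show sg * (b u + sg * r - b u) < τ; rw [e]; exact h1⟩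

/-- (I-B) -/
theorem mpz_intB (G : ℝ × ℝ → ℝ) (LG : ℝ≥0) (hG : LipschitzWith LG G) (b : ℝ → ℝ) (Lb : ℝ≥0) (hb : LipschitzWith Lb b)
    (Bf V0 : ℝ × ℝ → ℝ) (hBm : Measurable Bf) (C : ℝ) (hBC : ∀ q, |Bf q| ≤ C) (U : Set (ℝ × ℝ))
    (hder : ∀ᵐ q : ℝ × ℝ, q ∈ U → HasFDerivAt G (Bf q • ContinuousLinearMap.fst ℝ ℝ ℝ + V0 q • ContinuousLinearMap.snd ℝ ℝ ℝ) q)
    (u₀ ρ τ sg : ℝ) (hsg : sg = 1 ∨ sg = -1) (hρ : 0 < ρ) (hτ : 0 < τ) (hsub : mbx b u₀ ρ τ sg ⊆ U)
    (h0 : ∀ u, |u - u₀| < ρ → G (b u, u) = 0) :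
    ∫ q in mbx b u₀ ρ τ sg, Bf q = sg * ∫ u in (u₀ - ρ)..(u₀ + ρ), G (b u + sg * τ, u) := by
  have hbm : Measurable b := hb.continuous.measurable
  rw [mbx_integral b hbm u₀ ρ τ sg hsg hρ hτ Bf hBm C hBC, ← intervalIntegral.integral_const_mul]
  refine intervalIntegral.integral_congr_ae ?_
  have hne : ∀ᵐ x : ℝ, x ≠ u₀ + ρ := by
    rw [ae_iff]; simp
  filter_upwards [(mbx5_ae b hbm sg hsg _ hder).1, hne] with u hu hune hmem
  rw [uIoc_of_le (by linarith)] at hmem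
  have hu0 : |u - u₀| < ρ := by
    rw [abs_lt]
    exact ⟨by linarith [hmem.1], by linarith [lt_of_le_of_ne hmem.2 hune]⟩
  have hsq := mbx5_sq sg hsg
  -- the function of `r`
  have hlip : LipschitzWith LG (fun r : ℝ => G (b u + sg * r, u)) := by
    have h1 : LipschitzWith 1 (fun r : ℝ => (b u + sg * r, u)) := by
      refine LipschitzWith.of_dist_le_mul fun r r' => ?_
      rw [Prod.dist_eq, dist_self, Real.dist_eq, Real.dist_eq]
      have : b u + sg * r - (b u + sg * r') = sg * (r - r') := by ring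
      rw [this, abs_mul, mbx5_abs sg hsg]
      simp
    have h2 := hG.comp h1
    rw [mul_one] at h2
    exact h2
  have hftc := mbx5_ftc (fun r : ℝ => G (b u + sg * r, u)) (fun r => sg * Bf (b u + sg * r, u)) LG hlip 0 τ hτ.le
    (by
      filter_upwards [hu] with r hr hmr
      have hq := hr (hsub (mbx5_mem b u₀ ρ τ sg hsg u r hu0 hmr.1 hmr.2))
      have hc : HasDerivAt (fun r : ℝ => (b u + sg * r, u)) (sg, (0 : ℝ)) r := by
        refine HasDerivAt.prodMk ?_ (hasDerivAt_const _ _)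
        simpa using ((hasDerivAt_id r).const_mul sg).const_add (b u)
      have h3 := hq.comp_hasDerivAt r hc
      have e : (Bf (b u + sg * r, u) • ContinuousLinearMap.fst ℝ ℝ ℝ
          + V0 (b u + sg * r, u) • ContinuousLinearMap.snd ℝ ℝ ℝ) (sg, (0 : ℝ)) = sg * Bf (b u + sg * r, u) := by
        simp [mul_comm]
      rw [e] at h3
      exact h3)
  rw [intervalIntegral.integral_const_mul] at hftc
  simp only [mul_zero, add_zero] at hftc
  rw [h0 u hu0, sub_zero] at hftc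
  rw [← hftc, ← mul_assoc, hsq, one_mul]

/-- (I-V): `∂_u [G(b u + r, u)] = V0 + b'(u) Bf` -/
theorem mpz_intV (G : ℝ × ℝ → ℝ) (LG : ℝ≥0) (hG : LipschitzWith LG G) (b : ℝ → ℝ) (Lb : ℝ≥0) (hb : LipschitzWith Lb b)
    (Bf V0 : ℝ × ℝ → ℝ) (hBm : Measurable Bf) (hVm : Measurable V0) (C : ℝ) (hBC : ∀ q, |Bf q| ≤ C) (hVC : ∀ q, |V0 q| ≤ C) (U : Set (ℝ × ℝ))
    (hder : ∀ᵐ q : ℝ × ℝ, q ∈ U → HasFDerivAt G (Bf q • ContinuousLinearMap.fst ℝ ℝ ℝ + V0 q • ContinuousLinearMap.snd ℝ ℝ ℝ) q)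
    (u₀ ρ τ sg : ℝ) (hsg : sg = 1 ∨ sg = -1) (hρ : 0 < ρ) (hτ : 0 < τ) (hsub : mbx b u₀ ρ τ sg ⊆ U)
    (h0 : ∀ u, |u - u₀| ≤ ρ → G (b u, u) = 0) :
    |∫ q in mbx b u₀ ρ τ sg, (V0 q + deriv b q.2 * Bf q)| ≤ LG * τ ^ 2 := by
  have hbm : Measurable b := hb.continuous.measurable
  have hgm : Measurable (fun q : ℝ × ℝ => V0 q + deriv b q.2 * Bf q) :=
    hVm.add (((measurable_deriv b).comp measurable_snd).mul hBm)
  have hgC : ∀ q : ℝ × ℝ, |V0 q + deriv b q.2 * Bf q| ≤ C + Lb * C := by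
    intro q
    refine (abs_add_le _ _).trans (add_le_add (hVC q) ?_)
    rw [abs_mul]
    have h1 : |deriv b q.2| ≤ Lb := by
      have := norm_deriv_le_of_lipschitz (x₀ := q.2) hb
      simpa using this
    exact mul_le_mul h1 (hBC q) (abs_nonneg _) Lb.2
  have hle : u₀ - ρ ≤ u₀ + ρ := by linarith
  rw [mbx_integral b hbm u₀ ρ τ sg hsg hρ hτ _ hgm _ hgC]
  -- swap the integrals
  have hswap : (∫ u in (u₀ - ρ)..(u₀ + ρ), ∫ r in (0 : ℝ)..τ,
        (V0 (b u + sg * r, u) + deriv b u * Bf (b u + sg * r, u))) =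
      ∫ r in (0 : ℝ)..τ, ∫ u in (u₀ - ρ)..(u₀ + ρ),
        (V0 (b u + sg * r, u) + deriv b u * Bf (b u + sg * r, u)) := by
    simp only [intervalIntegral.integral_of_le hle, intervalIntegral.integral_of_le hτ.le]
    refine integral_integral_swap (f := fun u r => V0 (b u + sg * r, u) + deriv b u * Bf (b u + sg * r, u)) ?_
    refine Integrable.of_bound (C := C + Lb * C) ?_ (ae_of_all _ fun z => ?_)
    · have hm : Measurable fun z : ℝ × ℝ => (b z.1 + sg * z.2, z.1) :=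
        ((hbm.comp measurable_fst).add (measurable_snd.const_mul sg)).prodMk measurable_fst
      exact (hgm.comp hm).aestronglyMeasurable
    · exact hgC (b z.1 + sg * z.2, z.1)
  rw [hswap]
  -- the inner integral
  have hinner : ∀ᵐ r : ℝ, r ∈ Ioc (0 : ℝ) τ →
      ‖∫ u in (u₀ - ρ)..(u₀ + ρ), (V0 (b u + sg * r, u) + deriv b u * Bf (b u + sg * r, u))‖ ≤ 2 * LG * r := by
    have hne : ∀ᵐ x : ℝ, x ≠ τ := by
      rw [ae_iff]; simp
    filter_upwards [(mbx5_ae b hbm sg hsg _ hder).2, hne] with r hr hrne hmem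
    have hr0 : 0 < r := hmem.1
    have hr1 : r < τ := lt_of_le_of_ne hmem.2 hrne
    have hlip : LipschitzWith (LG * max (Lb + 0) 1) (fun u : ℝ => G (b u + sg * r, u)) :=
      hG.comp ((hb.add (LipschitzWith.const (sg * r))).prodMk LipschitzWith.id)
    have hftc := mbx5_ftc (fun u : ℝ => G (b u + sg * r, u))
      (fun u => V0 (b u + sg * r, u) + deriv b u * Bf (b u + sg * r, u)) _ hlip (u₀ - ρ) (u₀ + ρ) hle
      (by
        filter_upwards [hr, hb.ae_differentiableAt_of_real] with u hu hbd hmu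
        have hu0 : |u - u₀| < ρ := by
          rw [abs_lt]; exact ⟨by linarith [hmu.1], by linarith [hmu.2]⟩
        have hq := hu (hsub (mbx5_mem b u₀ ρ τ sg hsg u r hu0 hr0 hr1))
        have hc : HasDerivAt (fun u : ℝ => (b u + sg * r, u)) (deriv b u, (1 : ℝ)) u :=
          HasDerivAt.prodMk (hbd.hasDerivAt.add_const _) (hasDerivAt_id u)
        have h3 := HasFDerivAt.comp_hasDerivAt (f := fun u : ℝ => (b u + sg * r, u)) u hq hc
        have e : (Bf (b u + sg * r, u) • ContinuousLinearMap.fst ℝ ℝ ℝ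
            + V0 (b u + sg * r, u) • ContinuousLinearMap.snd ℝ ℝ ℝ) (deriv b u, (1 : ℝ))
            = V0 (b u + sg * r, u) + deriv b u * Bf (b u + sg * r, u) := by
          simp [mul_comm, add_comm]
        rw [e] at h3
        exact h3)
    rw [hftc]
    have hbd : ∀ u, |u - u₀| ≤ ρ → |G (b u + sg * r, u)| ≤ LG * r := by
      intro u hu
      have h1 := hG.dist_le_mul (b u + sg * r, u) (b u, u)
      rw [Real.dist_eq, h0 u hu, sub_zero, Prod.dist_eq, dist_self, Real.dist_eq] at h1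
      have e : b u + sg * r - b u = sg * r := by ring
      rw [e, abs_mul, mbx5_abs sg hsg, one_mul, abs_of_pos hr0, max_eq_left hr0.le] at h1
      exact h1
    have b1 := hbd (u₀ + ρ) (by rw [add_sub_cancel_left, abs_of_pos hρ])
    have b2 := hbd (u₀ - ρ) (by rw [sub_sub_cancel_left, abs_neg, abs_of_pos hρ])
    rw [Real.norm_eq_abs]
    calc |G (b (u₀ + ρ) + sg * r, u₀ + ρ) - G (b (u₀ - ρ) + sg * r, u₀ - ρ)|
        ≤ |G (b (u₀ + ρ) + sg * r, u₀ + ρ)| + |G (b (u₀ - ρ) + sg * r, u₀ - ρ)| := abs_sub _ _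
      _ ≤ 2 * LG * r := by linarith
  have hfin := intervalIntegral.norm_integral_le_of_norm_le hτ.le hinner
    ((continuous_const.mul continuous_id).intervalIntegrable _ _)
  rw [Real.norm_eq_abs] at hfin
  refine hfin.trans (le_of_eq ?_)
  rw [intervalIntegral.integral_const_mul, integral_id]
  ring

end Claimed.Agent.R255
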