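-- KEEP
import Claimed.Agent.R255.Plane.Box

/-!
# Row 255, block (B), chapter C, file C9: the case analysis ("Completion of the proof"), plane level      (architect helper7)

PAPER-FREE: measure theory of boxes (`mpz_select`, `mpz_prop_le`, `mbx_volume`, `mstr_le`, `mstr_ge`) + linear arithmetic.
`x, z, D` = rates of `X`, `Z`, label; `Bf = ℬ`; `Vf = 𝒱_p`; `p_* = (1+m)/2`.  `MzPt` = the four bounds at a generic point.
I.   `p ≥ p_*` : minus box, `E = {Bf ≤ ε}` (proportion `≥ ε/(CB+ε)` by `sgnm`), fields `Vf → 0`, `x → xm ≥ γ`.  `z < 1`: g1; `z = 1`: g2.   Contradiction for `ε (2+m) < δ₁`, `ε < γ`.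
IIa. `p < p_*` ⟹ `zp = 1`: else plus box, `E = {-Bf ≤ ε}`, fields `Vf → 0`, `z → zp` (tolerance `(1-zp)/2`): `x > 0`: g1; `x = 0`: g3.
IIb. `p = 0` : `E = {x > 0} ∩ box` (`wed`), fields `Vf → 0`, `z → 1`: g2.
IIc. `0 < p < p_*` : `zm ≤ 1`.  `zm = 1`: minus box, `E = {Bf ≤ ε}`, fields `Vf, x, z`: g2.   `zm < 1`: `E` = the whole minus box, fields `Vf, x, z, D`: g4 with `D q ≥ Dm - ε ≥ (1+m-p)(1-zm) - ε` (`Dp ≥ 0`, jump).
-/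

set_option autoImplicit false

namespace Claimed.Agent.R255

open Filter Topology MeasureTheory Set

/-- the four bounds of Lemma 8.3 at a generic point, written with `𝒱_p` and `ℬ` -/
def MzPt (m p δ₁ x z D B V : ℝ) : Prop :=
  (0 < x → z < 1 → δ₁ ≤ V + (p - (1 + m) / 2) * B) ∧
  (0 < x → δ₁ - (1 + m) * (1 - z) ≤ V + p * B) ∧
  (z < 1 → δ₁ - (1 + m) * x ≤ V - (1 + m - p) * B) ∧
  (p ≤ (1 + m) / 2 → 0 < x → z < 1 → δ₁ + D ≤ V + (1 + m - p) * (1 - z))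

/-- `mpz_select` for four fields, one point -/
theorem mpz_sel4 (b : ℝ → ℝ) (hb : Measurable b) (u₀ sg : ℝ) (hsg : sg = 1 ∨ sg = -1)
    (g₁ g₂ g₃ g₄ : ℝ × ℝ → ℝ) (m₁ : Measurable g₁) (m₂ : Measurable g₂) (m₃ : Measurable g₃) (m₄ : Measurable g₄)
    (C : ℝ) (c₁ : ∀ q, |g₁ q| ≤ C) (c₂ : ∀ q, |g₂ q| ≤ C) (c₃ : ∀ q, |g₃ q| ≤ C) (c₄ : ∀ q, |g₄ q| ≤ C)
    (T₁ T₂ T₃ T₄ : ℝ) (t₁ : MStr g₁ b u₀ sg T₁) (t₂ : MStr g₂ b u₀ sg T₂) (t₃ : MStr g₃ b u₀ sg T₃)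
    (t₄ : MStr g₄ b u₀ sg T₄) (E : ℝ → Set (ℝ × ℝ)) (c : ℝ) (hc : 0 < c)
    (hE : ∀ᶠ ρ in 𝓝[>] (0 : ℝ), E ρ ⊆ mbx b u₀ ρ ρ sg ∧ ENNReal.ofReal (c * ρ ^ 2) ≤ volume (E ρ))
    (Pr : ℝ × ℝ → Prop) (hP : ∀ᶠ ρ in 𝓝[>] (0 : ℝ), ∀ᵐ q : ℝ × ℝ, q ∈ mbx b u₀ ρ ρ sg → Pr q) (ε : ℝ)
    (hε : 0 < ε) :
    ∃ ρ q, q ∈ E ρ ∧ Pr q ∧ |g₁ q - T₁| ≤ ε ∧ |g₂ q - T₂| ≤ ε ∧ |g₃ q - T₃| ≤ ε ∧ |g₄ q - T₄| ≤ ε := by
  have h := mpz_select b hb u₀ sg hsg (K := 4) ![g₁, g₂, g₃, g₄]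
    (by intro k; fin_cases k; exacts [m₁, m₂, m₃, m₄]) C
    (by intro k; fin_cases k; exacts [c₁, c₂, c₃, c₄]) ![T₁, T₂, T₃, T₄]
    (by intro k; fin_cases k; exacts [t₁, t₂, t₃, t₄]) E c hc hE Pr hP ε hε
  obtain ⟨ρ, q, hq, hPr, hk⟩ := h.exists
  exact ⟨ρ, q, hq, hPr, hk 0, hk 1, hk 2, hk 3⟩

/-- the sublevel set of a field with nonpositive box integrals has positive proportion -/
theorem mpz_E_le (b : ℝ → ℝ) (hb : Measurable b) (u₀ sg : ℝ) (hsg : sg = 1 ∨ sg = -1) (g : ℝ × ℝ → ℝ)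
    (hg : Measurable g) (C ε : ℝ) (hC0 : 0 ≤ C) (hε : 0 < ε) (hC : ∀ q, |g q| ≤ C)
    (hint : ∀ᶠ ρ in 𝓝[>] (0 : ℝ), ∫ q in mbx b u₀ ρ ρ sg, g q ≤ 0) :
    ∀ᶠ ρ in 𝓝[>] (0 : ℝ), {q | g q ≤ ε} ∩ mbx b u₀ ρ ρ sg ⊆ mbx b u₀ ρ ρ sg ∧
      ENNReal.ofReal (ε / (C + ε) * ρ ^ 2) ≤ volume ({q | g q ≤ ε} ∩ mbx b u₀ ρ ρ sg) := by
  filter_upwards [hint, self_mem_nhdsWithin] with ρ h1 hρ
  have hρ' : (0 : ℝ) < ρ := hρ
  refine ⟨Set.inter_subset_right, ?_⟩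
  have hv := mbx_volume b hb u₀ ρ ρ sg hsg hρ' hρ'
  have h2 := mpz_prop_le (mbx b u₀ ρ ρ sg) (mbx_meas b hb u₀ ρ ρ sg) (by rw [hv]; exact ENNReal.ofReal_ne_top) g hg
    C ε hC0 hε hC h1
  refine le_trans ?_ h2
  rw [hv, ← ENNReal.ofReal_mul (by positivity)]
  apply ENNReal.ofReal_le_ofReal
  have : 0 ≤ ε / (C + ε) := by positivity
  nlinarith [mul_nonneg this (sq_nonneg ρ)]


theorem mpz_cases (b : ℝ → ℝ) (hb : Measurable b) (u₀ p m γ δ₁ CB : ℝ) (x z D Bf Vf : ℝ × ℝ → ℝ)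
    (hxm : Measurable x) (hzm : Measurable z) (hDm : Measurable D) (hBm : Measurable Bf) (hVm : Measurable Vf)
    (hm : 0 < m) (hγ : 0 < γ) (hδ : 0 < δ₁) (hp0 : 0 ≤ p) (hp1 : p ≤ 1 + m)
    (hx : ∀ q, 0 ≤ x q ∧ x q ≤ 1) (hz : ∀ q, 0 ≤ z q ∧ z q ≤ 1) (hD : ∀ q, 0 ≤ D q ∧ D q ≤ CB)
    (hB : ∀ q, |Bf q| ≤ CB) (hV : ∀ q, |Vf q| ≤ CB)
    (genp : ∀ᶠ ρ in 𝓝[>] (0 : ℝ), ∀ᵐ q : ℝ × ℝ, q ∈ mbx b u₀ ρ ρ 1 → MzPt m p δ₁ (x q) (z q) (D q) (Bf q) (Vf q))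
    (genm : 0 < p → ∀ᶠ ρ in 𝓝[>] (0 : ℝ), ∀ᵐ q : ℝ × ℝ, q ∈ mbx b u₀ ρ ρ (-1) → MzPt m p δ₁ (x q) (z q) (D q) (Bf q) (Vf q))
    (tanp : MStr Vf b u₀ 1 0) (tanm : MStr Vf b u₀ (-1) 0)
    (sgnm : 0 < p → ∀ᶠ ρ in 𝓝[>] (0 : ℝ), ∫ q in mbx b u₀ ρ ρ (-1), Bf q ≤ 0)
    (sgnp : p < 1 + m → ∀ᶠ ρ in 𝓝[>] (0 : ℝ), 0 ≤ ∫ q in mbx b u₀ ρ ρ 1, Bf q)
    (trx : 0 < p → ∃ xm : ℝ, γ ≤ xm ∧ MStr x b u₀ (-1) xm)
    (trz : p < 1 + m → ∃ zp zm Dp Dm : ℝ, MStr z b u₀ 1 zp ∧ MStr z b u₀ (-1) zm ∧ MStr D b u₀ 1 Dp ∧ MStr D b u₀ (-1) Dm ∧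
      (1 + m - p) * (zp - zm) ≤ Dm - Dp)
    (wed : p = 0 → ∃ c : ℝ, 0 < c ∧ ∀ᶠ ρ in 𝓝[>] (0 : ℝ), ENNReal.ofReal (c * ρ ^ 2) ≤ volume ({q | 0 < x q} ∩ mbx b u₀ ρ ρ 1)) :
    False := by
  have hCB : 0 ≤ CB := (abs_nonneg _).trans (hB (0, 0))
  obtain ⟨C, hCdef⟩ : ∃ C : ℝ, C = CB + 1 := ⟨_, rfl⟩
  have cV : ∀ q, |Vf q| ≤ C := fun q => (hV q).trans (by linarith)
  have cx : ∀ q, |x q| ≤ C := fun q => by rw [abs_of_nonneg (hx q).1]; linarith [(hx q).2]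
  have cz : ∀ q, |z q| ≤ C := fun q => by rw [abs_of_nonneg (hz q).1]; linarith [(hz q).2]
  have cD : ∀ q, |D q| ≤ C := fun q => by rw [abs_of_nonneg (hD q).1]; linarith [(hD q).2]
  have c0 : ∀ _q : ℝ × ℝ, |(0 : ℝ)| ≤ C := fun _ => by rw [abs_zero]; linarith
  have m0 : Measurable (fun _ : ℝ × ℝ => (0 : ℝ)) := measurable_const
  obtain ⟨ε, hε, hε1, hε2⟩ : ∃ ε : ℝ, 0 < ε ∧ ε * (3 + 2 * m) < δ₁ ∧ ε < γ := by
    refine ⟨min (δ₁ / (2 * (3 + 2 * m))) (γ / 2), lt_min (by positivity) (by positivity), ?_, ?_⟩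
    · have h1 : min (δ₁ / (2 * (3 + 2 * m))) (γ / 2) ≤ δ₁ / (2 * (3 + 2 * m)) := min_le_left _ _
      have h2 : δ₁ / (2 * (3 + 2 * m)) * (3 + 2 * m) = δ₁ / 2 := by field_simp
      have h3 : (0 : ℝ) < 3 + 2 * m := by positivity
      nlinarith
    · have h1 : min (δ₁ / (2 * (3 + 2 * m))) (γ / 2) ≤ γ / 2 := min_le_right _ _
      linarith
  have hεm : 0 < ε * m := mul_pos hε hm
  have hcE : 0 < ε / (CB + ε) := by positivity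
  rcases le_or_gt ((1 + m) / 2) p with hp | hp
  · -- I
    have hp' : 0 < p := by linarith
    obtain ⟨xm, hxm1, hxm2⟩ := trx hp'
    obtain ⟨ρ, q, hq, hPr, h1, h2, -, -⟩ := mpz_sel4 b hb u₀ (-1) (Or.inr rfl) Vf x (fun _ => 0) (fun _ => 0)
      hVm hxm m0 m0 C cV cx c0 c0 0 xm 0 0 tanm hxm2 (mstr_const b u₀ (-1) 0) (mstr_const b u₀ (-1) 0)
      (fun ρ => {q | Bf q ≤ ε} ∩ mbx b u₀ ρ ρ (-1)) (ε / (CB + ε)) hcE
      (mpz_E_le b hb u₀ (-1) (Or.inr rfl) Bf hBm CB ε hCB hε hB (sgnm hp')) _ (genm hp') ε hε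
    have hBq : Bf q ≤ ε := hq.1
    obtain ⟨g1, g2, -, -⟩ := hPr
    rw [sub_zero] at h1
    have hV1 := (abs_le.1 h1).2
    have hx1 := (abs_le.1 h2).1
    have hxq : 0 < x q := by linarith
    rcases lt_or_ge (z q) 1 with hz1 | hz1
    · have h3 := g1 hxq hz1
      have h4 : (p - (1 + m) / 2) * Bf q ≤ (p - (1 + m) / 2) * ε :=
        mul_le_mul_of_nonneg_left hBq (by linarith)
      have h5 : (p - (1 + m) / 2) * ε ≤ (1 + m) / 2 * ε := mul_le_mul_of_nonneg_right (by linarith) hε.le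
      nlinarith
    · have hz1' : z q = 1 := le_antisymm (hz q).2 hz1
      have h3 := g2 hxq
      rw [hz1'] at h3
      have h4 : p * Bf q ≤ p * ε := mul_le_mul_of_nonneg_left hBq hp0
      have h5 : p * ε ≤ (1 + m) * ε := mul_le_mul_of_nonneg_right hp1 hε.le
      nlinarith
  · -- II
    have hp1' : p < 1 + m := by linarith
    obtain ⟨zp, zm, Dp, Dm, tzp, tzm, tDp, tDm, hjump⟩ := trz hp1'
    have hzp1 : zp ≤ 1 := mstr_le b hb u₀ 1 (Or.inl rfl) z hzm C 1 zp cz (fun q => (hz q).2) tzp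
    have hzm1 : zm ≤ 1 := mstr_le b hb u₀ (-1) (Or.inr rfl) z hzm C 1 zm cz (fun q => (hz q).2) tzm
    have hDp0 : 0 ≤ Dp := mstr_ge b hb u₀ 1 (Or.inl rfl) D hDm C 0 Dp cD (fun q => (hD q).1) tDp
    -- IIa
    have hzp : zp = 1 := by
      by_contra hne
      have hlt : zp < 1 := lt_of_le_of_ne hzp1 hne
      obtain ⟨ε', hε', hε'1, hε'2⟩ : ∃ ε' : ℝ, 0 < ε' ∧ ε' ≤ ε ∧ ε' ≤ (1 - zp) / 2 :=
        ⟨min ε ((1 - zp) / 2), lt_min hε (by linarith), min_le_left _ _, min_le_right _ _⟩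
      have hsg : ∀ᶠ ρ in 𝓝[>] (0 : ℝ), ∫ q in mbx b u₀ ρ ρ 1, (fun q => - Bf q) q ≤ 0 := by
        filter_upwards [sgnp hp1'] with ρ h
        rw [integral_neg]
        linarith
      obtain ⟨ρ, q, hq, hPr, h1, h2, -, -⟩ := mpz_sel4 b hb u₀ 1 (Or.inl rfl) Vf z (fun _ => 0) (fun _ => 0)
        hVm hzm m0 m0 C cV cz c0 c0 0 zp 0 0 tanp tzp (mstr_const b u₀ 1 0) (mstr_const b u₀ 1 0)
        (fun ρ => {q | (fun q => - Bf q) q ≤ ε} ∩ mbx b u₀ ρ ρ 1) (ε / (CB + ε)) hcE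
        (mpz_E_le b hb u₀ 1 (Or.inl rfl) (fun q => - Bf q) hBm.neg CB ε hCB hε
          (fun q => by rw [abs_neg]; exact hB q) hsg) _ genp ε' hε'
      have hBq : - Bf q ≤ ε := hq.1
      obtain ⟨g1, -, g3, -⟩ := hPr
      rw [sub_zero] at h1
      have hV1 := (abs_le.1 h1).2
      have hz2 := (abs_le.1 h2).2
      have hzq : z q < 1 := by linarith
      rcases lt_or_ge 0 (x q) with hx1 | hx1
      · have h3 := g1 hx1 hzq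
        have h4 : ((1 + m) / 2 - p) * (- Bf q) ≤ ((1 + m) / 2 - p) * ε :=
          mul_le_mul_of_nonneg_left hBq (by linarith)
        have h5 : ((1 + m) / 2 - p) * ε ≤ (1 + m) / 2 * ε := mul_le_mul_of_nonneg_right (by linarith) hε.le
        nlinarith
      · have hx1' : x q = 0 := le_antisymm hx1 (hx q).1
        have h3 := g3 hzq
        rw [hx1'] at h3
        have h4 : (1 + m - p) * (- Bf q) ≤ (1 + m - p) * ε := mul_le_mul_of_nonneg_left hBq (by linarith)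
        have h5 : (1 + m - p) * ε ≤ (1 + m) * ε := mul_le_mul_of_nonneg_right (by linarith) hε.le
        nlinarith
    rcases hp0.eq_or_lt with hp00 | hp'
    · -- IIb
      obtain ⟨c, hc, hw⟩ := wed hp00.symm
      have hE : ∀ᶠ ρ in 𝓝[>] (0 : ℝ), {q | 0 < x q} ∩ mbx b u₀ ρ ρ 1 ⊆ mbx b u₀ ρ ρ 1 ∧
          ENNReal.ofReal (c * ρ ^ 2) ≤ volume ({q | 0 < x q} ∩ mbx b u₀ ρ ρ 1) := by
        filter_upwards [hw] with ρ h
        exact ⟨Set.inter_subset_right, h⟩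
      obtain ⟨ρ, q, hq, hPr, h1, h2, -, -⟩ := mpz_sel4 b hb u₀ 1 (Or.inl rfl) Vf z (fun _ => 0) (fun _ => 0)
        hVm hzm m0 m0 C cV cz c0 c0 0 zp 0 0 tanp tzp (mstr_const b u₀ 1 0) (mstr_const b u₀ 1 0)
        (fun ρ => {q | 0 < x q} ∩ mbx b u₀ ρ ρ 1) c hc hE _ genp ε hε
      have hxq : 0 < x q := hq.1
      obtain ⟨-, g2, -, -⟩ := hPr
      rw [sub_zero] at h1
      have hV1 := (abs_le.1 h1).2
      have hz2 := (abs_le.1 h2).1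
      have h3 := g2 hxq
      rw [← hp00, zero_mul, add_zero] at h3
      rw [hzp] at hz2
      have h4 : (1 + m) * (1 - z q) ≤ (1 + m) * ε := mul_le_mul_of_nonneg_left (by linarith) (by linarith)
      nlinarith
    · -- IIc
      obtain ⟨xm, hxm1, hxm2⟩ := trx hp'
      rcases hzm1.eq_or_lt with hzm' | hzm'
      · obtain ⟨ρ, q, hq, hPr, h1, h2, h3, -⟩ := mpz_sel4 b hb u₀ (-1) (Or.inr rfl) Vf x z (fun _ => 0)
          hVm hxm hzm m0 C cV cx cz c0 0 xm zm 0 tanm hxm2 tzm (mstr_const b u₀ (-1) 0)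
          (fun ρ => {q | Bf q ≤ ε} ∩ mbx b u₀ ρ ρ (-1)) (ε / (CB + ε)) hcE
          (mpz_E_le b hb u₀ (-1) (Or.inr rfl) Bf hBm CB ε hCB hε hB (sgnm hp')) _ (genm hp') ε hε
        have hBq : Bf q ≤ ε := hq.1
        obtain ⟨-, g2, -, -⟩ := hPr
        rw [sub_zero] at h1
        have hV1 := (abs_le.1 h1).2
        have hx1 := (abs_le.1 h2).1
        have hz2 := (abs_le.1 h3).1
        rw [hzm'] at hz2
        have hxq : 0 < x q := by linarith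
        have h4 := g2 hxq
        have h5 : p * Bf q ≤ p * ε := mul_le_mul_of_nonneg_left hBq hp0
        have h6 : p * ε ≤ (1 + m) * ε := mul_le_mul_of_nonneg_right hp1 hε.le
        have h7 : (1 + m) * (1 - z q) ≤ (1 + m) * ε := mul_le_mul_of_nonneg_left (by linarith) (by linarith)
        nlinarith
      · obtain ⟨ε', hε', hε'1, hε'2⟩ : ∃ ε' : ℝ, 0 < ε' ∧ ε' ≤ ε ∧ ε' ≤ (1 - zm) / 2 :=
          ⟨min ε ((1 - zm) / 2), lt_min hε (by linarith), min_le_left _ _, min_le_right _ _⟩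
        have hE : ∀ᶠ ρ in 𝓝[>] (0 : ℝ), mbx b u₀ ρ ρ (-1) ⊆ mbx b u₀ ρ ρ (-1) ∧
            ENNReal.ofReal (1 * ρ ^ 2) ≤ volume (mbx b u₀ ρ ρ (-1)) := by
          filter_upwards [self_mem_nhdsWithin] with ρ hρ
          have hρ' : (0 : ℝ) < ρ := hρ
          refine ⟨subset_rfl, ?_⟩
          rw [mbx_volume b hb u₀ ρ ρ (-1) (Or.inr rfl) hρ' hρ']
          apply ENNReal.ofReal_le_ofReal
          nlinarith [sq_nonneg ρ]
        obtain ⟨ρ, q, -, hPr, h1, h2, h3, h4⟩ := mpz_sel4 b hb u₀ (-1) (Or.inr rfl) Vf x z D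
          hVm hxm hzm hDm C cV cx cz cD 0 xm zm Dm tanm hxm2 tzm tDm
          (fun ρ => mbx b u₀ ρ ρ (-1)) 1 one_pos hE _ (genm hp') ε' hε'
        obtain ⟨-, -, -, g4⟩ := hPr
        rw [sub_zero] at h1
        have hV1 := (abs_le.1 h1).2
        have hx1 := (abs_le.1 h2).1
        have hz2 := abs_le.1 h3
        have hD1 := (abs_le.1 h4).1
        have hxq : 0 < x q := by linarith
        have hzq : z q < 1 := by linarith [hz2.2]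
        have h5 := g4 hp.le hxq hzq
        rw [hzp] at hjump
        have h6 : (1 + m - p) * (1 - z q) ≤ (1 + m - p) * (1 - zm + ε') :=
          mul_le_mul_of_nonneg_left (by linarith [hz2.1]) (by linarith)
        have h7 : (1 + m - p) * ε' ≤ (1 + m) * ε := by
          calc (1 + m - p) * ε' ≤ (1 + m) * ε' := mul_le_mul_of_nonneg_right (by linarith) hε'.le
            _ ≤ (1 + m) * ε := mul_le_mul_of_nonneg_left hε'1 (by linarith)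
        nlinarith

theorem mz_pt_eqns_cite : True := by
  have := @MzPt.eq_1
  trivial

end Claimed.Agent.R255
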