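-- KEEP
import Claimed.Agent.R255.Plane.Defs

/-!
# Row 255, block (B), CHAPTER C = Section 8 (closure), abstract form: DEFINITIONS      (architect helper7)

`MzIn N` = abstract trace input `T` + contact data.  Data coordinates have `e α = 1`, clock `t α`; `jX` = clock `0`, `jZ` = clock `1 + m` (last data coordinate), `T.v` = label.
`X.F a P = 2P - m + ∑_data (t α - P) a α` = (8.1)/(8.2).   The rate transfer enters only through the four algebraic bounds of Lemma 8.3 (`rate`), the aperture refinement of Lemma 8.2 through `hx1`, `hx2`.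
-/

set_option autoImplicit false

namespace Claimed.Agent.R255

open Filter Topology MeasureTheory Set

structure MzIn (N : ℕ) where
  T : MpIn N
  jX : Fin N
  jZ : Fin N
  m : ℝ
  γ : ℝ
  β : ℝ
  τ : ℝ
  S : ℝ → ℝ
  b : ℝ → ℝ

namespace MzIn

variable {N : ℕ} (X : MzIn N)

/-- (8.1), (8.2) -/
def F (a : Fin N → ℝ) (P : ℝ) : ℝ := 2 * P - X.m + ∑ α, X.T.e α * (X.T.t α - P) * a α

/-- the obstacle (6.5) -/
def psi (i u : ℝ) : ℝ := 2 * i + (1 - X.γ) * X.m * u + 2 * X.S u - X.β * u - X.τ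

structure Ok : Prop where
  T_ok : X.T.Ok
  m_pos : 0 < X.m
  γ_pos : 0 < X.γ
  β_pos : 0 < X.β
  e_one : ∀ α, α ≠ X.T.v → X.T.e α = 1
  jX_ne : X.jX ≠ X.T.v
  tX : X.T.t X.jX = 0
  lamX : ∀ l, X.T.lam l X.jX ≤ 0
  tZ : X.T.t X.jZ = 1 + X.m
  jZ_lt : X.jZ < X.T.v
  jZ_top : ∀ β, β ≠ X.jZ → β ≠ X.T.v → β < X.jZ
  dX : X.T.d X.jX = 1
  dZ : X.T.d X.jZ = 1
  S_lip : ∀ r t : ℝ, 0 < r → r ≤ t → t < 1 → |X.S t - X.S r| ≤ t - r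
  obst : ∀ i u : ℝ, 0 < u → u < 1 → 0 ≤ i → i + (1 + X.m) * u ≤ 1 + X.m → X.psi i u ≤ X.T.f (X.T.pl (i, u))
  cont : ∀ u : ℝ, 0 < u → u < 1 → X.T.f (X.T.pl (X.b u, u)) = X.psi (X.b u) u
  b_nonneg : ∀ u, 0 < u → u < 1 → 0 ≤ X.b u
  b_top : ∀ u, 0 < u → u < 1 → X.b u + (1 + X.m) * u ≤ 1 + X.m
  b_anti : ∀ r t, 0 < r → r ≤ t → t < 1 → X.b t ≤ X.b r
  b_lip : ∀ r t, 0 < r → r ≤ t → t < 1 → X.b r - X.b t ≤ (1 + X.m) * (t - r)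
  /-- Prop. 7.1 + Lemma 8.3 at every affine plane point with `i > 0` -/
  rate : ∀ (i u s : ℝ) (a : Fin N → ℝ) (hs : ℕ → ℝ), 0 < i → 0 < u → u < 1 → (∀ l, 0 < hs l) →
    Tendsto hs atTop (𝓝 0) → X.T.AffAt (i, u) hs a → (∀ α, 0 ≤ a α ∧ a α ≤ X.T.d α) → HasDerivAt X.S s u →
    0 < s ∧ s ≤ 1 ∧
    (0 < a X.jX → a X.jZ < 1 → 1 + s ≤ X.F a ((1 + X.m) / 2)) ∧
    (0 < a X.jX → 1 + s - (1 + X.m) * (1 - a X.jZ) ≤ X.F a 0) ∧
    (a X.jZ < 1 → 1 + s - (1 + X.m) * a X.jX ≤ X.F a (1 + X.m)) ∧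
    (0 < a X.jX → a X.jZ < 1 → ∀ P : ℝ, 0 ≤ P → P ≤ (1 + X.m) / 2 → 1 + s ≤ X.F a P + (1 + X.m - P) * (1 - a X.jZ))
  /-- Lemma 8.2, (8.6): `g(d) ≥ γ d` -/
  hx1 : ∀ u d : ℝ, 0 < u → u < 1 → 0 ≤ d → d ≤ X.m * u →
    X.γ * d ≤ X.T.f (X.T.pl (X.b u, u) + Pi.single X.jX d) - X.T.f (X.T.pl (X.b u, u))
  /-- Lemma 8.2, (8.8): the `X`-increment at the earlier plane point `(i, u - h)` dominates the increment of `g` -/
  hx2 : ∀ u h i t : ℝ, 0 < h → h < u → u < 1 → X.b u ≤ i → i ≤ X.b u + min 1 X.m * h → 0 ≤ t → i + t - X.b u ≤ X.m * u →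
    X.T.f (X.T.pl (X.b u, u) + Pi.single X.jX (i - X.b u + t)) - X.T.f (X.T.pl (X.b u, u) + Pi.single X.jX (i - X.b u))
      ≤ X.T.f (X.T.pl (i, u - h) + Pi.single X.jX t) - X.T.f (X.T.pl (i, u - h))

end MzIn

theorem mz_defs_eqns_cite : True := by
  have := @MzIn.F.eq_1
  have := @MzIn.psi.eq_1
  trivial

end Claimed.Agent.R255
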