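-- KEEP
import Claimed.Agent.R255.Plane.CloseDefs
import Claimed.Agent.R255.Plane.Box

/-!
# Row 255, block (B), chapter C, file 2: the working context of the closure      (architect helper7)

`mclamp`, `X.bt`, `X.St` : `b`, `S` frozen outside `[1/8,7/8]` (globally Lipschitz).  `X.Lam` : half width of the patch.  `X.Bq A`, `X.Vq A P` : the fields `ℬ`, `𝒱_P`.
`MzPot` : the potential `G = Φ - ψ` (globally Lipschitz representative).  `MzGood` : a good contact point.  `mwd` : the wedge of Lemma 8.2.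
-/

set_option autoImplicit false

namespace Claimed.Agent.R255

open Filter Topology MeasureTheory Set
open scoped NNReal

noncomputable def mclamp (u : ℝ) : ℝ := max (1 / 8) (min u (7 / 8))

namespace MzIn

variable {N : ℕ} (X : MzIn N)

noncomputable def bt (u : ℝ) : ℝ := X.b (mclamp u)

noncomputable def St (u : ℝ) : ℝ := X.S (mclamp u)

noncomputable def Lam : ℝ := 3 + X.m + 2 * ∑ α, |X.T.t α|

/-- `ℬ = ∑_data a - 2` -/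
def Bq (A : Fin N → ℝ × ℝ → ℝ) (q : ℝ × ℝ) : ℝ := ∑ α, X.T.e α * A α q - 2

/-- `𝒱_P = F(P) + D - (2 S'(u) - β - γ m)` -/
noncomputable def Vq (A : Fin N → ℝ × ℝ → ℝ) (P : ℝ) (q : ℝ × ℝ) : ℝ :=
  X.F (fun α => A α q) P + A X.T.v q - (2 * deriv X.St q.2 - X.β - X.γ * X.m)

/-- `δ₁` -/
def del : ℝ := X.β + X.γ * X.m

end MzIn

/-- the potential -/
structure MzPot {N : ℕ} (X : MzIn N) (A : Fin N → ℝ × ℝ → ℝ) (G : ℝ × ℝ → ℝ) (LG : ℝ≥0) : Prop where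
  lip : LipschitzWith LG G
  eq : ∀ q ∈ mpatch X.Lam (1 / 8) (7 / 8) 0, G q = X.T.f (X.T.pl q) - X.psi q.1 q.2
  der : ∀ᵐ q : ℝ × ℝ, q ∈ mpatch X.Lam (1 / 8) (7 / 8) 0 →
    HasFDerivAt G (X.Bq A q • ContinuousLinearMap.fst ℝ ℝ ℝ + X.Vq A 0 q • ContinuousLinearMap.snd ℝ ℝ ℝ) q

/-- a good contact point `u₀`, with `p = -b'(u₀)`, `s₀ = S'(u₀)` -/
structure MzGood {N : ℕ} (X : MzIn N) (A : Fin N → ℝ × ℝ → ℝ) (u₀ p s₀ : ℝ) : Prop where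
  hu : u₀ ∈ Ioo (1 / 4 : ℝ) (3 / 4)
  db : HasDerivAt X.bt (-p) u₀
  lb : Tendsto (fun ρ : ℝ => ρ⁻¹ * ∫ u in (u₀ - ρ)..(u₀ + ρ), |deriv X.bt u - (-p)|) (𝓝[>] 0) (𝓝 0)
  lS : Tendsto (fun ρ : ℝ => ρ⁻¹ * ∫ u in (u₀ - ρ)..(u₀ + ρ), |deriv X.St u - s₀|) (𝓝[>] 0) (𝓝 0)
  tr : ∀ α, α ≠ X.T.v → X.T.t α ≠ p → ∃ Tp Tm : ℝ, MStr (A α) X.bt u₀ 1 Tp ∧ MStr (A α) X.bt u₀ (-1) Tm
  trD : ∃ Dp Dm : ℝ, MStr (A X.T.v) X.bt u₀ 1 Dp ∧ MStr (A X.T.v) X.bt u₀ (-1) Dm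

/-- the wedge (8.7) integrated over `h ∈ (ρ, 2ρ)` -/
def mwd (b₀ u₀ lam ρ : ℝ) : Set (ℝ × ℝ) :=
  {q | u₀ - 2 * ρ < q.2 ∧ q.2 < u₀ - ρ ∧ b₀ < q.1 ∧ q.1 < b₀ + lam * (u₀ - q.2)}

theorem mz_ctx_eqns_cite : True := by
  have := @mclamp.eq_1
  have := @MzIn.bt.eq_1
  have := @MzIn.St.eq_1
  have := @MzIn.Lam.eq_1
  have := @MzIn.Bq.eq_1
  have := @MzIn.Vq.eq_1
  have := @MzIn.del.eq_1
  have := @mwd.eq_1
  trivial

end Claimed.Agent.R255
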