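import Mathlib

/-!
# Row 255, block (B), chapter B, file 1: ONE-DIMENSIONAL PART (B1)      (architect helper97)

PAPER-FREE, Mathlib only.  EXIT: `mpc_one_dim`: a bounded measurable `φ : ℝ → ℝ` with `(k+1) ∫_{(s₁,s₂)} |φ(s + 1/(k+1)) - φ s| ≤ W` for infinitely many `k` has AVERAGED one-sided limits
(`MAv`) at every point of `(s₁,s₂)`.

ROUTE.  `mpcAvg φ h s = h⁻¹ ∫_s^{s+h} φ`.
* `mpc_avg_sub`       : `mpcAvg φ h t' - mpcAvg φ h t = h⁻¹ ∫_t^{t'} (φ(s+h) - φ s) ds`   (additivity of interval integrals + translation).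
* `mpc_avg_variation` : hence `eVariationOn (mpcAvg φ h) [s₁,s₂] ≤ h⁻¹ ∫_{(s₁,s₂)} |φ(s+h) - φ s|`.
* `mpc_avg_tendsto`   : `mpcAvg φ (1/(k+1)) s → φ s` for a.e. `s` (Lebesgue differentiation: `VitaliFamily.ae_tendsto_average`, `Real.tendsto_Icc_vitaliFamily_right`).
* glue: on `S = G ∩ [s₁,s₂]` (`G` = the set of convergence) `eVariationOn φ S ≤ W` (`eVariationOn.lowerSemicontinuous_aux`).
* `mpc_bv_right_lim`, `mpc_bv_left_lim` : bounded variation on a set `S` ⟹ one-sided limits ALONG `S` (`LocallyBoundedVariationOn.exists_monotoneOn_sub_monotoneOn`; a function monotone on `S`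
  and bounded below on `S ∩ Ioi s₀` (by its value at a point of `S ∩ Iio s₀`) tends to its infimum).
* `mpc_av_of_right_lim`, `mpc_av_of_left_lim` : a limit along a set which is conull near `s₀` is an averaged limit.
Leaves: `L-PLB-1a` … `L-PLB-1f`.  Statements frozen (ask helper97).
-/

set_option autoImplicit false

namespace Claimed.Agent.R255

open Filter Topology MeasureTheory Set
open scoped NNReal ENNReal

/-- averaged one-sided limit `T` of `φ` at `s₀` on the side `sg = ± 1` -/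
def MAv (φ : ℝ → ℝ) (s₀ sg T : ℝ) : Prop :=
  Tendsto (fun τ : ℝ => τ⁻¹ * ∫ σ in Ioo (0 : ℝ) τ, |φ (s₀ + sg * σ) - T|) (𝓝[>] 0) (𝓝 0)

/-- forward average -/
noncomputable def mpcAvg (φ : ℝ → ℝ) (h s : ℝ) : ℝ := h⁻¹ * ∫ x in s..(s + h), φ x

variable (φ : ℝ → ℝ) (hφ : Measurable φ) (Mb : ℝ) (hb : ∀ s, |φ s| ≤ Mb)

/-- bounded measurable functions are interval integrable. -/
theorem mpc_intervalIntegrable (hφ : Measurable φ) (hb : ∀ s, |φ s| ≤ Mb) (a b : ℝ) : IntervalIntegrable φ volume a b := by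
  rw [intervalIntegrable_iff]
  refine Measure.integrableOn_of_bounded (M := Mb) ?_ hφ.aestronglyMeasurable (Eventually.of_forall fun s => ?_)
  · rw [uIoc, Real.volume_Ioc]
    exact ENNReal.ofReal_ne_top
  · rw [Real.norm_eq_abs]
    exact hb s

/-- LEAF L-PLB-1a. -/
theorem mpc_avg_sub (hφ : Measurable φ) (hb : ∀ s, |φ s| ≤ Mb) (h t t' : ℝ) :
    mpcAvg φ h t' - mpcAvg φ h t = h⁻¹ * ∫ s in t..t', (φ (s + h) - φ s) := by
  have hi := mpc_intervalIntegrable φ Mb hφ hb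
  have hi' : IntervalIntegrable (fun s => φ (s + h)) volume t t' :=
    mpc_intervalIntegrable (fun s => φ (s + h)) Mb (hφ.comp (measurable_id.add_const h)) (fun s => hb _) t t'
  rw [intervalIntegral.integral_sub hi' (hi t t'), intervalIntegral.integral_comp_add_right]
  have h1 := intervalIntegral.integral_add_adjacent_intervals (hi t t') (hi t' (t' + h))
  have h2 := intervalIntegral.integral_add_adjacent_intervals (hi t (t + h)) (hi (t + h) (t' + h))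
  show h⁻¹ * (∫ x in t'..(t' + h), φ x) - h⁻¹ * (∫ x in t..(t + h), φ x) = _
  rw [← mul_sub]
  congr 1
  linarith

theorem mpc_var_intOn (g : ℝ → ℝ) (hg : Measurable g) (M : ℝ) (hM : ∀ s, |g s| ≤ M) (A : Set ℝ) (hA : volume A ≠ ⊤) :
    IntegrableOn g A volume :=
  Measure.integrableOn_of_bounded hA hg.aestronglyMeasurable
    (Filter.Eventually.of_forall fun s => by rw [Real.norm_eq_abs]; exact hM s)

/-- LEAF L-PLB-1b.  (for a monotone sequence `u` in `[s₁,s₂]`: `∑ |f (u (i+1)) - f (u i)| ≤ h⁻¹ ∑ ∫_{u i}^{u (i+1)} |…| = h⁻¹ ∫_{u 0}^{u n} |…|`.) -/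
theorem mpc_avg_variation (hφ : Measurable φ) (hb : ∀ s, |φ s| ≤ Mb) (h : ℝ) (hh : 0 < h) (s₁ s₂ : ℝ) :
    eVariationOn (mpcAvg φ h) (Icc s₁ s₂) ≤ ENNReal.ofReal (h⁻¹ * ∫ s in Ioo s₁ s₂, |φ (s + h) - φ s|) := by
  have hgm : Measurable fun s : ℝ => |φ (s + h) - φ s| :=
    ((hφ.comp (measurable_id.add_const h)).sub hφ).abs
  have hgb : ∀ s : ℝ, |(|φ (s + h) - φ s|)| ≤ Mb + Mb := by
    intro s
    rw [abs_abs]
    exact (abs_sub _ _).trans (add_le_add (hb _) (hb _))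
  have hgi : ∀ a b : ℝ, IntervalIntegrable (fun s : ℝ => |φ (s + h) - φ s|) volume a b := by
    intro a b
    rw [intervalIntegrable_iff]
    exact mpc_var_intOn _ hgm _ hgb _ (by rw [uIoc, Real.volume_Ioc]; exact ENNReal.ofReal_ne_top)
  refine iSup_le ?_
  rintro ⟨n, u, hu, hus⟩
  simp only
  have e1 : ∀ i ∈ Finset.range n, edist (mpcAvg φ h (u (i + 1))) (mpcAvg φ h (u i))
      = ENNReal.ofReal |mpcAvg φ h (u (i + 1)) - mpcAvg φ h (u i)| := by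
    intro i _
    rw [edist_dist, Real.dist_eq]
  rw [Finset.sum_congr rfl e1, ← ENNReal.ofReal_sum_of_nonneg (fun i _ => abs_nonneg _)]
  refine ENNReal.ofReal_le_ofReal ?_
  have hinv : 0 ≤ h⁻¹ := (inv_pos.2 hh).le
  have e2 : ∀ i ∈ Finset.range n, |mpcAvg φ h (u (i + 1)) - mpcAvg φ h (u i)|
      ≤ h⁻¹ * ∫ s in (u i)..(u (i + 1)), |φ (s + h) - φ s| := by
    intro i _
    rw [mpc_avg_sub φ Mb hφ hb, abs_mul, abs_of_nonneg hinv]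
    exact mul_le_mul_of_nonneg_left
      (intervalIntegral.abs_integral_le_integral_abs (hu (Nat.le_succ i))) hinv
  refine (Finset.sum_le_sum e2).trans ?_
  rw [← Finset.mul_sum, intervalIntegral.sum_integral_adjacent_intervals (fun k _ => hgi _ _)]
  refine mul_le_mul_of_nonneg_left ?_ hinv
  rw [intervalIntegral.integral_of_le (hu (Nat.zero_le n)), integral_Ioc_eq_integral_Ioo]
  refine setIntegral_mono_set (mpc_var_intOn _ hgm _ hgb _ (by rw [Real.volume_Ioo]; exact ENNReal.ofReal_ne_top))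
    (Filter.Eventually.of_forall fun s => abs_nonneg _) ?_
  exact (Ioo_subset_Ioo (hus 0).1 (hus n).2).eventuallyLE

/-- LEAF L-PLB-1c. -/
theorem mpc_avg_tendsto (hφ : Measurable φ) (hb : ∀ s, |φ s| ≤ Mb) :
    ∀ᵐ s : ℝ, Tendsto (fun k : ℕ => mpcAvg φ (1 / ((k : ℝ) + 1)) s) atTop (𝓝 (φ s)) := by
  have hloc : LocallyIntegrable φ volume := by
    rw [locallyIntegrable_iff]
    intro k hk
    refine Measure.integrableOn_of_bounded (M := Mb) hk.measure_lt_top.ne hφ.aestronglyMeasurable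
      (Eventually.of_forall fun s => ?_)
    rw [Real.norm_eq_abs]
    exact hb s
  filter_upwards [(IsUnifLocDoublingMeasure.vitaliFamily (volume : Measure ℝ) 1).ae_tendsto_average hloc] with s hs
  have h1 := hs.comp (Real.tendsto_Icc_vitaliFamily_right s)
  have h2 : Tendsto (fun k : ℕ => s + 1 / ((k : ℝ) + 1)) atTop (𝓝[>] s) := by
    refine tendsto_nhdsWithin_iff.2 ⟨?_, Eventually.of_forall fun k => ?_⟩
    · have := (tendsto_one_div_add_atTop_nhds_zero_nat (𝕜 := ℝ)).const_add s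
      rwa [add_zero] at this
    · have : (0 : ℝ) < 1 / ((k : ℝ) + 1) := by positivity
      show s < s + 1 / ((k : ℝ) + 1)
      linarith
  refine (h1.comp h2).congr fun k => ?_
  have hpos : (0 : ℝ) < 1 / ((k : ℝ) + 1) := by positivity
  show ⨍ y in Icc s (s + 1 / ((k : ℝ) + 1)), φ y = (1 / ((k : ℝ) + 1))⁻¹ * ∫ x in s..(s + 1 / ((k : ℝ) + 1)), φ x
  rw [setAverage_eq, intervalIntegral.integral_of_le (by linarith), integral_Icc_eq_integral_Ioc, smul_eq_mul,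
    Measure.real, Real.volume_Icc, add_sub_cancel_left, ENNReal.toReal_ofReal hpos.le]

theorem mpc_mono_right_lim (p : ℝ → ℝ) (S : Set ℝ) (hp : MonotoneOn p S) (s₀ : ℝ) (hl : (S ∩ Iio s₀).Nonempty) :
    ∃ T : ℝ, Tendsto p (𝓝[S ∩ Ioi s₀] s₀) (𝓝 T) := by
  obtain ⟨xl, hxlS, hxl⟩ := hl
  rcases (S ∩ Ioi s₀).eq_empty_or_nonempty with he | hne
  · exact ⟨0, by rw [he, nhdsWithin_empty]; exact tendsto_bot⟩
  have hbdd : BddBelow (p '' (S ∩ Ioi s₀)) := ⟨p xl, by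
    rintro _ ⟨y, ⟨hyS, hy⟩, rfl⟩
    exact hp hxlS hyS (le_of_lt (lt_trans hxl hy))⟩
  refine ⟨sInf (p '' (S ∩ Ioi s₀)), ?_⟩
  rw [tendsto_order]
  constructor
  · intro a ha
    filter_upwards [self_mem_nhdsWithin] with y hy
    exact lt_of_lt_of_le ha (csInf_le hbdd ⟨y, hy, rfl⟩)
  · intro a ha
    obtain ⟨_, ⟨x, ⟨hxS, hx⟩, rfl⟩, hxa⟩ := exists_lt_of_csInf_lt (hne.image p) ha
    have : Iio x ∈ 𝓝 s₀ := Iio_mem_nhds hx
    filter_upwards [self_mem_nhdsWithin, mem_nhdsWithin_of_mem_nhds this] with y hy hyx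
    exact lt_of_le_of_lt (hp hy.1 hxS (le_of_lt hyx)) hxa

theorem mpc_mono_left_lim (p : ℝ → ℝ) (S : Set ℝ) (hp : MonotoneOn p S) (s₀ : ℝ) (hr : (S ∩ Ioi s₀).Nonempty) :
    ∃ T : ℝ, Tendsto p (𝓝[S ∩ Iio s₀] s₀) (𝓝 T) := by
  obtain ⟨xr, hxrS, hxr⟩ := hr
  rcases (S ∩ Iio s₀).eq_empty_or_nonempty with he | hne
  · exact ⟨0, by rw [he, nhdsWithin_empty]; exact tendsto_bot⟩
  have hbdd : BddAbove (p '' (S ∩ Iio s₀)) := ⟨p xr, by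
    rintro _ ⟨y, ⟨hyS, hy⟩, rfl⟩
    exact hp hyS hxrS (le_of_lt (lt_trans hy hxr))⟩
  refine ⟨sSup (p '' (S ∩ Iio s₀)), ?_⟩
  rw [tendsto_order]
  constructor
  · intro a ha
    obtain ⟨_, ⟨x, ⟨hxS, hx⟩, rfl⟩, hxa⟩ := exists_lt_of_lt_csSup (hne.image p) ha
    have : Ioi x ∈ 𝓝 s₀ := Ioi_mem_nhds hx
    filter_upwards [self_mem_nhdsWithin, mem_nhdsWithin_of_mem_nhds this] with y hy hyx
    exact lt_of_lt_of_le hxa (hp hxS hy.1 (le_of_lt hyx))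
  · intro a ha
    filter_upwards [self_mem_nhdsWithin] with y hy
    exact lt_of_le_of_lt (le_csSup hbdd ⟨y, hy, rfl⟩) ha

/-- LEAF L-PLB-1d. -/
theorem mpc_bv_right_lim (f : ℝ → ℝ) (S : Set ℝ) (hS : eVariationOn f S ≠ ⊤) (s₀ : ℝ) (hl : (S ∩ Iio s₀).Nonempty) :
    ∃ T : ℝ, Tendsto f (𝓝[S ∩ Ioi s₀] s₀) (𝓝 T) := by
  obtain ⟨p, q, hp, hq, rfl⟩ :=
    (BoundedVariationOn.locallyBoundedVariationOn (f := f) (s := S) hS).exists_monotoneOn_sub_monotoneOn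
  obtain ⟨T₁, h₁⟩ := mpc_mono_right_lim p S hp s₀ hl
  obtain ⟨T₂, h₂⟩ := mpc_mono_right_lim q S hq s₀ hl
  exact ⟨T₁ - T₂, h₁.sub h₂⟩

/-- LEAF L-PLB-1d'. -/
theorem mpc_bv_left_lim (f : ℝ → ℝ) (S : Set ℝ) (hS : eVariationOn f S ≠ ⊤) (s₀ : ℝ) (hr : (S ∩ Ioi s₀).Nonempty) :
    ∃ T : ℝ, Tendsto f (𝓝[S ∩ Iio s₀] s₀) (𝓝 T) := by
  obtain ⟨p, q, hp, hq, rfl⟩ :=
    (BoundedVariationOn.locallyBoundedVariationOn (f := f) (s := S) hS).exists_monotoneOn_sub_monotoneOn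
  obtain ⟨T₁, h₁⟩ := mpc_mono_left_lim p S hp s₀ hr
  obtain ⟨T₂, h₂⟩ := mpc_mono_left_lim q S hq s₀ hr
  exact ⟨T₁ - T₂, h₁.sub h₂⟩

/-- the common core of the two sides. -/
theorem mpc_av_core (S : Set ℝ) (s₁ s₂ s₀ sg T : ℝ) (hae : ∀ᵐ σ : ℝ, s₀ + sg * σ ∈ Ioo s₁ s₂ → s₀ + sg * σ ∈ S)
    (hin : ∃ δ₀ > 0, ∀ σ ∈ Ioo (0 : ℝ) δ₀, s₀ + sg * σ ∈ Ioo s₁ s₂)
    (hT : ∀ ε > 0, ∃ δ > 0, ∀ σ ∈ Ioo (0 : ℝ) δ, s₀ + sg * σ ∈ S → |φ (s₀ + sg * σ) - T| ≤ ε) : MAv φ s₀ sg T := by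
  rw [MAv, Metric.tendsto_nhds]
  intro ε hε
  obtain ⟨δ₀, hδ₀, hin⟩ := hin
  obtain ⟨δ, hδ, hT⟩ := hT (ε / 2) (half_pos hε)
  filter_upwards [Ioo_mem_nhdsGT (lt_min hδ₀ hδ)] with τ hτ
  have hτ0 : 0 < τ := hτ.1
  have h1 : ‖∫ σ in Ioo (0 : ℝ) τ, |φ (s₀ + sg * σ) - T|‖ ≤ ε / 2 * volume.real (Ioo (0 : ℝ) τ) := by
    refine norm_setIntegral_le_of_norm_le_const_ae' (by rw [Real.volume_Ioo]; exact ENNReal.ofReal_lt_top) ?_
    filter_upwards [hae] with σ hσ hm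
    rw [Real.norm_eq_abs, abs_abs]
    have hm1 : σ ∈ Ioo (0 : ℝ) δ₀ := ⟨hm.1, hm.2.trans (hτ.2.trans_le (min_le_left _ _))⟩
    have hm2 : σ ∈ Ioo (0 : ℝ) δ := ⟨hm.1, hm.2.trans (hτ.2.trans_le (min_le_right _ _))⟩
    exact hT σ hm2 (hσ (hin σ hm1))
  rw [Measure.real, Real.volume_Ioo, sub_zero, ENNReal.toReal_ofReal hτ0.le] at h1
  rw [dist_zero_right, norm_mul, norm_inv, Real.norm_eq_abs τ, abs_of_pos hτ0]
  calc τ⁻¹ * ‖∫ σ in Ioo (0 : ℝ) τ, |φ (s₀ + sg * σ) - T|‖ ≤ τ⁻¹ * (ε / 2 * τ) :=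
        mul_le_mul_of_nonneg_left h1 (inv_pos.2 hτ0).le
    _ = ε / 2 := by field_simp
    _ < ε := half_lt_self hε

/-- LEAF L-PLB-1e.  (`∀ ε ∃ δ`: `|φ x - T| < ε` for `x ∈ S`, `s₀ < x < s₀ + δ`; for `τ < min δ (s₂ - s₀)` a.e. `σ ∈ (0,τ)` has `s₀ + σ ∈ S`, so the integral is `≤ ε τ`.) -/
theorem mpc_av_of_right_lim (hφ : Measurable φ) (hb : ∀ s, |φ s| ≤ Mb) (S : Set ℝ) (s₁ s₂ : ℝ) (hS : ∀ᵐ s : ℝ, s ∈ Ioo s₁ s₂ → s ∈ S)
    (s₀ : ℝ) (hs₀ : s₀ ∈ Ioo s₁ s₂) (T : ℝ) (hT : Tendsto φ (𝓝[S ∩ Ioi s₀] s₀) (𝓝 T)) : MAv φ s₀ 1 T := by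
  refine mpc_av_core φ S s₁ s₂ s₀ 1 T ?_ ⟨s₂ - s₀, sub_pos.2 hs₀.2, fun σ hσ => ?_⟩ fun ε hε => ?_
  · have := (measurePreserving_add_left (volume : Measure ℝ) s₀).quasiMeasurePreserving.ae hS
    simpa only [one_mul] using this
  · rw [one_mul]
    exact ⟨by linarith [hs₀.1, hσ.1], by linarith [hσ.2]⟩
  · obtain ⟨δ, hδ, h⟩ := Metric.tendsto_nhdsWithin_nhds.1 hT ε hε
    refine ⟨δ, hδ, fun σ hσ hm => ?_⟩
    rw [one_mul] at hm ⊢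
    have h1 := h (x := s₀ + σ) ⟨hm, by show s₀ < s₀ + σ; linarith [hσ.1]⟩ (by
      rw [Real.dist_eq, add_sub_cancel_left, abs_of_pos hσ.1]
      exact hσ.2)
    rw [Real.dist_eq] at h1
    exact h1.le

/-- LEAF L-PLB-1f. -/
theorem mpc_av_of_left_lim (hφ : Measurable φ) (hb : ∀ s, |φ s| ≤ Mb) (S : Set ℝ) (s₁ s₂ : ℝ) (hS : ∀ᵐ s : ℝ, s ∈ Ioo s₁ s₂ → s ∈ S)
    (s₀ : ℝ) (hs₀ : s₀ ∈ Ioo s₁ s₂) (T : ℝ) (hT : Tendsto φ (𝓝[S ∩ Iio s₀] s₀) (𝓝 T)) : MAv φ s₀ (-1) T := by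
  have e : ∀ σ : ℝ, s₀ + -1 * σ = s₀ - σ := fun σ => by ring
  refine mpc_av_core φ S s₁ s₂ s₀ (-1) T ?_ ⟨s₀ - s₁, sub_pos.2 hs₀.1, fun σ hσ => ?_⟩ fun ε hε => ?_
  · have := (Measure.measurePreserving_sub_left (volume : Measure ℝ) s₀).quasiMeasurePreserving.ae hS
    simpa only [e] using this
  · rw [e]
    exact ⟨by linarith [hσ.2], by linarith [hs₀.2, hσ.1]⟩
  · obtain ⟨δ, hδ, h⟩ := Metric.tendsto_nhdsWithin_nhds.1 hT ε hε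
    refine ⟨δ, hδ, fun σ hσ hm => ?_⟩
    rw [e] at hm ⊢
    have h1 := h (x := s₀ - σ) ⟨hm, by show s₀ - σ < s₀; linarith [hσ.1]⟩ (by
      rw [Real.dist_eq, sub_sub_cancel_left, abs_neg, abs_of_pos hσ.1]
      exact hσ.2)
    rw [Real.dist_eq] at h1
    exact h1.le

/-- **B1** (glue). -/
theorem mpc_one_dim (hφ : Measurable φ) (hb : ∀ s, |φ s| ≤ Mb) (s₁ s₂ W : ℝ)
    (hW : ∃ᶠ k : ℕ in atTop, ((k : ℝ) + 1) * ∫ s in Ioo s₁ s₂, |φ (s + 1 / ((k : ℝ) + 1)) - φ s| ≤ W) :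
    ∀ s₀ ∈ Ioo s₁ s₂, ∃ Tp Tm : ℝ, MAv φ s₀ 1 Tp ∧ MAv φ s₀ (-1) Tm := by
  intro s₀ hs₀
  obtain ⟨G, hGdef⟩ : ∃ G : Set ℝ, G = {s | Tendsto (fun k : ℕ => mpcAvg φ (1 / ((k : ℝ) + 1)) s) atTop (𝓝 (φ s))} := ⟨_, rfl⟩
  have hG : ∀ᵐ s : ℝ, s ∈ G := by rw [hGdef]; exact mpc_avg_tendsto φ Mb hφ hb
  obtain ⟨S, hSdef⟩ : ∃ S : Set ℝ, S = G ∩ Icc s₁ s₂ := ⟨_, rfl⟩
  have hSae : ∀ᵐ s : ℝ, s ∈ Ioo s₁ s₂ → s ∈ S := by
    filter_upwards [hG] with s hs h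
    rw [hSdef]
    exact ⟨hs, Ioo_subset_Icc_self h⟩
  -- bounded variation on `S`
  have hvar : eVariationOn φ S ≤ ENNReal.ofReal W := by
    by_contra hcon
    rw [not_le] at hcon
    have h1 := eVariationOn.lowerSemicontinuous_aux (F := fun k : ℕ => mpcAvg φ (1 / ((k : ℝ) + 1))) (p := atTop) (f := φ) (s := S)
      (fun x hx => by rw [hSdef, hGdef] at hx; exact hx.1) hcon
    obtain ⟨k, hk1, hk2⟩ := (hW.and_eventually h1).exists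
    have hpos : (0 : ℝ) < 1 / ((k : ℝ) + 1) := by positivity
    have h2 := mpc_avg_variation φ Mb hφ hb (1 / ((k : ℝ) + 1)) hpos s₁ s₂
    have h3 : eVariationOn (mpcAvg φ (1 / ((k : ℝ) + 1))) S ≤ eVariationOn (mpcAvg φ (1 / ((k : ℝ) + 1))) (Icc s₁ s₂) :=
      eVariationOn.mono _ (by rw [hSdef]; exact inter_subset_right)
    have h4 : (1 / ((k : ℝ) + 1))⁻¹ = (k : ℝ) + 1 := by rw [one_div, inv_inv]
    rw [h4] at h2
    exact absurd (hk2.trans_le (h3.trans (h2.trans (ENNReal.ofReal_le_ofReal hk1)))) (lt_irrefl _)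
  have hfin : eVariationOn φ S ≠ ⊤ := ne_top_of_le_ne_top ENNReal.ofReal_ne_top hvar
  -- `S` meets both sides of `s₀`
  have hne : ∀ x y : ℝ, s₁ ≤ x → x < y → y ≤ s₂ → (S ∩ Ioo x y).Nonempty := by
    intro x y hx hxy hy
    by_contra hcon
    rw [not_nonempty_iff_eq_empty] at hcon
    have h1 : volume (Ioo x y) = 0 := by
      refine measure_mono_null (fun s hs => ?_) (ae_iff.1 hSae)
      intro h
      have : s ∈ S ∩ Ioo x y := ⟨h ⟨lt_of_le_of_lt hx hs.1, lt_of_lt_of_le hs.2 hy⟩, hs⟩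
      rw [hcon] at this
      exact this
    rw [Real.volume_Ioo, ENNReal.ofReal_eq_zero] at h1
    linarith
  obtain ⟨xl, hxl⟩ := hne s₁ s₀ le_rfl hs₀.1 hs₀.2.le
  obtain ⟨xr, hxr⟩ := hne s₀ s₂ hs₀.1.le hs₀.2 le_rfl
  obtain ⟨Tp, hTp⟩ := mpc_bv_right_lim φ S hfin s₀ ⟨xl, hxl.1, hxl.2.2⟩
  obtain ⟨Tm, hTm⟩ := mpc_bv_left_lim φ S hfin s₀ ⟨xr, hxr.1, hxr.2.1⟩
  exact ⟨Tp, Tm, mpc_av_of_right_lim φ Mb hφ hb S s₁ s₂ hSae s₀ hs₀ Tp hTp,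
    mpc_av_of_left_lim φ Mb hφ hb S s₁ s₂ hSae s₀ hs₀ Tm hTm⟩

end Claimed.Agent.R255
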