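import Claimed.Agent.R255.Plane.Defs
import Claimed.Agent.R255.Plane.CvOne

/-!
# Row 255, block (B), chapter B, file 2: SLICES, LEBESGUE POINTS, THE CORE (B2, B3, B4)      (architect helper97)

PAPER-FREE, Mathlib only (+ `mbx`, `MStr` of `Plane/Defs`, `MAv`, `mpc_one_dim` of `Plane/CvOne`).
EXIT: `mpc_core`: `a` bounded measurable, `∫_{I × J} |a(q + σ (1,0)) - a q| ≤ C σ`, `b` continuous ⟹ for a.e. `u₀ ∈ J` with `b u₀ ∈ I` the field has strong one-sided traces at `(b u₀, u₀)`.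

* `mpc_slices` (B2): Tonelli + Fatou along `σ = 1/(k+1)`: for a.e. `u ∈ J` the slice `i ↦ a(i,u)` satisfies the hypothesis of `mpc_one_dim`.
* `mpc_leb` (B3): `φ(u,σ)` bounded measurable with averaged limits `T u` as `σ ↓ 0` for a.e. `u` ⟹ for a.e. `u₀`: `ρ⁻² ∫_{|u-u₀|<ρ} ∫_0^ρ |φ(u,σ) - T u₀| → 0`.
   - `mpc_leb_select`: a measurable bounded choice of `T` (`T u = lim_k (k+1) ∫_0^{1/(k+1)} φ(u,σ) dσ`; `measurable_limit_of_tendsto_metrizable_ae`; clamp to `[-Mb, Mb]`).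
   - `mpc_leb_sup`: `E k u = sup_{j ≥ k} 2^j ∫_0^{2^{-j}} ψ(u,σ) dσ`.
   - `mpc_lebesgue_pt`: Lebesgue points in the form used here (`IsUnifLocDoublingMeasure.ae_tendsto_average_norm_sub` with `w = x`, `δ = id`, `K = 1`; `closedBall u₀ ρ = Icc`, `Ioo =ᵐ Icc`).
   - assembly: `u₀` a Lebesgue point of `T` and of all `E k`, and good.  For `0 < ρ ≤ 2^{-k}`:
     `∫_0^ρ |φ(u,σ) - T u₀| ≤ 2 ρ E k u + ρ |T u - T u₀|`, so `ρ⁻² ∫∫ ≤ 2 ρ⁻¹ ∫ |E k u - E k u₀| + 4 E k u₀ + ρ⁻¹ ∫ |T u - T u₀|`.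
* `mpc_mbx_integral` (shear + Fubini): `∫_{mbx b u₀ ρ τ sg} F = ∫_{|u-u₀|<ρ} ∫_0^τ F(b u + sg σ, u) dσ du`.
Leaves `L-PLB-2*`, `L-PLB-3*`.  Statements frozen (ask helper97).
-/

set_option autoImplicit false

namespace Claimed.Agent.R255

open Filter Topology MeasureTheory Set
open scoped NNReal ENNReal

/-- LEAF L-PLB-2a (B2). -/
theorem mpc_slices (a : ℝ × ℝ → ℝ) (ha : Measurable a) (Mb : ℝ) (hb : ∀ q, |a q| ≤ Mb) (i₁ i₂ s₁ s₂ C σ₀ : ℝ) (hσ : 0 < σ₀)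
    (hH : ∀ σ : ℝ, 0 < σ → σ < σ₀ → ∫ q in Ioo i₁ i₂ ×ˢ Ioo s₁ s₂, |a (q + σ • ((1, 0) : ℝ × ℝ)) - a q| ≤ C * σ) :
    ∀ᵐ u : ℝ, u ∈ Ioo s₁ s₂ → ∃ W : ℝ, ∃ᶠ k : ℕ in atTop,
      ((k : ℝ) + 1) * ∫ i in Ioo i₁ i₂, |a (i + 1 / ((k : ℝ) + 1), u) - a (i, u)| ≤ W := by
  classical
  obtain ⟨g, hg⟩ : ∃ g : ℕ → ℝ × ℝ → ℝ, g = fun (k : ℕ) q => |a (q.1 + 1 / ((k : ℝ) + 1), q.2) - a q| := ⟨_, rfl⟩
  have hgm : ∀ k, Measurable (g k) := fun k => by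
    rw [hg]
    exact ((ha.comp ((measurable_fst.add_const _).prodMk measurable_snd)).sub ha).abs
  have hg0 : ∀ k q, 0 ≤ g k q := fun k q => by
    rw [hg]
    exact abs_nonneg _
  have hgb : ∀ k q, g k q ≤ Mb + Mb := fun k q => by
    rw [hg]
    exact (abs_sub _ _).trans (add_le_add (hb _) (hb _))
  obtain ⟨G, hGdef⟩ : ∃ G : ℕ → ℝ → ℝ≥0∞,
      G = fun (k : ℕ) u => ENNReal.ofReal ((k : ℝ) + 1) * ∫⁻ i in Ioo i₁ i₂, ENNReal.ofReal (g k (i, u)) := ⟨_, rfl⟩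
  have hIm : ∀ k, Measurable fun u : ℝ => ∫⁻ i in Ioo i₁ i₂, ENNReal.ofReal (g k (i, u)) := fun k =>
    Measurable.lintegral_prod_left' (hgm k).ennreal_ofReal
  have hGm : ∀ k, Measurable (G k) := fun k => by
    rw [hGdef]
    exact (hIm k).const_mul _
  have hint : ∀ k, IntegrableOn (g k) (Ioo i₁ i₂ ×ˢ Ioo s₁ s₂) volume := fun k => by
    refine Measure.integrableOn_of_bounded (M := Mb + Mb) ?_ (hgm k).aestronglyMeasurable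
      (Filter.Eventually.of_forall fun p => by rw [Real.norm_eq_abs, abs_of_nonneg (hg0 k p)]; exact hgb k p)
    rw [Measure.volume_eq_prod, Measure.prod_prod, Real.volume_Ioo, Real.volume_Ioo]
    exact ENNReal.mul_ne_top ENNReal.ofReal_ne_top ENNReal.ofReal_ne_top
  have hGle : ∀ᶠ k : ℕ in atTop, ∫⁻ u in Ioo s₁ s₂, G k u ≤ ENNReal.ofReal C := by
    have hev : ∀ᶠ k : ℕ in atTop, 1 / ((k : ℝ) + 1) < σ₀ :=
      tendsto_one_div_add_atTop_nhds_zero_nat.eventually (gt_mem_nhds hσ)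
    filter_upwards [hev] with k hk
    have hk0 : 0 < (k : ℝ) + 1 := by positivity
    have h1 := hH (1 / ((k : ℝ) + 1)) (by positivity) hk
    have e1 : ∫ q in Ioo i₁ i₂ ×ˢ Ioo s₁ s₂, |a (q + (1 / ((k : ℝ) + 1)) • ((1, 0) : ℝ × ℝ)) - a q| =
        ∫ q in Ioo i₁ i₂ ×ˢ Ioo s₁ s₂, g k q := by
      congr 1
      funext q
      rw [hg]
      have : q + (1 / ((k : ℝ) + 1)) • ((1, 0) : ℝ × ℝ) = (q.1 + 1 / ((k : ℝ) + 1), q.2) := by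
        ext <;> simp
      rw [this]
    have e2 : ∫⁻ u in Ioo s₁ s₂, ∫⁻ i in Ioo i₁ i₂, ENNReal.ofReal (g k (i, u)) =
        ∫⁻ q in Ioo i₁ i₂ ×ˢ Ioo s₁ s₂, ENNReal.ofReal (g k q) := by
      rw [Measure.volume_eq_prod, ← Measure.prod_restrict, lintegral_prod_symm _ (hgm k).ennreal_ofReal.aemeasurable]
    rw [hGdef]
    simp only []
    rw [lintegral_const_mul _ (hIm k), e2, ← ofReal_integral_eq_lintegral_ofReal (hint k) (ae_of_all _ (hg0 k)),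
      ← ENNReal.ofReal_mul hk0.le]
    apply ENNReal.ofReal_le_ofReal
    rw [← e1]
    calc ((k : ℝ) + 1) * _ ≤ ((k : ℝ) + 1) * (C * (1 / ((k : ℝ) + 1))) := mul_le_mul_of_nonneg_left h1 hk0.le
      _ = C := by field_simp
  have hF : ∫⁻ u in Ioo s₁ s₂, liminf (fun k => G k u) atTop ≤ ENNReal.ofReal C :=
    (lintegral_liminf_le hGm).trans (liminf_le_of_frequently_le' hGle.frequently)
  have hae : ∀ᵐ u ∂(volume.restrict (Ioo s₁ s₂)), liminf (fun k => G k u) atTop < ∞ :=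
    ae_lt_top (Measurable.liminf hGm) (ne_top_of_le_ne_top ENNReal.ofReal_ne_top hF)
  rw [ae_restrict_iff' measurableSet_Ioo] at hae
  filter_upwards [hae] with u hu huJ
  have hlt := hu huJ
  have hB : liminf (fun k => G k u) atTop + 1 ≠ ∞ := ENNReal.add_ne_top.2 ⟨hlt.ne, ENNReal.one_ne_top⟩
  have hfr : ∃ᶠ k in atTop, G k u < liminf (fun k => G k u) atTop + 1 :=
    frequently_lt_of_liminf_lt (by isBoundedDefault) (ENNReal.lt_add_right hlt.ne one_ne_zero)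
  refine ⟨(liminf (fun k => G k u) atTop + 1).toReal, hfr.mono fun k hk => ?_⟩
  have hk0 : 0 ≤ (k : ℝ) + 1 := by positivity
  have e : ((k : ℝ) + 1) * ∫ i in Ioo i₁ i₂, |a (i + 1 / ((k : ℝ) + 1), u) - a (i, u)| = (G k u).toReal := by
    have hm : Measurable fun i : ℝ => g k (i, u) := (hgm k).comp (measurable_id.prodMk measurable_const)
    have e3 : (fun i : ℝ => |a (i + 1 / ((k : ℝ) + 1), u) - a (i, u)|) = fun i => g k (i, u) := by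
      rw [hg]
    rw [e3, integral_eq_lintegral_of_nonneg_ae (ae_of_all _ fun i => hg0 k (i, u)) hm.aestronglyMeasurable, hGdef]
    simp only []
    rw [ENNReal.toReal_mul, ENNReal.toReal_ofReal hk0]
  rw [e]
  exact ENNReal.toReal_mono hB hk.le

/-- LEAF L-PLB-3a. -/
theorem mpc_lebesgue_pt (f : ℝ → ℝ) (hf : Measurable f) (Mb : ℝ) (hb : ∀ u, |f u| ≤ Mb) :
    ∀ᵐ u₀ : ℝ, Tendsto (fun ρ : ℝ => ρ⁻¹ * ∫ u in Ioo (u₀ - ρ) (u₀ + ρ), |f u - f u₀|) (𝓝[>] 0) (𝓝 0) := by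
  have hloc : LocallyIntegrable f volume :=
    (locallyIntegrable_const Mb).mono hf.aestronglyMeasurable
      (Filter.Eventually.of_forall fun u => by
        rw [Real.norm_eq_abs, Real.norm_eq_abs]
        exact (hb u).trans (le_abs_self Mb))
  filter_upwards [IsUnifLocDoublingMeasure.ae_tendsto_average_norm_sub volume hloc 1] with u₀ h
  have h1 := h (fun _ : ℝ => u₀) id tendsto_id (by
    filter_upwards [self_mem_nhdsWithin] with ρ hρ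
    have : (0 : ℝ) < ρ := hρ
    simp [this.le])
  have h2 := h1.const_mul 2
  rw [mul_zero] at h2
  refine h2.congr' ?_
  filter_upwards [self_mem_nhdsWithin] with ρ hρ
  have hρ' : (0 : ℝ) < ρ := hρ
  simp only [id]
  rw [setAverage_eq, Real.closedBall_eq_Icc, Real.volume_real_Icc, integral_Icc_eq_integral_Ioo, smul_eq_mul,
    max_eq_left (by linarith)]
  simp only [Real.norm_eq_abs]
  rw [← mul_assoc]
  congr 1
  have e : u₀ + ρ - (u₀ - ρ) = 2 * ρ := by ring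
  rw [e, mul_inv, ← mul_assoc, mul_inv_cancel₀ two_ne_zero, one_mul]

/-- the partial integral is measurable in the parameter -/
theorem mpc_meas_inner (ψ : ℝ × ℝ → ℝ) (hψ : Measurable ψ) (τ : ℝ) :
    Measurable fun u : ℝ => ∫ σ in Ioo (0 : ℝ) τ, ψ (u, σ) :=
  (hψ.stronglyMeasurable.integral_prod_right' (ν := volume.restrict (Ioo (0 : ℝ) τ))).measurable

theorem mpc_intOn_inner (ψ : ℝ × ℝ → ℝ) (hψ : Measurable ψ) (Mb : ℝ) (hb : ∀ p, |ψ p| ≤ Mb) (u τ : ℝ) :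
    IntegrableOn (fun σ => ψ (u, σ)) (Ioo (0 : ℝ) τ) volume :=
  Measure.integrableOn_of_bounded (M := Mb) (by simp)
    (hψ.comp (measurable_const.prodMk measurable_id)).aestronglyMeasurable
    (Filter.Eventually.of_forall fun σ => by rw [Real.norm_eq_abs]; exact hb _)

theorem mpc_inner_le (ψ : ℝ × ℝ → ℝ) (Mb : ℝ) (hb : ∀ p, |ψ p| ≤ Mb) (u τ : ℝ) (hτ : 0 ≤ τ) :
    |∫ σ in Ioo (0 : ℝ) τ, ψ (u, σ)| ≤ Mb * τ := by
  have := norm_setIntegral_le_of_norm_le_const (μ := volume) (s := Ioo (0 : ℝ) τ) (f := fun σ => ψ (u, σ)) (C := Mb)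
    (by simp) (fun σ _ => by rw [Real.norm_eq_abs]; exact hb _)
  rw [Real.norm_eq_abs] at this
  simpa [Measure.real, hτ] using this

theorem mpc_inner_mono (ψ : ℝ × ℝ → ℝ) (hψ : Measurable ψ) (Mb : ℝ) (h0 : ∀ p, 0 ≤ ψ p) (hb : ∀ p, ψ p ≤ Mb) (u : ℝ)
    {τ τ' : ℝ} (h : τ ≤ τ') : ∫ σ in Ioo (0 : ℝ) τ, ψ (u, σ) ≤ ∫ σ in Ioo (0 : ℝ) τ', ψ (u, σ) :=
  setIntegral_mono_set (mpc_intOn_inner ψ hψ Mb (fun p => by rw [abs_of_nonneg (h0 p)]; exact hb p) u τ')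
    (Filter.Eventually.of_forall fun σ => h0 _) (LE.le.eventuallyLE (Ioo_subset_Ioo_right h))

/-- dyadic scale of `τ ∈ (0,1]` -/
theorem mpc_dyadic {τ : ℝ} (h0 : 0 < τ) (h1 : τ ≤ 1) : ∃ n : ℕ, (1 / 2 : ℝ) ^ (n + 1) < τ ∧ τ ≤ (1 / 2 : ℝ) ^ n := by
  exact exists_nat_pow_near_of_lt_one h0 h1 (by norm_num) (by norm_num)

/-- the average is close to `T` if the averaged distance to `T` is small -/
theorem mpc_avg_sub_le (φ : ℝ × ℝ → ℝ) (hφ : Measurable φ) (Mb : ℝ) (hb : ∀ p, |φ p| ≤ Mb) (u T τ : ℝ) (hτ : 0 < τ) :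
    |τ⁻¹ * (∫ σ in Ioo (0 : ℝ) τ, φ (u, σ)) - T| ≤ τ⁻¹ * ∫ σ in Ioo (0 : ℝ) τ, |φ (u, σ) - T| := by
  have hi := mpc_intOn_inner φ hφ Mb hb u τ
  have hc : IntegrableOn (fun _ : ℝ => T) (Ioo (0 : ℝ) τ) volume := integrableOn_const (by simp)
  have e1 : ∫ σ in Ioo (0 : ℝ) τ, (φ (u, σ) - T) = (∫ σ in Ioo (0 : ℝ) τ, φ (u, σ)) - τ * T := by
    rw [integral_sub hi hc, setIntegral_const]
    simp [Measure.real, hτ.le]
  have e2 : τ⁻¹ * (∫ σ in Ioo (0 : ℝ) τ, φ (u, σ)) - T = τ⁻¹ * ∫ σ in Ioo (0 : ℝ) τ, (φ (u, σ) - T) := by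
    rw [e1, mul_sub, ← mul_assoc, inv_mul_cancel₀ hτ.ne', one_mul]
  rw [e2, abs_mul, abs_of_pos (inv_pos.2 hτ)]
  exact mul_le_mul_of_nonneg_left (abs_integral_le_integral_abs) (inv_pos.2 hτ).le

/-- LEAF L-PLB-3b. -/
theorem mpc_leb_select (φ : ℝ × ℝ → ℝ) (hφ : Measurable φ) (Mb : ℝ) (hb : ∀ p, |φ p| ≤ Mb)
    (hG : ∀ᵐ u : ℝ, ∃ T : ℝ, Tendsto (fun τ : ℝ => τ⁻¹ * ∫ σ in Ioo (0 : ℝ) τ, |φ (u, σ) - T|) (𝓝[>] 0) (𝓝 0)) :
    ∃ T : ℝ → ℝ, Measurable T ∧ (∀ u, |T u| ≤ Mb) ∧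
      ∀ᵐ u : ℝ, Tendsto (fun τ : ℝ => τ⁻¹ * ∫ σ in Ioo (0 : ℝ) τ, |φ (u, σ) - T u|) (𝓝[>] 0) (𝓝 0) := by
  have hMb : 0 ≤ Mb := (abs_nonneg _).trans (hb 0)
  obtain ⟨Tk, hTk⟩ : ∃ Tk : ℕ → ℝ → ℝ,
      Tk = fun (k : ℕ) u => (1 / ((k : ℝ) + 1))⁻¹ * ∫ σ in Ioo (0 : ℝ) (1 / ((k : ℝ) + 1)), φ (u, σ) := ⟨_, rfl⟩
  have hpos : ∀ k : ℕ, 0 < 1 / ((k : ℝ) + 1) := fun k => by positivity
  have hTm : ∀ k, Measurable (Tk k) := fun k => by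
    rw [hTk]
    exact (mpc_meas_inner φ hφ _).const_mul _
  have hTb : ∀ k u, |Tk k u| ≤ Mb := fun k u => by
    rw [hTk]
    simp only
    rw [abs_mul, abs_of_pos (inv_pos.2 (hpos k)), inv_mul_le_iff₀ (hpos k), mul_comm]
    exact mpc_inner_le φ Mb hb u _ (hpos k).le
  have hlim : ∀ u T, Tendsto (fun τ : ℝ => τ⁻¹ * ∫ σ in Ioo (0 : ℝ) τ, |φ (u, σ) - T|) (𝓝[>] 0) (𝓝 0) →
      Tendsto (fun k => Tk k u) atTop (𝓝 T) := by
    intro u T h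
    have h1 : Tendsto (fun k : ℕ => 1 / ((k : ℝ) + 1)) atTop (𝓝[>] 0) :=
      tendsto_nhdsWithin_iff.2 ⟨tendsto_one_div_add_atTop_nhds_zero_nat, Filter.Eventually.of_forall hpos⟩
    have h2 := h.comp h1
    rw [tendsto_iff_norm_sub_tendsto_zero]
    refine squeeze_zero (fun k => norm_nonneg _) (fun k => ?_) h2
    rw [hTk, Real.norm_eq_abs]
    exact mpc_avg_sub_le φ hφ Mb hb u T _ (hpos k)
  obtain ⟨fl, hflm, hfl⟩ := measurable_limit_of_tendsto_metrizable_ae (μ := (volume : Measure ℝ)) (L := atTop)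
    (f := Tk) (fun k => (hTm k).aemeasurable) (by
      filter_upwards [hG] with u hu
      obtain ⟨T, hT⟩ := hu
      exact ⟨T, hlim u T hT⟩)
  refine ⟨fun u => max (-Mb) (min (fl u) Mb), measurable_const.max (hflm.min measurable_const), fun u => ?_, ?_⟩
  · rw [abs_le]
    exact ⟨le_max_left _ _, max_le (by linarith) (min_le_right _ _)⟩
  · filter_upwards [hG, hfl] with u hu hu2
    obtain ⟨T, hT⟩ := hu
    have e1 : fl u = T := tendsto_nhds_unique hu2 (hlim u T hT)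
    have e2 : |T| ≤ Mb := le_of_tendsto ((hlim u T hT).abs) (Filter.Eventually.of_forall fun k => hTb k u)
    have e3 : max (-Mb) (min (fl u) Mb) = T := by
      rw [e1, min_eq_left (abs_le.1 e2).2, max_eq_right (abs_le.1 e2).1]
    simp only [e3]
    exact hT

/-- LEAF L-PLB-3c. -/
theorem mpc_leb_sup (ψ : ℝ × ℝ → ℝ) (hψ : Measurable ψ) (Mb : ℝ) (h0 : ∀ p, 0 ≤ ψ p) (hb : ∀ p, ψ p ≤ Mb) :
    ∃ E : ℕ → ℝ → ℝ, (∀ k, Measurable (E k)) ∧ (∀ k u, 0 ≤ E k u ∧ E k u ≤ Mb) ∧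
      (∀ (k : ℕ) (u τ : ℝ), 0 < τ → τ ≤ (1 / 2 : ℝ) ^ k → ∫ σ in Ioo (0 : ℝ) τ, ψ (u, σ) ≤ 2 * τ * E k u) ∧
      (∀ u : ℝ, Tendsto (fun τ : ℝ => τ⁻¹ * ∫ σ in Ioo (0 : ℝ) τ, ψ (u, σ)) (𝓝[>] 0) (𝓝 0) →
        Tendsto (fun k => E k u) atTop (𝓝 0)) := by
  have hab : ∀ p, |ψ p| ≤ Mb := fun p => by rw [abs_of_nonneg (h0 p)]; exact hb p
  obtain ⟨a, ha⟩ : ∃ a : ℕ → ℝ → ℝ, a = fun j u => ((1 / 2 : ℝ) ^ j)⁻¹ * ∫ σ in Ioo (0 : ℝ) ((1 / 2 : ℝ) ^ j), ψ (u, σ) :=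
    ⟨_, rfl⟩
  have hpow : ∀ j : ℕ, 0 < (1 / 2 : ℝ) ^ j := fun j => by positivity
  have ha0 : ∀ j u, 0 ≤ a j u := fun j u => by
    rw [ha]
    exact mul_nonneg (inv_nonneg.2 (hpow j).le) (integral_nonneg fun σ => h0 _)
  have ha1 : ∀ j u, a j u ≤ Mb := fun j u => by
    rw [ha]
    have := (le_abs_self _).trans (mpc_inner_le ψ Mb hab u _ (hpow j).le)
    simp only
    rw [inv_mul_le_iff₀ (hpow j), mul_comm]
    exact this
  have ham : ∀ j, Measurable (a j) := fun j => by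
    rw [ha]
    exact (mpc_meas_inner ψ hψ _).const_mul _
  have hbdd : ∀ k u, BddAbove (Set.range fun j => a (k + j) u) := fun k u =>
    ⟨Mb, by rintro _ ⟨j, rfl⟩; exact ha1 _ _⟩
  refine ⟨fun k u => ⨆ j, a (k + j) u, fun k => Measurable.iSup fun j => ham _, fun k u => ⟨?_, ?_⟩, ?_, ?_⟩
  · exact (ha0 (k + 0) u).trans (le_ciSup (hbdd k u) 0)
  · exact ciSup_le fun j => ha1 _ _
  · intro k u τ hτ hτk
    obtain ⟨n, hn1, hn2⟩ := mpc_dyadic hτ (hτk.trans (pow_le_one₀ (by norm_num) (by norm_num)))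
    have hkn : k ≤ n := by
      by_contra hlt
      have h1 : n + 1 ≤ k := by omega
      have := pow_le_pow_of_le_one (by norm_num : (0 : ℝ) ≤ 1 / 2) (by norm_num) h1
      linarith
    obtain ⟨j, rfl⟩ := Nat.exists_eq_add_of_le hkn
    have h1 : a (k + j) u ≤ ⨆ j, a (k + j) u := le_ciSup (hbdd k u) j
    have h2 : ∫ σ in Ioo (0 : ℝ) ((1 / 2 : ℝ) ^ (k + j)), ψ (u, σ) = (1 / 2 : ℝ) ^ (k + j) * a (k + j) u := by
      rw [ha]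
      simp only
      rw [← mul_assoc, mul_inv_cancel₀ (hpow _).ne', one_mul]
    have h3 : (1 / 2 : ℝ) ^ (k + j) ≤ 2 * τ := by
      rw [pow_succ] at hn1
      linarith
    calc ∫ σ in Ioo (0 : ℝ) τ, ψ (u, σ) ≤ ∫ σ in Ioo (0 : ℝ) ((1 / 2 : ℝ) ^ (k + j)), ψ (u, σ) :=
          mpc_inner_mono ψ hψ Mb h0 hb u hn2
      _ = (1 / 2 : ℝ) ^ (k + j) * a (k + j) u := h2
      _ ≤ 2 * τ * a (k + j) u := mul_le_mul_of_nonneg_right h3 (ha0 _ _)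
      _ ≤ 2 * τ * ⨆ j, a (k + j) u := mul_le_mul_of_nonneg_left h1 (by positivity)
  · intro u hu
    rw [Metric.tendsto_atTop]
    intro ε hε
    have h1 : ∀ᶠ τ in 𝓝[>] (0 : ℝ), τ⁻¹ * ∫ σ in Ioo (0 : ℝ) τ, ψ (u, σ) < ε / 2 :=
      hu.eventually (gt_mem_nhds (by positivity))
    have h2 : Tendsto (fun j : ℕ => (1 / 2 : ℝ) ^ j) atTop (𝓝[>] 0) :=
      tendsto_nhdsWithin_iff.2 ⟨tendsto_pow_atTop_nhds_zero_of_lt_one (by norm_num) (by norm_num),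
        Filter.Eventually.of_forall fun j => hpow j⟩
    obtain ⟨K, hK⟩ := Filter.eventually_atTop.1 (h2.eventually h1)
    refine ⟨K, fun k hk => ?_⟩
    have h3 : (⨆ j, a (k + j) u) ≤ ε / 2 := ciSup_le fun j => by
      have := hK (k + j) (by omega)
      rw [ha]
      exact this.le
    have h4 : 0 ≤ ⨆ j, a (k + j) u := (ha0 (k + 0) u).trans (le_ciSup (hbdd k u) 0)
    rw [Real.dist_eq, sub_zero, abs_of_nonneg h4]
    linarith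

theorem mpc_intOn_bdd (f : ℝ → ℝ) (hf : Measurable f) (C : ℝ) (hC : ∀ u, |f u| ≤ C) (a b : ℝ) :
    IntegrableOn f (Ioo a b) volume :=
  Measure.integrableOn_of_bounded (M := C) (by simp) hf.aestronglyMeasurable
    (Filter.Eventually.of_forall fun u => by rw [Real.norm_eq_abs]; exact hC u)

/-- the key estimate of the assembly -/
theorem mpc_leb_key (φ : ℝ × ℝ → ℝ) (hφ : Measurable φ) (Mb : ℝ) (hb : ∀ p, |φ p| ≤ Mb) (T : ℝ → ℝ) (hT : Measurable T)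
    (hTb : ∀ u, |T u| ≤ Mb) (Ek : ℝ → ℝ) (hEm : Measurable Ek) (hE0 : ∀ u, 0 ≤ Ek u ∧ Ek u ≤ 2 * Mb) (u₀ ρ : ℝ) (hρ : 0 < ρ)
    (hE : ∀ u, ∫ σ in Ioo (0 : ℝ) ρ, |φ (u, σ) - T u| ≤ 2 * ρ * Ek u) :
    (ρ ^ 2)⁻¹ * ∫ u in Ioo (u₀ - ρ) (u₀ + ρ), ∫ σ in Ioo (0 : ℝ) ρ, |φ (u, σ) - T u₀|
      ≤ 2 * (ρ⁻¹ * ∫ u in Ioo (u₀ - ρ) (u₀ + ρ), |Ek u - Ek u₀|) + 4 * Ek u₀
        + ρ⁻¹ * ∫ u in Ioo (u₀ - ρ) (u₀ + ρ), |T u - T u₀| := by
  have hMb : 0 ≤ Mb := (abs_nonneg _).trans (hb 0)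
  have m1 : Measurable fun p : ℝ × ℝ => |φ p - T u₀| := (hφ.sub_const _).abs
  have b1 : ∀ p : ℝ × ℝ, |(|φ p - T u₀|)| ≤ 2 * Mb := fun p => by
    rw [abs_abs]
    exact (abs_sub _ _).trans (by linarith [hb p, hTb u₀])
  have m2 : Measurable fun p : ℝ × ℝ => |φ p - T p.1| := (hφ.sub (hT.comp measurable_fst)).abs
  have b2 : ∀ p : ℝ × ℝ, |(|φ p - T p.1|)| ≤ 2 * Mb := fun p => by
    rw [abs_abs]
    exact (abs_sub _ _).trans (by linarith [hb p, hTb p.1])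
  -- pointwise
  have hpt : ∀ u, ∫ σ in Ioo (0 : ℝ) ρ, |φ (u, σ) - T u₀| ≤ 2 * ρ * |Ek u - Ek u₀| + 2 * ρ * Ek u₀ + ρ * |T u - T u₀| := by
    intro u
    have hc : IntegrableOn (fun _ : ℝ => |T u - T u₀|) (Ioo (0 : ℝ) ρ) volume := integrableOn_const (by simp)
    have h1 : ∫ σ in Ioo (0 : ℝ) ρ, |φ (u, σ) - T u₀| ≤ ∫ σ in Ioo (0 : ℝ) ρ, (|φ (u, σ) - T u| + |T u - T u₀|) := by
      refine integral_mono (mpc_intOn_inner _ m1 _ b1 u ρ) ((mpc_intOn_inner _ m2 _ b2 u ρ).add hc) fun σ => ?_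
      have : φ (u, σ) - T u₀ = (φ (u, σ) - T u) + (T u - T u₀) := by ring
      simp only
      rw [this]
      exact abs_add_le _ _
    have h2 : ∫ σ in Ioo (0 : ℝ) ρ, (|φ (u, σ) - T u| + |T u - T u₀|)
        = (∫ σ in Ioo (0 : ℝ) ρ, |φ (u, σ) - T u|) + ρ * |T u - T u₀| := by
      rw [integral_add (mpc_intOn_inner _ m2 _ b2 u ρ) hc, setIntegral_const]
      simp [Measure.real, hρ.le]
    have h3 : Ek u ≤ |Ek u - Ek u₀| + Ek u₀ := by linarith [le_abs_self (Ek u - Ek u₀)]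
    have h4 : 2 * ρ * Ek u ≤ 2 * ρ * (|Ek u - Ek u₀| + Ek u₀) := mul_le_mul_of_nonneg_left h3 (by positivity)
    linarith [hE u]
  -- integrate
  have i1 : IntegrableOn (fun u => ∫ σ in Ioo (0 : ℝ) ρ, |φ (u, σ) - T u₀|) (Ioo (u₀ - ρ) (u₀ + ρ)) volume :=
    mpc_intOn_bdd _ (mpc_meas_inner _ m1 ρ) (2 * Mb * ρ) (fun u => mpc_inner_le _ _ b1 u ρ hρ.le) _ _
  have i2 : IntegrableOn (fun u => |Ek u - Ek u₀|) (Ioo (u₀ - ρ) (u₀ + ρ)) volume :=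
    mpc_intOn_bdd _ (hEm.sub_const _).abs (2 * Mb) (fun u => by
      rw [abs_abs, abs_le]
      constructor <;> linarith [(hE0 u).1, (hE0 u).2, (hE0 u₀).1, (hE0 u₀).2]) _ _
  have i3 : IntegrableOn (fun u => |T u - T u₀|) (Ioo (u₀ - ρ) (u₀ + ρ)) volume :=
    mpc_intOn_bdd _ (hT.sub_const _).abs (2 * Mb) (fun u => by
      rw [abs_abs]
      exact (abs_sub _ _).trans (by linarith [hTb u, hTb u₀])) _ _
  have ic : IntegrableOn (fun _ : ℝ => 2 * ρ * Ek u₀) (Ioo (u₀ - ρ) (u₀ + ρ)) volume := integrableOn_const (by simp)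
  have hint : ∫ u in Ioo (u₀ - ρ) (u₀ + ρ), ∫ σ in Ioo (0 : ℝ) ρ, |φ (u, σ) - T u₀|
      ≤ 2 * ρ * (∫ u in Ioo (u₀ - ρ) (u₀ + ρ), |Ek u - Ek u₀|) + 2 * ρ * (2 * ρ * Ek u₀)
        + ρ * ∫ u in Ioo (u₀ - ρ) (u₀ + ρ), |T u - T u₀| := by
    have j2 : IntegrableOn (fun u => 2 * ρ * |Ek u - Ek u₀|) (Ioo (u₀ - ρ) (u₀ + ρ)) volume := i2.const_mul (2 * ρ)
    have j3 : IntegrableOn (fun u => ρ * |T u - T u₀|) (Ioo (u₀ - ρ) (u₀ + ρ)) volume := i3.const_mul ρ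
    have j12 : IntegrableOn (fun u => 2 * ρ * |Ek u - Ek u₀| + 2 * ρ * Ek u₀) (Ioo (u₀ - ρ) (u₀ + ρ)) volume := j2.add ic
    have j123 : IntegrableOn (fun u => 2 * ρ * |Ek u - Ek u₀| + 2 * ρ * Ek u₀ + ρ * |T u - T u₀|)
        (Ioo (u₀ - ρ) (u₀ + ρ)) volume := j12.add j3
    have h1 := integral_mono i1 j123 hpt
    have h2 : ∫ u in Ioo (u₀ - ρ) (u₀ + ρ), (2 * ρ * |Ek u - Ek u₀| + 2 * ρ * Ek u₀ + ρ * |T u - T u₀|)
        = 2 * ρ * (∫ u in Ioo (u₀ - ρ) (u₀ + ρ), |Ek u - Ek u₀|) + 2 * ρ * (2 * ρ * Ek u₀)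
          + ρ * ∫ u in Ioo (u₀ - ρ) (u₀ + ρ), |T u - T u₀| := by
      rw [integral_add j12 j3, integral_add j2 ic, integral_const_mul (2 * ρ), integral_const_mul ρ, setIntegral_const]
      have : u₀ + ρ - (u₀ - ρ) = 2 * ρ := by ring
      simp [Measure.real, this, hρ.le]
    exact h1.trans h2.le
  have hinv : 0 < (ρ ^ 2)⁻¹ := by positivity
  calc (ρ ^ 2)⁻¹ * ∫ u in Ioo (u₀ - ρ) (u₀ + ρ), ∫ σ in Ioo (0 : ℝ) ρ, |φ (u, σ) - T u₀|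
      ≤ (ρ ^ 2)⁻¹ * (2 * ρ * (∫ u in Ioo (u₀ - ρ) (u₀ + ρ), |Ek u - Ek u₀|) + 2 * ρ * (2 * ρ * Ek u₀)
        + ρ * ∫ u in Ioo (u₀ - ρ) (u₀ + ρ), |T u - T u₀|) := mul_le_mul_of_nonneg_left hint hinv.le
    _ = 2 * (ρ⁻¹ * ∫ u in Ioo (u₀ - ρ) (u₀ + ρ), |Ek u - Ek u₀|) + 4 * Ek u₀
        + ρ⁻¹ * ∫ u in Ioo (u₀ - ρ) (u₀ + ρ), |T u - T u₀| := by
      field_simp
      ring

/-- LEAF L-PLB-3d (B3, assembly of 3a, 3b, 3c; plan in the header). -/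
theorem mpc_leb (φ : ℝ × ℝ → ℝ) (hφ : Measurable φ) (Mb : ℝ) (hb : ∀ p, |φ p| ≤ Mb)
    (hG : ∀ᵐ u : ℝ, ∃ T : ℝ, Tendsto (fun τ : ℝ => τ⁻¹ * ∫ σ in Ioo (0 : ℝ) τ, |φ (u, σ) - T|) (𝓝[>] 0) (𝓝 0)) :
    ∀ᵐ u₀ : ℝ, ∃ T₀ : ℝ, Tendsto (fun ρ : ℝ => (ρ ^ 2)⁻¹ * ∫ u in Ioo (u₀ - ρ) (u₀ + ρ), ∫ σ in Ioo (0 : ℝ) ρ, |φ (u, σ) - T₀|)
      (𝓝[>] 0) (𝓝 0) := by
  obtain ⟨T, hTm, hTb, hT⟩ := mpc_leb_select φ hφ Mb hb hG
  obtain ⟨E, hEm, hE0, hE1, hE2⟩ := mpc_leb_sup (fun p => |φ p - T p.1|) (hφ.sub (hTm.comp measurable_fst)).abs (2 * Mb)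
    (fun p => abs_nonneg _) (fun p => (abs_sub _ _).trans (by linarith [hb p, hTb p.1]))
  have l1 := mpc_lebesgue_pt T hTm Mb hTb
  have l2 : ∀ᵐ u₀ : ℝ, ∀ k, Tendsto (fun ρ : ℝ => ρ⁻¹ * ∫ u in Ioo (u₀ - ρ) (u₀ + ρ), |E k u - E k u₀|) (𝓝[>] 0) (𝓝 0) :=
    ae_all_iff.2 fun k => mpc_lebesgue_pt (E k) (hEm k) (2 * Mb) (fun u => by
      rw [abs_of_nonneg (hE0 k u).1]; exact (hE0 k u).2)
  filter_upwards [hT, l1, l2] with u₀ g1 g2 g3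
  refine ⟨T u₀, ?_⟩
  have g4 := hE2 u₀ g1
  refine tendsto_order.2 ⟨fun a ha => Filter.Eventually.of_forall fun ρ => lt_of_lt_of_le ha ?_, fun ε hε => ?_⟩
  · exact mul_nonneg (by positivity) (integral_nonneg fun u => integral_nonneg fun σ => abs_nonneg _)
  · obtain ⟨k, hk⟩ := (g4.eventually (gt_mem_nhds (by positivity : (0 : ℝ) < ε / 12))).exists
    have e1 := (g3 k).eventually (gt_mem_nhds (by positivity : (0 : ℝ) < ε / 6))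
    have e2 := g2.eventually (gt_mem_nhds (by positivity : (0 : ℝ) < ε / 3))
    have e3 : ∀ᶠ ρ in 𝓝[>] (0 : ℝ), ρ ∈ Ioo (0 : ℝ) ((1 / 2 : ℝ) ^ k) := Ioo_mem_nhdsGT (by positivity)
    filter_upwards [e1, e2, e3] with ρ h1 h2 h3
    have := mpc_leb_key φ hφ Mb hb T hTm hTb (E k) (hEm k) (hE0 k) u₀ ρ h3.1 (fun u => hE1 k u ρ h3.1 h3.2.le)
    linarith

theorem mpc_measurableSet_mbx (b : ℝ → ℝ) (hbm : Measurable b) (u₀ ρ τ sg : ℝ) : MeasurableSet (mbx b u₀ ρ τ sg) := by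
  have h1 : Measurable fun q : ℝ × ℝ => sg * (q.1 - b q.2) :=
    (measurable_fst.sub (hbm.comp measurable_snd)).const_mul sg
  have h2 : Measurable fun q : ℝ × ℝ => |q.2 - u₀| := (measurable_snd.sub_const u₀).abs
  exact (measurableSet_lt h2 measurable_const).inter
    ((measurableSet_lt measurable_const h1).inter (measurableSet_lt h1 measurable_const))

/-- the shear `(u, σ) ↦ (b u + sg σ, u)` preserves the Lebesgue measure -/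
theorem mpc_shear_mp (b : ℝ → ℝ) (hbm : Measurable b) (sg : ℝ) (hsg : sg = 1 ∨ sg = -1) :
    MeasurePreserving (fun p : ℝ × ℝ => (b p.1 + sg * p.2, p.1)) (volume : Measure (ℝ × ℝ)) volume := by
  have h1 : MeasurePreserving (fun p : ℝ × ℝ => (p.1, b p.1 + sg * p.2)) ((volume : Measure ℝ).prod volume)
      ((volume : Measure ℝ).prod volume) := by
    refine MeasurePreserving.skew_product (f := id) (g := fun u σ => b u + sg * σ) (MeasurePreserving.id _) ?_ ?_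
    · exact (hbm.comp measurable_fst).add (measurable_snd.const_mul sg)
    · refine Filter.Eventually.of_forall fun u => ?_
      rcases hsg with rfl | rfl
      · simp only [one_mul]
        exact (measurePreserving_add_left volume (b u)).map_eq
      · have : (fun σ : ℝ => b u + -1 * σ) = fun σ => b u - σ := by
          funext σ
          ring
        rw [this]
        exact (Measure.measurePreserving_sub_left volume (b u)).map_eq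
  exact (Measure.measurePreserving_swap).comp h1

theorem mpc_shear_preimage (b : ℝ → ℝ) (u₀ ρ τ sg : ℝ) (hsg : sg = 1 ∨ sg = -1) :
    (fun p : ℝ × ℝ => (b p.1 + sg * p.2, p.1)) ⁻¹' mbx b u₀ ρ τ sg = Ioo (u₀ - ρ) (u₀ + ρ) ×ˢ Ioo (0 : ℝ) τ := by
  ext p
  have e : sg * (b p.1 + sg * p.2 - b p.1) = p.2 := by
    rcases hsg with rfl | rfl <;> ring
  simp only [mbx, mem_preimage, mem_ofPred_eq, mem_prod, mem_Ioo, e, abs_lt]
  constructor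
  · rintro ⟨⟨h1, h2⟩, h3, h4⟩
    exact ⟨⟨by linarith, by linarith⟩, h3, h4⟩
  · rintro ⟨⟨h1, h2⟩, h3, h4⟩
    exact ⟨⟨by linarith, by linarith⟩, h3, h4⟩

/-- LEAF L-PLB-2b (shear + Fubini). -/
theorem mpc_mbx_integral (F : ℝ × ℝ → ℝ) (hF : Measurable F) (Mb : ℝ) (hb : ∀ q, |F q| ≤ Mb) (b : ℝ → ℝ) (hbm : Measurable b)
    (u₀ ρ τ sg : ℝ) (hsg : sg = 1 ∨ sg = -1) :
    ∫ q in mbx b u₀ ρ τ sg, F q = ∫ u in Ioo (u₀ - ρ) (u₀ + ρ), ∫ σ in Ioo (0 : ℝ) τ, F (b u + sg * σ, u) := by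
  have hΦ := mpc_shear_mp b hbm sg hsg
  have h1 : ∫ q in mbx b u₀ ρ τ sg, F q =
      ∫ p in (fun p : ℝ × ℝ => (b p.1 + sg * p.2, p.1)) ⁻¹' mbx b u₀ ρ τ sg, F (b p.1 + sg * p.2, p.1) := by
    have := setIntegral_map (μ := (volume : Measure (ℝ × ℝ))) (g := fun p : ℝ × ℝ => (b p.1 + sg * p.2, p.1)) (f := F)
      (mpc_measurableSet_mbx b hbm u₀ ρ τ sg) hF.aestronglyMeasurable hΦ.measurable.aemeasurable
    rw [hΦ.map_eq] at this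
    exact this
  rw [h1, mpc_shear_preimage b u₀ ρ τ sg hsg, Measure.volume_eq_prod]
  refine setIntegral_prod (fun p : ℝ × ℝ => F (b p.1 + sg * p.2, p.1)) ?_
  refine Measure.integrableOn_of_bounded (M := Mb) ?_ (hF.comp hΦ.measurable).aestronglyMeasurable
    (Filter.Eventually.of_forall fun p => by rw [Real.norm_eq_abs]; exact hb _)
  rw [Measure.prod_prod, Real.volume_Ioo, Real.volume_Ioo]
  exact ENNReal.mul_ne_top ENNReal.ofReal_ne_top ENNReal.ofReal_ne_top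

/-- one side of the core -/
theorem mpc_core_side (a : ℝ × ℝ → ℝ) (ha : Measurable a) (Mb : ℝ) (hb : ∀ q, |a q| ≤ Mb) (b : ℝ → ℝ) (hbc : Continuous b)
    (i₁ i₂ s₁ s₂ C σ₀ : ℝ) (hσ : 0 < σ₀)
    (hH : ∀ σ : ℝ, 0 < σ → σ < σ₀ → ∫ q in Ioo i₁ i₂ ×ˢ Ioo s₁ s₂, |a (q + σ • ((1, 0) : ℝ × ℝ)) - a q| ≤ C * σ)
    (sg : ℝ) (hsg : sg = 1 ∨ sg = -1) :
    ∀ᵐ u₀ : ℝ, u₀ ∈ Ioo s₁ s₂ → b u₀ ∈ Ioo i₁ i₂ → ∃ T : ℝ, MStr a b u₀ sg T := by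
  classical
  have hMb : 0 ≤ Mb := (abs_nonneg _).trans (hb 0)
  obtain ⟨O, hOdef⟩ : ∃ O : Set ℝ, O = Ioo s₁ s₂ ∩ b ⁻¹' Ioo i₁ i₂ := ⟨_, rfl⟩
  have hOo : IsOpen O := by rw [hOdef]; exact isOpen_Ioo.inter (isOpen_Ioo.preimage hbc)
  obtain ⟨φ, hφdef⟩ : ∃ φ : ℝ × ℝ → ℝ, φ = fun p => if p.1 ∈ O then a (b p.1 + sg * p.2, p.1) else 0 := ⟨_, rfl⟩
  have hφm : Measurable φ := by
    rw [hφdef]
    refine Measurable.ite (hOo.measurableSet.preimage measurable_fst) ?_ measurable_const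
    exact ha.comp ((((hbc.measurable.comp measurable_fst).add (measurable_snd.const_mul sg))).prodMk measurable_fst)
  have hφb : ∀ p, |φ p| ≤ Mb := by
    intro p
    rw [hφdef]
    by_cases hp : p.1 ∈ O
    · simp only [if_pos hp]; exact hb _
    · simp only [if_neg hp, abs_zero]; exact hMb
  have hG : ∀ᵐ u : ℝ, ∃ T : ℝ, Tendsto (fun τ : ℝ => τ⁻¹ * ∫ σ in Ioo (0 : ℝ) τ, |φ (u, σ) - T|) (𝓝[>] 0) (𝓝 0) := by
    filter_upwards [mpc_slices a ha Mb hb i₁ i₂ s₁ s₂ C σ₀ hσ hH] with u hu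
    by_cases huO : u ∈ O
    · have huO' := huO
      rw [hOdef] at huO'
      obtain ⟨W, hW⟩ := hu huO'.1
      obtain ⟨Tp, Tm, hTp, hTm⟩ := mpc_one_dim (fun i => a (i, u)) Mb (ha.comp (measurable_id.prodMk measurable_const))
        (fun s => hb _) i₁ i₂ W hW (b u) huO'.2
      have key : ∀ T : ℝ, MAv (fun i => a (i, u)) (b u) sg T →
          Tendsto (fun τ : ℝ => τ⁻¹ * ∫ σ in Ioo (0 : ℝ) τ, |φ (u, σ) - T|) (𝓝[>] 0) (𝓝 0) := by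
        intro T hT
        have e : ∀ σ : ℝ, φ (u, σ) = a (b u + sg * σ, u) := fun σ => by rw [hφdef]; simp only [if_pos huO]
        simp only [e]
        exact hT
      rcases hsg with rfl | rfl
      · exact ⟨Tp, key Tp hTp⟩
      · exact ⟨Tm, key Tm hTm⟩
    · refine ⟨0, ?_⟩
      have e : ∀ σ : ℝ, φ (u, σ) = 0 := fun σ => by rw [hφdef]; simp only [if_neg huO]
      simp only [e, sub_zero, abs_zero, integral_zero, mul_zero]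
      exact tendsto_const_nhds
  filter_upwards [mpc_leb φ hφm Mb hφb hG] with u₀ hu₀ h1 h2
  obtain ⟨T₀, hT₀⟩ := hu₀
  refine ⟨T₀, ?_⟩
  have hu₀O : u₀ ∈ O := by rw [hOdef]; exact ⟨h1, h2⟩
  obtain ⟨δ, hδ, hball⟩ := Metric.isOpen_iff.1 hOo u₀ hu₀O
  unfold MStr
  refine hT₀.congr' ?_
  filter_upwards [Ioo_mem_nhdsGT hδ] with ρ hρ
  congr 1
  rw [mpc_mbx_integral (fun q => |a q - T₀|) ((ha.sub_const T₀).abs) (Mb + |T₀|)
    (fun q => by rw [abs_abs]; exact (abs_sub _ _).trans (add_le_add (hb q) le_rfl)) b hbc.measurable u₀ ρ ρ sg hsg]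
  refine setIntegral_congr_fun measurableSet_Ioo fun u hu => ?_
  have huO : u ∈ O := by
    apply hball
    rw [Metric.mem_ball, Real.dist_eq, abs_lt]
    constructor <;> linarith [hu.1, hu.2, hρ.2]
  have e : ∀ σ : ℝ, φ (u, σ) = a (b u + sg * σ, u) := fun σ => by rw [hφdef]; simp only [if_pos huO]
  simp only [e]

/-- **the core** (glue). -/
theorem mpc_core (a : ℝ × ℝ → ℝ) (ha : Measurable a) (Mb : ℝ) (hb : ∀ q, |a q| ≤ Mb) (b : ℝ → ℝ) (hbc : Continuous b)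
    (i₁ i₂ s₁ s₂ C σ₀ : ℝ) (hσ : 0 < σ₀)
    (hH : ∀ σ : ℝ, 0 < σ → σ < σ₀ → ∫ q in Ioo i₁ i₂ ×ˢ Ioo s₁ s₂, |a (q + σ • ((1, 0) : ℝ × ℝ)) - a q| ≤ C * σ) :
    ∀ᵐ u₀ : ℝ, u₀ ∈ Ioo s₁ s₂ → b u₀ ∈ Ioo i₁ i₂ → ∃ Tp Tm : ℝ, MStr a b u₀ 1 Tp ∧ MStr a b u₀ (-1) Tm := by
  filter_upwards [mpc_core_side a ha Mb hb b hbc i₁ i₂ s₁ s₂ C σ₀ hσ hH 1 (Or.inl rfl),
    mpc_core_side a ha Mb hb b hbc i₁ i₂ s₁ s₂ C σ₀ hσ hH (-1) (Or.inr rfl)] with u₀ h1 h2 hu hbu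
  obtain ⟨Tp, hTp⟩ := h1 hu hbu
  obtain ⟨Tm, hTm⟩ := h2 hu hbu
  exact ⟨Tp, Tm, hTp, hTm⟩

/-- LEAF L-PLB-2c (the reflection `i ↦ -i` preserves the measure: `MeasurePreserving.setIntegral_preimage_emb`, `Measure.measurePreserving_neg`, `MeasurePreserving.prod`/`skew_product`, or Fubini). -/
theorem mpc_neg_integral (F : ℝ × ℝ → ℝ) (S : Set (ℝ × ℝ)) (hS : MeasurableSet S) :
    ∫ q in S, F q = ∫ p in {p : ℝ × ℝ | (-p.1, p.2) ∈ S}, F (-p.1, p.2) := by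
  have hmp : MeasurePreserving (Prod.map (fun x : ℝ => -x) (id : ℝ → ℝ)) (volume : Measure (ℝ × ℝ)) volume := by
    rw [Measure.volume_eq_prod]
    exact (Measure.measurePreserving_neg (volume : Measure ℝ)).prod (MeasurePreserving.id volume)
  have hemb : MeasurableEmbedding (Prod.map (fun x : ℝ => -x) (id : ℝ → ℝ)) :=
    ((MeasurableEquiv.neg ℝ).prodCongr (MeasurableEquiv.refl ℝ)).measurableEmbedding
  exact (hmp.setIntegral_preimage_emb hemb F S).symm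

/-- strong traces and the reflection -/
theorem mpc_mstr_neg (a : ℝ × ℝ → ℝ) (b : ℝ → ℝ) (hbm : Measurable b) (u₀ sg T : ℝ)
    (h : MStr (fun q => a (-q.1, q.2)) (fun u => - b u) u₀ sg T) : MStr a b u₀ (-sg) T := by
  unfold MStr at h ⊢
  refine h.congr fun ρ => ?_
  congr 1
  rw [mpc_neg_integral (fun q => |a q - T|) _ (mpc_measurableSet_mbx b hbm u₀ ρ ρ (-sg))]
  congr 2
  ext p
  simp only [mbx, mem_setOf_eq]
  have e : -sg * (-p.1 - b p.2) = sg * (p.1 - -b p.2) := by ring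
  rw [e]

end Claimed.Agent.R255
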