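import Claimed.Agent.R255.Plane.Defs
import Claimed.Agent.R255.Plane.CvLeb

/-!
# Row 255, block (B), chapter B, file 3: THE DATA RATE (B5, B7 by bi-Lipschitz pieces)      (architect helper97)

PAPER-FREE, Mathlib only (+ `mbx`, `MStr` of `Plane/Defs`, `mpc_core` of `Plane/CvLeb`).   EXIT: `mpc_data_core` (= statement of `mpc_data`).

Coordinates `p = (s, ϱ) = (u, i + c u)`, `q = Ψ p = (p.2 - c p.1, p.1)`, `a' = a ∘ Ψ`, `g u = b u + c u`.  `a'` is `L¹`-Lipschitz along `(1,0)` on the rectangle `(s₁,s₂) × (ϱ₁,ϱ₂)`.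
The curve is `ϱ = g s`.  On the piece `Q = mpcPc g k j` the function `g` is injective with `(k+1)`-Lipschitz inverse, which extends to `β : ℝ → ℝ` Lipschitz (`mpc_pc_inverse`).
`mpc_core` for `a'` and the curve `s = β ϱ` gives strong traces at a.e. `ϱ₀`; a.e. `u₀ ∈ Q` has `g u₀` good (`mpc_pull_ae`: `{u ∈ Q | g u ∈ N} ⊆ β '' N`), `β` differentiable at `g u₀`, and is an accumulation point of `Q`, so `β'(g u₀) = 1/θ`, `θ = g'(u₀) = c - p`.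
The two curves are tangent at `(u₀, g u₀)`, so the boxes of the one are contained in the boxes of the other up to a thin strip (`mpc_box_incl`), whence `mpc_transfer`.
Leaves `L-PLB-4*`.  Statements frozen (ask helper97).
-/

set_option autoImplicit false

namespace Claimed.Agent.R255

open Filter Topology MeasureTheory Set
open scoped NNReal ENNReal

/-- LEAF L-PLB-4a (the shear `Ψ p = (p.2 - c p.1, p.1)` is a measurable equivalence preserving the measure). -/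
theorem mpc_shear_integral (c : ℝ) (F : ℝ × ℝ → ℝ) (S : Set (ℝ × ℝ)) (hS : MeasurableSet S) :
    ∫ q in S, F q = ∫ p in {p : ℝ × ℝ | (p.2 - c * p.1, p.1) ∈ S}, F (p.2 - c * p.1, p.1) := by
  have hmp : MeasurePreserving (fun p : ℝ × ℝ => ((p.2 - c * p.1, p.1) : ℝ × ℝ)) (volume : Measure (ℝ × ℝ)) volume := by
    have h := mpc_shear_mp (fun u => - c * u) (measurable_id.const_mul (-c)) 1 (Or.inl rfl)
    have e : (fun p : ℝ × ℝ => ((p.2 - c * p.1, p.1) : ℝ × ℝ)) = fun p : ℝ × ℝ => (- c * p.1 + 1 * p.2, p.1) := by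
      funext p
      refine Prod.ext ?_ rfl
      show p.2 - c * p.1 = - c * p.1 + 1 * p.2
      ring
    rw [e]
    exact h
  have hemb : MeasurableEmbedding (fun p : ℝ × ℝ => ((p.2 - c * p.1, p.1) : ℝ × ℝ)) := by
    let e : ℝ × ℝ ≃ᵐ ℝ × ℝ :=
      { toFun := fun p => (p.2 - c * p.1, p.1)
        invFun := fun q => (q.2, q.1 + c * q.2)
        left_inv := fun p => Prod.ext rfl (by show p.2 - c * p.1 + c * p.1 = p.2; ring)
        right_inv := fun q => Prod.ext (by show q.1 + c * q.2 - c * q.2 = q.1; ring) rfl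
        measurable_toFun := (measurable_snd.sub (measurable_fst.const_mul c)).prodMk measurable_fst
        measurable_invFun := measurable_snd.prodMk (measurable_fst.add (measurable_snd.const_mul c)) }
    exact e.measurableEmbedding
  exact (hmp.setIntegral_preimage_emb hemb F S).symm

/-- LEAF L-PLB-4b (Tonelli). -/
theorem mpc_mbx_volume_le (b : ℝ → ℝ) (hbm : Measurable b) (u₀ ρ τ sg : ℝ) (hsg : sg = 1 ∨ sg = -1) (hρ : 0 ≤ ρ) (hτ : 0 ≤ τ) :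
    volume (mbx b u₀ ρ τ sg) ≤ ENNReal.ofReal (2 * ρ * τ) := by
  have hΦ := mpc_shear_mp b hbm sg hsg
  rw [← hΦ.measure_preimage (mpc_measurableSet_mbx b hbm u₀ ρ τ sg).nullMeasurableSet, mpc_shear_preimage b u₀ ρ τ sg hsg,
    Measure.volume_eq_prod, Measure.prod_prod, Real.volume_Ioo, Real.volume_Ioo, ← ENNReal.ofReal_mul (by linarith)]
  apply le_of_eq
  congr 1
  ring

/-- the pieces -/
def mpcPc (g : ℝ → ℝ) (k : ℕ) (j : ℤ) : Set ℝ :=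
  {u | (∀ v : ℝ, |v - u| < 1 / ((k : ℝ) + 1) → |v - u| ≤ ((k : ℝ) + 1) * |g v - g u|) ∧
    u ∈ Icc ((j : ℝ) / (2 * ((k : ℝ) + 1))) (((j : ℝ) + 1) / (2 * ((k : ℝ) + 1)))}

/-- LEAF L-PLB-4c. -/
theorem mpc_pc_of_deriv (g : ℝ → ℝ) (θ u₀ : ℝ) (h : HasDerivAt g θ u₀) (hθ : θ ≠ 0) : ∃ (k : ℕ) (j : ℤ), u₀ ∈ mpcPc g k j := by
  have hθ' : 0 < |θ| := abs_pos.2 hθ
  have h1 := (hasDerivAt_iff_isLittleO.1 h).def (half_pos hθ')
  obtain ⟨δ, hδ, h2⟩ := Metric.eventually_nhds_iff.1 h1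
  obtain ⟨k, hk⟩ := exists_nat_gt (max (1 / δ) (2 / |θ|))
  have hk1 : 1 / δ < (k : ℝ) + 1 := ((le_max_left _ _).trans_lt hk).trans (by linarith)
  have hk2 : 2 / |θ| < (k : ℝ) + 1 := ((le_max_right _ _).trans_lt hk).trans (by linarith)
  have hK : 0 < (k : ℝ) + 1 := by positivity
  refine ⟨k, ⌊u₀ * (2 * ((k : ℝ) + 1))⌋, ?_, ?_, ?_⟩
  · intro v hv
    have hvδ : dist v u₀ < δ := by
      rw [Real.dist_eq]
      refine hv.trans ?_
      rw [div_lt_iff₀ hK]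
      rw [div_lt_iff₀ hδ] at hk1
      linarith
    have h3 := h2 hvδ
    rw [Real.norm_eq_abs, Real.norm_eq_abs, smul_eq_mul] at h3
    have h4 : |θ| * |v - u₀| ≤ |g v - g u₀| + |θ| / 2 * |v - u₀| := by
      have e : (v - u₀) * θ = (g v - g u₀) - (g v - g u₀ - (v - u₀) * θ) := by ring
      have h5 : |(v - u₀) * θ| ≤ |g v - g u₀| + |g v - g u₀ - (v - u₀) * θ| := by
        have := norm_sub_le (g v - g u₀) (g v - g u₀ - (v - u₀) * θ)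
        rw [← e] at this
        exact this
      rw [abs_mul] at h5
      nlinarith
    have h6 : |θ| / 2 * |v - u₀| ≤ |g v - g u₀| := by linarith
    rw [div_lt_iff₀ hθ'] at hk2
    have h7 : 0 ≤ |v - u₀| := abs_nonneg _
    have h8 : 0 ≤ |g v - g u₀| := abs_nonneg _
    calc |v - u₀| = 1 * |v - u₀| := (one_mul _).symm
      _ ≤ (((k : ℝ) + 1) * (|θ| / 2)) * |v - u₀| := mul_le_mul_of_nonneg_right (by linarith) h7
      _ = ((k : ℝ) + 1) * (|θ| / 2 * |v - u₀|) := by ring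
      _ ≤ ((k : ℝ) + 1) * |g v - g u₀| := mul_le_mul_of_nonneg_left h6 hK.le
  · rw [div_le_iff₀ (by positivity)]
    exact Int.floor_le _
  · rw [le_div_iff₀ (by positivity)]
    exact (Int.lt_floor_add_one _).le

/-- LEAF L-PLB-4d (`LipschitzOnWith.extend_real` for `Function.invFunOn g Q` on `g '' Q`). -/
theorem mpc_pc_inverse (g : ℝ → ℝ) (k : ℕ) (j : ℤ) :
    ∃ β : ℝ → ℝ, LipschitzWith ((k : ℝ≥0) + 1) β ∧ ∀ u ∈ mpcPc g k j, β (g u) = u := by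
  have hK : 0 < (k : ℝ) + 1 := by positivity
  have key : ∀ u ∈ mpcPc g k j, ∀ v ∈ mpcPc g k j, |v - u| ≤ ((k : ℝ) + 1) * |g v - g u| := by
    intro u hu v hv
    refine hu.1 v ?_
    have h1 := hu.2
    have h2 := hv.2
    have e : ((j : ℝ) + 1) / (2 * ((k : ℝ) + 1)) = (j : ℝ) / (2 * ((k : ℝ) + 1)) + 1 / (2 * ((k : ℝ) + 1)) := by
      rw [add_div]
    rw [e] at h1 h2
    have h3 : 1 / (2 * ((k : ℝ) + 1)) < 1 / ((k : ℝ) + 1) := by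
      apply one_div_lt_one_div_of_lt hK
      linarith
    rw [abs_lt]
    constructor <;> linarith [h1.1, h1.2, h2.1, h2.2]
  have hinj : InjOn g (mpcPc g k j) := by
    intro u hu v hv huv
    have := key u hu v hv
    rw [huv, sub_self, abs_zero, mul_zero] at this
    have h2 : |v - u| = 0 := le_antisymm this (abs_nonneg _)
    have := abs_eq_zero.1 h2
    linarith
  have hleft : ∀ u ∈ mpcPc g k j, Function.invFunOn g (mpcPc g k j) (g u) = u := fun u hu =>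
    hinj.leftInvOn_invFunOn hu
  have hL : LipschitzOnWith ((k : ℝ≥0) + 1) (Function.invFunOn g (mpcPc g k j)) (g '' mpcPc g k j) := by
    refine LipschitzOnWith.of_dist_le_mul ?_
    rintro _ ⟨u, hu, rfl⟩ _ ⟨v, hv, rfl⟩
    rw [hleft u hu, hleft v hv, Real.dist_eq, Real.dist_eq]
    have := key v hv u hu
    simpa using this
  obtain ⟨β, hβ, hβe⟩ := hL.extend_real
  refine ⟨β, hβ, fun u hu => ?_⟩
  rw [← hβe (mem_image_of_mem g hu), hleft u hu]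

/-- LEAF L-PLB-4e (`LipschitzWith.hausdorffMeasure_image_le`, `hausdorffMeasure_real`). -/
theorem mpc_lip_null (β : ℝ → ℝ) (K : ℝ≥0) (hβ : LipschitzWith K β) (N : Set ℝ) (hN : volume N = 0) : volume (β '' N) = 0 := by
  have h := hβ.hausdorffMeasure_image_le (d := 1) zero_le_one N
  rw [hausdorffMeasure_real, hN, mul_zero] at h
  exact le_antisymm h zero_le

/-- LEAF L-PLB-4f (the isolated points of a set of reals are countable). -/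
theorem mpc_ae_accPt (Q : Set ℝ) : ∀ᵐ u : ℝ, u ∈ Q → AccPt u (𝓟 Q) := by
  rw [ae_iff]
  refine Set.Countable.measure_zero ?_ _
  obtain ⟨I, hI⟩ : ∃ I : Set ℝ, I = {u | ¬ (u ∈ Q → AccPt u (𝓟 Q))} := ⟨_, rfl⟩
  rw [← hI]
  have hd : DiscreteTopology I := by
    rw [discreteTopology_subtype_iff]
    intro x hx
    rw [hI] at hx
    simp only [mem_ofPred_eq, Classical.not_imp] at hx
    have h1 : 𝓝[≠] x ⊓ 𝓟 Q = ⊥ := by
      have := hx.2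
      unfold AccPt at this
      exact not_neBot.1 this
    have hIQ : I ⊆ Q := by
      intro y hy
      rw [hI] at hy
      simp only [mem_ofPred_eq, Classical.not_imp] at hy
      exact hy.1
    exact le_bot_iff.1 (h1 ▸ inf_le_inf_left _ (principal_mono.2 hIQ))
  have : Countable I := countable_of_Lindelof_of_discrete
  exact Set.countable_coe_iff.1 this

theorem mpc_pull_ae (g β : ℝ → ℝ) (K : ℝ≥0) (hβ : LipschitzWith K β) (Q : Set ℝ) (hQ : ∀ u ∈ Q, β (g u) = u) (P : ℝ → Prop)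
    (hP : ∀ᵐ r : ℝ, P r) : ∀ᵐ u : ℝ, u ∈ Q → P (g u) := by
  have h0 := mpc_lip_null β K hβ {r | ¬ P r} (ae_iff.1 hP)
  rw [ae_iff]
  refine measure_mono_null ?_ h0
  intro u hu
  simp only [mem_setOf_eq, Classical.not_imp] at hu
  exact ⟨g u, hu.2, hQ u hu.1⟩

theorem mpc_deriv_inverse (g β : ℝ → ℝ) (Q : Set ℝ) (hQ : ∀ u ∈ Q, β (g u) = u) (u₀ θ : ℝ) (hu₀ : u₀ ∈ Q) (hg : HasDerivAt g θ u₀)
    (hβ : DifferentiableAt ℝ β (g u₀)) (hacc : AccPt u₀ (𝓟 Q)) : HasDerivAt β θ⁻¹ (g u₀) := by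
  have h1 : HasDerivAt (β ∘ g) (deriv β (g u₀) * θ) u₀ := hβ.hasDerivAt.comp u₀ hg
  have h2 : HasDerivWithinAt (fun u : ℝ => u) (deriv β (g u₀) * θ) Q u₀ :=
    h1.hasDerivWithinAt.congr (fun u hu => (hQ u hu).symm) (hQ u₀ hu₀).symm
  have h3 : HasDerivWithinAt (fun u : ℝ => u) 1 Q u₀ := (hasDerivAt_id' u₀).hasDerivWithinAt
  have h4 : deriv β (g u₀) * θ = 1 := (uniqueDiffWithinAt_iff_accPt.2 hacc).eq_deriv Q h2 h3
  have h5 : deriv β (g u₀) = θ⁻¹ := eq_inv_of_mul_eq_one_left h4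
  rw [← h5]
  exact hβ.hasDerivAt

/-- LEAF L-PLB-4g (tangency: with `r_g(s) = g s - g u₀ - θ (s - u₀)`, `r_β(ϱ) = β ϱ - u₀ - θ⁻¹ (ϱ - g u₀)`:
`η (s - β ϱ) = |θ|⁻¹ sg (ϱ - g s) - η θ⁻¹ r_g(s) - η r_β(ϱ)`, `|r_g s| ≤ δ ρ`, `|r_β ϱ| ≤ δ (1 + Lg) ρ`, `|ϱ - g u₀| < (1 + Lg) ρ`). -/
theorem mpc_box_incl (g β : ℝ → ℝ) (Lg : ℝ≥0) (hgL : LipschitzWith Lg g) (u₀ θ : ℝ) (hθ : θ ≠ 0) (hg : HasDerivAt g θ u₀)
    (hβ : HasDerivAt β θ⁻¹ (g u₀)) (hβu : β (g u₀) = u₀) (sg η : ℝ) (hsg : sg = 1 ∨ sg = -1) (hη : η = 1 ∨ η = -1)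
    (hs : η * sg * θ < 0) (ε : ℝ) (hε : 0 < ε) :
    ∀ᶠ ρ : ℝ in 𝓝[>] 0, ∀ s r : ℝ, |s - u₀| < ρ → ε * ρ ≤ sg * (r - g s) → sg * (r - g s) < ρ →
      ((s, r) : ℝ × ℝ) ∈ mbx β (g u₀) ((1 + Lg + 2 * |θ|⁻¹) * ρ) ((1 + Lg + 2 * |θ|⁻¹) * ρ) η := by
  obtain ⟨A, hAdef⟩ : ∃ A : ℝ, A = |θ|⁻¹ := ⟨_, rfl⟩
  have hA : 0 < A := by rw [hAdef]; exact inv_pos.2 (abs_pos.2 hθ)
  have hL : (0 : ℝ) ≤ Lg := Lg.2
  obtain ⟨M, hMdef⟩ : ∃ M : ℝ, M = A + 1 + Lg := ⟨_, rfl⟩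
  have hM : 0 < M := by rw [hMdef]; linarith
  obtain ⟨δ, hδdef⟩ : ∃ δ : ℝ, δ = min ε 1 * A / (2 * M) := ⟨_, rfl⟩
  have hmin : 0 < min ε 1 := lt_min hε one_pos
  have hδ : 0 < δ := by rw [hδdef]; positivity
  have hδM : δ * M = min ε 1 * A / 2 := by rw [hδdef]; field_simp
  have hδM1 : δ * M < ε * A := by
    rw [hδM]
    have : min ε 1 * A ≤ ε * A := mul_le_mul_of_nonneg_right (min_le_left _ _) hA.le
    have h2 : 0 < min ε 1 * A := mul_pos hmin hA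
    linarith
  have hδM2 : δ * M ≤ A := by
    rw [hδM]
    have : min ε 1 * A ≤ 1 * A := mul_le_mul_of_nonneg_right (min_le_right _ _) hA.le
    linarith
  -- sign
  have hsign : -η * θ⁻¹ = sg * A := by
    rw [hAdef]
    rcases hsg with rfl | rfl <;> rcases hη with rfl | rfl
    · have : θ < 0 := by linarith
      rw [abs_of_neg this, inv_neg]; ring
    · have : 0 < θ := by linarith
      rw [abs_of_pos this]; try ring
    · have : 0 < θ := by linarith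
      rw [abs_of_pos this]; try ring
    · have : θ < 0 := by linarith
      rw [abs_of_neg this, inv_neg]; ring
  have hηabs : |η| = 1 := by rcases hη with rfl | rfl <;> simp
  have hsgabs : |sg| = 1 := by rcases hsg with rfl | rfl <;> simp
  have h1 := (hasDerivAt_iff_isLittleO.1 hg).def hδ
  have h2 := (hasDerivAt_iff_isLittleO.1 hβ).def hδ
  obtain ⟨r1, hr1, H1⟩ := Metric.eventually_nhds_iff.1 h1
  obtain ⟨r2, hr2, H2⟩ := Metric.eventually_nhds_iff.1 h2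
  have hpos : 0 < min r1 (r2 / (1 + Lg)) := lt_min hr1 (div_pos hr2 (by linarith))
  filter_upwards [Ioo_mem_nhdsGT hpos] with ρ hρ s r hs1 hs2 hs3
  have hρ0 : 0 < ρ := hρ.1
  have hρ1 : ρ < r1 := lt_of_lt_of_le hρ.2 (min_le_left _ _)
  have hρ2 : (1 + Lg) * ρ < r2 := by
    have := lt_of_lt_of_le hρ.2 (min_le_right _ _)
    rw [lt_div_iff₀ (by linarith)] at this
    linarith
  have hgs : |g s - g u₀| ≤ Lg * |s - u₀| := by
    have := hgL.dist_le_mul s u₀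
    rwa [Real.dist_eq, Real.dist_eq] at this
  have hrgs : |r - g s| < ρ := by
    have : |sg * (r - g s)| = |r - g s| := by rw [abs_mul, hsgabs, one_mul]
    rw [← this, abs_lt]
    constructor
    · have : 0 < ε * ρ := mul_pos hε hρ0
      linarith
    · exact hs3
  have hr0 : |r - g u₀| < (1 + Lg) * ρ := by
    have e : r - g u₀ = (r - g s) + (g s - g u₀) := by ring
    have h3 : |r - g u₀| ≤ |r - g s| + |g s - g u₀| := by rw [e]; exact abs_add_le _ _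
    have h4 : (Lg : ℝ) * |s - u₀| ≤ Lg * ρ := mul_le_mul_of_nonneg_left hs1.le hL
    linarith
  have E1 : |g s - g u₀ - (s - u₀) * θ| ≤ δ * ρ := by
    have := H1 (y := s) (by rw [Real.dist_eq]; linarith)
    simp only [smul_eq_mul, Real.norm_eq_abs] at this
    exact this.trans (mul_le_mul_of_nonneg_left hs1.le hδ.le)
  have E2 : |β r - u₀ - (r - g u₀) * θ⁻¹| ≤ δ * ((1 + Lg) * ρ) := by
    have := H2 (y := r) (by rw [Real.dist_eq]; linarith)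
    simp only [smul_eq_mul, Real.norm_eq_abs, hβu] at this
    exact this.trans (mul_le_mul_of_nonneg_left hr0.le hδ.le)
  obtain ⟨rg, hrg⟩ : ∃ rg : ℝ, rg = g s - g u₀ - (s - u₀) * θ := ⟨_, rfl⟩
  obtain ⟨rb, hrb⟩ : ∃ rb : ℝ, rb = β r - u₀ - (r - g u₀) * θ⁻¹ := ⟨_, rfl⟩
  rw [← hrg] at E1
  rw [← hrb] at E2
  have key : η * (s - β r) = A * (sg * (r - g s)) + sg * A * rg - η * rb := by
    have e1 : s - β r = -θ⁻¹ * (r - g s) - θ⁻¹ * rg - rb := by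
      rw [hrg, hrb]
      field_simp
      ring
    rw [e1]
    have e2 : η * (-θ⁻¹ * (r - g s) - θ⁻¹ * rg - rb) = (-η * θ⁻¹) * (r - g s) + (-η * θ⁻¹) * rg - η * rb := by ring
    rw [e2, hsign]
    ring
  have B1 : |sg * A * rg| ≤ A * (δ * ρ) := by
    rw [abs_mul, abs_mul, hsgabs, one_mul, abs_of_pos hA]
    exact mul_le_mul_of_nonneg_left E1 hA.le
  have B2 : |η * rb| ≤ δ * ((1 + Lg) * ρ) := by
    rw [abs_mul, hηabs, one_mul]
    exact E2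
  have hsum : A * (δ * ρ) + δ * ((1 + Lg) * ρ) = δ * M * ρ := by rw [hMdef]; ring
  have B1' := abs_le.1 B1
  have B2' := abs_le.1 B2
  refine ⟨?_, ?_, ?_⟩
  · show |r - g u₀| < (1 + Lg + 2 * |θ|⁻¹) * ρ
    rw [← hAdef]
    have : 0 < 2 * A * ρ := by positivity
    linarith
  · show 0 < η * (s - β r)
    rw [key]
    have h5 : A * (ε * ρ) ≤ A * (sg * (r - g s)) := mul_le_mul_of_nonneg_left hs2 hA.le
    have h6 : δ * M * ρ < ε * A * ρ := mul_lt_mul_of_pos_right hδM1 hρ0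
    linarith [B1'.1, B2'.2]
  · show η * (s - β r) < (1 + Lg + 2 * |θ|⁻¹) * ρ
    rw [key, ← hAdef]
    have h5 : A * (sg * (r - g s)) < A * ρ := mul_lt_mul_of_pos_left hs3 hA
    have h6 : δ * M * ρ ≤ A * ρ := mul_le_mul_of_nonneg_right hδM2 hρ0.le
    have h7 : 0 ≤ (1 + Lg) * ρ := by positivity
    linarith [B1'.2, B2'.1]

theorem mpc_intOn_fin (F : ℝ × ℝ → ℝ) (hF : Measurable F) (B : ℝ) (hB : ∀ q, |F q| ≤ B) (S : Set (ℝ × ℝ)) (hS : volume S ≠ ⊤) :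
    IntegrableOn F S volume :=
  Measure.integrableOn_of_bounded hS hF.aestronglyMeasurable (Eventually.of_forall fun q => by
    rw [Real.norm_eq_abs]
    exact hB q)

/-- LEAF L-PLB-4h (transfer of a strong trace from the curve `s = β ϱ` to the curve `i = b u`; `K = 1 + Lg + 2 |θ|⁻¹`, `Lg = Lb + |c|`.
Given `ε`: `mbx b u₀ ρ ρ sg ⊆ mbx b u₀ ρ (ε ρ) sg ∪ R`, `∫_{mbx b u₀ ρ (ερ) sg} |a - T| ≤ (Mb + |T|) 2 ρ ε ρ` (`mpc_mbx_volume_le`), `∫_R |a - T| = ∫_{Ψ⁻¹ R} |a' - T|` (`mpc_shear_integral`)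
`≤ ∫_{mbx β (g u₀) (Kρ) (Kρ) η} |a' - T|` (`mpc_box_incl`, `setIntegral_mono_set`) `= K² ρ² o(1)`). -/
theorem mpc_transfer (a : ℝ × ℝ → ℝ) (ha : Measurable a) (Mb : ℝ) (hb : ∀ q, |a q| ≤ Mb) (c : ℝ) (b : ℝ → ℝ) (Lb : ℝ≥0)
    (hbL : LipschitzWith Lb b) (β : ℝ → ℝ) (hβc : Continuous β) (u₀ θ : ℝ) (hθ : θ ≠ 0)
    (hg : HasDerivAt (fun u => b u + c * u) θ u₀) (hβ : HasDerivAt β θ⁻¹ (b u₀ + c * u₀)) (hβu : β (b u₀ + c * u₀) = u₀)
    (sg η : ℝ) (hsg : sg = 1 ∨ sg = -1) (hη : η = 1 ∨ η = -1) (hs : η * sg * θ < 0) (T : ℝ)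
    (h : MStr (fun p : ℝ × ℝ => a (p.2 - c * p.1, p.1)) β (b u₀ + c * u₀) η T) : MStr a b u₀ sg T := by
  classical
  obtain ⟨g, hgdef⟩ : ∃ g : ℝ → ℝ, g = fun u => b u + c * u := ⟨_, rfl⟩
  have hgu : b u₀ + c * u₀ = g u₀ := by rw [hgdef]
  have hgs : ∀ s, b s + c * s = g s := fun s => by rw [hgdef]
  have hcL : LipschitzWith ‖c‖₊ fun u : ℝ => c * u := LipschitzWith.of_dist_le_mul fun x y => by
    rw [Real.dist_eq, Real.dist_eq, ← mul_sub, abs_mul]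
    simp
  have hgL : LipschitzWith (Lb + ‖c‖₊) g := by
    rw [hgdef]
    exact hbL.add hcL
  rw [← hgdef] at hg
  rw [hgu] at hβ hβu h
  obtain ⟨K, hKdef⟩ : ∃ K : ℝ, K = 1 + ((Lb + ‖c‖₊ : ℝ≥0) : ℝ) + 2 * |θ|⁻¹ := ⟨_, rfl⟩
  have hK : 0 < K := by
    rw [hKdef]
    have h1 : (0 : ℝ) ≤ ((Lb + ‖c‖₊ : ℝ≥0) : ℝ) := NNReal.coe_nonneg _
    have h2 : (0 : ℝ) ≤ 2 * |θ|⁻¹ := by positivity
    linarith
  obtain ⟨B, hBdef⟩ : ∃ B : ℝ, B = Mb + |T| := ⟨_, rfl⟩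
  have hFm : Measurable fun q : ℝ × ℝ => |a q - T| := (ha.sub_const T).abs
  have hFB : ∀ q : ℝ × ℝ, |(|a q - T|)| ≤ B := fun q => by
    rw [abs_abs, hBdef]
    exact (abs_sub _ _).trans (add_le_add_left (hb q) _)
  have hB0 : 0 ≤ B := (abs_nonneg _).trans (hFB (0, 0))
  have ha'm : Measurable fun p : ℝ × ℝ => |a (p.2 - c * p.1, p.1) - T| :=
    hFm.comp ((measurable_snd.sub (measurable_fst.const_mul c)).prodMk measurable_fst)
  have ha'B : ∀ p : ℝ × ℝ, |(|a (p.2 - c * p.1, p.1) - T|)| ≤ B := fun p => hFB _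
  unfold MStr at h ⊢
  have hcomp : Tendsto (fun ρ : ℝ => K ^ 2 * (((K * ρ) ^ 2)⁻¹ *
      ∫ p in mbx β (g u₀) (K * ρ) (K * ρ) η, |a (p.2 - c * p.1, p.1) - T|)) (𝓝[>] 0) (𝓝 0) := by
    have h1 : Tendsto (fun ρ : ℝ => K * ρ) (𝓝[>] 0) (𝓝[>] 0) := by
      refine tendsto_nhdsWithin_iff.2 ⟨?_, eventually_mem_nhdsWithin.mono fun ρ hρ => mul_pos hK hρ⟩
      exact ((continuous_const.mul continuous_id).tendsto' 0 0 (by simp)).mono_left nhdsWithin_le_nhds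
    have h2 := (h.comp h1).const_mul (K ^ 2)
    simpa using h2
  refine tendsto_order.2 ⟨fun x hx => Eventually.of_forall fun ρ => lt_of_lt_of_le hx
    (mul_nonneg (inv_nonneg.2 (sq_nonneg ρ)) (integral_nonneg fun q => abs_nonneg _)), fun e he => ?_⟩
  obtain ⟨ε, hεdef⟩ : ∃ ε : ℝ, ε = e / (4 * (B + 1)) := ⟨_, rfl⟩
  have hε : 0 < ε := by rw [hεdef]; positivity
  have hεB : 2 * ε * B ≤ e / 2 := by
    have h1 : 0 < B + 1 := by linarith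
    have h2 : 2 * (e / (4 * (B + 1))) * B = e / 2 * (B / (B + 1)) := by
      field_simp
      ring
    have h3 : B / (B + 1) ≤ 1 := by
      rw [div_le_one h1]
      linarith
    rw [hεdef, h2]
    nlinarith [mul_nonneg he.le hB0]
  have hincl := mpc_box_incl g β (Lb + ‖c‖₊) hgL u₀ θ hθ hg hβ hβu sg η hsg hη hs ε hε
  rw [← hKdef] at hincl
  have hsmall := (tendsto_order.1 hcomp).2 (e / 2) (half_pos he)
  filter_upwards [hincl, hsmall, self_mem_nhdsWithin] with ρ h1 h2 hρ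
  replace hρ : 0 < ρ := hρ
  have hbm : Measurable b := hbL.continuous.measurable
  -- the three sets
  obtain ⟨R, hRdef⟩ : ∃ R : Set (ℝ × ℝ), R = {q : ℝ × ℝ | |q.2 - u₀| < ρ ∧ ε * ρ ≤ sg * (q.1 - b q.2) ∧
      sg * (q.1 - b q.2) < ρ} := ⟨_, rfl⟩
  have hRm : MeasurableSet R := by
    rw [hRdef]
    have m1 : Measurable fun q : ℝ × ℝ => sg * (q.1 - b q.2) :=
      (measurable_fst.sub (hbm.comp measurable_snd)).const_mul sg
    have m2 : Measurable fun q : ℝ × ℝ => |q.2 - u₀| := (measurable_snd.sub_const u₀).abs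
    exact (measurableSet_lt m2 measurable_const).inter
      ((measurableSet_le measurable_const m1).inter (measurableSet_lt m1 measurable_const))
  have hερ : 0 < ε * ρ := mul_pos hε hρ
  have hRsub : R ⊆ mbx b u₀ ρ ρ sg := by
    rw [hRdef]
    intro q hq
    exact ⟨hq.1, lt_of_lt_of_le hερ hq.2.1, hq.2.2⟩
  have hvol : ∀ τ : ℝ, 0 ≤ τ → volume (mbx b u₀ ρ τ sg) ≠ ⊤ := fun τ hτ =>
    ne_top_of_le_ne_top ENNReal.ofReal_ne_top (mpc_mbx_volume_le b hbm u₀ ρ τ sg hsg hρ.le hτ)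
  have hiA : IntegrableOn (fun q : ℝ × ℝ => |a q - T|) (mbx b u₀ ρ (ε * ρ) sg) volume :=
    mpc_intOn_fin _ hFm B hFB _ (hvol _ hερ.le)
  have hiR : IntegrableOn (fun q : ℝ × ℝ => |a q - T|) R volume :=
    mpc_intOn_fin _ hFm B hFB _ (ne_top_of_le_ne_top (hvol _ hρ.le) (measure_mono hRsub))
  have hdisj : Disjoint (mbx b u₀ ρ (ε * ρ) sg) R := by
    rw [Set.disjoint_left, hRdef]
    intro q hq hq'
    exact absurd hq.2.2 (not_lt.2 hq'.2.1)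
  have hcov : mbx b u₀ ρ ρ sg ⊆ mbx b u₀ ρ (ε * ρ) sg ∪ R := by
    intro q hq
    by_cases hlt : sg * (q.1 - b q.2) < ε * ρ
    · exact Or.inl ⟨hq.1, hq.2.1, hlt⟩
    · right
      rw [hRdef]
      exact ⟨hq.1, not_lt.1 hlt, hq.2.2⟩
  have s1 : ∫ q in mbx b u₀ ρ ρ sg, |a q - T| ≤
      (∫ q in mbx b u₀ ρ (ε * ρ) sg, |a q - T|) + ∫ q in R, |a q - T| := by
    rw [← setIntegral_union hdisj hRm hiA hiR]
    exact setIntegral_mono_set (hiA.union hiR) (Eventually.of_forall fun q => abs_nonneg _)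
      (LE.le.eventuallyLE hcov)
  have s2 : ∫ q in mbx b u₀ ρ (ε * ρ) sg, |a q - T| ≤ B * (2 * ρ * (ε * ρ)) := by
    have t1 := norm_setIntegral_le_of_norm_le_const (μ := volume) (f := fun q : ℝ × ℝ => |a q - T|)
      (lt_top_iff_ne_top.2 (hvol _ hερ.le)) (C := B) fun q _ => by
        rw [Real.norm_eq_abs]
        exact hFB q
    have t2 : volume.real (mbx b u₀ ρ (ε * ρ) sg) ≤ 2 * ρ * (ε * ρ) :=
      ENNReal.toReal_le_of_le_ofReal (by positivity) (mpc_mbx_volume_le b hbm u₀ ρ _ sg hsg hρ.le hερ.le)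
    exact (le_abs_self _).trans (t1.trans (mul_le_mul_of_nonneg_left t2 hB0))
  have hKρ : 0 < K * ρ := mul_pos hK hρ
  have s3 : ∫ q in R, |a q - T| ≤
      ∫ p in mbx β (g u₀) (K * ρ) (K * ρ) η, |a (p.2 - c * p.1, p.1) - T| := by
    rw [mpc_shear_integral c (fun q => |a q - T|) R hRm]
    refine setIntegral_mono_set (mpc_intOn_fin _ ha'm B ha'B _ (ne_top_of_le_ne_top ENNReal.ofReal_ne_top
      (mpc_mbx_volume_le β hβc.measurable (g u₀) (K * ρ) (K * ρ) η hη hKρ.le hKρ.le)))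
      (Eventually.of_forall fun q => abs_nonneg _) (LE.le.eventuallyLE ?_)
    rintro ⟨s, r⟩ hp
    rw [hRdef] at hp
    obtain ⟨p1, p2, p3⟩ := hp
    simp only at p1 p2 p3
    have e1 : r - c * s - b s = r - g s := by rw [← hgs s]; ring
    rw [e1] at p2 p3
    exact h1 s r p1 p2 p3
  have e2 : K ^ 2 * (((K * ρ) ^ 2)⁻¹ * ∫ p in mbx β (g u₀) (K * ρ) (K * ρ) η, |a (p.2 - c * p.1, p.1) - T|) =
      (ρ ^ 2)⁻¹ * ∫ p in mbx β (g u₀) (K * ρ) (K * ρ) η, |a (p.2 - c * p.1, p.1) - T| := by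
    rw [← mul_assoc]
    congr 1
    field_simp
  rw [e2] at h2
  have hρ2 : 0 < (ρ ^ 2)⁻¹ := by positivity
  calc (ρ ^ 2)⁻¹ * ∫ q in mbx b u₀ ρ ρ sg, |a q - T|
      ≤ (ρ ^ 2)⁻¹ * (B * (2 * ρ * (ε * ρ)) +
          ∫ p in mbx β (g u₀) (K * ρ) (K * ρ) η, |a (p.2 - c * p.1, p.1) - T|) :=
        mul_le_mul_of_nonneg_left (s1.trans (add_le_add s2 s3)) hρ2.le
    _ = 2 * ε * B + (ρ ^ 2)⁻¹ * ∫ p in mbx β (g u₀) (K * ρ) (K * ρ) η, |a (p.2 - c * p.1, p.1) - T| := by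
        rw [mul_add]
        congr 1
        field_simp
    _ < e := by linarith

/-- **the data rate** (glue). -/
theorem mpc_data_core (a : ℝ × ℝ → ℝ) (ha : Measurable a) (Mb : ℝ) (hb : ∀ q, |a q| ≤ Mb) (c : ℝ) (b : ℝ → ℝ) (Lb : ℝ≥0)
    (hbL : LipschitzWith Lb b) (s₁ s₂ ϱ₁ ϱ₂ C σ₀ : ℝ) (hσ : 0 < σ₀)
    (hH : ∀ σ : ℝ, 0 < σ → σ < σ₀ →
      ∫ q in {q : ℝ × ℝ | q.2 ∈ Ioo s₁ s₂ ∧ q.1 + c * q.2 ∈ Ioo ϱ₁ ϱ₂}, |a (q + σ • ((-c, 1) : ℝ × ℝ)) - a q| ≤ C * σ)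
    (hcurve : ∀ u ∈ Ioo s₁ s₂, b u + c * u ∈ Ioo ϱ₁ ϱ₂) :
    ∀ᵐ u₀ : ℝ, u₀ ∈ Ioo s₁ s₂ → ∀ p : ℝ, HasDerivAt b (-p) u₀ → p ≠ c →
      ∃ Tp Tm : ℝ, MStr a b u₀ 1 Tp ∧ MStr a b u₀ (-1) Tm := by
  classical
  obtain ⟨g, hgdef⟩ : ∃ g : ℝ → ℝ, g = fun u => b u + c * u := ⟨_, rfl⟩
  obtain ⟨a', ha'def⟩ : ∃ a' : ℝ × ℝ → ℝ, a' = fun p => a (p.2 - c * p.1, p.1) := ⟨_, rfl⟩
  have ha'm : Measurable a' := by
    rw [ha'def]
    exact ha.comp ((measurable_snd.sub (measurable_fst.const_mul c)).prodMk measurable_fst)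
  have ha'b : ∀ p, |a' p| ≤ Mb := fun p => by rw [ha'def]; exact hb _
  have hSm : MeasurableSet {q : ℝ × ℝ | q.2 ∈ Ioo s₁ s₂ ∧ q.1 + c * q.2 ∈ Ioo ϱ₁ ϱ₂} :=
    (measurableSet_Ioo.preimage measurable_snd).inter
      (measurableSet_Ioo.preimage (measurable_fst.add (measurable_snd.const_mul c)))
  have hH' : ∀ σ : ℝ, 0 < σ → σ < σ₀ → ∫ q in Ioo s₁ s₂ ×ˢ Ioo ϱ₁ ϱ₂, |a' (q + σ • ((1, 0) : ℝ × ℝ)) - a' q| ≤ C * σ := by
    intro σ h0 h1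
    refine le_trans (le_of_eq ?_) (hH σ h0 h1)
    rw [mpc_shear_integral c (fun q => |a (q + σ • ((-c, 1) : ℝ × ℝ)) - a q|) _ hSm]
    have hset : {p : ℝ × ℝ | ((p.2 - c * p.1, p.1) : ℝ × ℝ) ∈ {q : ℝ × ℝ | q.2 ∈ Ioo s₁ s₂ ∧ q.1 + c * q.2 ∈ Ioo ϱ₁ ϱ₂}}
        = Ioo s₁ s₂ ×ˢ Ioo ϱ₁ ϱ₂ := by
      ext p
      simp only [mem_setOf_eq, mem_prod, sub_add_cancel]
    rw [hset]
    refine setIntegral_congr_fun (measurableSet_Ioo.prod measurableSet_Ioo) fun p _ => ?_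
    have e : (((p + σ • ((1, 0) : ℝ × ℝ)).2 - c * (p + σ • ((1, 0) : ℝ × ℝ)).1, (p + σ • ((1, 0) : ℝ × ℝ)).1) : ℝ × ℝ)
        = (p.2 - c * p.1, p.1) + σ • ((-c, 1) : ℝ × ℝ) := by
      ext
      · simp; ring
      · simp
    simp only [ha'def, e]
  choose β hβL hβQ using fun kj : ℕ × ℤ => mpc_pc_inverse g kj.1 kj.2
  have hA : ∀ kj : ℕ × ℤ, ∀ᵐ u : ℝ, u ∈ mpcPc g kj.1 kj.2 → (g u ∈ Ioo ϱ₁ ϱ₂ → β kj (g u) ∈ Ioo s₁ s₂ →
      ∃ Tp Tm : ℝ, MStr a' (β kj) (g u) 1 Tp ∧ MStr a' (β kj) (g u) (-1) Tm) := fun kj =>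
    mpc_pull_ae g (β kj) _ (hβL kj) _ (hβQ kj) _
      (mpc_core a' ha'm Mb ha'b (β kj) (hβL kj).continuous s₁ s₂ ϱ₁ ϱ₂ C σ₀ hσ hH')
  have hB : ∀ kj : ℕ × ℤ, ∀ᵐ u : ℝ, u ∈ mpcPc g kj.1 kj.2 → DifferentiableAt ℝ (β kj) (g u) := fun kj =>
    mpc_pull_ae g (β kj) _ (hβL kj) _ (hβQ kj) _ (hβL kj).ae_differentiableAt
  have hC : ∀ kj : ℕ × ℤ, ∀ᵐ u : ℝ, u ∈ mpcPc g kj.1 kj.2 → AccPt u (𝓟 (mpcPc g kj.1 kj.2)) := fun kj => mpc_ae_accPt _
  filter_upwards [ae_all_iff.2 hA, ae_all_iff.2 hB, ae_all_iff.2 hC] with u₀ hA₀ hB₀ hC₀ hu₀ p hp hpc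
  have hθ : c - p ≠ 0 := sub_ne_zero.2 (Ne.symm hpc)
  have hg : HasDerivAt g (c - p) u₀ := by
    rw [hgdef]
    have := hp.add ((hasDerivAt_id' u₀).const_mul c)
    have e : c - p = -p + c * 1 := by ring
    rw [e]
    exact this
  obtain ⟨k, j, hkj⟩ := mpc_pc_of_deriv g (c - p) u₀ hg hθ
  have hβu : β (k, j) (g u₀) = u₀ := hβQ (k, j) u₀ hkj
  have hgu : g u₀ = b u₀ + c * u₀ := by rw [hgdef]
  obtain ⟨Tp, Tm, hTp, hTm⟩ := hA₀ (k, j) hkj (by rw [hgu]; exact hcurve u₀ hu₀) (by rw [hβu]; exact hu₀)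
  have hβd : HasDerivAt (β (k, j)) (c - p)⁻¹ (g u₀) :=
    mpc_deriv_inverse g (β (k, j)) _ (hβQ (k, j)) u₀ (c - p) hkj hg (hB₀ (k, j) hkj) (hC₀ (k, j) hkj)
  rw [hgu] at hβd hβu hTp hTm
  rw [hgdef] at hg
  rw [ha'def] at hTp hTm
  have tr := fun (sg η : ℝ) (hsg : sg = 1 ∨ sg = -1) (hη : η = 1 ∨ η = -1) (hs : η * sg * (c - p) < 0) (T : ℝ) =>
    mpc_transfer a ha Mb hb c b Lb hbL (β (k, j)) (hβL (k, j)).continuous u₀ (c - p) hθ hg hβd hβu sg η hsg hη hs T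
  rcases lt_or_gt_of_ne hθ with hneg | hpos
  · exact ⟨Tp, Tm, tr 1 1 (Or.inl rfl) (Or.inl rfl) (by linarith) Tp hTp,
      tr (-1) (-1) (Or.inr rfl) (Or.inr rfl) (by linarith) Tm hTm⟩
  · exact ⟨Tm, Tp, tr 1 (-1) (Or.inl rfl) (Or.inr rfl) (by linarith) Tm hTm,
      tr (-1) 1 (Or.inr rfl) (Or.inl rfl) (by linarith) Tp hTp⟩

end Claimed.Agent.R255
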