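-- KEEP
import Claimed.Agent.R255.Plane.Defs
import Claimed.Agent.R255.Plane.CvLeb
import Claimed.Agent.R255.Plane.CvData

/-!
# Row 255, block (B), CHAPTER B = Lemma 6.3 (transverse strong traces on a Lipschitz curve)      (architect helper7)

IMPLEMENTATION (helper97): `Plane/CvOne` (B1, averaged one-sided limits), `Plane/CvLeb` (B2-B4, `mpc_core`), `Plane/CvData` (B5, B7 via bi-Lipschitz pieces instead of B6); both exits below are PROVED from these files.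
PAPER-FREE, Mathlib only.  EXITS: `mpc_data` (field BV along `(-c,1)`, curve transverse: `p ≠ c`), `mpc_label` (field BV along `∂_i`).
"BV along `V`" is the translation bound `∫ |a(q + σ V) - a q| ≤ C σ`.  No measures, no slicing formula, no variation integrals: only
(ESS) for a.e. line the slice has ESSENTIAL one-sided limits at every point.

PLAN.
B1 ONE-DIM. `φ : ℝ → ℝ` bounded measurable, `liminf_k k ∫_{s₁}^{s₂} |φ(s+1/k) - φ s| ds < ∞` ⟹ at every `s₀ ∈ (s₁,s₂)` there are `T₊, T₋` with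
   `EssLim`: `∀ ε ∃ τ, ∀ᵐ s ∈ (s₀, s₀+τ), |φ s - T₊| < ε` (same on the left).   Proof: `φ_k(s) = k ∫_s^{s+1/k} φ` is Lipschitz with a.e. derivative `k(φ(s+1/k) - φ s)`, so
   `eVariationOn φ_k [s₁',s₂'] ≤ k ∫ |φ(s+1/k)-φ s|`; `φ_k → φ` on the full-measure set `G` of right Lebesgue points; lower semicontinuity (`eVariationOn.lowerSemicontinuous_aux` style) gives
   finite variation of `φ` on `G ∩ [s₁',s₂']`; difference of two monotone functions on `G` ⟹ one-sided limits along `G`; `G` is conull.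
B2 ESS. `a(s,ϱ)` bounded measurable on the plane, `∫_{(s₁,s₂)×(ϱ₁,ϱ₂)} |a(s+σ,ϱ) - a(s,ϱ)| ≤ C σ` ⟹ for a.e. `ϱ ∈ (ϱ₁,ϱ₂)` the slice satisfies the hypothesis of B1 (Tonelli + Fatou along `σ = 1/k`).
B3 LEB (abstract).  `φ(u,σ)` bounded measurable, `G ⊆ ℝ` measurable, for `u ∈ G`: `EssLim_{σ↓0} φ(u,σ) = T u`.  Then `T` is a.e.-measurable on `G` (`T u = lim_k k ∫_0^{1/k} φ(u,σ) dσ`) and for a.e. `u₀ ∈ G`
   `ρ⁻² ∫_{|u-u₀|<ρ, u∈G} ∫_0^ρ |φ(u,σ) - T u₀| dσ du → 0`.   Proof: `E*_τ(u) = sup_{τ' ≤ τ rational} τ'⁻¹ ∫_0^{τ'} |φ(u,σ) - T u| dσ` is measurable, bounded, decreases to `0` on `G`;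
   take `u₀` a Lebesgue point of `1_G`, `1_G T` and of all `1_G E*_{1/k}` (`IsUnifLocDoublingMeasure.ae_tendsto_average_norm_sub`).
B4 LABEL. `mpc_label` = B2 (lines `u = const`) + B3 with `φ(u,σ) = a(b u ± σ, u)` + the shear `(σ,u) ↦ (b u ± σ, u)` (measure preserving).
B5 NULL. `g` Lipschitz, `Nn` null ⟹ `{u | g u ∈ Nn, g'(u) exists, ≠ 0}` is null  (pieces `{u : |g v - g u| ≥ |v-u|/k for |v-u| < 1/k}` cut into intervals of length `< 1/k`: there `g` is injective with `k`-Lipschitz inverse; Lipschitz images of null sets are null).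
B6 COVER. `g` `L`-Lipschitz, `β : I → J` measurable with `g (β ϱ) = ϱ`, `Fn ≥ 0` measurable ⟹ `∫_I Fn(β ϱ) dϱ ≤ L ∫_J Fn`   (the push-forward `ν` of Lebesgue measure under `β` has `ν(E) ≤ |g(E)|* ≤ L |E|`).
   `β ϱ` := last (or first) crossing `sSup {u ∈ [lo,hi] | g u = ϱ}`: measurable since `{β < c}` is a difference of two compact sets.
B7 DATA. coordinates `s = u`, `ϱ = i + c u`, `ã(s,ϱ) = a(ϱ - c s, s)` (shear), `g u = b u + c u`, `g'(u₀) = c - p =: θ ≠ 0`; note `ϱ - g(s) = i - b(u)`, so the flattened boxes are the same sets.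
   `G = {u | g u ∉ Nn}` (`Nn` = bad lines of B2, measurable null), `φ_±(u,σ) = ã(u ± σ, g u)`.  Let `u₀ ∈ G` be good for B3 (a.e. by B5).  Say `θ < 0`, plus side `0 < ϱ - g s < ρ`, `|s-u₀| < ρ`.  With `ε_ρ → 0`: `|g(u₀+x) - g u₀ - θ x| ≤ ε_ρ ρ` for `|x| ≤ C₁ρ`.
   The part `ϱ - g s ≤ 4 ε_ρ ρ` has area `o(ρ²)`.  On the rest every crossing of the line `ϱ` inside the window lies before `s`, and the last one `β ϱ` satisfies `0 < s - β ϱ < C₂ ρ` (intermediate value theorem).  Hence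
   `∫∫ |ã - T₀| ≤ ∫_ϱ ∫_0^{C₂ρ} |φ_+(β ϱ,σ) - T₀| dσ dϱ ≤ Lip(g) ∫_{|u-u₀|<C₁ρ, u∈G} ∫_0^{C₂ρ} |φ_+(u,σ) - T₀|` (B6) `= o(ρ²)` (B3).   The other three sign patterns by the reflections `s ↦ -s`, `ϱ ↦ -ϱ`.
-/

set_option autoImplicit false

namespace Claimed.Agent.R255

open Filter Topology MeasureTheory Set
open scoped NNReal

/-- Lemma 6.3 for a data rate: `a` is BV along `(-c,1)` on the aligned parallelogram `u ∈ (s₁,s₂)`, `i + c u ∈ (ϱ₁,ϱ₂)` which contains the curve -/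
theorem mpc_data (a : ℝ × ℝ → ℝ) (ha : Measurable a) (Mb : ℝ) (hb : ∀ q, |a q| ≤ Mb) (c : ℝ) (b : ℝ → ℝ) (Lb : ℝ≥0)
    (hbL : LipschitzWith Lb b) (s₁ s₂ ϱ₁ ϱ₂ C σ₀ : ℝ) (hσ : 0 < σ₀)
    (hH : ∀ σ : ℝ, 0 < σ → σ < σ₀ →
      ∫ q in {q : ℝ × ℝ | q.2 ∈ Ioo s₁ s₂ ∧ q.1 + c * q.2 ∈ Ioo ϱ₁ ϱ₂}, |a (q + σ • ((-c, 1) : ℝ × ℝ)) - a q| ≤ C * σ)
    (hcurve : ∀ u ∈ Ioo s₁ s₂, b u + c * u ∈ Ioo ϱ₁ ϱ₂) :
    ∀ᵐ u₀ : ℝ, u₀ ∈ Ioo s₁ s₂ → ∀ p : ℝ, HasDerivAt b (-p) u₀ → p ≠ c →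
      ∃ Tp Tm : ℝ, MStr a b u₀ 1 Tp ∧ MStr a b u₀ (-1) Tm :=
  mpc_data_core a ha Mb hb c b Lb hbL s₁ s₂ ϱ₁ ϱ₂ C σ₀ hσ hH hcurve

/-- Lemma 6.3 for the label rate: `a` is BV along `(-1,0)` on a rectangle which contains the curve -/
theorem mpc_label (a : ℝ × ℝ → ℝ) (ha : Measurable a) (Mb : ℝ) (hb : ∀ q, |a q| ≤ Mb) (b : ℝ → ℝ) (Lb : ℝ≥0)
    (hbL : LipschitzWith Lb b) (i₁ i₂ s₁ s₂ C σ₀ : ℝ) (hσ : 0 < σ₀)
    (hH : ∀ σ : ℝ, 0 < σ → σ < σ₀ →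
      ∫ q in Ioo i₁ i₂ ×ˢ Ioo s₁ s₂, |a (q + σ • ((-1, 0) : ℝ × ℝ)) - a q| ≤ C * σ)
    (hcurve : ∀ u ∈ Ioo s₁ s₂, b u ∈ Ioo i₁ i₂) :
    ∀ᵐ u₀ : ℝ, u₀ ∈ Ioo s₁ s₂ → ∃ Tp Tm : ℝ, MStr a b u₀ 1 Tp ∧ MStr a b u₀ (-1) Tm := by
  have har : Measurable fun q : ℝ × ℝ => a (-q.1, q.2) := ha.comp (measurable_fst.neg.prodMk measurable_snd)
  have hH' : ∀ σ : ℝ, 0 < σ → σ < σ₀ → ∫ q in Ioo (-i₂) (-i₁) ×ˢ Ioo s₁ s₂,
      |(fun q : ℝ × ℝ => a (-q.1, q.2)) (q + σ • ((1, 0) : ℝ × ℝ)) - (fun q : ℝ × ℝ => a (-q.1, q.2)) q| ≤ C * σ := by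
    intro σ h0 h1
    refine le_trans (le_of_eq ?_) (hH σ h0 h1)
    rw [mpc_neg_integral (fun q => |a (q + σ • ((-1, 0) : ℝ × ℝ)) - a q|) _ (measurableSet_Ioo.prod measurableSet_Ioo)]
    have hset : {p : ℝ × ℝ | (-p.1, p.2) ∈ Ioo i₁ i₂ ×ˢ Ioo s₁ s₂} = Ioo (-i₂) (-i₁) ×ˢ Ioo s₁ s₂ := by
      ext p
      simp only [mem_setOf_eq, mem_prod, mem_Ioo]
      constructor
      · rintro ⟨⟨h1, h2⟩, h3⟩; exact ⟨⟨by linarith, by linarith⟩, h3⟩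
      · rintro ⟨⟨h1, h2⟩, h3⟩; exact ⟨⟨by linarith, by linarith⟩, h3⟩
    rw [hset]
    refine setIntegral_congr_fun (measurableSet_Ioo.prod measurableSet_Ioo) fun p _ => ?_
    have e : ((-(p + σ • ((1, 0) : ℝ × ℝ)).1, (p + σ • ((1, 0) : ℝ × ℝ)).2) : ℝ × ℝ) = (-p.1, p.2) + σ • ((-1, 0) : ℝ × ℝ) := by
      ext <;> simp <;> ring
    simp only [e]
  filter_upwards [mpc_core (fun q => a (-q.1, q.2)) har Mb (fun q => hb _) (fun u => - b u) hbL.continuous.neg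
    (-i₂) (-i₁) s₁ s₂ C σ₀ hσ hH'] with u₀ h hu
  obtain ⟨Tp, Tm, hTp, hTm⟩ := h hu ⟨by linarith [(hcurve u₀ hu).2], by linarith [(hcurve u₀ hu).1]⟩
  refine ⟨Tm, Tp, ?_, ?_⟩
  · have := mpc_mstr_neg a b hbL.continuous.measurable u₀ (-1) Tm hTm
    rwa [neg_neg] at this
  · exact mpc_mstr_neg a b hbL.continuous.measurable u₀ 1 Tp hTp

end Claimed.Agent.R255
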