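-- KEEP
import Claimed.Agent.R255.Plane.Defs

/-!
# Row 255, block (B), chapter A (Theorem 6.1): shared definitions and the INTERFACE between the two halves      (architect helper188)

First half  (A1 LIP, A2 FLUX, A3 STAIR; architects helper137 / helper201, files `Plane/TrDefs.lean`, `Plane/TrFlux.lean`)  delivers `mptb_in_lip` and `mptb_in_stair` below
(short corollaries of their `mpt_ext` / `mpt_stair` on the LARGER patch `(Λ+1, u₁/2, (1+u₂)/2)`, where `χ ≥ min 1 (min (u₁/2) ((1-u₂)/2))` on the given patch;  proved in `Plane/TrBIn.lean`, which imports both sides).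
Second half (A4 .. A10, WEAK, glue of `mpt_main`, `mpt_weak`; architect helper188, files `Plane/TrB*.lean`, prefix `mptb_`) consumes nothing else.

* `T.mgB η μ`   : the offset `η` lies in the cone with margin at least `μ` (`T.mgB η 0 ↔ T.Cone η`).
* `T.dqB g α h η q = (g (Π q + η + h 1_α) - g (Π q + η)) / h` : difference quotient `P^h_α(q; η)` of the header of `Plane/Trace.lean`.
* NO cut-off `χ` in the interface: plain integrals over open patches `mpatch Λ u₁ u₂ 0`, for ALL patches (the flux bound with `χ` on a larger patch gives them).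
* norms on `Fin N → ℝ` and `ℝ × ℝ` are the sup norms of Mathlib.
* `TrCtx T` : a patch + a globally Lipschitz `F` which equals `f` near the patch + the stair bound for `F`.   `TrFld X` : the trace fields.
-/

set_option autoImplicit false

namespace Claimed.Agent.R255

open Filter Topology MeasureTheory Set
open scoped NNReal

namespace MpIn

variable {N : ℕ} (T : MpIn N)

/-- the offset `η` lies in the cone with margin at least `μ` -/
def mgB (η : Fin N → ℝ) (μ : ℝ) : Prop := ∀ l, ∑ α, T.lam l α * η α ≤ - μ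

/-- difference quotient of `g` in the coordinate `α`, step `h`, at the plane point `q` with offset `η` -/
noncomputable def dqB (g : (Fin N → ℝ) → ℝ) (α : Fin N) (h : ℝ) (η : Fin N → ℝ) (q : ℝ × ℝ) : ℝ :=
  (g (T.pl q + η + Pi.single α h) - g (T.pl q + η)) / h

end MpIn

/-! ## the interface -/

/-- **A1 LIP** as a proposition -/
def MptbLip {N : ℕ} (T : MpIn N) : Prop :=
  ∀ δ₁ : ℝ, 0 < δ₁ → ∃ (K : ℝ≥0) (F : (Fin N → ℝ) → ℝ), LipschitzWith K F ∧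
      ∀ z, T.Cone z → δ₁ ≤ z T.v → z T.v ≤ 1 - δ₁ → F z = T.f z

/-- **A3 STAIR**, unweighted, on an arbitrary patch, as a proposition -/
def MptbStair {N : ℕ} (T : MpIn N) : Prop :=
  ∀ Λ u₁ u₂ : ℝ, 0 < Λ → 0 < u₁ → u₁ < u₂ → u₂ < 1 →
    ∃ C δ c : ℝ, 0 ≤ C ∧ 0 < δ ∧ 0 < c ∧ ∀ (α : Fin N) (η η' : Fin N → ℝ) (μ θ : ℝ), ‖η‖ ≤ δ → ‖η'‖ ≤ δ →
      η α = η' α → 0 < μ → T.mgB η μ → T.mgB η' μ → 0 < θ → θ ≤ c * μ → θ ≤ δ →
      ∫ q in mpatch Λ u₁ u₂ 0, |T.dqB T.f α θ η q - T.dqB T.f α θ η' q| ≤ C * ‖η - η'‖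

/-! ## working context of the second half -/

/-- a patch, a global Lipschitz extension `F` of `f`, the stair bound -/
structure TrCtx {N : ℕ} (T : MpIn N) where
  Λ : ℝ
  u₁ : ℝ
  u₂ : ℝ
  F : (Fin N → ℝ) → ℝ
  K : ℝ≥0
  C : ℝ
  δ : ℝ
  c : ℝ
  hΛ : 0 < Λ
  h1 : 0 < u₁
  h12 : u₁ < u₂
  h2 : u₂ < 1
  hC : 0 ≤ C
  hδ : 0 < δ
  hc : 0 < c
  lip : LipschitzWith K F
  dom : ∀ q ∈ mpatch Λ u₁ u₂ 0, ∀ η : Fin N → ℝ, T.Cone η → ‖η‖ ≤ 2 * δ → T.Dom (T.pl q + η)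
  eqf : ∀ q ∈ mpatch Λ u₁ u₂ 0, ∀ η : Fin N → ℝ, T.Cone η → ‖η‖ ≤ 2 * δ →
    F (T.pl q + η) = T.f (T.pl q + η)
  stepc : ∀ (α : Fin N) (η : Fin N → ℝ) (μ θ : ℝ), T.mgB η μ → 0 ≤ θ → θ ≤ c * μ →
    T.Cone (η + Pi.single α θ)
  stair : ∀ (α : Fin N) (η η' : Fin N → ℝ) (μ θ : ℝ), ‖η‖ ≤ δ → ‖η'‖ ≤ δ → η α = η' α → 0 < μ →
    T.mgB η μ → T.mgB η' μ → 0 < θ → θ ≤ c * μ → θ ≤ δ →
    ∫ q in mpatch Λ u₁ u₂ 0, |T.dqB F α θ η q - T.dqB F α θ η' q| ≤ C * ‖η - η'‖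

/-- the patch of a context with margin `r` -/
def TrCtx.pat {N : ℕ} {T : MpIn N} (X : TrCtx T) (r : ℝ) : Set (ℝ × ℝ) := mpatch X.Λ X.u₁ X.u₂ r

/-- the trace fields of a context (A5 + first half of A6) -/
structure TrFld {N : ℕ} {T : MpIn N} (X : TrCtx T) where
  A : Fin N → ℝ × ℝ → ℝ
  meas : ∀ α, Measurable (A α)
  bd : ∀ α q, 0 ≤ A α q ∧ A α q ≤ T.d α
  near : ∀ (α : Fin N) (η : Fin N → ℝ) (μ ε : ℝ), η α = 0 → 0 < μ → T.mgB η μ → ‖η‖ ≤ X.δ / 2 → 0 < ε →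
    ∃ θ₀ : ℝ, 0 < θ₀ ∧ ∀ θ : ℝ, 0 < θ → θ ≤ θ₀ →
      ∫ q in X.pat 0, |T.dqB X.F α θ η q - A α q| ≤ X.C * ‖η‖ + ε

theorem mptb_defs_eqns_cite : True := by
  have := @MpIn.mgB.eq_1
  have := @MpIn.dqB.eq_1
  have := @TrCtx.pat.eq_1
  have := @MptbLip.eq_1
  have := @MptbStair.eq_1
  trivial

end Claimed.Agent.R255
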