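-- KEEP
import Claimed.Agent.R255.Plane.TrBDefs

/-!
# Row 255, block (B), chapter A, second half: BASIC calculus (patches, plane, margins, difference quotients)      (architect helper188)

Everything here is elementary (Mathlib only).  Sections: 1 patches, 2 plane + margins, 3 difference quotients, 4 integrals of bounded measurable functions on patches.
-/

set_option autoImplicit false

namespace Claimed.Agent.R255

open Filter Topology MeasureTheory Set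
open scoped NNReal

variable {N : ℕ} {T : MpIn N}

/-! ## 1. patches -/

theorem mptb_patch_meas (Λ u₁ u₂ r : ℝ) : MeasurableSet (mpatch Λ u₁ u₂ r) :=
  measurableSet_Ioo.prod measurableSet_Ioo

theorem mptb_patch_finite (Λ u₁ u₂ r : ℝ) : volume (mpatch Λ u₁ u₂ r) < ⊤ := by
  unfold mpatch
  rw [Measure.volume_eq_prod, Measure.prod_prod]
  simp only [Real.volume_Ioo]
  exact ENNReal.mul_lt_top ENNReal.ofReal_lt_top ENNReal.ofReal_lt_top

theorem mptb_patch_bounded (Λ u₁ u₂ r : ℝ) : Bornology.IsBounded (mpatch Λ u₁ u₂ r) := by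
  exact (Metric.isBounded_Ioo _ _).prod (Metric.isBounded_Ioo _ _)

theorem mptb_patch_anti (Λ u₁ u₂ : ℝ) {r r' : ℝ} (h : r ≤ r') : mpatch Λ u₁ u₂ r' ⊆ mpatch Λ u₁ u₂ r := by
  exact Set.prod_mono (Ioo_subset_Ioo (by linarith) (by linarith)) (Ioo_subset_Ioo (by linarith) (by linarith))

/-- a small translate of the patch with margin `r` stays in the patch with margin `r'` -/
theorem mptb_patch_shift (Λ u₁ u₂ : ℝ) {r r' : ℝ} {w q : ℝ × ℝ} (hw : ‖w‖ ≤ r - r') (hq : q ∈ mpatch Λ u₁ u₂ r) :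
    q + w ∈ mpatch Λ u₁ u₂ r' := by
  obtain ⟨⟨h1, h2⟩, ⟨h3, h4⟩⟩ := hq
  have a1 := abs_le.1 ((norm_fst_le w).trans hw)
  have a2 := abs_le.1 ((norm_snd_le w).trans hw)
  refine ⟨⟨?_, ?_⟩, ⟨?_, ?_⟩⟩
  · show _ < q.1 + w.1
    linarith [a1.1]
  · show q.1 + w.1 < _
    linarith [a1.2]
  · show _ < q.2 + w.2
    linarith [a2.1]
  · show q.2 + w.2 < _
    linarith [a2.2]

/-- the given patch inside the enlarged one -/
theorem mptb_patch_big (Λ u₁ u₂ r r₀ : ℝ) (hr : 0 ≤ r) (h1 : r₀ ≤ 1) (h2 : r₀ ≤ u₁ / 2) (h3 : r₀ ≤ (1 - u₂) / 2) :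
    mpatch Λ u₁ u₂ r ⊆ mpatch (Λ + 1) (u₁ / 2) ((1 + u₂) / 2) r₀ := by
  exact Set.prod_mono (Ioo_subset_Ioo (by linarith) (by linarith)) (Ioo_subset_Ioo (by linarith) (by linarith))

/-! ## 2. the plane and the margins -/

theorem mptb_pl_add (q w : ℝ × ℝ) : T.pl (q + w) = T.pl q + T.pl w := by
  funext α
  simp only [MpIn.pl, Prod.fst_add, Prod.snd_add, Pi.add_apply]
  ring

theorem mptb_pl_smul (s : ℝ) (q : ℝ × ℝ) : T.pl (s • q) = s • T.pl q := by
  funext α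
  simp only [MpIn.pl, Prod.smul_fst, Prod.smul_snd, smul_eq_mul, Pi.smul_apply]
  ring

theorem mptb_pl_cont : Continuous T.pl := by
  unfold MpIn.pl
  fun_prop

/-- `‖Π w‖ ≤ c ‖w‖` -/
theorem mptb_pl_norm (T : MpIn N) : ∃ c : ℝ, 0 ≤ c ∧ ∀ w : ℝ × ℝ, ‖T.pl w‖ ≤ c * ‖w‖ := by
  refine ⟨‖T.e‖ + ‖T.t‖, by positivity, fun w => ?_⟩
  refine (pi_norm_le_iff_of_nonneg (by positivity)).2 fun α => ?_
  have a1 : |w.1| ≤ ‖w‖ := norm_fst_le w
  have a2 : |w.2| ≤ ‖w‖ := norm_snd_le w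
  have b1 : |T.e α| ≤ ‖T.e‖ := norm_le_pi_norm T.e α
  have b2 : |T.t α| ≤ ‖T.t‖ := norm_le_pi_norm T.t α
  show |w.1 * T.e α + w.2 * T.t α| ≤ _
  calc |w.1 * T.e α + w.2 * T.t α| ≤ |w.1 * T.e α| + |w.2 * T.t α| := abs_add_le _ _
    _ = |w.1| * |T.e α| + |w.2| * |T.t α| := by rw [abs_mul, abs_mul]
    _ ≤ ‖w‖ * ‖T.e‖ + ‖w‖ * ‖T.t‖ :=
        add_le_add (mul_le_mul a1 b1 (abs_nonneg _) (norm_nonneg _)) (mul_le_mul a2 b2 (abs_nonneg _) (norm_nonneg _))
    _ = (‖T.e‖ + ‖T.t‖) * ‖w‖ := by ring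

theorem mptb_pl_V (α β : Fin N) : T.pl (T.V α) β = T.om α β := by
  simp only [MpIn.pl, MpIn.V, MpIn.om]
  ring

theorem mptb_pl_V_self (α : Fin N) : T.pl (T.V α) α = 0 := by
  rw [mptb_pl_V]
  simp only [MpIn.om]
  ring

theorem mptb_pl_v (hT : T.Ok) (q : ℝ × ℝ) : T.pl q T.v = q.2 := by
  simp [MpIn.pl, hT.e_v, hT.t_v]

theorem mptb_mg_zero (η : Fin N → ℝ) : T.mgB η 0 ↔ T.Cone η := by
  simp [MpIn.mgB, MpIn.Cone]

theorem mptb_mg_mono {η : Fin N → ℝ} {μ μ' : ℝ} (h : T.mgB η μ) (hμ : μ' ≤ μ) : T.mgB η μ' :=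
  fun l => (h l).trans (by linarith)

theorem mptb_mg_cone {η : Fin N → ℝ} {μ : ℝ} (h : T.mgB η μ) (hμ : 0 ≤ μ) : T.Cone η :=
  fun l => (h l).trans (by linarith)

theorem mptb_mg_add {η η' : Fin N → ℝ} {μ μ' : ℝ} (h : T.mgB η μ) (h' : T.mgB η' μ') :
    T.mgB (η + η') (μ + μ') := by
  intro l
  have e : ∑ α, T.lam l α * (η + η') α = ∑ α, T.lam l α * η α + ∑ α, T.lam l α * η' α := by
    rw [← Finset.sum_add_distrib]
    exact Finset.sum_congr rfl fun α _ => by rw [Pi.add_apply]; ring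
  rw [e]
  linarith [h l, h' l]

theorem mptb_mg_smul {η : Fin N → ℝ} {μ κ : ℝ} (h : T.mgB η μ) (hκ : 0 ≤ κ) : T.mgB (κ • η) (κ * μ) := by
  intro l
  have e : ∑ α, T.lam l α * (κ • η) α = κ * ∑ α, T.lam l α * η α := by
    rw [Finset.mul_sum]
    exact Finset.sum_congr rfl fun α _ => by rw [Pi.smul_apply, smul_eq_mul]; ring
  rw [e]
  have := mul_le_mul_of_nonneg_left (h l) hκ
  linarith

theorem mptb_lam_pl (hT : T.Ok) (l : Fin T.M) (w : ℝ × ℝ) : ∑ α, T.lam l α * T.pl w α = 0 := by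
  have e : ∑ α, T.lam l α * T.pl w α = w.1 * ∑ α, T.lam l α * T.e α + w.2 * ∑ α, T.lam l α * T.t α := by
    rw [Finset.mul_sum, Finset.mul_sum, ← Finset.sum_add_distrib]
    exact Finset.sum_congr rfl fun α _ => by simp only [MpIn.pl]; ring
  rw [e, hT.lam_e, hT.lam_t]
  ring

/-- plane vectors do not change the margin -/
theorem mptb_mg_pl (hT : T.Ok) (η : Fin N → ℝ) (w : ℝ × ℝ) (μ : ℝ) : T.mgB (η + T.pl w) μ ↔ T.mgB η μ := by
  refine forall_congr' fun l => ?_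
  have e : ∑ α, T.lam l α * (η + T.pl w) α = ∑ α, T.lam l α * η α + ∑ α, T.lam l α * T.pl w α := by
    rw [← Finset.sum_add_distrib]
    exact Finset.sum_congr rfl fun α _ => by rw [Pi.add_apply]; ring
  rw [e, mptb_lam_pl hT, add_zero]

theorem mptb_cone_pl (hT : T.Ok) (q : ℝ × ℝ) (η : Fin N → ℝ) : T.Cone (T.pl q + η) ↔ T.Cone η := by
  rw [← mptb_mg_zero, ← mptb_mg_zero, add_comm, mptb_mg_pl hT]

theorem mptb_lam_single (l : Fin T.M) (η : Fin N → ℝ) (α : Fin N) (τ : ℝ) :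
    ∑ β, T.lam l β * (η + Pi.single α τ : Fin N → ℝ) β = ∑ β, T.lam l β * η β + T.lam l α * τ := by
  have e : ∑ β, T.lam l β * (η + Pi.single α τ : Fin N → ℝ) β = ∑ β, T.lam l β * η β + ∑ β, T.lam l β * (Pi.single α τ : Fin N → ℝ) β := by
    rw [← Finset.sum_add_distrib]
    exact Finset.sum_congr rfl fun β _ => by rw [Pi.add_apply]; ring
  rw [e]
  congr 1
  rw [Finset.sum_eq_single α]
  · rw [Pi.single_eq_same]
  · intro β _ hβ
    rw [Pi.single_eq_of_ne hβ, mul_zero]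
  · intro h
    exact absurd (Finset.mem_univ α) h

/-- the margin along a coordinate segment is at least the margin at its end points -/
theorem mptb_mg_seg {η : Fin N → ℝ} {μ h τ : ℝ} (α : Fin N) (h0 : T.mgB η μ) (h1 : T.mgB (η + Pi.single α h) μ)
    (hτ0 : 0 ≤ τ) (hτ : τ ≤ h) : T.mgB (η + Pi.single α τ) μ := by
  intro l
  have a0 := h0 l
  have a1 := h1 l
  rw [mptb_lam_single] at a1 ⊢
  rcases le_total (T.lam l α) 0 with hl | hl
  · have := mul_nonpos_of_nonpos_of_nonneg hl hτ0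
    linarith
  · have := mul_le_mul_of_nonneg_left hτ hl
    linarith

/-- a perturbation costs at most `c ‖y‖` of margin -/
theorem mptb_mg_pert (T : MpIn N) : ∃ c : ℝ, 0 ≤ c ∧ ∀ (η y : Fin N → ℝ) (μ : ℝ), T.mgB η μ →
    T.mgB (η + y) (μ - c * ‖y‖) := by
  refine ⟨∑ l, ∑ α, |T.lam l α|, Finset.sum_nonneg fun l _ => Finset.sum_nonneg fun α _ => abs_nonneg _, fun η y μ h l => ?_⟩
  have e : ∑ α, T.lam l α * (η + y) α = ∑ α, T.lam l α * η α + ∑ α, T.lam l α * y α := by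
    rw [← Finset.sum_add_distrib]
    exact Finset.sum_congr rfl fun α _ => by rw [Pi.add_apply]; ring
  have b1 : ∑ α, T.lam l α * y α ≤ (∑ α, |T.lam l α|) * ‖y‖ := by
    rw [Finset.sum_mul]
    refine Finset.sum_le_sum fun α _ => ?_
    calc T.lam l α * y α ≤ |T.lam l α * y α| := le_abs_self _
      _ = |T.lam l α| * |y α| := abs_mul _ _
      _ ≤ |T.lam l α| * ‖y‖ := mul_le_mul_of_nonneg_left (norm_le_pi_norm y α) (abs_nonneg _)
  have b2 : (∑ α, |T.lam l α|) ≤ ∑ l, ∑ α, |T.lam l α| :=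
    Finset.single_le_sum (f := fun l => ∑ α, |T.lam l α|) (fun l _ => Finset.sum_nonneg fun α _ => abs_nonneg _) (Finset.mem_univ l)
  have b3 := mul_le_mul_of_nonneg_right b2 (norm_nonneg y)
  rw [e]
  linarith [h l]

/-- the label direction is interior -/
theorem mptb_mg_v (hT : T.Ok) : ∃ μ : ℝ, 0 < μ ∧ T.mgB (Pi.single T.v 1) μ := by
  have key : ∀ l, ∑ α, T.lam l α * (Pi.single T.v 1 : Fin N → ℝ) α = T.lam l T.v := by
    intro l
    have := mptb_lam_single (T := T) l 0 T.v 1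
    simpa using this
  rcases isEmpty_or_nonempty (Fin T.M) with hE | hE
  · exact ⟨1, one_pos, fun l => isEmptyElim l⟩
  · obtain ⟨l0, hl0⟩ := Finite.exists_min (fun l => - T.lam l T.v)
    refine ⟨- T.lam l0 T.v, by linarith [hT.lam_v l0], fun l => ?_⟩
    rw [key]
    linarith [hl0 l]

/-- raising the label absorbs every vector into the cone -/
theorem mptb_absorb (hT : T.Ok) : ∃ κ : ℝ, 0 ≤ κ ∧ ∀ y : Fin N → ℝ, T.Cone (y + Pi.single T.v (κ * ‖y‖)) := by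
  obtain ⟨c, hc, hpert⟩ := mptb_mg_pert T
  obtain ⟨μ, hμ, hv⟩ := mptb_mg_v hT
  refine ⟨c / μ, by positivity, fun y => ?_⟩
  have h1 := mptb_mg_smul hv (κ := c / μ * ‖y‖) (by positivity)
  have h2 := hpert _ y _ h1
  have e1 : (c / μ * ‖y‖) • (Pi.single T.v 1 : Fin N → ℝ) = Pi.single T.v (c / μ * ‖y‖) := by
    rw [← Pi.single_smul, smul_eq_mul, mul_one]
  have e2 : c / μ * ‖y‖ * μ - c * ‖y‖ = 0 := by
    field_simp
    ring
  rw [e1, e2, mptb_mg_zero, add_comm] at h2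
  exact h2

/-- a plane vector with `α`-component one -/
theorem mptb_avec (hT : T.Ok) (α : Fin N) : ∃ a : ℝ × ℝ, T.pl a α = 1 := by
  by_cases he : T.e α = 0
  · have hα : α = T.v := by
      by_contra hne
      rcases lt_or_gt_of_ne hne with h | h
      · have := hT.om_pos α T.v h
        simp only [MpIn.om, hT.e_v, hT.t_v, he] at this
        linarith
      · have := hT.om_pos T.v α h
        simp only [MpIn.om, hT.e_v, hT.t_v, he] at this
        linarith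
    refine ⟨(0, 1), ?_⟩
    rw [hα, mptb_pl_v hT]
  · refine ⟨(1 / T.e α, 0), ?_⟩
    simp only [MpIn.pl]
    field_simp
    ring

/-- an interior direction with zero `α`-component (`1_v`, resp. `1_v - t` if `α = v`) -/
theorem mptb_zeta (hT : T.Ok) (α : Fin N) : ∃ (ζ : Fin N → ℝ) (μ : ℝ), 0 < μ ∧ ζ α = 0 ∧ T.mgB ζ μ := by
  obtain ⟨μ, hμ, hv⟩ := mptb_mg_v hT
  by_cases hα : α = T.v
  · refine ⟨Pi.single T.v 1 + T.pl (0, -1), μ, hμ, ?_, (mptb_mg_pl hT _ _ _).2 hv⟩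
    rw [hα, Pi.add_apply, Pi.single_eq_same, mptb_pl_v hT]
    norm_num
  · exact ⟨Pi.single T.v 1, μ, hμ, Pi.single_eq_of_ne hα _, hv⟩

/-- the capacities are nonnegative -/
theorem mptb_d_nonneg (hT : T.Ok) (α : Fin N) : 0 ≤ T.d α := by
  obtain ⟨c, hc, hpert⟩ := mptb_mg_pert T
  obtain ⟨μ, hμ, hv⟩ := mptb_mg_v hT
  set h : ℝ := min (1 / 8) (μ / 8 / (c + 1)) with hh
  have hpos : 0 < h := lt_min (by norm_num) (by positivity)
  have h8 : h ≤ 1 / 8 := min_le_left _ _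
  have hc1 : c * h ≤ μ / 8 := by
    have h2 : h ≤ μ / 8 / (c + 1) := min_le_right _ _
    have h3 : (c + 1) * h ≤ μ / 8 := by
      rw [le_div_iff₀ (by positivity)] at h2
      linarith
    nlinarith
  have m1 : T.mgB ((1 / 8 : ℝ) • (Pi.single T.v 1 : Fin N → ℝ)) (1 / 8 * μ) := mptb_mg_smul hv (by norm_num)
  set ζ : Fin N → ℝ := (1 / 8 : ℝ) • (Pi.single T.v 1 : Fin N → ℝ) with hζ
  have hζv : ζ T.v = 1 / 8 := by
    rw [hζ, Pi.smul_apply, Pi.single_eq_same, smul_eq_mul, mul_one]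
  set z : Fin N → ℝ := T.pl (0, 1 / 2) + ζ with hz
  have hzv : z T.v = 5 / 8 := by
    rw [hz, Pi.add_apply, mptb_pl_v hT, hζv]
    norm_num
  have d1 : T.Dom z := by
    refine ⟨(mptb_cone_pl hT _ _).2 (mptb_mg_cone m1 (by positivity)), ?_, ?_⟩ <;> rw [hzv] <;> norm_num
  have hs : ‖(Pi.single α h : Fin N → ℝ)‖ = h := by
    rw [Pi.norm_single, Real.norm_eq_abs, abs_of_pos hpos]
  have d2 : T.Dom (z + Pi.single α h) := by
    have m2 := hpert ζ (Pi.single α h) _ m1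
    rw [hs] at m2
    refine ⟨?_, ?_, ?_⟩
    · rw [hz, add_assoc]
      exact (mptb_cone_pl hT _ _).2 (mptb_mg_cone m2 (by linarith))
    · rw [Pi.add_apply, hzv]
      have : 0 ≤ (Pi.single α h : Fin N → ℝ) T.v := by
        by_cases hα : T.v = α
        · rw [hα, Pi.single_eq_same]; exact hpos.le
        · rw [Pi.single_eq_of_ne hα]
      linarith
    · rw [Pi.add_apply, hzv]
      have : (Pi.single α h : Fin N → ℝ) T.v ≤ h := by
        by_cases hα : T.v = α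
        · rw [hα, Pi.single_eq_same]
        · rw [Pi.single_eq_of_ne hα]; exact hpos.le
      linarith
  obtain ⟨c1, c2⟩ := hT.cap α z h hpos.le d1 d2
  have : 0 ≤ T.d α * h := c1.trans c2
  exact nonneg_of_mul_nonneg_left this hpos

/-! ## 3. difference quotients -/

/-- translation of the plane variable = change of the offset -/
theorem mptb_dq_shift (g : (Fin N → ℝ) → ℝ) (α : Fin N) (θ : ℝ) (η : Fin N → ℝ) (q w : ℝ × ℝ) :
    T.dqB g α θ η (q + w) = T.dqB g α θ (η + T.pl w) q := by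
  unfold MpIn.dqB
  rw [mptb_pl_add, add_assoc (T.pl q) (T.pl w) η, add_comm (T.pl w) η]

theorem mptb_dq_cont {g : (Fin N → ℝ) → ℝ} (hg : Continuous g) (α : Fin N) (θ : ℝ) (η : Fin N → ℝ) :
    Continuous (T.dqB g α θ η) := by
  unfold MpIn.dqB
  have := mptb_pl_cont (T := T)
  fun_prop

theorem mptb_dq_abs_le {g : (Fin N → ℝ) → ℝ} {K : ℝ≥0} (hg : LipschitzWith K g) (α : Fin N) (θ : ℝ)
    (η : Fin N → ℝ) (q : ℝ × ℝ) : |T.dqB g α θ η q| ≤ K := by
  unfold MpIn.dqB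
  rcases eq_or_ne θ 0 with h0 | h0
  · rw [h0, div_zero, abs_zero]
    exact K.2
  · have h1 := hg.dist_le_mul (T.pl q + η + Pi.single α θ) (T.pl q + η)
    rw [Real.dist_eq, dist_eq_norm, add_sub_cancel_left, Pi.norm_single, Real.norm_eq_abs] at h1
    rw [abs_div, div_le_iff₀ (abs_pos.2 h0)]
    exact h1

/-- Lipschitz dependence on the offset at fixed step -/
theorem mptb_dq_offset {g : (Fin N → ℝ) → ℝ} {K : ℝ≥0} (hg : LipschitzWith K g) (α : Fin N) {θ : ℝ} (hθ : 0 < θ)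
    (η η' : Fin N → ℝ) (q : ℝ × ℝ) : |T.dqB g α θ η q - T.dqB g α θ η' q| ≤ 2 * K * ‖η - η'‖ / θ := by
  unfold MpIn.dqB
  have h1 := hg.dist_le_mul (T.pl q + η + Pi.single α θ) (T.pl q + η' + Pi.single α θ)
  have h2 := hg.dist_le_mul (T.pl q + η) (T.pl q + η')
  have e1 : T.pl q + η + Pi.single α θ - (T.pl q + η' + Pi.single α θ) = η - η' := by abel
  have e2 : T.pl q + η - (T.pl q + η') = η - η' := by abel
  rw [Real.dist_eq, dist_eq_norm, e1] at h1
  rw [Real.dist_eq, dist_eq_norm, e2] at h2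
  rw [← sub_div, abs_div, abs_of_pos hθ]
  refine div_le_div_of_nonneg_right ?_ hθ.le
  have a1 := abs_le.1 h1
  have a2 := abs_le.1 h2
  rw [abs_le]
  constructor <;> linarith [a1.1, a1.2, a2.1, a2.2]

/-- exact telescoping of a difference quotient -/
theorem mptb_dq_split (g : (Fin N → ℝ) → ℝ) (α : Fin N) {h : ℝ} (hh : h ≠ 0) (n : ℕ) (hn : 0 < n) (η : Fin N → ℝ)
    (q : ℝ × ℝ) :
    T.dqB g α h η q = (∑ j ∈ Finset.range n, T.dqB g α (h / n) (η + Pi.single α (j * (h / n))) q) / n := by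
  have hn' : (n : ℝ) ≠ 0 := by exact_mod_cast hn.ne'
  unfold MpIn.dqB
  have e : ∀ j : ℕ, (g (T.pl q + (η + Pi.single α ((j : ℝ) * (h / n))) + Pi.single α (h / n))
      - g (T.pl q + (η + Pi.single α ((j : ℝ) * (h / n))))) / (h / n)
      = (g (T.pl q + η + Pi.single α (((j + 1 : ℕ) : ℝ) * (h / n))) - g (T.pl q + η + Pi.single α ((j : ℝ) * (h / n)))) / (h / n) := by
    intro j
    have e1 : T.pl q + (η + Pi.single α ((j : ℝ) * (h / n))) + Pi.single α (h / n)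
        = T.pl q + η + Pi.single α (((j + 1 : ℕ) : ℝ) * (h / n)) := by
      have : (((j + 1 : ℕ) : ℝ) * (h / n)) = (j : ℝ) * (h / n) + h / n := by push_cast; ring
      rw [this, Pi.single_add]
      abel
    rw [e1, ← add_assoc]
  have tel := Finset.sum_range_sub (fun j : ℕ => g (T.pl q + η + Pi.single α ((j : ℝ) * (h / n)))) n
  rw [Finset.sum_congr rfl fun j _ => e j, ← Finset.sum_div, tel]
  have e0 : ((0 : ℕ) : ℝ) * (h / n) = 0 := by simp
  have en : (n : ℝ) * (h / n) = h := by field_simp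
  rw [e0, en, Pi.single_zero, add_zero]
  field_simp

/-- in a context the difference quotients inside the closed cone lie in `[0, d α]` on the patch -/
theorem mptb_dq_cap (hT : T.Ok) (X : TrCtx T) (α : Fin N) (η : Fin N → ℝ) (h : ℝ) (hη : T.Cone η)
    (hη' : T.Cone (η + Pi.single α h)) (hn : ‖η‖ ≤ X.δ) (h0 : 0 < h) (h1 : h ≤ X.δ) (q : ℝ × ℝ) (hq : q ∈ X.pat 0) :
    0 ≤ T.dqB X.F α h η q ∧ T.dqB X.F α h η q ≤ T.d α := by
  have hδ := X.hδ
  have n1 : ‖η‖ ≤ 2 * X.δ := by linarith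
  have n2 : ‖η + Pi.single α h‖ ≤ 2 * X.δ := by
    refine (norm_add_le _ _).trans ?_
    rw [Pi.norm_single, Real.norm_eq_abs, abs_of_pos h0]
    linarith
  have f1 := X.eqf q hq η hη n1
  have f2 := X.eqf q hq _ hη' n2
  have d1 := X.dom q hq η hη n1
  have d2 := X.dom q hq _ hη' n2
  rw [← add_assoc] at f2 d2
  obtain ⟨c1, c2⟩ := hT.cap α _ h h0.le d1 d2
  unfold MpIn.dqB
  rw [f1, f2]
  exact ⟨div_nonneg c1 h0.le, by rw [div_le_iff₀ h0]; exact c2⟩

/-! ## 4. integrals on patches -/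

theorem mptb_intOn (Λ u₁ u₂ r : ℝ) {g : ℝ × ℝ → ℝ} (hg : Measurable g) {M : ℝ} (hM : ∀ q, |g q| ≤ M) :
    IntegrableOn g (mpatch Λ u₁ u₂ r) := by
  exact Measure.integrableOn_of_bounded (mptb_patch_finite Λ u₁ u₂ r).ne hg.aestronglyMeasurable
    (Filter.Eventually.of_forall fun q => by rw [Real.norm_eq_abs]; exact hM q)

/-- translation invariance + inclusion -/
theorem mptb_int_shift (Λ u₁ u₂ : ℝ) {r r' : ℝ} {g : ℝ × ℝ → ℝ} (hg : Measurable g) {M : ℝ} (hM : ∀ q, |g q| ≤ M)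
    (w : ℝ × ℝ) (hw : ‖w‖ ≤ r - r') :
    ∫ q in mpatch Λ u₁ u₂ r, |g (q + w)| ≤ ∫ q in mpatch Λ u₁ u₂ r', |g q| := by
  have hmp := measurePreserving_add_right (volume : Measure (ℝ × ℝ)) w
  have hme := measurableEmbedding_addRight w
  have e := hmp.setIntegral_preimage_emb hme (fun q => |g q|) (mpatch Λ u₁ u₂ r')
  rw [← e]
  have hi : IntegrableOn (fun q => |g (q + w)|) ((fun q => q + w) ⁻¹' mpatch Λ u₁ u₂ r') :=
    (hmp.integrableOn_comp_preimage hme).2 (mptb_intOn Λ u₁ u₂ r' hg hM).abs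
  refine setIntegral_mono_set hi (Filter.Eventually.of_forall fun q => abs_nonneg _) ?_
  have hsub : mpatch Λ u₁ u₂ r ⊆ (fun q => q + w) ⁻¹' mpatch Λ u₁ u₂ r' := fun q hq => mptb_patch_shift Λ u₁ u₂ hw hq
  exact hsub.eventuallyLE

theorem mptb_int_anti (Λ u₁ u₂ : ℝ) {r r' : ℝ} (h : r' ≤ r) {g : ℝ × ℝ → ℝ} (hg : Measurable g) {M : ℝ}
    (hM : ∀ q, |g q| ≤ M) : ∫ q in mpatch Λ u₁ u₂ r, |g q| ≤ ∫ q in mpatch Λ u₁ u₂ r', |g q| := by
  refine setIntegral_mono_set (mptb_intOn Λ u₁ u₂ r' hg hM).abs (Filter.Eventually.of_forall fun q => abs_nonneg _) ?_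
  exact (mptb_patch_anti Λ u₁ u₂ h).eventuallyLE

/-- triangle inequality -/
theorem mptb_int_tri (Λ u₁ u₂ r : ℝ) {g₁ g₂ g₃ : ℝ × ℝ → ℝ} (h₁ : Measurable g₁) (h₂ : Measurable g₂)
    (h₃ : Measurable g₃) {M : ℝ} (b₁ : ∀ q, |g₁ q| ≤ M) (b₂ : ∀ q, |g₂ q| ≤ M) (b₃ : ∀ q, |g₃ q| ≤ M) :
    ∫ q in mpatch Λ u₁ u₂ r, |g₁ q - g₃ q| ≤
      (∫ q in mpatch Λ u₁ u₂ r, |g₁ q - g₂ q|) + ∫ q in mpatch Λ u₁ u₂ r, |g₂ q - g₃ q| := by
  have i₁ := mptb_intOn Λ u₁ u₂ r h₁ b₁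
  have i₂ := mptb_intOn Λ u₁ u₂ r h₂ b₂
  have i₃ := mptb_intOn Λ u₁ u₂ r h₃ b₃
  have j₁₂ : IntegrableOn (fun q => |g₁ q - g₂ q|) (mpatch Λ u₁ u₂ r) := (i₁.sub i₂).abs
  have j₂₃ : IntegrableOn (fun q => |g₂ q - g₃ q|) (mpatch Λ u₁ u₂ r) := (i₂.sub i₃).abs
  have j₁₃ : IntegrableOn (fun q => |g₁ q - g₃ q|) (mpatch Λ u₁ u₂ r) := (i₁.sub i₃).abs
  rw [← integral_add j₁₂ j₂₃]
  exact integral_mono j₁₃ (j₁₂.add j₂₃) fun q => abs_sub_le _ _ _

/-- `L¹`-continuity of translations -/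
theorem mptb_transl {A : ℝ × ℝ → ℝ} (hA : Measurable A) {M : ℝ} (hM : ∀ q, |A q| ≤ M) (Λ u₁ u₂ r ε : ℝ)
    (hε : 0 < ε) : ∃ ρ : ℝ, 0 < ρ ∧ ∀ w : ℝ × ℝ, ‖w‖ ≤ ρ → ∫ q in mpatch Λ u₁ u₂ r, |A (q + w) - A q| ≤ ε := by
  have hPb : Bornology.IsBounded (mpatch Λ u₁ u₂ r) := (Metric.isBounded_Ioo _ _).prod (Metric.isBounded_Ioo _ _)
  have hPm : MeasurableSet (mpatch Λ u₁ u₂ r) := measurableSet_Ioo.prod measurableSet_Ioo
  have hPf : volume (mpatch Λ u₁ u₂ r) < ⊤ := hPb.measure_lt_top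
  obtain ⟨R, hR⟩ := hPb.subset_closedBall 0
  generalize mpatch Λ u₁ u₂ r = P at hPb hPm hPf hR ⊢
  set Q : Set (ℝ × ℝ) := Metric.closedBall 0 (R + 1) with hQ
  set B : ℝ × ℝ → ℝ := Q.indicator A with hBdef
  have hBi : Integrable B := by
    rw [integrable_indicator_iff Metric.isClosed_closedBall.measurableSet]
    exact Measure.integrableOn_of_bounded (M := M) measure_closedBall_lt_top.ne hA.aestronglyMeasurable
      (ae_of_all _ fun q => by rw [Real.norm_eq_abs]; exact hM q)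
  obtain ⟨g, hgc, hg1, hg2, hg3⟩ := hBi.exists_hasCompactSupport_integral_sub_le (ε := ε / 3) (by positivity)
  have hgu : UniformContinuous g := hgc.uniformContinuous_of_continuous hg2
  set V : ℝ := (volume P).toReal with hV
  have hV0 : 0 ≤ V := ENNReal.toReal_nonneg
  obtain ⟨ρ, hρ, hgρ⟩ := Metric.uniformContinuous_iff.1 hgu (ε / (3 * (V + 1))) (by positivity)
  refine ⟨min 1 (ρ / 2), by positivity, fun w hw => ?_⟩
  have hw1 : ‖w‖ ≤ 1 := hw.trans (min_le_left _ _)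
  have hw2 : ‖w‖ < ρ := lt_of_le_of_lt (hw.trans (min_le_right _ _)) (by linarith)
  have hF : Integrable (fun q => ‖B q - g q‖) := (hBi.sub hg3).norm
  have hF1 : Integrable (fun q => ‖B (q + w) - g (q + w)‖) := hF.comp_add_right w
  have e1 : ∫ q, ‖B (q + w) - g (q + w)‖ = ∫ q, ‖B q - g q‖ :=
    integral_add_right_eq_self (fun q => ‖B q - g q‖) w
  have h1 : ∀ q ∈ P, |A (q + w) - A q| ≤ ‖B (q + w) - g (q + w)‖ + ε / (3 * (V + 1)) + ‖B q - g q‖ := by
    intro q hq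
    have hq0 : ‖q‖ ≤ R := by simpa using hR hq
    have a1 : B q = A q := indicator_of_mem (by
      rw [hQ, mem_closedBall_zero_iff]; linarith) _
    have a2 : B (q + w) = A (q + w) := indicator_of_mem (by
      rw [hQ, mem_closedBall_zero_iff]; exact (norm_add_le _ _).trans (by linarith)) _
    have a3 : |g (q + w) - g q| ≤ ε / (3 * (V + 1)) := by
      have := hgρ (a := q + w) (b := q) (by rw [dist_eq_norm]; simpa using hw2)
      rw [Real.dist_eq] at this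
      exact this.le
    rw [a1, a2, Real.norm_eq_abs, Real.norm_eq_abs]
    have : A (q + w) - A q = (A (q + w) - g (q + w)) + (g (q + w) - g q) - (A q - g q) := by ring
    rw [this]
    refine (abs_sub _ _).trans ?_
    refine add_le_add_left ((abs_add_le _ _).trans ?_) _
    exact add_le_add_right a3 _
  have hc : IntegrableOn (fun _ : ℝ × ℝ => ε / (3 * (V + 1))) P := integrableOn_const hPf.ne
  have hG : IntegrableOn (fun q => ‖B (q + w) - g (q + w)‖ + ε / (3 * (V + 1))) P := hF1.integrableOn.add hc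
  calc ∫ q in P, |A (q + w) - A q|
      ≤ ∫ q in P, (‖B (q + w) - g (q + w)‖ + ε / (3 * (V + 1)) + ‖B q - g q‖) :=
        integral_mono_of_nonneg (ae_of_all _ fun q => abs_nonneg _) (hG.add hF.integrableOn)
          ((ae_restrict_iff' hPm).2 (ae_of_all _ h1))
    _ = (∫ q in P, ‖B (q + w) - g (q + w)‖) + ε / (3 * (V + 1)) * V + (∫ q in P, ‖B q - g q‖) := by
        rw [integral_add hG hF.integrableOn, integral_add hF1.integrableOn hc, setIntegral_const]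
        simp only [smul_eq_mul, Measure.real, hV]
        ring
    _ ≤ ε / 3 + ε / 3 + ε / 3 := by
        refine add_le_add (add_le_add ?_ ?_) ?_
        · exact (setIntegral_le_integral hF1 (ae_of_all _ fun q => norm_nonneg _)).trans (e1.le.trans hg1)
        · rw [div_mul_eq_mul_div, div_le_div_iff₀ (by positivity) (by norm_num)]
          nlinarith
        · exact (setIntegral_le_integral hF (ae_of_all _ fun q => norm_nonneg _)).trans hg1
    _ = ε := by ring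

end Claimed.Agent.R255
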