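-- KEEP
import Claimed.Agent.R255.Plane.TrBBasic

/-!
# Row 255, block (B), chapter A, second half: A6b + A7 QUOT (uniform closeness of small difference quotients to the trace field)      (architect helper188)

`X : TrCtx T`, `Y : TrFld X`, `D^θ(η) = T.dqB X.F α θ η`, `‖g‖_r = ∫ q in X.pat r, |g q|`.   NO fundamental theorem of calculus.
Fix `α`, `a` with `(Π a)_α = 1` (`mptb_avec`), `ρ = Π a - 1_α`, and for an offset `η` put `η♮ = η - η_α Π a`  (`ρ_α = 0 = η♮_α`).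
* `mptb_q_move` :  `η + τ 1_α = (η♮ - τ ρ) + Π((η_α + τ) a)`, hence `D^θ(η + τ 1_α)(q) = D^θ(η♮ - τ ρ)(q + (η_α + τ) a)` (`mptb_dq_shift`) and the margins agree (`mptb_mg_pl`).
* `mptb_q_term` (one term): `‖D^θ(η + τ 1_α) - A‖_r ≤ ‖D^θ(η♮ - τρ) - D^θ(η♮)‖_0 + ‖D^θ(η♮) - A‖_0 + ‖A(· + w) - A‖_r`,  `w = (η_α + τ) a`, `‖w‖ ≤ r`
   (`mptb_int_shift`, `mptb_int_tri`);  first term `≤ C τ ‖ρ‖` (`X.stair`), second `≤ C ‖η♮‖ + ε` for small `θ` (`Y.near`), third `≤ ε` (`mptb_transl`).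
* `mptb_q_int` (interior offsets): `mptb_dq_split` with `n` large.
* `mptb_quot` (closed cone): replace `η` by `η + κ 1_v`, `κ ↓ 0` (`mptb_mg_v`, `mptb_dq_offset`).
* `mptb_incr` : signed increments.
-/

set_option autoImplicit false

namespace Claimed.Agent.R255

open Filter Topology MeasureTheory Set
open scoped NNReal

variable {N : ℕ} {T : MpIn N}

/-- algebra of the move -/
theorem mptb_q_move (α : Fin N) (a : ℝ × ℝ) (ha : T.pl a α = 1) (η : Fin N → ℝ) (τ : ℝ) :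
    η + Pi.single α τ = (η - η α • T.pl a - τ • (T.pl a - Pi.single α 1)) + T.pl ((η α + τ) • a) ∧
      (η - η α • T.pl a - τ • (T.pl a - Pi.single α 1) : Fin N → ℝ) α = 0 := by
  constructor
  · rw [mptb_pl_smul]
    funext β
    simp only [Pi.add_apply, Pi.sub_apply, Pi.smul_apply, smul_eq_mul]
    by_cases h : β = α
    · subst h
      simp only [Pi.single_eq_same]
      ring
    · simp only [Pi.single_eq_of_ne h]
      ring
  · simp only [Pi.sub_apply, Pi.smul_apply, smul_eq_mul, Pi.single_eq_same, ha]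
    ring

/-- one term of the telescoped quotient, all errors explicit.
`E₁` bounds the translation error of the field, `E₂` the distance of `D^θ(η♮)` to the field. -/
theorem mptb_q_term (hT : T.Ok) (X : TrCtx T) (Y : TrFld X) (α : Fin N) (a : ℝ × ℝ) (ha : T.pl a α = 1)
    (r E₁ E₂ μ θ τ : ℝ) (η : Fin N → ℝ) (hμ : 0 < μ) (hτ : 0 ≤ τ)
    (hm0 : T.mgB η μ) (hm : T.mgB (η + Pi.single α τ) μ)
    (hn0 : ‖η - η α • T.pl a‖ ≤ X.δ) (hn : ‖η - η α • T.pl a - τ • (T.pl a - Pi.single α 1)‖ ≤ X.δ)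
    (hθ0 : 0 < θ) (hθ1 : θ ≤ X.c * μ) (hθ2 : θ ≤ X.δ) (hw : ‖(η α + τ) • a‖ ≤ r)
    (h1 : ∫ q in X.pat r, |Y.A α (q + (η α + τ) • a) - Y.A α q| ≤ E₁)
    (h2 : ∫ q in X.pat 0, |T.dqB X.F α θ (η - η α • T.pl a) q - Y.A α q| ≤ E₂) :
    ∫ q in X.pat r, |T.dqB X.F α θ (η + Pi.single α τ) q - Y.A α q| ≤
      X.C * (τ * ‖T.pl a - Pi.single α 1‖) + E₂ + E₁ := by
  obtain ⟨hmove, hzero⟩ := mptb_q_move (T := T) α a ha η τ
  set ρv : Fin N → ℝ := T.pl a - Pi.single α 1 with hρv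
  set η₀ : Fin N → ℝ := η - η α • T.pl a with hη₀
  set w : ℝ × ℝ := (η α + τ) • a with hw'
  have hd : 0 ≤ T.d α := le_trans (Y.bd α 0).1 (Y.bd α 0).2
  have hK : (0 : ℝ) ≤ X.K := X.K.coe_nonneg
  set M : ℝ := X.K + T.d α with hM
  have hDm : ∀ η' : Fin N → ℝ, Measurable (T.dqB X.F α θ η') :=
    fun η' => (mptb_dq_cont X.lip.continuous α θ η').measurable
  have hDb : ∀ (η' : Fin N → ℝ) (q : ℝ × ℝ), |T.dqB X.F α θ η' q| ≤ M :=
    fun η' q => (mptb_dq_abs_le X.lip α θ η' q).trans (by linarith)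
  have hAb : ∀ q, |Y.A α q| ≤ M := by
    intro q
    rw [abs_of_nonneg (Y.bd α q).1]
    linarith [(Y.bd α q).2]
  have hsh : Measurable (fun q : ℝ × ℝ => q + w) := measurable_id.add_const w
  have hid : ∀ q, T.dqB X.F α θ (η + Pi.single α τ) q = T.dqB X.F α θ (η₀ - τ • ρv) (q + w) := by
    intro q
    rw [mptb_dq_shift, ← hmove]
  have s1 : ∫ q in X.pat r, |T.dqB X.F α θ (η + Pi.single α τ) q - Y.A α q| ≤
      (∫ q in X.pat r, |T.dqB X.F α θ (η₀ - τ • ρv) (q + w) - Y.A α (q + w)|)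
        + ∫ q in X.pat r, |Y.A α (q + w) - Y.A α q| := by
    simp only [hid]
    exact mptb_int_tri X.Λ X.u₁ X.u₂ r (g₁ := fun q => T.dqB X.F α θ (η₀ - τ • ρv) (q + w))
      (g₂ := fun q => Y.A α (q + w)) (g₃ := Y.A α) ((hDm _).comp hsh) ((Y.meas α).comp hsh) (Y.meas α)
      (M := M) (fun q => hDb _ _) (fun q => hAb _) hAb
  have s2 : ∫ q in X.pat r, |T.dqB X.F α θ (η₀ - τ • ρv) (q + w) - Y.A α (q + w)| ≤
      ∫ q in X.pat 0, |T.dqB X.F α θ (η₀ - τ • ρv) q - Y.A α q| :=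
    mptb_int_shift X.Λ X.u₁ X.u₂ (r := r) (r' := 0) (g := fun q => T.dqB X.F α θ (η₀ - τ • ρv) q - Y.A α q)
      ((hDm _).sub (Y.meas α)) (M := M + M)
      (fun q => (abs_sub _ _).trans (add_le_add (hDb _ _) (hAb _))) w (by simpa using hw)
  have s3 : ∫ q in X.pat 0, |T.dqB X.F α θ (η₀ - τ • ρv) q - Y.A α q| ≤
      (∫ q in X.pat 0, |T.dqB X.F α θ (η₀ - τ • ρv) q - T.dqB X.F α θ η₀ q|)
        + ∫ q in X.pat 0, |T.dqB X.F α θ η₀ q - Y.A α q| :=
    mptb_int_tri X.Λ X.u₁ X.u₂ 0 (hDm _) (hDm _) (Y.meas α) (M := M) (hDb _) (hDb _) hAb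
  have hz0 : η₀ α = 0 := by
    simp only [hη₀, Pi.sub_apply, Pi.smul_apply, smul_eq_mul, ha]
    ring
  have hmg0 : T.mgB η₀ μ := by
    have e : η₀ = η + T.pl ((- η α) • a) := by
      rw [mptb_pl_smul, hη₀, neg_smul, sub_eq_add_neg]
    rw [e, mptb_mg_pl hT]
    exact hm0
  have hmg1 : T.mgB (η₀ - τ • ρv) μ := by
    rw [hmove, mptb_mg_pl hT] at hm
    exact hm
  have s4 := X.stair α (η₀ - τ • ρv) η₀ μ θ hn hn0 (by rw [hzero, hz0]) hμ hmg1 hmg0 hθ0 hθ1 hθ2
  have e4 : ‖η₀ - τ • ρv - η₀‖ = τ * ‖ρv‖ := by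
    have : η₀ - τ • ρv - η₀ = - (τ • ρv) := by abel
    rw [this, norm_neg, norm_smul, Real.norm_eq_abs, abs_of_nonneg hτ]
  rw [e4] at s4
  have s4' : ∫ q in X.pat 0, |T.dqB X.F α θ (η₀ - τ • ρv) q - T.dqB X.F α θ η₀ q| ≤ X.C * (τ * ‖ρv‖) := s4
  linarith

/-- interior offsets -/
theorem mptb_q_int (hT : T.Ok) (X : TrCtx T) (Y : TrFld X) (r ε : ℝ) (hr : 0 < r) (hε : 0 < ε) :
    ∃ δ₂ : ℝ, 0 < δ₂ ∧ ∀ (α : Fin N) (η : Fin N → ℝ) (h μ : ℝ), 0 < μ → T.mgB η μ → T.mgB (η + Pi.single α h) μ →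
      ‖η‖ ≤ δ₂ → 0 < h → h ≤ δ₂ → ∫ q in X.pat r, |T.dqB X.F α h η q - Y.A α q| ≤ ε := by
  have per : ∀ α : Fin N, ∃ δ₂ : ℝ, 0 < δ₂ ∧ ∀ (η : Fin N → ℝ) (h μ : ℝ), 0 < μ → T.mgB η μ →
      T.mgB (η + Pi.single α h) μ → ‖η‖ ≤ δ₂ → 0 < h → h ≤ δ₂ →
      ∫ q in X.pat r, |T.dqB X.F α h η q - Y.A α q| ≤ ε := by
    intro α
    obtain ⟨a, ha⟩ := mptb_avec hT α
    have hd : 0 ≤ T.d α := le_trans (Y.bd α 0).1 (Y.bd α 0).2
    have hAb : ∀ q, |Y.A α q| ≤ T.d α := fun q => by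
      rw [abs_of_nonneg (Y.bd α q).1]; exact (Y.bd α q).2
    obtain ⟨ρt, hρt, Ht⟩ := mptb_transl (Y.meas α) hAb X.Λ X.u₁ X.u₂ r (ε / 4) (by positivity)
    obtain ⟨P, hP⟩ : ∃ P : ℝ, P = ‖T.pl a‖ := ⟨_, rfl⟩
    obtain ⟨R, hR⟩ : ∃ R : ℝ, R = ‖T.pl a - Pi.single α 1‖ := ⟨_, rfl⟩
    obtain ⟨na, hna⟩ : ∃ na : ℝ, na = ‖a‖ := ⟨_, rfl⟩
    have hP0 : 0 ≤ P := by rw [hP]; exact norm_nonneg _
    have hR0 : 0 ≤ R := by rw [hR]; exact norm_nonneg _
    have hna0 : 0 ≤ na := by rw [hna]; exact norm_nonneg _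
    obtain ⟨B, hB⟩ : ∃ B : ℝ, B = 1 + P + R + 2 * na := ⟨_, rfl⟩
    have hB1 : 0 < B := by rw [hB]; positivity
    have hC := X.hC
    have hδ := X.hδ
    obtain ⟨m, hm⟩ : ∃ m : ℝ, m = min (min (X.δ / 2) r) (min ρt (ε / (4 * (X.C + 1)))) := ⟨_, rfl⟩
    have hm0 : 0 < m := by
      rw [hm]
      exact lt_min (lt_min (by positivity) hr) (lt_min hρt (by positivity))
    have hm1 : m ≤ X.δ / 2 := by rw [hm]; exact (min_le_left _ _).trans (min_le_left _ _)
    have hm2 : m ≤ r := by rw [hm]; exact (min_le_left _ _).trans (min_le_right _ _)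
    have hm3 : m ≤ ρt := by rw [hm]; exact (min_le_right _ _).trans (min_le_left _ _)
    have hm4 : X.C * m ≤ ε / 4 := by
      have h4 : m ≤ ε / (4 * (X.C + 1)) := by rw [hm]; exact (min_le_right _ _).trans (min_le_right _ _)
      rw [le_div_iff₀ (by positivity)] at h4
      have := mul_nonneg hC hm0.le
      linarith
    refine ⟨m / B, by positivity, fun η h μ hμ g0 g1 hn h0 hh => ?_⟩
    obtain ⟨δ₂, hδ₂⟩ : ∃ δ₂ : ℝ, δ₂ = m / B := ⟨_, rfl⟩
    rw [← hδ₂] at hn hh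
    have hδB : δ₂ * B = m := by rw [hδ₂]; field_simp
    have hδ0 : 0 < δ₂ := by rw [hδ₂]; positivity
    have hηα : |η α| ≤ δ₂ := by
      have := norm_le_pi_norm η α
      rw [Real.norm_eq_abs] at this
      exact this.trans hn
    -- the flattened offset
    have n0 : ‖η - η α • T.pl a‖ ≤ δ₂ * (1 + P) := by
      refine (norm_sub_le _ _).trans ?_
      rw [norm_smul, Real.norm_eq_abs, ← hP]
      have := mul_le_mul_of_nonneg_right hηα hP0
      linarith
    have hz0 : (η - η α • T.pl a) α = 0 := by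
      simp only [Pi.sub_apply, Pi.smul_apply, smul_eq_mul, ha]
      ring
    have hmg0 : T.mgB (η - η α • T.pl a) μ := by
      have e : η - η α • T.pl a = η + T.pl ((- η α) • a) := by
        rw [mptb_pl_smul, neg_smul, sub_eq_add_neg]
      rw [e, mptb_mg_pl hT]
      exact g0
    have n0' : ‖η - η α • T.pl a‖ ≤ X.δ / 2 := by
      refine n0.trans (le_trans ?_ hm1)
      rw [← hδB, hB]
      have a1 := mul_nonneg hδ0.le hR0
      have a2 := mul_nonneg hδ0.le hna0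
      linarith
    obtain ⟨θ₀, hθ₀, Hn⟩ := Y.near α (η - η α • T.pl a) μ (ε / 4) hz0 hμ hmg0 n0' (by positivity)
    obtain ⟨m', hm'⟩ : ∃ m' : ℝ, m' = min θ₀ (min (X.c * μ) X.δ) := ⟨_, rfl⟩
    have hm'0 : 0 < m' := by
      rw [hm']
      exact lt_min hθ₀ (lt_min (mul_pos X.hc hμ) hδ)
    obtain ⟨n, hn'⟩ := exists_nat_gt (h / m')
    have hnR : (0 : ℝ) < n := lt_trans (by positivity) hn'
    have hn0 : 0 < n := by exact_mod_cast hnR
    have hθ : h / n ≤ m' := by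
      rw [div_lt_iff₀ hm'0] at hn'
      rw [div_le_iff₀ hnR]
      linarith
    have hθp : 0 < h / n := by positivity
    have t1 : h / n ≤ θ₀ := hθ.trans (by rw [hm']; exact min_le_left _ _)
    have t2 : h / n ≤ X.c * μ := hθ.trans (by rw [hm']; exact (min_le_right _ _).trans (min_le_left _ _))
    have t3 : h / n ≤ X.δ := hθ.trans (by rw [hm']; exact (min_le_right _ _).trans (min_le_right _ _))
    have hDm : ∀ (θ : ℝ) (η' : Fin N → ℝ), Measurable (T.dqB X.F α θ η') :=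
      fun θ η' => (mptb_dq_cont X.lip.continuous α θ η').measurable
    have hInt : ∀ (θ : ℝ) (η' : Fin N → ℝ),
        IntegrableOn (fun q => |T.dqB X.F α θ η' q - Y.A α q|) (X.pat r) := fun θ η' =>
      (mptb_intOn X.Λ X.u₁ X.u₂ r ((hDm θ η').sub (Y.meas α)) (M := X.K + T.d α)
        (fun q => (abs_sub _ _).trans (add_le_add (mptb_dq_abs_le X.lip α θ η' q) (hAb q)))).abs
    have term : ∀ j ∈ Finset.range n,
        ∫ q in X.pat r, |T.dqB X.F α (h / n) (η + Pi.single α (j * (h / n))) q - Y.A α q| ≤ ε := by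
      intro j hj
      have hj' : (j : ℝ) < n := by exact_mod_cast Finset.mem_range.1 hj
      have hτ0 : 0 ≤ (j : ℝ) * (h / n) := by positivity
      have hτ1 : (j : ℝ) * (h / n) ≤ h := by
        rw [mul_div_assoc', div_le_iff₀ hnR, mul_comm]
        exact mul_le_mul_of_nonneg_left hj'.le h0.le
      have hτ2 : (j : ℝ) * (h / n) ≤ δ₂ := hτ1.trans hh
      have w1 : ‖(η α + (j : ℝ) * (h / n)) • a‖ ≤ m := by
        rw [norm_smul, Real.norm_eq_abs, ← hna, ← hδB, hB]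
        have : |η α + (j : ℝ) * (h / n)| ≤ 2 * δ₂ := by
          refine (abs_add_le _ _).trans ?_
          rw [abs_of_nonneg hτ0]
          linarith
        have b1 := mul_le_mul_of_nonneg_right this hna0
        have a1 := mul_nonneg hδ0.le hR0
        have a2 := mul_nonneg hδ0.le hP0
        linarith
      have n1 : ‖η - η α • T.pl a - ((j : ℝ) * (h / n)) • (T.pl a - Pi.single α 1)‖ ≤ X.δ := by
        refine (norm_sub_le _ _).trans ?_
        rw [norm_smul, Real.norm_eq_abs, abs_of_nonneg hτ0, ← hR]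
        have : δ₂ * (1 + P) + δ₂ * R ≤ m := by
          rw [← hδB, hB]
          have a2 := mul_nonneg hδ0.le hna0
          linarith
        have b1 := mul_le_mul_of_nonneg_right hτ2 hR0
        linarith
      have key := mptb_q_term hT X Y α a ha r (ε / 4) (X.C * ‖η - η α • T.pl a‖ + ε / 4) μ (h / n)
        ((j : ℝ) * (h / n)) η hμ hτ0 g0 (mptb_mg_seg α g0 g1 hτ0 hτ1) (n0'.trans (by linarith)) n1 hθp t2 t3
        (w1.trans hm2) (Ht _ (w1.trans hm3)) (Hn _ hθp t1)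
      refine key.trans ?_
      rw [← hR]
      have : X.C * ((j : ℝ) * (h / n) * R) + X.C * ‖η - η α • T.pl a‖ ≤ X.C * m := by
        rw [← mul_add]
        refine mul_le_mul_of_nonneg_left ?_ hC
        rw [← hδB, hB]
        have b1 := mul_le_mul_of_nonneg_right hτ2 hR0
        have a2 := mul_nonneg hδ0.le hna0
        linarith
      linarith
    have hsplit : ∀ q, |T.dqB X.F α h η q - Y.A α q| ≤
        (∑ j ∈ Finset.range n, |T.dqB X.F α (h / n) (η + Pi.single α (j * (h / n))) q - Y.A α q|) / n := by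
      intro q
      rw [mptb_dq_split X.F α h0.ne' n hn0 η q]
      have e : (∑ j ∈ Finset.range n, T.dqB X.F α (h / n) (η + Pi.single α (j * (h / n))) q) / n - Y.A α q
          = (∑ j ∈ Finset.range n, (T.dqB X.F α (h / n) (η + Pi.single α (j * (h / n))) q - Y.A α q)) / n := by
        rw [Finset.sum_sub_distrib, Finset.sum_const, Finset.card_range, nsmul_eq_mul]
        field_simp
      rw [e, abs_div, Nat.abs_cast]
      exact div_le_div_of_nonneg_right (Finset.abs_sum_le_sum_abs _ _) hnR.le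
    calc ∫ q in X.pat r, |T.dqB X.F α h η q - Y.A α q|
        ≤ ∫ q in X.pat r, (∑ j ∈ Finset.range n,
            |T.dqB X.F α (h / n) (η + Pi.single α (j * (h / n))) q - Y.A α q|) / n := by
          refine integral_mono (hInt _ _) ?_ hsplit
          exact (integrable_finsetSum _ fun j _ => hInt _ _).div_const _
      _ = (∑ j ∈ Finset.range n, ∫ q in X.pat r,
            |T.dqB X.F α (h / n) (η + Pi.single α (j * (h / n))) q - Y.A α q|) / n := by
          rw [integral_div, integral_finsetSum _ fun j _ => hInt _ _]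
      _ ≤ (∑ j ∈ Finset.range n, ε) / n :=
          div_le_div_of_nonneg_right (Finset.sum_le_sum term) hnR.le
      _ = ε := by
          rw [Finset.sum_const, Finset.card_range, nsmul_eq_mul]
          field_simp
  choose f hf0 hf using per
  rcases isEmpty_or_nonempty (Fin N) with hN | hN
  · exact ⟨1, one_pos, fun α => (hN.false α).elim⟩
  · refine ⟨Finset.univ.inf' Finset.univ_nonempty f, ?_, fun α η h μ hμ g0 g1 hn h0 hh => ?_⟩
    · rw [Finset.lt_inf'_iff]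
      exact fun α _ => hf0 α
    · have hle : Finset.univ.inf' Finset.univ_nonempty f ≤ f α := Finset.inf'_le _ (Finset.mem_univ α)
      exact hf α η h μ hμ g0 g1 (hn.trans hle) h0 (hh.trans hle)

/-- **A7 QUOT**: uniform closeness of all small difference quotients in the closed cone -/
theorem mptb_quot (hT : T.Ok) (X : TrCtx T) (Y : TrFld X) (r ε : ℝ) (hr : 0 < r) (hε : 0 < ε) :
    ∃ δ₂ : ℝ, 0 < δ₂ ∧ ∀ (α : Fin N) (η : Fin N → ℝ) (h : ℝ), T.Cone η → T.Cone (η + Pi.single α h) →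
      ‖η‖ ≤ δ₂ → 0 < h → h ≤ δ₂ → ∫ q in X.pat r, |T.dqB X.F α h η q - Y.A α q| ≤ ε := by
  obtain ⟨δ₂, hδ₂, H⟩ := mptb_q_int hT X Y r (ε / 2) hr (half_pos hε)
  obtain ⟨μv, hμv, hmv⟩ := mptb_mg_v hT
  refine ⟨δ₂ / 2, half_pos hδ₂, fun α η h c c' hn h0 hh => ?_⟩
  obtain ⟨V, hV⟩ : ∃ V : ℝ, V = (volume (X.pat r)).toReal := ⟨_, rfl⟩
  have hV0 : 0 ≤ V := by rw [hV]; exact ENNReal.toReal_nonneg
  obtain ⟨κ, hκ⟩ : ∃ κ : ℝ, κ = min (δ₂ / 2) (ε / 2 * h / (2 * X.K * V + 1)) := ⟨_, rfl⟩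
  have hden : 0 < 2 * (X.K : ℝ) * V + 1 := by positivity
  have hκ0 : 0 < κ := by rw [hκ]; exact lt_min (half_pos hδ₂) (by positivity)
  have hκ1 : κ ≤ δ₂ / 2 := by rw [hκ]; exact min_le_left _ _
  have hκ2 : 2 * X.K * κ / h * V ≤ ε / 2 := by
    have : κ ≤ ε / 2 * h / (2 * X.K * V + 1) := by rw [hκ]; exact min_le_right _ _
    rw [le_div_iff₀ hden] at this
    rw [div_mul_eq_mul_div, div_le_iff₀ h0]
    nlinarith
  have mg : ∀ {ζ : Fin N → ℝ}, T.Cone ζ → T.mgB (ζ + κ • Pi.single T.v 1) (κ * μv) := fun {ζ} hζ => by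
    have := mptb_mg_add ((mptb_mg_zero ζ).2 hζ) (mptb_mg_smul hmv hκ0.le)
    simpa using this
  have nκ : ‖κ • (Pi.single T.v 1 : Fin N → ℝ)‖ = κ := by
    rw [norm_smul, Pi.norm_single, Real.norm_of_nonneg hκ0.le]; simp
  have h1 := H α (η + κ • Pi.single T.v 1) h (κ * μv) (by positivity) (mg c)
    (by rw [add_right_comm]; exact mg c') ((norm_add_le _ _).trans (by rw [nκ]; linarith)) h0 (by linarith)
  obtain ⟨M, hM⟩ : ∃ M : ℝ, M = max (X.K : ℝ) (T.d α) := ⟨_, rfl⟩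
  have tri := mptb_int_tri X.Λ X.u₁ X.u₂ r (g₁ := T.dqB X.F α h η) (g₂ := T.dqB X.F α h (η + κ • Pi.single T.v 1))
    (g₃ := Y.A α) (mptb_dq_cont X.lip.continuous α h η).measurable
    (mptb_dq_cont X.lip.continuous α h _).measurable (Y.meas α) (M := M)
    (fun q => (mptb_dq_abs_le X.lip α h η q).trans (hM ▸ le_max_left _ _))
    (fun q => (mptb_dq_abs_le X.lip α h _ q).trans (hM ▸ le_max_left _ _))
    (fun q => by rw [abs_of_nonneg (Y.bd α q).1]; exact (Y.bd α q).2.trans (hM ▸ le_max_right _ _))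
  have h2 : ∫ q in X.pat r, |T.dqB X.F α h η q - T.dqB X.F α h (η + κ • Pi.single T.v 1) q| ≤ 2 * X.K * κ / h * V := by
    have := norm_setIntegral_le_of_norm_le_const (μ := volume) (s := X.pat r)
      (f := fun q => |T.dqB X.F α h η q - T.dqB X.F α h (η + κ • Pi.single T.v 1) q|) (C := 2 * X.K * κ / h)
      (mptb_patch_finite _ _ _ _) (fun q _ => by
        rw [Real.norm_eq_abs, abs_abs]
        have := mptb_dq_offset (T := T) X.lip α h0 η (η + κ • Pi.single T.v 1) q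
        rwa [sub_add_cancel_left, norm_neg, nκ] at this)
    rw [hV]
    exact (le_abs_self _).trans this
  unfold TrCtx.pat at h1 h2 ⊢
  linarith

/-- signed increments -/
theorem mptb_incr (hT : T.Ok) (X : TrCtx T) (Y : TrFld X) (r ε : ℝ) (hr : 0 < r) (hε : 0 < ε) :
    ∃ δ₂ : ℝ, 0 < δ₂ ∧ ∀ (α : Fin N) (η : Fin N → ℝ) (s : ℝ), T.Cone η → T.Cone (η + Pi.single α s) →
      ‖η‖ ≤ δ₂ → |s| ≤ δ₂ →
      ∫ q in X.pat r, |X.F (T.pl q + η + Pi.single α s) - X.F (T.pl q + η) - s * Y.A α q| ≤ ε * |s| := by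
  obtain ⟨δ₂, hδ₂, H⟩ := mptb_quot hT X Y r ε hr hε
  refine ⟨δ₂ / 2, half_pos hδ₂, fun α η s c c' hn hs => ?_⟩
  rcases lt_trichotomy s 0 with h | h | h
  · have e0 : η + Pi.single α s + Pi.single α (-s) = η := by
      rw [add_assoc, ← Pi.single_add, add_neg_cancel, Pi.single_zero, add_zero]
    have h1 := H α (η + Pi.single α s) (-s) c' (by rw [e0]; exact c)
      ((norm_add_le _ _).trans (by rw [Pi.norm_single, Real.norm_eq_abs]; linarith)) (by linarith)
      (by rw [abs_of_neg h] at hs; linarith)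
    rw [abs_of_neg h]
    have e : ∀ q, |X.F (T.pl q + η + Pi.single α s) - X.F (T.pl q + η) - s * Y.A α q|
        = (-s) * |T.dqB X.F α (-s) (η + Pi.single α s) q - Y.A α q| := by
      intro q
      unfold MpIn.dqB
      have e1 : T.pl q + (η + Pi.single α s) + Pi.single α (-s) = T.pl q + η := by rw [add_assoc, e0]
      have e2 : T.pl q + (η + Pi.single α s) = T.pl q + η + Pi.single α s := (add_assoc _ _ _).symm
      rw [e1, e2]
      have hs0 : s ≠ 0 := h.ne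
      have e3 : X.F (T.pl q + η + Pi.single α s) - X.F (T.pl q + η) - s * Y.A α q
          = -((-s) * ((X.F (T.pl q + η) - X.F (T.pl q + η + Pi.single α s)) / -s - Y.A α q)) := by
        field_simp
        ring
      rw [e3, abs_neg, abs_mul, abs_of_pos (by linarith : 0 < -s)]
    simp only [e]
    rw [integral_const_mul, mul_comm]
    exact mul_le_mul_of_nonneg_right h1 (by linarith)
  · subst h; simp
  · have h1 := H α η s c c' (by linarith) h (by rw [abs_of_pos h] at hs; linarith)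
    rw [abs_of_pos h]
    have e : ∀ q, |X.F (T.pl q + η + Pi.single α s) - X.F (T.pl q + η) - s * Y.A α q|
        = s * |T.dqB X.F α s η q - Y.A α q| := by
      intro q
      unfold MpIn.dqB
      rw [← abs_of_pos h, ← abs_mul, abs_of_pos h]
      congr 1
      field_simp
    simp only [e]
    rw [integral_const_mul, mul_comm]
    exact mul_le_mul_of_nonneg_right h1 h.le

end Claimed.Agent.R255
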