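-- KEEP
import Claimed.Agent.R255.Plane.TrBQuot

/-!
# Row 255, block (B), chapter A, second half: A8 DIR + A10 BV      (architect helper188)

A8.  `ξ` in the cone, `κ` from `mptb_absorb`, `Kξ = κ ‖ξ‖ + ‖ξ‖`.  Path inside the closed cone from `0` to `h ξ`:
  label up `0 → Kξ h 1_v`;  the data coordinates `β ≠ v` one at a time, `η_S = Kξ h 1_v + h ∑_{β ∈ S} ξ_β 1_β` (in the cone: `mptb_absorb` applied to `∑_{β∈S} ξ_β 1_β`, norm `≤ ‖ξ‖`, + more label);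
  label down `η_univ → h ξ` (step `-(Kξ - ξ_v) h`).   Each step is `mptb_incr`.
* `mptb_d_cone` : all points of the path are in the cone.
* `mptb_d_data` : induction on `S ⊆ univ \ {v}` (`Finset.induction_on`): `‖F(Π q + η_S) - F(Π q + η_∅) - h ∑_{β∈S} ξ_β A_β‖_r ≤ ε' h ‖ξ‖ |S|`.
* `mptb_dir`    : glue.
A10. `mptb_bv`: `A(q + sV) - A(q)`, insert `D^θ(κ ζ)`:  `‖A(·+sV) - D^θ(κζ)(·+sV)‖_r ≤ ‖A - D^θ(κζ)‖_0` (`mptb_int_shift`, `s ‖V‖ ≤ r`),  `D^θ(κζ)(q+sV) = D^θ(κζ + s Π V)(q)` (`mptb_dq_shift`),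
  `X.stair` (`(Π V_α)_α = 0`, margin unchanged `mptb_mg_pl`) gives `C s ‖Π V‖`;  `Y.near` makes the two other terms `≤ C κ ‖ζ‖ + ε'`;  let `κ, ε' ↓ 0` (`le_of_forall_pos_le_add`).
-/

set_option autoImplicit false

namespace Claimed.Agent.R255

open Filter Topology MeasureTheory Set
open scoped NNReal

variable {N : ℕ} {T : MpIn N}

/-- the points of the path -/
noncomputable def mptbPath (T : MpIn N) (ξ : Fin N → ℝ) (Kξ h : ℝ) (S : Finset (Fin N)) : Fin N → ℝ :=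
  Pi.single T.v (Kξ * h) + h • ∑ β ∈ S, Pi.single β (ξ β)

theorem mptb_dir_eqns_cite : True := by
  have := @mptbPath.eq_1
  trivial

theorem mptb_d_sum_apply (ξ : Fin N → ℝ) (S : Finset (Fin N)) (γ : Fin N) :
    (∑ β ∈ S, Pi.single β (ξ β) : Fin N → ℝ) γ = if γ ∈ S then ξ γ else 0 := by
  rw [Finset.sum_apply]
  exact Finset.sum_pi_single γ ξ S

theorem mptb_d_sum_norm (ξ : Fin N → ℝ) (S : Finset (Fin N)) : ‖(∑ β ∈ S, Pi.single β (ξ β) : Fin N → ℝ)‖ ≤ ‖ξ‖ := by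
  refine (pi_norm_le_iff_of_nonneg (norm_nonneg _)).2 fun γ => ?_
  rw [mptb_d_sum_apply]
  split_ifs
  · exact norm_le_pi_norm ξ γ
  · simp

theorem mptb_d_cone_add {η η' : Fin N → ℝ} (h : T.Cone η) (h' : T.Cone η') : T.Cone (η + η') := by
  intro l
  have : ∑ α, T.lam l α * (η + η') α = ∑ α, T.lam l α * η α + ∑ α, T.lam l α * η' α := by
    rw [← Finset.sum_add_distrib]; refine Finset.sum_congr rfl fun α _ => ?_
    simp only [Pi.add_apply]; ring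
  rw [this]
  have := h l
  have := h' l
  linarith

theorem mptb_d_cone_v (hT : T.Ok) {c : ℝ} (hc : 0 ≤ c) : T.Cone (Pi.single T.v c) := by
  intro l
  rw [Finset.sum_eq_single T.v]
  · simp only [Pi.single_eq_same]
    exact mul_nonpos_of_nonpos_of_nonneg (hT.lam_v l).le hc
  · intro b _ hb; simp [hb]
  · simp

theorem mptb_d_cone_smul {η : Fin N → ℝ} (h : T.Cone η) {c : ℝ} (hc : 0 ≤ c) : T.Cone (c • η) := by
  intro j
  have : ∑ α, T.lam j α * (c • η) α = c * ∑ α, T.lam j α * η α := by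
    rw [Finset.mul_sum]; refine Finset.sum_congr rfl fun α _ => ?_
    simp only [Pi.smul_apply, smul_eq_mul]; ring
  rw [this]
  exact mul_nonpos_of_nonneg_of_nonpos hc (h j)

/-- the path stays in the closed cone and is small -/
theorem mptb_d_cone (hT : T.Ok) : ∃ κ : ℝ, 0 ≤ κ ∧ ∀ (ξ : Fin N → ℝ) (h : ℝ) (S : Finset (Fin N)), 0 ≤ h →
    T.Cone (mptbPath T ξ (κ * ‖ξ‖) h S) ∧ ‖mptbPath T ξ (κ * ‖ξ‖) h S‖ ≤ (κ + 1) * ‖ξ‖ * h := by
  obtain ⟨κ, hκ, H⟩ := mptb_absorb hT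
  refine ⟨κ, hκ, fun ξ h S hh => ?_⟩
  have hy : ‖h • (∑ β ∈ S, Pi.single β (ξ β) : Fin N → ℝ)‖ ≤ h * ‖ξ‖ := by
    rw [norm_smul, Real.norm_of_nonneg hh]
    exact mul_le_mul_of_nonneg_left (mptb_d_sum_norm ξ S) hh
  constructor
  · have e : mptbPath T ξ (κ * ‖ξ‖) h S
        = (h • (∑ β ∈ S, Pi.single β (ξ β) : Fin N → ℝ)
            + Pi.single T.v (κ * ‖h • (∑ β ∈ S, Pi.single β (ξ β) : Fin N → ℝ)‖))
          + Pi.single T.v (κ * (h * ‖ξ‖ - ‖h • (∑ β ∈ S, Pi.single β (ξ β) : Fin N → ℝ)‖)) := by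
      unfold mptbPath
      rw [add_assoc, ← Pi.single_add, add_comm]
      congr 2
      ring
    rw [e]
    exact mptb_d_cone_add (H _) (mptb_d_cone_v hT (mul_nonneg hκ (by linarith)))
  · unfold mptbPath
    refine (norm_add_le _ _).trans ?_
    rw [Pi.norm_single, Real.norm_of_nonneg (by positivity)]
    nlinarith

/-- integrability of the error terms -/
theorem mptb_d_int (X : TrCtx T) (r : ℝ) (η η' : Fin N → ℝ) (g : ℝ × ℝ → ℝ) (hg : Measurable g) (M : ℝ)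
    (hM : ∀ q, |g q| ≤ M) :
    IntegrableOn (fun q => |X.F (T.pl q + η') - X.F (T.pl q + η) - g q|) (X.pat r) := by
  have c1 : Continuous (fun q => X.F (T.pl q + η') - X.F (T.pl q + η)) := by
    have := mptb_pl_cont (T := T)
    have := X.lip.continuous
    fun_prop
  refine mptb_intOn _ _ _ _ (c1.measurable.sub hg).abs (M := X.K * ‖η' - η‖ + M) fun q => ?_
  rw [abs_abs]
  have h1 : |X.F (T.pl q + η') - X.F (T.pl q + η)| ≤ X.K * ‖η' - η‖ := by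
    have := X.lip.dist_le_mul (T.pl q + η') (T.pl q + η)
    rw [Real.dist_eq, dist_eq_norm] at this
    have e2 : T.pl q + η' - (T.pl q + η) = η' - η := by abel
    rwa [e2] at this
  exact (abs_sub _ _).trans (add_le_add h1 (hM q))

theorem mptb_d_path_insert (ξ : Fin N → ℝ) (Kξ h : ℝ) (S : Finset (Fin N)) (β : Fin N) (hβ : β ∉ S) :
    mptbPath T ξ Kξ h (insert β S) = mptbPath T ξ Kξ h S + Pi.single β (h * ξ β) := by
  unfold mptbPath
  have e : h • (Pi.single β (ξ β) : Fin N → ℝ) = Pi.single β (h * ξ β) := by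
    funext γ
    by_cases hγ : γ = β
    · subst hγ; simp
    · simp [Pi.single_eq_of_ne hγ]
  rw [Finset.sum_insert hβ, smul_add, e, add_assoc]
  congr 1
  exact add_comm _ _

theorem mptb_d_gmeas (X : TrCtx T) (Y : TrFld X) (c : Fin N → ℝ) (h : ℝ) (S : Finset (Fin N)) :
    Measurable (fun q => h * ∑ β ∈ S, c β * Y.A β q) ∧
      ∀ q, |h * ∑ β ∈ S, c β * Y.A β q| ≤ |h| * ∑ β ∈ S, |c β| * T.d β := by
  refine ⟨(Finset.measurable_sum _ fun β _ => (Y.meas β).const_mul _).const_mul _, fun q => ?_⟩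
  rw [abs_mul]
  refine mul_le_mul_of_nonneg_left ?_ (abs_nonneg _)
  refine (Finset.abs_sum_le_sum_abs _ _).trans (Finset.sum_le_sum fun β _ => ?_)
  rw [abs_mul, abs_of_nonneg (Y.bd β q).1]
  exact mul_le_mul_of_nonneg_left (Y.bd β q).2 (abs_nonneg _)

/-- the data coordinates -/
theorem mptb_d_data (hT : T.Ok) (X : TrCtx T) (Y : TrFld X) (r : ℝ) (ξ : Fin N → ℝ) (Kξ h E : ℝ) (hh : 0 < h)
    (hstep : ∀ (β : Fin N) (S : Finset (Fin N)), β ∉ S → β ≠ T.v →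
      ∫ q in X.pat r, |X.F (T.pl q + mptbPath T ξ Kξ h S + Pi.single β (h * ξ β)) - X.F (T.pl q + mptbPath T ξ Kξ h S)
        - h * ξ β * Y.A β q| ≤ E)
    (S : Finset (Fin N)) (hS : T.v ∉ S) :
    ∫ q in X.pat r, |X.F (T.pl q + mptbPath T ξ Kξ h S) - X.F (T.pl q + mptbPath T ξ Kξ h ∅)
      - h * ∑ β ∈ S, ξ β * Y.A β q| ≤ S.card * E := by
  induction S using Finset.induction_on with
  | empty => simp
  | insert β S hβ ih =>
    have hv : T.v ∉ S := fun h' => hS (Finset.mem_insert_of_mem h')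
    have hβv : β ≠ T.v := fun h' => hS (h' ▸ Finset.mem_insert_self β S)
    have ih' := ih hv
    have st := hstep β S hβ hβv
    have i1 : IntegrableOn (fun q => |X.F (T.pl q + (mptbPath T ξ Kξ h S + Pi.single β (h * ξ β)))
        - X.F (T.pl q + mptbPath T ξ Kξ h S) - h * ξ β * Y.A β q|) (X.pat r) :=
      mptb_d_int X r _ _ _ ((Y.meas β).const_mul _) (|h * ξ β| * T.d β) fun q => by
        rw [abs_mul, abs_of_nonneg (Y.bd β q).1]
        exact mul_le_mul_of_nonneg_left (Y.bd β q).2 (abs_nonneg _)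
    have i2 : IntegrableOn (fun q => |X.F (T.pl q + mptbPath T ξ Kξ h S) - X.F (T.pl q + mptbPath T ξ Kξ h ∅)
        - h * ∑ β ∈ S, ξ β * Y.A β q|) (X.pat r) :=
      mptb_d_int X r _ _ _ (mptb_d_gmeas X Y ξ h S).1 _ (mptb_d_gmeas X Y ξ h S).2
    simp only [← add_assoc] at i1
    calc ∫ q in X.pat r, |X.F (T.pl q + mptbPath T ξ Kξ h (insert β S)) - X.F (T.pl q + mptbPath T ξ Kξ h ∅)
          - h * ∑ β ∈ insert β S, ξ β * Y.A β q|
        ≤ ∫ q in X.pat r, (|X.F (T.pl q + mptbPath T ξ Kξ h S + Pi.single β (h * ξ β))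
              - X.F (T.pl q + mptbPath T ξ Kξ h S) - h * ξ β * Y.A β q|
            + |X.F (T.pl q + mptbPath T ξ Kξ h S) - X.F (T.pl q + mptbPath T ξ Kξ h ∅)
              - h * ∑ β ∈ S, ξ β * Y.A β q|) := by
          refine integral_mono_of_nonneg (Eventually.of_forall fun q => abs_nonneg _) (i1.add i2)
            (Eventually.of_forall fun q => ?_)
          show |X.F (T.pl q + mptbPath T ξ Kξ h (insert β S)) - X.F (T.pl q + mptbPath T ξ Kξ h ∅)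
            - h * ∑ β ∈ insert β S, ξ β * Y.A β q| ≤ _
          rw [mptb_d_path_insert ξ Kξ h S β hβ, Finset.sum_insert hβ, ← add_assoc]
          refine le_trans (le_of_eq ?_) (abs_add_le _ _)
          congr 1
          ring
      _ = (∫ q in X.pat r, |X.F (T.pl q + mptbPath T ξ Kξ h S + Pi.single β (h * ξ β))
              - X.F (T.pl q + mptbPath T ξ Kξ h S) - h * ξ β * Y.A β q|)
            + ∫ q in X.pat r, |X.F (T.pl q + mptbPath T ξ Kξ h S) - X.F (T.pl q + mptbPath T ξ Kξ h ∅)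
              - h * ∑ β ∈ S, ξ β * Y.A β q| := by
          exact integral_add (μ := volume.restrict (X.pat r)) i1 i2
      _ ≤ E + S.card * E := add_le_add st ih'
      _ = (insert β S).card * E := by
          rw [Finset.card_insert_of_notMem hβ]; push_cast; ring

/-- **A8 DIR** -/
theorem mptb_dir (hT : T.Ok) (X : TrCtx T) (Y : TrFld X) (r : ℝ) (hr : 0 < r) (ξ : Fin N → ℝ)
    (hξ : T.Cone ξ) (ε : ℝ) (hε : 0 < ε) :
    ∃ h₀ : ℝ, 0 < h₀ ∧ ∀ h : ℝ, 0 < h → h ≤ h₀ →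
      ∫ q in X.pat r, |(X.F (T.pl q + h • ξ) - X.F (T.pl q)) / h - ∑ α, Y.A α q * ξ α| ≤ ε := by
  classical
  obtain ⟨κ, hκ, Hc⟩ := mptb_d_cone hT
  obtain ⟨ε', hε'⟩ : ∃ ε' : ℝ, ε' = ε / (1 + (2 * κ + N + 1) * ‖ξ‖) := ⟨_, rfl⟩
  have hden : 0 < 1 + (2 * κ + N + 1) * ‖ξ‖ := by positivity
  have hε'0 : 0 < ε' := by rw [hε']; positivity
  obtain ⟨δ₂, hδ₂, Hi⟩ := mptb_incr hT X Y r ε' hr hε'0
  refine ⟨δ₂ / (1 + (κ + 1) * ‖ξ‖), by positivity, fun h h0 hh => ?_⟩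
  have hsm : (κ + 1) * ‖ξ‖ * h ≤ δ₂ := by
    have h1 : h * (1 + (κ + 1) * ‖ξ‖) ≤ δ₂ := by rwa [le_div_iff₀ (by positivity)] at hh
    nlinarith
  have hξh : ‖ξ‖ * h ≤ δ₂ := by
    have : 0 ≤ κ * ‖ξ‖ * h := by positivity
    nlinarith
  have hκh : κ * ‖ξ‖ * h ≤ δ₂ := by
    have : 0 ≤ ‖ξ‖ * h := by positivity
    nlinarith
  obtain ⟨S₀, hS₀⟩ : ∃ S₀ : Finset (Fin N), S₀ = Finset.univ.erase T.v := ⟨_, rfl⟩
  have hvS : T.v ∉ S₀ := by rw [hS₀]; exact Finset.notMem_erase _ _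
  -- step 1
  have s1 := Hi T.v 0 (κ * ‖ξ‖ * h) (fun l => by simp) (by rw [zero_add]; exact mptb_d_cone_v hT (by positivity))
    (by simpa using hδ₂.le) (by rw [abs_of_nonneg (by positivity)]; exact hκh)
  have p0 : mptbPath T ξ (κ * ‖ξ‖) h ∅ = Pi.single T.v (κ * ‖ξ‖ * h) := by
    unfold mptbPath; simp
  simp only [add_zero] at s1
  rw [abs_of_nonneg (by positivity : 0 ≤ κ * ‖ξ‖ * h)] at s1
  -- step 2
  have s2 := mptb_d_data hT X Y r ξ (κ * ‖ξ‖) h (ε' * (‖ξ‖ * h)) h0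
    (by
      intro β S hβ _
      have c1 := Hc ξ h S h0.le
      have c2 := Hc ξ h (insert β S) h0.le
      rw [mptb_d_path_insert ξ _ h S β hβ] at c2
      have hs : |h * ξ β| ≤ ‖ξ‖ * h := by
        rw [abs_mul, abs_of_pos h0, mul_comm]
        exact mul_le_mul_of_nonneg_right (norm_le_pi_norm ξ β) h0.le
      refine (Hi β _ (h * ξ β) c1.1 c2.1 (c1.2.trans hsm) (hs.trans hξh)).trans ?_
      exact mul_le_mul_of_nonneg_left hs hε'0.le)
    S₀ hvS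
  -- step 3
  have p3 : mptbPath T ξ (κ * ‖ξ‖) h S₀ + Pi.single T.v (h * ξ T.v - κ * ‖ξ‖ * h) = h • ξ := by
    funext γ
    unfold mptbPath
    simp only [Pi.add_apply, Pi.smul_apply, smul_eq_mul, mptb_d_sum_apply]
    by_cases hγ : γ = T.v
    · subst hγ; simp [hvS]
    · have : γ ∈ S₀ := by rw [hS₀]; exact Finset.mem_erase.2 ⟨hγ, Finset.mem_univ _⟩
      simp [Pi.single_eq_of_ne hγ, this]
  have hs3 : |h * ξ T.v - κ * ‖ξ‖ * h| ≤ (κ + 1) * ‖ξ‖ * h := by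
    have h1 : |h * ξ T.v| ≤ ‖ξ‖ * h := by
      rw [abs_mul, abs_of_pos h0, mul_comm]
      exact mul_le_mul_of_nonneg_right (norm_le_pi_norm ξ T.v) h0.le
    have h2 : |κ * ‖ξ‖ * h| = κ * ‖ξ‖ * h := abs_of_nonneg (by positivity)
    have := abs_sub (h * ξ T.v) (κ * ‖ξ‖ * h)
    nlinarith
  have c3 := Hc ξ h S₀ h0.le
  have s3 := Hi T.v _ (h * ξ T.v - κ * ‖ξ‖ * h) c3.1 (by rw [p3]; exact mptb_d_cone_smul hξ h0.le)
    (c3.2.trans hsm) (hs3.trans hsm)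
  simp only [add_assoc, p3] at s3
  rw [p0] at s2
  -- integrability
  have i1 : IntegrableOn (fun q => |X.F (T.pl q + Pi.single T.v (κ * ‖ξ‖ * h)) - X.F (T.pl q + 0)
      - κ * ‖ξ‖ * h * Y.A T.v q|) (X.pat r) :=
    mptb_d_int X r _ _ _ ((Y.meas T.v).const_mul _) (|κ * ‖ξ‖ * h| * T.d T.v) fun q => by
      rw [abs_mul, abs_of_nonneg (Y.bd T.v q).1]
      exact mul_le_mul_of_nonneg_left (Y.bd T.v q).2 (abs_nonneg _)
  simp only [add_zero] at i1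
  have i2 : IntegrableOn (fun q => |X.F (T.pl q + mptbPath T ξ (κ * ‖ξ‖) h S₀) - X.F (T.pl q + Pi.single T.v (κ * ‖ξ‖ * h))
      - h * ∑ β ∈ S₀, ξ β * Y.A β q|) (X.pat r) :=
    mptb_d_int X r _ _ _ (mptb_d_gmeas X Y ξ h S₀).1 _ (mptb_d_gmeas X Y ξ h S₀).2
  have i3 : IntegrableOn (fun q => |X.F (T.pl q + h • ξ) - X.F (T.pl q + mptbPath T ξ (κ * ‖ξ‖) h S₀)
      - (h * ξ T.v - κ * ‖ξ‖ * h) * Y.A T.v q|) (X.pat r) :=
    mptb_d_int X r _ _ _ ((Y.meas T.v).const_mul _) (|h * ξ T.v - κ * ‖ξ‖ * h| * T.d T.v) fun q => by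
      rw [abs_mul, abs_of_nonneg (Y.bd T.v q).1]
      exact mul_le_mul_of_nonneg_left (Y.bd T.v q).2 (abs_nonneg _)
  have hsum : ∀ q, ∑ α, Y.A α q * ξ α = ξ T.v * Y.A T.v q + ∑ β ∈ S₀, ξ β * Y.A β q := by
    intro q
    rw [hS₀, ← Finset.add_sum_erase Finset.univ _ (Finset.mem_univ T.v)]
    congr 1
    · ring
    · exact Finset.sum_congr rfl fun β _ => mul_comm _ _
  have main : ∫ q in X.pat r, |(X.F (T.pl q + h • ξ) - X.F (T.pl q)) / h - ∑ α, Y.A α q * ξ α|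
      ≤ (∫ q in X.pat r, ((|X.F (T.pl q + Pi.single T.v (κ * ‖ξ‖ * h)) - X.F (T.pl q) - κ * ‖ξ‖ * h * Y.A T.v q|
          + |X.F (T.pl q + mptbPath T ξ (κ * ‖ξ‖) h S₀) - X.F (T.pl q + Pi.single T.v (κ * ‖ξ‖ * h))
              - h * ∑ β ∈ S₀, ξ β * Y.A β q|)
          + |X.F (T.pl q + h • ξ) - X.F (T.pl q + mptbPath T ξ (κ * ‖ξ‖) h S₀)
              - (h * ξ T.v - κ * ‖ξ‖ * h) * Y.A T.v q|)) / h := by
    rw [← integral_div]
    refine integral_mono_of_nonneg (Eventually.of_forall fun q => abs_nonneg _) (((i1.add i2).add i3).div_const h)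
      (Eventually.of_forall fun q => ?_)
    show |(X.F (T.pl q + h • ξ) - X.F (T.pl q)) / h - ∑ α, Y.A α q * ξ α| ≤ _ / h
    rw [le_div_iff₀ h0, hsum q]
    have e : |(X.F (T.pl q + h • ξ) - X.F (T.pl q)) / h - (ξ T.v * Y.A T.v q + ∑ β ∈ S₀, ξ β * Y.A β q)| * h
        = |((X.F (T.pl q + Pi.single T.v (κ * ‖ξ‖ * h)) - X.F (T.pl q) - κ * ‖ξ‖ * h * Y.A T.v q)
          + (X.F (T.pl q + mptbPath T ξ (κ * ‖ξ‖) h S₀) - X.F (T.pl q + Pi.single T.v (κ * ‖ξ‖ * h))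
              - h * ∑ β ∈ S₀, ξ β * Y.A β q))
          + (X.F (T.pl q + h • ξ) - X.F (T.pl q + mptbPath T ξ (κ * ‖ξ‖) h S₀)
              - (h * ξ T.v - κ * ‖ξ‖ * h) * Y.A T.v q)| := by
      rw [← abs_of_pos h0, ← abs_mul, abs_of_pos h0]
      congr 1
      field_simp
      ring
    rw [e]
    exact (abs_add_le _ _).trans (add_le_add (abs_add_le _ _) le_rfl)
  refine main.trans ?_
  rw [div_le_iff₀ h0]
  have e2 := integral_add (μ := volume.restrict (X.pat r)) (i1.add i2) i3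
  have e1 := integral_add (μ := volume.restrict (X.pat r)) i1 i2
  simp only [Pi.add_apply] at e1 e2
  rw [e2, e1]
  have hcard : (S₀.card : ℝ) ≤ N := by
    have := Finset.card_le_univ S₀
    simp only [Fintype.card_fin] at this
    exact_mod_cast this
  have b2 : (S₀.card : ℝ) * (ε' * (‖ξ‖ * h)) ≤ N * (ε' * (‖ξ‖ * h)) :=
    mul_le_mul_of_nonneg_right hcard (by positivity)
  have b3 : ε' * |h * ξ T.v - κ * ‖ξ‖ * h| ≤ ε' * ((κ + 1) * ‖ξ‖ * h) := mul_le_mul_of_nonneg_left hs3 hε'0.le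
  have fin : ε' * (κ * ‖ξ‖ * h) + N * (ε' * (‖ξ‖ * h)) + ε' * ((κ + 1) * ‖ξ‖ * h) ≤ ε * h := by
    have : ε = ε' * (1 + (2 * κ + N + 1) * ‖ξ‖) := by rw [hε']; field_simp
    rw [this]
    have : 0 ≤ ε' * h := by positivity
    nlinarith
  linarith

/-- one scale of A10: the three-term estimate for a fixed interior offset `η` and step `θ` -/
theorem mptb_bv_step (hT : T.Ok) (X : TrCtx T) (Y : TrFld X) (r : ℝ) (hr : 0 < r) (α : Fin N)
    (s : ℝ) (hs : 0 < s) (hsV : ‖s • T.V α‖ ≤ r) (hsP : s * ‖T.pl (T.V α)‖ ≤ X.δ / 2)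
    (η : Fin N → ℝ) (μ θ E : ℝ) (_hηα : η α = 0) (hμ : 0 < μ) (hmg : T.mgB η μ) (hη : ‖η‖ ≤ X.δ / 2)
    (hθ : 0 < θ) (hθc : θ ≤ X.c * μ) (hθδ : θ ≤ X.δ)
    (hnear : ∫ q in X.pat 0, |T.dqB X.F α θ η q - Y.A α q| ≤ E) :
    ∫ q in X.pat r, |Y.A α (q + s • T.V α) - Y.A α q| ≤ X.C * ‖T.pl (T.V α)‖ * s + 2 * E := by
  have hδ := X.hδ
  set w : ℝ × ℝ := s • T.V α with hw
  set D : ℝ × ℝ → ℝ := T.dqB X.F α θ η with hD
  have hDm : Measurable D := (mptb_dq_cont X.lip.continuous α θ η).measurable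
  have hAm : Measurable (Y.A α) := Y.meas α
  have hdα : 0 ≤ T.d α := mptb_d_nonneg hT α
  obtain ⟨M, hM⟩ : ∃ M : ℝ, M = (X.K : ℝ) + T.d α := ⟨_, rfl⟩
  have hK0 : (0 : ℝ) ≤ X.K := X.K.2
  have bD : ∀ q, |D q| ≤ M := fun q => (mptb_dq_abs_le X.lip α θ η q).trans (by rw [hM]; linarith)
  have bA : ∀ q, |Y.A α q| ≤ M := fun q => by
    rw [abs_of_nonneg (Y.bd α q).1]; exact (Y.bd α q).2.trans (by rw [hM]; linarith)
  have hshift : Measurable (fun q : ℝ × ℝ => q + w) := measurable_id.add_const w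
  have hAw : Measurable (fun q => Y.A α (q + w)) := hAm.comp hshift
  have hDw : Measurable (fun q => D (q + w)) := hDm.comp hshift
  have bAw : ∀ q, |Y.A α (q + w)| ≤ M := fun q => bA _
  have bDw : ∀ q, |D (q + w)| ≤ M := fun q => bD _
  -- triangle inequality
  have t1 := mptb_int_tri X.Λ X.u₁ X.u₂ r hAw hDw hAm bAw bDw bA
  have t2 := mptb_int_tri X.Λ X.u₁ X.u₂ r hDw hDm hAm bDw bD bA
  -- first term
  have hg : Measurable (fun q => Y.A α q - D q) := hAm.sub hDm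
  have bg : ∀ q, |Y.A α q - D q| ≤ M + M := fun q => (abs_sub _ _).trans (add_le_add (bA q) (bD q))
  have a1 : ∫ q in mpatch X.Λ X.u₁ X.u₂ r, |Y.A α (q + w) - D (q + w)| ≤ E := by
    have := mptb_int_shift X.Λ X.u₁ X.u₂ (r := r) (r' := 0) hg bg w (by rw [sub_zero]; exact hsV)
    refine this.trans (le_trans (le_of_eq ?_) hnear)
    refine integral_congr_ae (Eventually.of_forall fun q => ?_)
    exact abs_sub_comm _ _
  -- third term
  have hg3 : Measurable (fun q => D q - Y.A α q) := hDm.sub hAm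
  have bg3 : ∀ q, |D q - Y.A α q| ≤ M + M := fun q => (abs_sub _ _).trans (add_le_add (bD q) (bA q))
  have a3 : ∫ q in mpatch X.Λ X.u₁ X.u₂ r, |D q - Y.A α q| ≤ E :=
    (mptb_int_anti X.Λ X.u₁ X.u₂ hr.le hg3 bg3).trans hnear
  -- second term
  have hplw : T.pl w = s • T.pl (T.V α) := mptb_pl_smul s _
  have hnw : ‖T.pl w‖ = s * ‖T.pl (T.V α)‖ := by rw [hplw, norm_smul, Real.norm_of_nonneg hs.le]
  have hη'α : (η + T.pl w) α = η α := by
    rw [Pi.add_apply, hplw, Pi.smul_apply, mptb_pl_V_self, smul_zero, add_zero]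
  have hη'n : ‖η + T.pl w‖ ≤ X.δ := (norm_add_le _ _).trans (by rw [hnw]; linarith)
  have st := X.stair α (η + T.pl w) η μ θ hη'n (by linarith) hη'α hμ ((mptb_mg_pl hT η w μ).2 hmg) hmg hθ hθc hθδ
  rw [add_sub_cancel_left, hnw] at st
  have hg2 : Measurable (fun q => D (q + w) - D q) := hDw.sub hDm
  have bg2 : ∀ q, |D (q + w) - D q| ≤ M + M := fun q => (abs_sub _ _).trans (add_le_add (bDw q) (bD q))
  have a2 : ∫ q in mpatch X.Λ X.u₁ X.u₂ r, |D (q + w) - D q| ≤ X.C * (s * ‖T.pl (T.V α)‖) := by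
    refine (mptb_int_anti X.Λ X.u₁ X.u₂ hr.le hg2 bg2).trans (le_trans (le_of_eq ?_) st)
    refine integral_congr_ae (Eventually.of_forall fun q => ?_)
    show |D (q + w) - D q| = _
    rw [hD, mptb_dq_shift]
  show ∫ q in mpatch X.Λ X.u₁ X.u₂ r, |Y.A α (q + w) - Y.A α q| ≤ _
  nlinarith

/-- **A10 BV** -/
theorem mptb_bv (hT : T.Ok) (X : TrCtx T) (Y : TrFld X) (r : ℝ) (hr : 0 < r) (α : Fin N) :
    ∃ C s₀ : ℝ, 0 < s₀ ∧ ∀ s : ℝ, 0 < s → s < s₀ →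
      ∫ q in X.pat r, |Y.A α (q + s • T.V α) - Y.A α q| ≤ C * s := by
  have hδ := X.hδ
  have hC := X.hC
  have hc := X.hc
  obtain ⟨ζ, μ, hμ, hζα, hζ⟩ := mptb_zeta hT α
  refine ⟨X.C * ‖T.pl (T.V α)‖, min (r / (1 + ‖T.V α‖)) (X.δ / 2 / (1 + ‖T.pl (T.V α)‖)), by positivity,
    fun s hs hs0 => ?_⟩
  have hsV : ‖s • T.V α‖ ≤ r := by
    rw [norm_smul, Real.norm_of_nonneg hs.le]
    have h1 : s < r / (1 + ‖T.V α‖) := lt_of_lt_of_le hs0 (min_le_left _ _)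
    rw [lt_div_iff₀ (by positivity)] at h1
    nlinarith [norm_nonneg (T.V α)]
  have hsP : s * ‖T.pl (T.V α)‖ ≤ X.δ / 2 := by
    have h1 : s < X.δ / 2 / (1 + ‖T.pl (T.V α)‖) := lt_of_lt_of_le hs0 (min_le_right _ _)
    rw [lt_div_iff₀ (by positivity)] at h1
    nlinarith [norm_nonneg (T.pl (T.V α))]
  refine le_of_forall_pos_le_add fun ε hε => ?_
  -- choice of `κ`
  obtain ⟨κ, hκdef⟩ : ∃ κ : ℝ, κ = min (X.δ / 2 / (1 + ‖ζ‖)) (ε / 4 / (1 + X.C * ‖ζ‖)) := ⟨_, rfl⟩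
  have hκ : 0 < κ := by rw [hκdef]; positivity
  have hκ1 : κ * ‖ζ‖ ≤ X.δ / 2 := by
    have h1 : κ ≤ X.δ / 2 / (1 + ‖ζ‖) := by rw [hκdef]; exact min_le_left _ _
    rw [le_div_iff₀ (by positivity)] at h1
    nlinarith [norm_nonneg ζ]
  have hκ2 : X.C * (κ * ‖ζ‖) ≤ ε / 4 := by
    have h1 : κ ≤ ε / 4 / (1 + X.C * ‖ζ‖) := by rw [hκdef]; exact min_le_right _ _
    rw [le_div_iff₀ (by positivity)] at h1
    nlinarith [norm_nonneg ζ]
  have hnη : ‖κ • ζ‖ = κ * ‖ζ‖ := by rw [norm_smul, Real.norm_of_nonneg hκ.le]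
  have hηα : (κ • ζ) α = 0 := by rw [Pi.smul_apply, hζα, smul_zero]
  have hmg : T.mgB (κ • ζ) (κ * μ) := mptb_mg_smul hζ hκ.le
  have hκμ : 0 < κ * μ := by positivity
  obtain ⟨θ₀, hθ₀, Hn⟩ := Y.near α (κ • ζ) (κ * μ) (ε / 4) hηα hκμ hmg (by rw [hnη]; exact hκ1) (by positivity)
  obtain ⟨θ, hθdef⟩ : ∃ θ : ℝ, θ = min θ₀ (min (X.c * (κ * μ)) X.δ) := ⟨_, rfl⟩
  have hθ : 0 < θ := by rw [hθdef]; positivity
  have h1 : θ ≤ θ₀ := by rw [hθdef]; exact min_le_left _ _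
  have h2 : θ ≤ X.c * (κ * μ) := by rw [hθdef]; exact (min_le_right _ _).trans (min_le_left _ _)
  have h3 : θ ≤ X.δ := by rw [hθdef]; exact (min_le_right _ _).trans (min_le_right _ _)
  have key := mptb_bv_step hT X Y r hr α s hs hsV hsP (κ • ζ) (κ * μ) θ (X.C * ‖κ • ζ‖ + ε / 4) hηα hκμ hmg
    (by rw [hnη]; exact hκ1) hθ h2 h3 (Hn θ hθ h1)
  rw [hnη] at key
  linarith

end Claimed.Agent.R255
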