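-- KEEP
import Claimed.Agent.R255.Plane.TrBDir

/-!
# Row 255, block (B), chapter A, second half: A9 AFF (a.e. affine blow-up along one sequence of scales)      (architect helper188)

ABSTRACT part (no `T`): `E = Fin N → ℝ`, `Kc ⊆ E` a closed set (the cone), `S ⊆ ℝ × ℝ` measurable of finite measure, `G h ξ q` (difference quotients), `L ξ q` (candidate limits).
* `mptb_a_dense`  : a countable family `ξs : ℕ → E` in `Kc`, dense in `Kc` (`Kc` nonempty; `TopologicalSpace.exists_countable_dense` of the subtype / `IsSeparable`).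
* `mptb_a_scales` : if for each `k`, `∫_S |G h (ξs k) - L (ξs k)| → 0` as `h ↓ 0`, there are `hs l ↓ 0`, `0 < hs l ≤ 1/(l+1)`, with `∫_S |G (hs l) (ξs k) - L (ξs k)| ≤ 2^-l` for all `k ≤ l`.
* `mptb_a_ae`     : summable `L¹(S)` errors ⟹ a.e. convergence on `S` (`∑_l ∫ = ∫ ∑_l < ∞`, `lintegral_tsum` / `integrable_of_summable_norm...`, the series converges a.e., its terms tend to `0`).
* `mptb_a_unif`   : pointwise: convergence on the dense family + equi-Lipschitz in `ξ` (constant `M`) ⟹ uniform convergence on `Kc ∩ {‖ξ‖ ≤ R}` (compact; finite subcover by balls around the `ξs k`).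
* `mptb_aff`      : glue with `G h ξ q = (F(Π q + h ξ) - F(Π q))/h`, `L ξ q = ∑ A α q ξ α`, `mptb_dir`;  finally `F = f` at `Π q`, `Π q + hs l ξ` as soon as `hs l R ≤ 2 δ` (`X.eqf`).
-/

set_option autoImplicit false

namespace Claimed.Agent.R255

open Filter Topology MeasureTheory Set
open scoped NNReal

variable {N : ℕ} {T : MpIn N}

theorem mptb_a_dense (Kc : Set (Fin N → ℝ)) (hne : Kc.Nonempty) :
    ∃ ξs : ℕ → Fin N → ℝ, (∀ k, ξs k ∈ Kc) ∧ ∀ ξ ∈ Kc, ∀ ρ : ℝ, 0 < ρ → ∃ k, ‖ξ - ξs k‖ < ρ := by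
  obtain ⟨t, hts, htc, hst⟩ := (TopologicalSpace.IsSeparable.of_separableSpace Kc).exists_countable_dense_subset
  have htne : t.Nonempty := by
    obtain ⟨x, hx⟩ := hne
    by_contra h
    rw [Set.not_nonempty_iff_eq_empty] at h
    have := hst hx
    simp [h] at this
  obtain ⟨f, hf⟩ := htc.exists_eq_range htne
  refine ⟨f, fun k => hts (hf ▸ mem_range_self k), fun ξ hξ ρ hρ => ?_⟩
  have h1 := hst hξ
  rw [hf, Metric.mem_closure_range_iff] at h1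
  obtain ⟨k, hk⟩ := h1 ρ hρ
  exact ⟨k, by rwa [dist_eq_norm] at hk⟩

theorem mptb_a_scales (e : ℕ → ℝ → ℝ)
    (he : ∀ k (ε : ℝ), 0 < ε → ∃ h₀ : ℝ, 0 < h₀ ∧ ∀ h : ℝ, 0 < h → h ≤ h₀ → e k h ≤ ε) :
    ∃ hs : ℕ → ℝ, (∀ l, 0 < hs l) ∧ Tendsto hs atTop (𝓝 0) ∧ ∀ l k, k ≤ l → e k (hs l) ≤ (1 / 2) ^ l := by
  have key : ∀ (ε : ℝ), 0 < ε → ∀ m : ℕ, ∃ h₁ : ℝ, 0 < h₁ ∧ ∀ h : ℝ, 0 < h → h ≤ h₁ → ∀ k, k < m → e k h ≤ ε := by
    intro ε hε m
    induction m with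
    | zero => exact ⟨1, one_pos, fun h _ _ k hk => absurd hk (Nat.not_lt_zero k)⟩
    | succ m ih =>
      obtain ⟨h₁, h₁0, H₁⟩ := ih
      obtain ⟨h₂, h₂0, H₂⟩ := he m ε hε
      refine ⟨min h₁ h₂, lt_min h₁0 h₂0, fun h h0 hh k hk => ?_⟩
      rcases Nat.lt_succ_iff_lt_or_eq.1 hk with hk | hk
      · exact H₁ h h0 (hh.trans (min_le_left _ _)) k hk
      · subst hk; exact H₂ h h0 (hh.trans (min_le_right _ _))
  choose h₁ h₁0 H₁ using fun l : ℕ => key ((1 / 2) ^ l) (by positivity) (l + 1)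
  refine ⟨fun l => min (h₁ l) (1 / ((l : ℝ) + 1)), fun l => lt_min (h₁0 l) (by positivity), ?_, fun l k hk => ?_⟩
  · refine squeeze_zero (fun l => (lt_min (h₁0 l) (by positivity)).le) (fun l => min_le_right _ _) ?_
    exact tendsto_one_div_add_atTop_nhds_zero_nat
  · exact H₁ l _ (lt_min (h₁0 l) (by positivity)) (min_le_left _ _) k (Nat.lt_succ_of_le hk)

theorem mptb_a_ae {S : Set (ℝ × ℝ)} (hS : MeasurableSet S) (g : ℕ → ℝ × ℝ → ℝ) (hg : ∀ l, Measurable (g l))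
    (hint : ∀ l, IntegrableOn (g l) S) (l₀ : ℕ) (hsum : ∀ l, l₀ ≤ l → ∫ q in S, |g l q| ≤ (1 / 2) ^ l) :
    ∀ᵐ q : ℝ × ℝ, q ∈ S → Tendsto (fun l => g l q) atTop (𝓝 0) := by
  rw [← ae_restrict_iff' hS]
  have hI : ∀ l, ∫⁻ q in S, ENNReal.ofReal |g l q| = ENNReal.ofReal (∫ q in S, |g l q|) := fun l =>
    (ofReal_integral_eq_lintegral_ofReal (hint l).abs (Eventually.of_forall fun q => abs_nonneg _)).symm
  have hsm : Summable fun l => ∫ q in S, |g l q| := by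
    rw [← summable_nat_add_iff l₀]
    refine Summable.of_nonneg_of_le (fun l => integral_nonneg fun q => abs_nonneg _) (fun l => hsum (l + l₀) (Nat.le_add_left _ _)) ?_
    exact (summable_nat_add_iff l₀).2 (summable_geometric_of_lt_one (by norm_num) (by norm_num))
  have h1 : ∫⁻ q in S, ∑' l, ENNReal.ofReal |g l q| ≠ ⊤ := by
    rw [lintegral_tsum (fun l => ((hg l).abs.ennreal_ofReal).aemeasurable)]
    simp only [hI]
    rw [← ENNReal.ofReal_tsum_of_nonneg (fun l => integral_nonneg fun q => abs_nonneg _) hsm]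
    exact ENNReal.ofReal_ne_top
  have h2 := ae_lt_top (Measurable.tsum fun l => (hg l).abs.ennreal_ofReal) h1
  filter_upwards [h2] with q hq
  have h3 := ENNReal.tendsto_atTop_zero_of_tsum_ne_top hq.ne
  have h4 : Tendsto (fun l => (ENNReal.ofReal |g l q|).toReal) atTop (𝓝 0) := by
    have := (ENNReal.tendsto_toReal ENNReal.zero_ne_top).comp h3
    rw [ENNReal.toReal_zero] at this
    exact this
  have h5 : Tendsto (fun l => |g l q|) atTop (𝓝 0) := by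
    refine h4.congr fun l => ?_
    rw [ENNReal.toReal_ofReal (abs_nonneg _)]
  exact (tendsto_zero_iff_abs_tendsto_zero _).2 h5

theorem mptb_a_unif (Kc : Set (Fin N → ℝ)) (hcl : IsClosed Kc) (ξs : ℕ → Fin N → ℝ)
    (hd : ∀ ξ ∈ Kc, ∀ ρ : ℝ, 0 < ρ → ∃ k, ‖ξ - ξs k‖ < ρ) (φ : ℕ → (Fin N → ℝ) → ℝ) (M : ℝ)
    (hlip : ∀ l ξ ξ', |φ l ξ - φ l ξ'| ≤ M * ‖ξ - ξ'‖)
    (hlim : ∀ k, Tendsto (fun l => φ l (ξs k)) atTop (𝓝 0)) (R ε : ℝ) (hε : 0 < ε) :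
    ∀ᶠ l in atTop, ∀ ξ ∈ Kc, ‖ξ‖ ≤ R → |φ l ξ| ≤ ε := by
  have hM : 0 < |M| + 1 := by positivity
  obtain ⟨ρ, hρ⟩ : ∃ ρ : ℝ, ρ = ε / (2 * (|M| + 1)) := ⟨_, rfl⟩
  have hρ0 : 0 < ρ := by rw [hρ]; positivity
  have hK : IsCompact (Kc ∩ Metric.closedBall 0 R) := (isCompact_closedBall 0 R).inter_left hcl
  obtain ⟨t, ht⟩ := hK.elim_finite_subcover (fun k : ℕ => Metric.ball (ξs k) ρ) (fun k => Metric.isOpen_ball)
    (by
      intro ξ hξ
      obtain ⟨k, hk⟩ := hd ξ hξ.1 ρ hρ0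
      exact mem_iUnion.2 ⟨k, by rwa [Metric.mem_ball, dist_eq_norm]⟩)
  have hev : ∀ᶠ l in atTop, ∀ k ∈ t, |φ l (ξs k)| < ε / 2 := by
    rw [Filter.eventually_all_finset]
    intro k _
    have := (hlim k).eventually (Metric.ball_mem_nhds 0 (half_pos hε))
    filter_upwards [this] with l hl
    simpa [Real.dist_eq] using hl
  filter_upwards [hev] with l hl ξ hξ hξR
  have h1 : ξ ∈ Kc ∩ Metric.closedBall 0 R := ⟨hξ, by simpa using hξR⟩
  obtain ⟨k, hk⟩ := mem_iUnion.1 (ht h1)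
  obtain ⟨hkt, hk⟩ := mem_iUnion.1 hk
  rw [Metric.mem_ball, dist_eq_norm] at hk
  have h2 := hlip l ξ (ξs k)
  have h3 : M * ‖ξ - ξs k‖ ≤ (|M| + 1) * ρ := by
    have : M ≤ |M| + 1 := (le_abs_self M).trans (by linarith)
    exact mul_le_mul this hk.le (norm_nonneg _) hM.le
  have h4 : (|M| + 1) * ρ = ε / 2 := by rw [hρ]; field_simp
  have h5 := hl k hkt
  have h6 : |φ l ξ| ≤ |φ l ξ - φ l (ξs k)| + |φ l (ξs k)| := by
    have := abs_add_le (φ l ξ - φ l (ξs k)) (φ l (ξs k))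
    simpa using this
  linarith

theorem mptb_cone_closed (T : MpIn N) : IsClosed {ξ | T.Cone ξ} := by
  have : {ξ | T.Cone ξ} = ⋂ l, {ξ : Fin N → ℝ | ∑ α, T.lam l α * ξ α ≤ 0} := by
    ext ξ; simp [MpIn.Cone]
  rw [this]
  exact isClosed_iInter fun l => isClosed_le (by fun_prop) continuous_const

/-- equi-Lipschitz dependence of the blow-up error on the direction -/
theorem mptb_a_lip (X : TrCtx T) (Y : TrFld X) (q : ℝ × ℝ) (h : ℝ) (hh : 0 < h) (ξ ξ' : Fin N → ℝ) :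
    |((X.F (T.pl q + h • ξ) - X.F (T.pl q)) / h - ∑ α, Y.A α q * ξ α)
      - ((X.F (T.pl q + h • ξ') - X.F (T.pl q)) / h - ∑ α, Y.A α q * ξ' α)| ≤ (X.K + ∑ α, T.d α) * ‖ξ - ξ'‖ := by
  have e : ((X.F (T.pl q + h • ξ) - X.F (T.pl q)) / h - ∑ α, Y.A α q * ξ α)
      - ((X.F (T.pl q + h • ξ') - X.F (T.pl q)) / h - ∑ α, Y.A α q * ξ' α)
      = (X.F (T.pl q + h • ξ) - X.F (T.pl q + h • ξ')) / h - ∑ α, Y.A α q * (ξ α - ξ' α) := by
    simp only [mul_sub, Finset.sum_sub_distrib]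
    field_simp
    ring
  rw [e]
  have h1 : |(X.F (T.pl q + h • ξ) - X.F (T.pl q + h • ξ')) / h| ≤ X.K * ‖ξ - ξ'‖ := by
    have := X.lip.dist_le_mul (T.pl q + h • ξ) (T.pl q + h • ξ')
    rw [Real.dist_eq, dist_eq_norm] at this
    have e2 : T.pl q + h • ξ - (T.pl q + h • ξ') = h • (ξ - ξ') := by rw [smul_sub]; abel
    rw [e2, norm_smul, Real.norm_of_nonneg hh.le] at this
    rw [abs_div, abs_of_pos hh, div_le_iff₀ hh]
    linarith
  have h2 : |∑ α, Y.A α q * (ξ α - ξ' α)| ≤ (∑ α, T.d α) * ‖ξ - ξ'‖ := by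
    rw [Finset.sum_mul]
    refine (Finset.abs_sum_le_sum_abs _ _).trans (Finset.sum_le_sum fun α _ => ?_)
    rw [abs_mul, abs_of_nonneg (Y.bd α q).1]
    refine mul_le_mul (Y.bd α q).2 ?_ (abs_nonneg _) ((Y.bd α q).1.trans (Y.bd α q).2)
    have := norm_le_pi_norm (ξ - ξ') α
    simpa using this
  calc |(X.F (T.pl q + h • ξ) - X.F (T.pl q + h • ξ')) / h - ∑ α, Y.A α q * (ξ α - ξ' α)|
      ≤ |(X.F (T.pl q + h • ξ) - X.F (T.pl q + h • ξ')) / h| + |∑ α, Y.A α q * (ξ α - ξ' α)| := abs_sub _ _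
    _ ≤ (X.K + ∑ α, T.d α) * ‖ξ - ξ'‖ := by rw [add_mul]; exact add_le_add h1 h2

/-- **A9 AFF** -/
theorem mptb_aff (hT : T.Ok) (X : TrCtx T) (Y : TrFld X) (r : ℝ) (hr : 0 < r) :
    ∃ hs : ℕ → ℝ, (∀ l, 0 < hs l) ∧ Tendsto hs atTop (𝓝 0) ∧
      ∀ᵐ q : ℝ × ℝ, q ∈ X.pat r → T.AffAt q hs (fun α => Y.A α q) := by
  have hne : ({ξ | T.Cone ξ} : Set (Fin N → ℝ)).Nonempty := ⟨0, fun l => by simp⟩
  obtain ⟨ξs, hξs, hdense⟩ := mptb_a_dense _ hne
  obtain ⟨hs, hs0, hslim, hserr⟩ := mptb_a_scales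
    (fun k h => ∫ q in X.pat r, |(X.F (T.pl q + h • ξs k) - X.F (T.pl q)) / h - ∑ α, Y.A α q * ξs k α|)
    (fun k ε hε => mptb_dir hT X Y r hr (ξs k) (hξs k) ε hε)
  refine ⟨hs, hs0, hslim, ?_⟩
  have hmeasφ : ∀ (h : ℝ) (ξ : Fin N → ℝ),
      Measurable (fun q => (X.F (T.pl q + h • ξ) - X.F (T.pl q)) / h - ∑ α, Y.A α q * ξ α) := by
    intro h ξ
    have c1 : Continuous (fun q => (X.F (T.pl q + h • ξ) - X.F (T.pl q)) / h) := by
      have := mptb_pl_cont (T := T)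
      have := X.lip.continuous
      fun_prop
    exact c1.measurable.sub (Finset.measurable_sum _ fun α _ => (Y.meas α).mul_const _)
  have hbdφ : ∀ (h : ℝ) (ξ : Fin N → ℝ), 0 < h → ∀ q,
      |(X.F (T.pl q + h • ξ) - X.F (T.pl q)) / h - ∑ α, Y.A α q * ξ α| ≤ (X.K + ∑ α, T.d α) * ‖ξ‖ := by
    intro h ξ hh q
    have := mptb_a_lip X Y q h hh ξ 0
    simpa using this
  have hae : ∀ k, ∀ᵐ q : ℝ × ℝ, q ∈ X.pat r →
      Tendsto (fun l => (X.F (T.pl q + hs l • ξs k) - X.F (T.pl q)) / hs l - ∑ α, Y.A α q * ξs k α) atTop (𝓝 0) :=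
    fun k => mptb_a_ae (mptb_patch_meas _ _ _ _) _ (fun l => hmeasφ (hs l) (ξs k))
      (fun l => mptb_intOn _ _ _ _ (hmeasφ (hs l) (ξs k)) (hbdφ (hs l) (ξs k) (hs0 l))) k (fun l hl => hserr l k hl)
  filter_upwards [ae_all_iff.2 hae] with q hq hqr
  intro R ε hε
  have hu := mptb_a_unif {ξ | T.Cone ξ} (mptb_cone_closed T) ξs hdense
    (fun l ξ => (X.F (T.pl q + hs l • ξ) - X.F (T.pl q)) / hs l - ∑ α, Y.A α q * ξ α) (X.K + ∑ α, T.d α)
    (fun l ξ ξ' => mptb_a_lip X Y q (hs l) (hs0 l) ξ ξ') (fun k => hq k hqr) |R| ε hε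
  have hsmall : ∀ᶠ l in atTop, hs l * |R| < 2 * X.δ := by
    have : Tendsto (fun l => hs l * |R|) atTop (𝓝 (0 * |R|)) := hslim.mul_const _
    rw [zero_mul] at this
    exact this.eventually (gt_mem_nhds (by have := X.hδ; positivity))
  have hq0 : q ∈ mpatch X.Λ X.u₁ X.u₂ 0 := mptb_patch_anti _ _ _ hr.le hqr
  filter_upwards [hu, hsmall] with l hl hl2 ξ hξ hξR
  have hn : ‖ξ‖ ≤ |R| := (pi_norm_le_iff_of_nonneg (abs_nonneg R)).2 fun α => by
    rw [Real.norm_eq_abs]; exact (hξR α).trans (le_abs_self R)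
  have h1 := hl ξ hξ hn
  have hc : T.Cone (hs l • ξ) := by
    intro j
    have : ∑ α, T.lam j α * (hs l • ξ) α = hs l * ∑ α, T.lam j α * ξ α := by
      rw [Finset.mul_sum]; refine Finset.sum_congr rfl fun α _ => ?_
      simp only [Pi.smul_apply, smul_eq_mul]; ring
    rw [this]
    exact mul_nonpos_of_nonneg_of_nonpos (hs0 l).le (hξ j)
  have hn2 : ‖hs l • ξ‖ ≤ 2 * X.δ := by
    rw [norm_smul, Real.norm_of_nonneg (hs0 l).le]
    exact (mul_le_mul_of_nonneg_left hn (hs0 l).le).trans hl2.le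
  have e1 := X.eqf q hq0 (hs l • ξ) hc hn2
  have e0 := X.eqf q hq0 0 (fun j => by simp) (by simpa using (by have := X.hδ; positivity : 0 ≤ 2 * X.δ))
  rw [add_zero] at e0
  rw [← e1, ← e0]
  have e3 : X.F (T.pl q + hs l • ξ) - X.F (T.pl q) - hs l * ∑ α, Y.A α q * ξ α
      = hs l * ((X.F (T.pl q + hs l • ξ) - X.F (T.pl q)) / hs l - ∑ α, Y.A α q * ξ α) := by
    have := (hs0 l).ne'
    field_simp
  rw [e3, abs_mul, abs_of_pos (hs0 l), mul_comm]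
  exact mul_le_mul_of_nonneg_right h1 (hs0 l).le

end Claimed.Agent.R255
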