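-- KEEP
import Claimed.Agent.R255.Plane.TrBBasic

/-!
# Row 255, block (B), chapter A, second half: A4 SLICE      (architect helper188)

At EVERY interior offset `η₀` the difference quotients `D^θ(η₀) = T.dqB X.F α θ η₀` are Cauchy in `L¹(X.pat 0)` as `θ ↓ 0`.
Take `a` with `(Π a)_α = 1`, `ρ = Π a - 1_α`, `𝒢(σ, q) = F(Π q + η₀ - σ ρ)` (Lipschitz on `ℝ × (ℝ × ℝ)`).  Then `D^θ(η₀ - σ ρ)(q) = (𝒢((σ,q) + θ (1,a)) - 𝒢(σ,q)) / θ`  (`mptb_s_id`).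
* `mptb_s_rad`  : Rademacher on lines (`LipschitzWith.ae_lineDifferentiableAt`) + Fubini (`Measure.ae_ae_of_ae_prod`, `volume = volume.prod volume`): for a.e. `σ`, for a.e. `q` the quotients converge as `θ → 0+`.
* `mptb_s_dom`  : bounded + a.e. convergent ⟹ Cauchy in `L¹` of a set of finite measure (dominated convergence, `tendsto_integral_filter_of_dominated_convergence` on `𝓝[>] 0`, countably generated).
* `mptb_s_pick` : a property which holds for a.e. `σ` holds for some `σ ∈ (0, σ₁)`.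
* `mptb_slice`  : glue: pick a good `σ` with `C σ ‖ρ‖ ≤ ε/3`, `σ ‖ρ‖ ≤ δ/2`, `c' σ ‖ρ‖ ≤ μ₀/2` (`mptb_mg_pert`); `X.stair` between `η₀` and `η₀ - σ ρ` (same `α`-component, margin `μ₀/2`) for `θ ≤ min (c μ₀/2) δ`.
-/

set_option autoImplicit false

namespace Claimed.Agent.R255

open Filter Topology MeasureTheory Set
open scoped NNReal

variable {N : ℕ} {T : MpIn N}

/-- the slice identity -/
theorem mptb_s_id (g : (Fin N → ℝ) → ℝ) (α : Fin N) (a : ℝ × ℝ) (η₀ : Fin N → ℝ) (σ θ : ℝ) (q : ℝ × ℝ) :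
    T.dqB g α θ (η₀ - σ • (T.pl a - Pi.single α 1)) q =
      (g (T.pl (q + θ • a) + η₀ - (σ + θ) • (T.pl a - Pi.single α 1))
        - g (T.pl q + η₀ - σ • (T.pl a - Pi.single α 1))) / θ := by
  unfold MpIn.dqB
  have e1 : T.pl q + (η₀ - σ • (T.pl a - Pi.single α 1)) + Pi.single α θ
      = T.pl (q + θ • a) + η₀ - (σ + θ) • (T.pl a - Pi.single α 1) := by
    have e3 : (Pi.single α θ : Fin N → ℝ) = θ • Pi.single α 1 := by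
      rw [← Pi.single_smul, smul_eq_mul, mul_one]
    rw [mptb_pl_add, mptb_pl_smul, add_smul, e3, smul_sub θ]
    abel
  have e2 : T.pl q + (η₀ - σ • (T.pl a - Pi.single α 1)) = T.pl q + η₀ - σ • (T.pl a - Pi.single α 1) := by
    abel
  rw [e1, e2]

/-- Rademacher on lines + Fubini -/
theorem mptb_s_rad {G : ℝ × (ℝ × ℝ) → ℝ} {K : ℝ≥0} (hG : LipschitzWith K G) (a : ℝ × ℝ) :
    ∀ᵐ σ : ℝ, ∀ᵐ q : ℝ × ℝ, ∃ L : ℝ,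
      Tendsto (fun θ : ℝ => (G (σ + θ, q + θ • a) - G (σ, q)) / θ) (𝓝[>] 0) (𝓝 L) := by
  have hI : ((volume : Measure ℝ).prod ((volume : Measure ℝ).prod (volume : Measure ℝ))).IsAddHaarMeasure :=
    Measure.prod.instIsAddHaarMeasure _ _
  have h2 : ∀ᵐ p : ℝ × (ℝ × ℝ) ∂((volume : Measure ℝ).prod ((volume : Measure ℝ).prod (volume : Measure ℝ))),
      LineDifferentiableAt ℝ G p ((1:ℝ), a) :=
    LipschitzWith.ae_lineDifferentiableAt (μ := ((volume : Measure ℝ).prod ((volume : Measure ℝ).prod (volume : Measure ℝ)))) hG ((1:ℝ), a)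
  have h3 := Measure.ae_ae_of_ae_prod h2
  rw [← Measure.volume_eq_prod] at h3
  filter_upwards [h3] with σ hσ
  filter_upwards [hσ] with q hq
  have h4 := hq.hasLineDerivAt
  refine ⟨lineDeriv ℝ G (σ, q) (1, a), ?_⟩
  have h5 : HasDerivAt (fun t : ℝ => G ((σ, q) + t • ((1 : ℝ), a))) (lineDeriv ℝ G (σ, q) (1, a)) 0 := h4
  rw [hasDerivAt_iff_tendsto_slope] at h5
  have h6 := h5.mono_left (nhdsWithin_mono (0:ℝ) (fun x (hx : (0:ℝ) < x) => (ne_of_gt hx : x ≠ 0)))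
  refine h6.congr fun θ => ?_
  simp only [slope, vsub_eq_sub, sub_zero, zero_smul, add_zero, smul_eq_mul, Prod.mk_add_mk, Prod.smul_mk, mul_one]
  rw [div_eq_inv_mul]

/-- bounded and a.e. convergent families are Cauchy in `L¹` of a set of finite measure -/
theorem mptb_s_dom {S : Set (ℝ × ℝ)} (hS : MeasurableSet S) (hfin : volume S < ⊤) (g : ℝ → ℝ × ℝ → ℝ)
    (hg : ∀ θ, Measurable (g θ)) (M : ℝ) (hM : ∀ θ q, |g θ q| ≤ M)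
    (hlim : ∀ᵐ q : ℝ × ℝ, ∃ L : ℝ, Tendsto (fun θ => g θ q) (𝓝[>] 0) (𝓝 L)) (ε : ℝ) (hε : 0 < ε) :
    ∃ θ₀ : ℝ, 0 < θ₀ ∧ ∀ θ θ' : ℝ, 0 < θ → θ ≤ θ₀ → 0 < θ' → θ' ≤ θ₀ → ∫ q in S, |g θ q - g θ' q| ≤ ε := by
  haveI : IsFiniteMeasure (volume.restrict S) := ⟨by rwa [Measure.restrict_apply_univ]⟩
  have key : Tendsto (fun p : ℝ × ℝ => ∫ q in S, |g p.1 q - g p.2 q|) ((𝓝[>] (0:ℝ)) ×ˢ (𝓝[>] (0:ℝ)))
      (𝓝 (∫ q in S, (0:ℝ))) := by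
    refine tendsto_integral_filter_of_dominated_convergence (fun _ => 2 * M) ?_ ?_ (integrable_const _) ?_
    · exact Eventually.of_forall fun p => (((hg p.1).sub (hg p.2)).abs).aestronglyMeasurable
    · refine Eventually.of_forall fun p => Eventually.of_forall fun q => ?_
      rw [Real.norm_eq_abs, abs_abs]
      have := abs_sub (g p.1 q) (g p.2 q)
      have h1 := hM p.1 q
      have h2 := hM p.2 q
      linarith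
    · have hl := ae_restrict_of_ae (s := S) hlim
      filter_upwards [hl] with q hq
      obtain ⟨L, hL⟩ := hq
      have h1 : Tendsto (fun p : ℝ × ℝ => g p.1 q) ((𝓝[>] (0:ℝ)) ×ˢ (𝓝[>] (0:ℝ))) (𝓝 L) := hL.comp tendsto_fst
      have h2 : Tendsto (fun p : ℝ × ℝ => g p.2 q) ((𝓝[>] (0:ℝ)) ×ˢ (𝓝[>] (0:ℝ))) (𝓝 L) := hL.comp tendsto_snd
      have h3 := (h1.sub h2).abs
      rwa [sub_self, abs_zero] at h3
  rw [integral_zero] at key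
  have h1 : ∀ᶠ p : ℝ × ℝ in (𝓝[>] (0:ℝ)) ×ˢ (𝓝[>] (0:ℝ)), ∫ q in S, |g p.1 q - g p.2 q| < ε :=
    key.eventually (gt_mem_nhds hε)
  rw [eventually_prod_iff] at h1
  obtain ⟨pa, ha, pb, hb, hab⟩ := h1
  obtain ⟨u, hu, hu'⟩ := mem_nhdsGT_iff_exists_Ioc_subset.mp ha
  obtain ⟨v, hv, hv'⟩ := mem_nhdsGT_iff_exists_Ioc_subset.mp hb
  refine ⟨min u v, lt_min hu hv, fun θ θ' a1 a2 a3 a4 => ?_⟩
  exact (hab (hu' ⟨a1, a2.trans (min_le_left _ _)⟩) (hv' ⟨a3, a4.trans (min_le_right _ _)⟩)).le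

theorem mptb_s_pick {p : ℝ → Prop} (h : ∀ᵐ σ : ℝ, p σ) (σ₁ : ℝ) (hσ : 0 < σ₁) : ∃ σ : ℝ, 0 < σ ∧ σ < σ₁ ∧ p σ := by
  by_contra hcon
  push_neg at hcon
  have h1 : Ioo 0 σ₁ ⊆ {σ | ¬ p σ} := fun σ hs => hcon σ hs.1 hs.2
  have h2 : volume (Ioo 0 σ₁) = 0 := measure_mono_null h1 (ae_iff.mp h)
  rw [Real.volume_Ioo, sub_zero, ENNReal.ofReal_eq_zero] at h2
  linarith

/-- the slice function is Lipschitz -/
theorem mptb_sl_lip (X : TrCtx T) (η₀ ρ : Fin N → ℝ) :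
    ∃ K' : ℝ≥0, LipschitzWith K' (fun p : ℝ × (ℝ × ℝ) => X.F (T.pl p.2 + η₀ - p.1 • ρ)) := by
  obtain ⟨c, hc, hpl⟩ := mptb_pl_norm T
  have h1 : LipschitzWith (Real.toNNReal (c + ‖ρ‖)) (fun p : ℝ × (ℝ × ℝ) => T.pl p.2 + η₀ - p.1 • ρ) := by
    refine LipschitzWith.of_dist_le_mul fun p p' => ?_
    rw [dist_eq_norm, dist_eq_norm, Real.coe_toNNReal _ (by positivity)]
    have e : (T.pl p.2 + η₀ - p.1 • ρ) - (T.pl p'.2 + η₀ - p'.1 • ρ) = T.pl (p.2 - p'.2) - (p.1 - p'.1) • ρ := by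
      have e1 : T.pl (p.2 - p'.2) = T.pl p.2 - T.pl p'.2 := by
        funext β
        simp only [MpIn.pl, Prod.fst_sub, Prod.snd_sub, Pi.sub_apply]
        ring
      rw [e1, sub_smul]
      abel
    rw [e]
    have b1 : ‖p.2 - p'.2‖ ≤ ‖p - p'‖ := norm_snd_le (p - p')
    have b2 : ‖p.1 - p'.1‖ ≤ ‖p - p'‖ := norm_fst_le (p - p')
    calc ‖T.pl (p.2 - p'.2) - (p.1 - p'.1) • ρ‖ ≤ ‖T.pl (p.2 - p'.2)‖ + ‖(p.1 - p'.1) • ρ‖ := norm_sub_le _ _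
      _ ≤ c * ‖p.2 - p'.2‖ + ‖p.1 - p'.1‖ * ‖ρ‖ := by
          rw [norm_smul]
          exact add_le_add (hpl _) (le_refl _)
      _ ≤ c * ‖p - p'‖ + ‖p - p'‖ * ‖ρ‖ :=
          add_le_add (mul_le_mul_of_nonneg_left b1 hc) (mul_le_mul_of_nonneg_right b2 (norm_nonneg _))
      _ = (c + ‖ρ‖) * ‖p - p'‖ := by ring
  exact ⟨_, X.lip.comp h1⟩

/-- **A4 SLICE**: at every interior offset the difference quotients are Cauchy in `L¹(𝔓)` as `θ ↓ 0` -/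
theorem mptb_slice (hT : T.Ok) (X : TrCtx T) (α : Fin N) (η₀ : Fin N → ℝ) (μ₀ ε : ℝ) (hμ : 0 < μ₀)
    (hm : T.mgB η₀ μ₀) (hn : ‖η₀‖ ≤ X.δ / 2) (hε : 0 < ε) :
    ∃ θ₀ : ℝ, 0 < θ₀ ∧ ∀ θ θ' : ℝ, 0 < θ → θ ≤ θ₀ → 0 < θ' → θ' ≤ θ₀ →
      ∫ q in X.pat 0, |T.dqB X.F α θ η₀ q - T.dqB X.F α θ' η₀ q| ≤ ε := by
  obtain ⟨a, ha⟩ := mptb_avec hT α
  obtain ⟨c', hc', hpert⟩ := mptb_mg_pert T
  obtain ⟨ρ, hρ⟩ : ∃ ρ : Fin N → ℝ, ρ = T.pl a - Pi.single α 1 := ⟨_, rfl⟩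
  have hρα : ρ α = 0 := by
    rw [hρ, Pi.sub_apply, ha, Pi.single_eq_same, sub_self]
  obtain ⟨K', hG⟩ := mptb_sl_lip X η₀ ρ
  have hrad := mptb_s_rad hG a
  have hδ := X.hδ
  have hC := X.hC
  -- the admissible size of the shift
  obtain ⟨σ₁, hσ₁, hs1, hs2, hs3⟩ : ∃ σ₁ : ℝ, 0 < σ₁ ∧ X.C * (σ₁ * ‖ρ‖) ≤ ε / 3 ∧ σ₁ * ‖ρ‖ ≤ X.δ / 2 ∧
      c' * (σ₁ * ‖ρ‖) ≤ μ₀ / 2 := by
    have hr : 0 ≤ ‖ρ‖ := norm_nonneg ρ
    have p1 : 0 < X.C * ‖ρ‖ + 1 := by positivity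
    have p2 : 0 < ‖ρ‖ + 1 := by positivity
    have p3 : 0 < c' * ‖ρ‖ + 1 := by positivity
    refine ⟨min (ε / 3 / (X.C * ‖ρ‖ + 1)) (min (X.δ / 2 / (‖ρ‖ + 1)) (μ₀ / 2 / (c' * ‖ρ‖ + 1))),
      lt_min (by positivity) (lt_min (by positivity) (by positivity)), ?_, ?_, ?_⟩
    · have h1 : min (ε / 3 / (X.C * ‖ρ‖ + 1)) (min (X.δ / 2 / (‖ρ‖ + 1)) (μ₀ / 2 / (c' * ‖ρ‖ + 1))) ≤
          ε / 3 / (X.C * ‖ρ‖ + 1) := min_le_left _ _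
      calc X.C * (min (ε / 3 / (X.C * ‖ρ‖ + 1)) (min (X.δ / 2 / (‖ρ‖ + 1)) (μ₀ / 2 / (c' * ‖ρ‖ + 1))) * ‖ρ‖)
          ≤ X.C * (ε / 3 / (X.C * ‖ρ‖ + 1) * ‖ρ‖) := by gcongr
        _ = ε / 3 * ((X.C * ‖ρ‖) / (X.C * ‖ρ‖ + 1)) := by ring
        _ ≤ ε / 3 * 1 := by
            gcongr
            rw [div_le_one p1]
            linarith
        _ = ε / 3 := mul_one _
    · have h1 : min (ε / 3 / (X.C * ‖ρ‖ + 1)) (min (X.δ / 2 / (‖ρ‖ + 1)) (μ₀ / 2 / (c' * ‖ρ‖ + 1))) ≤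
          X.δ / 2 / (‖ρ‖ + 1) := (min_le_right _ _).trans (min_le_left _ _)
      calc min (ε / 3 / (X.C * ‖ρ‖ + 1)) (min (X.δ / 2 / (‖ρ‖ + 1)) (μ₀ / 2 / (c' * ‖ρ‖ + 1))) * ‖ρ‖
          ≤ X.δ / 2 / (‖ρ‖ + 1) * ‖ρ‖ := by gcongr
        _ = X.δ / 2 * (‖ρ‖ / (‖ρ‖ + 1)) := by ring
        _ ≤ X.δ / 2 * 1 := by
            gcongr
            rw [div_le_one p2]
            linarith
        _ = X.δ / 2 := mul_one _
    · have h1 : min (ε / 3 / (X.C * ‖ρ‖ + 1)) (min (X.δ / 2 / (‖ρ‖ + 1)) (μ₀ / 2 / (c' * ‖ρ‖ + 1))) ≤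
          μ₀ / 2 / (c' * ‖ρ‖ + 1) := (min_le_right _ _).trans (min_le_right _ _)
      calc c' * (min (ε / 3 / (X.C * ‖ρ‖ + 1)) (min (X.δ / 2 / (‖ρ‖ + 1)) (μ₀ / 2 / (c' * ‖ρ‖ + 1))) * ‖ρ‖)
          ≤ c' * (μ₀ / 2 / (c' * ‖ρ‖ + 1) * ‖ρ‖) := by gcongr
        _ = μ₀ / 2 * ((c' * ‖ρ‖) / (c' * ‖ρ‖ + 1)) := by ring
        _ ≤ μ₀ / 2 * 1 := by
            gcongr
            rw [div_le_one p3]
            linarith
        _ = μ₀ / 2 := mul_one _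
  obtain ⟨σ, hσ0, hσ1, hσ⟩ := mptb_s_pick hrad σ₁ hσ₁
  have hσρ : σ * ‖ρ‖ ≤ σ₁ * ‖ρ‖ := mul_le_mul_of_nonneg_right hσ1.le (norm_nonneg _)
  obtain ⟨η₁, hη₁⟩ : ∃ η₁ : Fin N → ℝ, η₁ = η₀ - σ • ρ := ⟨_, rfl⟩
  have hdiff : ‖η₀ - η₁‖ = σ * ‖ρ‖ := by
    rw [hη₁, sub_sub_cancel, norm_smul, Real.norm_eq_abs, abs_of_pos hσ0]
  have hdiff' : ‖η₁ - η₀‖ = σ * ‖ρ‖ := by rw [norm_sub_rev, hdiff]
  have hn1 : ‖η₁‖ ≤ X.δ := by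
    have : ‖η₁‖ ≤ ‖η₀‖ + ‖η₁ - η₀‖ := by
      have := norm_add_le η₀ (η₁ - η₀)
      rwa [add_sub_cancel] at this
    linarith
  have hα : η₀ α = η₁ α := by
    rw [hη₁, Pi.sub_apply, Pi.smul_apply, hρα, smul_zero, sub_zero]
  have hm0 : T.mgB η₀ (μ₀ / 2) := mptb_mg_mono hm (by linarith)
  have hm1 : T.mgB η₁ (μ₀ / 2) := by
    have h1 := hpert η₀ (η₁ - η₀) μ₀ hm
    rw [add_sub_cancel, hdiff'] at h1
    refine mptb_mg_mono h1 ?_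
    have : c' * (σ * ‖ρ‖) ≤ c' * (σ₁ * ‖ρ‖) := mul_le_mul_of_nonneg_left hσρ hc'
    linarith
  have hmeas : ∀ (θ : ℝ) (η : Fin N → ℝ), Measurable (T.dqB X.F α θ η) := fun θ η =>
    (mptb_dq_cont X.lip.continuous α θ η).measurable
  have hbd : ∀ (θ : ℝ) (η : Fin N → ℝ) (q : ℝ × ℝ), |T.dqB X.F α θ η q| ≤ (X.K : ℝ) := fun θ η q =>
    mptb_dq_abs_le X.lip α θ η q
  have hlim : ∀ᵐ q : ℝ × ℝ, ∃ L : ℝ, Tendsto (fun θ => T.dqB X.F α θ η₁ q) (𝓝[>] 0) (𝓝 L) := by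
    filter_upwards [hσ] with q hq
    obtain ⟨L, hL⟩ := hq
    refine ⟨L, hL.congr fun θ => ?_⟩
    rw [hη₁, hρ, mptb_s_id]
  obtain ⟨θ₁, hθ₁, hcau⟩ := mptb_s_dom (mptb_patch_meas X.Λ X.u₁ X.u₂ 0) (mptb_patch_finite X.Λ X.u₁ X.u₂ 0)
    (fun θ => T.dqB X.F α θ η₁) (fun θ => hmeas θ η₁) X.K (fun θ q => hbd θ η₁ q) hlim (ε / 3) (by linarith)
  have hcμ : 0 < X.c * (μ₀ / 2) := mul_pos X.hc (by linarith)
  refine ⟨min θ₁ (min (X.c * (μ₀ / 2)) X.δ), lt_min hθ₁ (lt_min hcμ hδ), fun θ θ' h1 h2 h3 h4 => ?_⟩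
  have a1 : θ ≤ θ₁ := h2.trans (min_le_left _ _)
  have a2 : θ ≤ X.c * (μ₀ / 2) := h2.trans ((min_le_right _ _).trans (min_le_left _ _))
  have a3 : θ ≤ X.δ := h2.trans ((min_le_right _ _).trans (min_le_right _ _))
  have b1 : θ' ≤ θ₁ := h4.trans (min_le_left _ _)
  have b2 : θ' ≤ X.c * (μ₀ / 2) := h4.trans ((min_le_right _ _).trans (min_le_left _ _))
  have b3 : θ' ≤ X.δ := h4.trans ((min_le_right _ _).trans (min_le_right _ _))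
  have s1 := X.stair α η₀ η₁ (μ₀ / 2) θ (by linarith) hn1 hα (by linarith) hm0 hm1 h1 a2 a3
  have s2 := X.stair α η₁ η₀ (μ₀ / 2) θ' hn1 (by linarith) hα.symm (by linarith) hm1 hm0 h3 b2 b3
  have s3 := hcau θ θ' h1 a1 h3 b1
  rw [hdiff] at s1
  rw [hdiff'] at s2
  have t1 := mptb_int_tri X.Λ X.u₁ X.u₂ 0 (hmeas θ η₀) (hmeas θ η₁) (hmeas θ' η₀) (hbd θ η₀) (hbd θ η₁) (hbd θ' η₀)
  have t2 := mptb_int_tri X.Λ X.u₁ X.u₂ 0 (hmeas θ η₁) (hmeas θ' η₁) (hmeas θ' η₀) (hbd θ η₁) (hbd θ' η₁) (hbd θ' η₀)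
  have hCσ : X.C * (σ * ‖ρ‖) ≤ ε / 3 := (mul_le_mul_of_nonneg_left hσρ hC).trans hs1
  show ∫ q in mpatch X.Λ X.u₁ X.u₂ 0, |T.dqB X.F α θ η₀ q - T.dqB X.F α θ' η₀ q| ≤ ε
  linarith

end Claimed.Agent.R255
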