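-- KEEP
import Claimed.Agent.R255.Plane.TrBSlice

/-!
# Row 255, block (B), chapter A, second half: A5 FIELD + A6a      (architect helper188)

Fix `α`, `ζ, μ_ζ` from `mptb_zeta` (`ζ_α = 0`, margin `μ_ζ > 0`), `κ₀ > 0` with `κ₀ ‖ζ‖ ≤ δ/2`, `κ_n = κ₀ / 2^n`.
`mptb_slice` at `κ_n ζ` (margin `κ_n μ_ζ`) with `ε = 2^-n` gives `θ₀(n)`;  `θ_n = min (θ₀ n) (min (c κ_n μ_ζ) δ)`;  `Φ_n = D^{θ_n}(κ_n ζ)`.
* `mptb_f_seq`  : existence of `(κ_n, θ_n)` with these properties, in one statement.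
* `mptb_f_cau`  : for `n ≤ m`: `‖Φ_n - Φ_m‖ ≤ 2^-n + C κ_n ‖ζ‖ + 2^-m`  (insert `θ = min θ_n θ_m`: slice, stair, slice).
* `mptb_f_complete` (abstract): a sequence of measurable functions with values in `[0, d]` ON `S`, Cauchy in `L¹(S)` with summable rate, converges in `L¹(S)` to a measurable function with values in `[0, d]` EVERYWHERE
   (`cauchy_complete_eLpNorm` on `volume.restrict S`, measurable modification `AEStronglyMeasurable.mk`, clamp `max 0 (min · d)`; clamping does not increase the distance to `[0,d]`-valued functions).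
* `mptb_f_one`  : the field for one `α` with the property `near`.
* `mptb_field`  : `choose`.
-/

set_option autoImplicit false

namespace Claimed.Agent.R255

open Filter Topology MeasureTheory Set
open scoped NNReal

variable {N : ℕ} {T : MpIn N}

/-- abstract completeness of `L¹(S)` for `[0,d]`-valued functions -/
theorem mptb_f_complete {S : Set (ℝ × ℝ)} (hS : MeasurableSet S) (hfin : volume S < ⊤) (d : ℝ) (hd : 0 ≤ d)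
    (Φ : ℕ → ℝ × ℝ → ℝ) (hΦ : ∀ n, Measurable (Φ n)) (hb : ∀ n, ∀ q ∈ S, 0 ≤ Φ n q ∧ Φ n q ≤ d)
    (b : ℕ → ℝ) (hbs : Summable b) (hcau : ∀ n m, n ≤ m → ∫ q in S, |Φ n q - Φ m q| ≤ b n) :
    ∃ A : ℝ × ℝ → ℝ, Measurable A ∧ (∀ q, 0 ≤ A q ∧ A q ≤ d) ∧
      Tendsto (fun n => ∫ q in S, |Φ n q - A q|) atTop (𝓝 0) := by
  have hi : ∀ n, Integrable (Φ n) (volume.restrict S) := fun n =>
    Measure.integrableOn_of_bounded (M := d) hfin.ne (hΦ n).aestronglyMeasurable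
      ((ae_restrict_iff' hS).2 (ae_of_all _ fun q hq => by
        rw [Real.norm_eq_abs, abs_of_nonneg (hb n q hq).1]; exact (hb n q hq).2))
  set f : ℕ → (ℝ × ℝ) →₁[volume.restrict S] ℝ := fun n => (hi n).toL1 (Φ n) with hf
  have hdist : ∀ n (g : (ℝ × ℝ) →₁[volume.restrict S] ℝ), dist (f n) g = ∫ q in S, |Φ n q - g q| := by
    intro n g
    rw [dist_eq_norm, hf]
    simp only
    rw [← Integrable.toL1_coeFn g (L1.integrable_coeFn g), ← Integrable.toL1_sub,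
      L1.norm_of_fun_eq_integral_norm]
    simp only [Integrable.toL1_coeFn, Pi.sub_apply, Real.norm_eq_abs]
  have hdist2 : ∀ n m, dist (f n) (f m) = ∫ q in S, |Φ n q - Φ m q| := by
    intro n m
    rw [dist_eq_norm, hf]
    simp only
    rw [← Integrable.toL1_sub, L1.norm_of_fun_eq_integral_norm]
    simp only [Pi.sub_apply, Real.norm_eq_abs]
  have hc : CauchySeq f := by
    refine cauchySeq_of_le_tendsto_0' b (fun n m hnm => ?_) hbs.tendsto_atTop_zero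
    rw [hdist2]
    exact hcau n m hnm
  obtain ⟨g, hg⟩ := cauchySeq_tendsto_of_complete hc
  have hgm : Measurable (g : ℝ × ℝ → ℝ) := (Lp.stronglyMeasurable g).measurable
  refine ⟨fun q => max 0 (min (g q) d), measurable_const.max (hgm.min measurable_const),
    fun q => ⟨le_max_left _ _, max_le hd (min_le_right _ _)⟩, ?_⟩
  have h0 : Tendsto (fun n => dist (f n) g) atTop (𝓝 0) := (tendsto_iff_dist_tendsto_zero).1 hg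
  refine squeeze_zero (fun n => integral_nonneg fun q => abs_nonneg _) (fun n => ?_) h0
  rw [hdist]
  refine integral_mono_of_nonneg (ae_of_all _ fun q => abs_nonneg _)
    (((hi n).sub (L1.integrable_coeFn g)).abs) ((ae_restrict_iff' hS).2 (ae_of_all _ fun q hq => ?_))
  obtain ⟨a1, a2⟩ := hb n q hq
  simp only
  rcases le_total (g q) d with h1 | h1
  · rw [min_eq_left h1]
    rcases le_total 0 (g q) with h2 | h2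
    · rw [max_eq_right h2]
    · rw [max_eq_left h2, abs_of_nonneg (by linarith), abs_of_nonneg (by linarith)]
      linarith
  · rw [min_eq_right h1, max_eq_right hd, abs_of_nonpos (by linarith), abs_of_nonpos (by linarith)]
    linarith

/-- the reference offsets and steps -/
theorem mptb_f_seq (hT : T.Ok) (X : TrCtx T) (α : Fin N) :
    ∃ (ζ : Fin N → ℝ) (μ κ₀ : ℝ) (θs : ℕ → ℝ), 0 < μ ∧ ζ α = 0 ∧ T.mgB ζ μ ∧ 0 < κ₀ ∧ κ₀ * ‖ζ‖ ≤ X.δ / 2 ∧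
      (∀ n, 0 < θs n ∧ θs n ≤ X.c * (κ₀ / 2 ^ n * μ) ∧ θs n ≤ X.δ) ∧
      ∀ n θ θ', 0 < θ → θ ≤ θs n → 0 < θ' → θ' ≤ θs n →
        ∫ q in X.pat 0, |T.dqB X.F α θ ((κ₀ / 2 ^ n) • ζ) q - T.dqB X.F α θ' ((κ₀ / 2 ^ n) • ζ) q| ≤ (1 / 2) ^ n := by
  obtain ⟨ζ, μ, hμ, hζ, hm⟩ := mptb_zeta hT α
  have hδ := X.hδ
  have hz : 0 ≤ ‖ζ‖ := norm_nonneg ζ
  obtain ⟨κ₀, hκ₀, hκ⟩ : ∃ κ₀ : ℝ, 0 < κ₀ ∧ κ₀ * ‖ζ‖ ≤ X.δ / 2 := by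
    refine ⟨X.δ / 2 / (‖ζ‖ + 1), by positivity, ?_⟩
    calc X.δ / 2 / (‖ζ‖ + 1) * ‖ζ‖ = X.δ / 2 * (‖ζ‖ / (‖ζ‖ + 1)) := by ring
      _ ≤ X.δ / 2 * 1 := by
          gcongr
          rw [div_le_one (by positivity)]
          linarith
      _ = X.δ / 2 := mul_one _
  have hkn : ∀ n : ℕ, 0 < κ₀ / 2 ^ n := fun n => by positivity
  have hkle : ∀ n : ℕ, κ₀ / 2 ^ n ≤ κ₀ := fun n => div_le_self hκ₀.le (one_le_pow₀ (by norm_num))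
  have hnorm : ∀ n : ℕ, ‖(κ₀ / 2 ^ n) • ζ‖ ≤ X.δ / 2 := fun n => by
    rw [norm_smul, Real.norm_eq_abs, abs_of_pos (hkn n)]
    exact (mul_le_mul_of_nonneg_right (hkle n) hz).trans hκ
  have hsl := fun n : ℕ => mptb_slice hT X α ((κ₀ / 2 ^ n) • ζ) (κ₀ / 2 ^ n * μ) ((1 / 2) ^ n)
    (mul_pos (hkn n) hμ) (mptb_mg_smul hm (hkn n).le) (hnorm n) (by positivity)
  choose θ₀ hθ₀ hcau using hsl
  refine ⟨ζ, μ, κ₀, fun n => min (θ₀ n) (min (X.c * (κ₀ / 2 ^ n * μ)) X.δ), hμ, hζ, hm, hκ₀, hκ, fun n => ⟨?_, ?_, ?_⟩,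
    fun n θ θ' h1 h2 h3 h4 => ?_⟩
  · exact lt_min (hθ₀ n) (lt_min (mul_pos X.hc (mul_pos (hkn n) hμ)) hδ)
  · exact (min_le_right _ _).trans (min_le_left _ _)
  · exact (min_le_right _ _).trans (min_le_right _ _)
  · exact hcau n θ θ' h1 (h2.trans (min_le_left _ _)) h3 (h4.trans (min_le_left _ _))

/-- the Cauchy estimate of the reference sequence -/
theorem mptb_f_cau (hT : T.Ok) (X : TrCtx T) (α : Fin N) (ζ : Fin N → ℝ) (μ κ₀ : ℝ) (θs : ℕ → ℝ) (hμ : 0 < μ)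
    (hζ : ζ α = 0) (hm : T.mgB ζ μ) (hκ : 0 < κ₀) (hκζ : κ₀ * ‖ζ‖ ≤ X.δ / 2)
    (hθ : ∀ n, 0 < θs n ∧ θs n ≤ X.c * (κ₀ / 2 ^ n * μ) ∧ θs n ≤ X.δ)
    (hsl : ∀ n θ θ', 0 < θ → θ ≤ θs n → 0 < θ' → θ' ≤ θs n →
      ∫ q in X.pat 0, |T.dqB X.F α θ ((κ₀ / 2 ^ n) • ζ) q - T.dqB X.F α θ' ((κ₀ / 2 ^ n) • ζ) q| ≤ (1 / 2) ^ n)
    (n m : ℕ) (hnm : n ≤ m) :
    ∫ q in X.pat 0, |T.dqB X.F α (θs n) ((κ₀ / 2 ^ n) • ζ) q - T.dqB X.F α (θs m) ((κ₀ / 2 ^ m) • ζ) q| ≤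
      (2 + X.C * (κ₀ * ‖ζ‖)) * (1 / 2) ^ n := by
  have hδ := X.hδ
  have hz : 0 ≤ ‖ζ‖ := norm_nonneg ζ
  have hkn : ∀ n : ℕ, 0 < κ₀ / 2 ^ n := fun n => by positivity
  have hkle : ∀ n : ℕ, κ₀ / 2 ^ n ≤ κ₀ := fun n => div_le_self hκ.le (one_le_pow₀ (by norm_num))
  have hnorm : ∀ n : ℕ, ‖(κ₀ / 2 ^ n) • ζ‖ ≤ X.δ := fun n => by
    rw [norm_smul, Real.norm_eq_abs, abs_of_pos (hkn n)]
    have := (mul_le_mul_of_nonneg_right (hkle n) hz).trans hκζ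
    linarith
  have hmono : κ₀ / 2 ^ m ≤ κ₀ / 2 ^ n :=
    div_le_div_of_nonneg_left hκ.le (by positivity) (pow_le_pow_right₀ (by norm_num) hnm)
  have hmeas : ∀ (θ : ℝ) (η : Fin N → ℝ), Measurable (T.dqB X.F α θ η) := fun θ η =>
    (mptb_dq_cont X.lip.continuous α θ η).measurable
  have hbd : ∀ (θ : ℝ) (η : Fin N → ℝ) (q : ℝ × ℝ), |T.dqB X.F α θ η q| ≤ (X.K : ℝ) := fun θ η q =>
    mptb_dq_abs_le X.lip α θ η q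
  obtain ⟨θ, hθdef⟩ : ∃ θ : ℝ, θ = min (θs n) (θs m) := ⟨_, rfl⟩
  have hθ0 : 0 < θ := by
    rw [hθdef]
    exact lt_min (hθ n).1 (hθ m).1
  have hθn : θ ≤ θs n := by
    rw [hθdef]
    exact min_le_left _ _
  have hθm : θ ≤ θs m := by
    rw [hθdef]
    exact min_le_right _ _
  have s1 := hsl n (θs n) θ (hθ n).1 le_rfl hθ0 hθn
  have s3 := hsl m θ (θs m) hθ0 hθm (hθ m).1 le_rfl
  have s2 := X.stair α ((κ₀ / 2 ^ n) • ζ) ((κ₀ / 2 ^ m) • ζ) (κ₀ / 2 ^ m * μ) θ (hnorm n) (hnorm m)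
    (by rw [Pi.smul_apply, Pi.smul_apply, hζ, smul_zero, smul_zero]) (mul_pos (hkn m) hμ)
    (mptb_mg_mono (mptb_mg_smul hm (hkn n).le) (mul_le_mul_of_nonneg_right hmono hμ.le))
    (mptb_mg_smul hm (hkn m).le) hθ0 (hθm.trans (hθ m).2.1) (hθm.trans (hθ m).2.2)
  have hd : ‖(κ₀ / 2 ^ n) • ζ - (κ₀ / 2 ^ m) • ζ‖ ≤ κ₀ * ‖ζ‖ * (1 / 2) ^ n := by
    rw [← sub_smul, norm_smul, Real.norm_eq_abs, abs_of_nonneg (by linarith)]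
    have e : κ₀ * ‖ζ‖ * (1 / 2) ^ n = κ₀ / 2 ^ n * ‖ζ‖ := by
      rw [one_div, inv_pow]
      ring
    rw [e]
    exact mul_le_mul_of_nonneg_right (by linarith [(hkn m).le]) hz
  have hpow : ((1 : ℝ) / 2) ^ m ≤ (1 / 2) ^ n := pow_le_pow_of_le_one (by norm_num) (by norm_num) hnm
  have t1 := mptb_int_tri X.Λ X.u₁ X.u₂ 0 (hmeas (θs n) ((κ₀ / 2 ^ n) • ζ)) (hmeas θ ((κ₀ / 2 ^ n) • ζ))
    (hmeas (θs m) ((κ₀ / 2 ^ m) • ζ)) (hbd _ _) (hbd _ _) (hbd _ _)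
  have t2 := mptb_int_tri X.Λ X.u₁ X.u₂ 0 (hmeas θ ((κ₀ / 2 ^ n) • ζ)) (hmeas θ ((κ₀ / 2 ^ m) • ζ))
    (hmeas (θs m) ((κ₀ / 2 ^ m) • ζ)) (hbd _ _) (hbd _ _) (hbd _ _)
  have hC2 : X.C * ‖(κ₀ / 2 ^ n) • ζ - (κ₀ / 2 ^ m) • ζ‖ ≤ X.C * (κ₀ * ‖ζ‖ * (1 / 2) ^ n) :=
    mul_le_mul_of_nonneg_left hd X.hC
  have s1' : ∫ q in mpatch X.Λ X.u₁ X.u₂ 0, |T.dqB X.F α (θs n) ((κ₀ / 2 ^ n) • ζ) q - T.dqB X.F α θ ((κ₀ / 2 ^ n) • ζ) q| ≤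
      (1 / 2) ^ n := s1
  have s3' : ∫ q in mpatch X.Λ X.u₁ X.u₂ 0, |T.dqB X.F α θ ((κ₀ / 2 ^ m) • ζ) q - T.dqB X.F α (θs m) ((κ₀ / 2 ^ m) • ζ) q| ≤
      (1 / 2) ^ m := s3
  show ∫ q in mpatch X.Λ X.u₁ X.u₂ 0, |T.dqB X.F α (θs n) ((κ₀ / 2 ^ n) • ζ) q - T.dqB X.F α (θs m) ((κ₀ / 2 ^ m) • ζ) q| ≤
    (2 + X.C * (κ₀ * ‖ζ‖)) * (1 / 2) ^ n
  have e2 : (2 + X.C * (κ₀ * ‖ζ‖)) * (1 / 2) ^ n = (1 / 2) ^ n + X.C * (κ₀ * ‖ζ‖ * (1 / 2) ^ n) + (1 / 2) ^ n := by ring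
  rw [e2]
  linarith

/-- the field for one coordinate -/
theorem mptb_f_one (hT : T.Ok) (X : TrCtx T) (α : Fin N) :
    ∃ A : ℝ × ℝ → ℝ, Measurable A ∧ (∀ q, 0 ≤ A q ∧ A q ≤ T.d α) ∧
      ∀ (η : Fin N → ℝ) (μ ε : ℝ), η α = 0 → 0 < μ → T.mgB η μ → ‖η‖ ≤ X.δ / 2 → 0 < ε →
        ∃ θ₀ : ℝ, 0 < θ₀ ∧ ∀ θ : ℝ, 0 < θ → θ ≤ θ₀ →
          ∫ q in X.pat 0, |T.dqB X.F α θ η q - A q| ≤ X.C * ‖η‖ + ε := by
  obtain ⟨ζ, μ, κ₀, θs, hμ, hζ, hm, hκ, hκζ, hθ, hsl⟩ := mptb_f_seq hT X α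
  have hδ := X.hδ
  have hC := X.hC
  have hc := X.hc
  have e : X.pat 0 = mpatch X.Λ X.u₁ X.u₂ 0 := rfl
  have hκn : ∀ n : ℕ, 0 < κ₀ / 2 ^ n := fun n => by positivity
  have hnorm : ∀ n : ℕ, ‖(κ₀ / 2 ^ n) • ζ‖ = κ₀ * ‖ζ‖ * (1 / 2) ^ n := by
    intro n
    rw [norm_smul, Real.norm_of_nonneg (hκn n).le, one_div, inv_pow]
    ring
  have hnle : ∀ n : ℕ, ‖(κ₀ / 2 ^ n) • ζ‖ ≤ X.δ / 2 := by
    intro n
    rw [hnorm]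
    have h1 : (1 / 2 : ℝ) ^ n ≤ 1 := pow_le_one₀ (by norm_num) (by norm_num)
    have h0 : 0 ≤ κ₀ * ‖ζ‖ := by positivity
    calc κ₀ * ‖ζ‖ * (1 / 2) ^ n ≤ κ₀ * ‖ζ‖ * 1 := mul_le_mul_of_nonneg_left h1 h0
      _ ≤ X.δ / 2 := by linarith
  have hmg : ∀ n : ℕ, T.mgB ((κ₀ / 2 ^ n) • ζ) (κ₀ / 2 ^ n * μ) := fun n => mptb_mg_smul hm (hκn n).le
  have hmeas : ∀ (θ : ℝ) (η : Fin N → ℝ), Measurable (T.dqB X.F α θ η) :=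
    fun θ η => (mptb_dq_cont X.lip.continuous α θ η).measurable
  obtain ⟨A, hA1, hA2, hA3⟩ := mptb_f_complete (mptb_patch_meas X.Λ X.u₁ X.u₂ 0)
    (mptb_patch_finite X.Λ X.u₁ X.u₂ 0) (T.d α) (mptb_d_nonneg hT α)
    (fun n => T.dqB X.F α (θs n) ((κ₀ / 2 ^ n) • ζ)) (fun n => hmeas _ _)
    (fun n q hq => mptb_dq_cap hT X α _ _ (mptb_mg_cone (hmg n) (mul_pos (hκn n) hμ).le)
      (X.stepc α _ _ _ (hmg n) (hθ n).1.le (hθ n).2.1) ((hnle n).trans (by linarith)) (hθ n).1 (hθ n).2.2 q hq)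
    (fun n => (2 + X.C * (κ₀ * ‖ζ‖)) * (1 / 2) ^ n)
    ((summable_geometric_of_lt_one (by norm_num) (by norm_num)).mul_left _)
    (fun n m hnm => mptb_f_cau hT X α ζ μ κ₀ θs hμ hζ hm hκ hκζ hθ hsl n m hnm)
  refine ⟨A, hA1, hA2, ?_⟩
  intro η μ' ε hη hμ' hm' hηn hε
  have t1 : ∀ᶠ n in atTop,
      ∫ q in mpatch X.Λ X.u₁ X.u₂ 0, |T.dqB X.F α (θs n) ((κ₀ / 2 ^ n) • ζ) q - A q| < ε / 3 :=
    (tendsto_order.1 hA3).2 _ (by positivity)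
  have t2 : Tendsto (fun n : ℕ => (1 + X.C * (κ₀ * ‖ζ‖)) * (1 / 2 : ℝ) ^ n) atTop (𝓝 0) := by
    have := (tendsto_pow_atTop_nhds_zero_of_lt_one (r := (1 / 2 : ℝ)) (by norm_num) (by norm_num)).const_mul
      (1 + X.C * (κ₀ * ‖ζ‖))
    simpa using this
  have t3 : ∀ᶠ n : ℕ in atTop, (1 + X.C * (κ₀ * ‖ζ‖)) * (1 / 2 : ℝ) ^ n < ε / 3 :=
    (tendsto_order.1 t2).2 _ (by positivity)
  obtain ⟨n, hn1, hn2⟩ := (t1.and t3).exists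
  have hμ₁ : 0 < min μ' (κ₀ / 2 ^ n * μ) := lt_min hμ' (mul_pos (hκn n) hμ)
  refine ⟨min (θs n) (min (X.c * min μ' (κ₀ / 2 ^ n * μ)) X.δ),
    lt_min (hθ n).1 (lt_min (mul_pos hc hμ₁) hδ), ?_⟩
  intro θ hθ0 hθle
  have h1 : θ ≤ θs n := hθle.trans (min_le_left _ _)
  have h2 : θ ≤ X.c * min μ' (κ₀ / 2 ^ n * μ) := hθle.trans ((min_le_right _ _).trans (min_le_left _ _))
  have h3 : θ ≤ X.δ := hθle.trans ((min_le_right _ _).trans (min_le_right _ _))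
  have s1 := X.stair α η ((κ₀ / 2 ^ n) • ζ) (min μ' (κ₀ / 2 ^ n * μ)) θ (by linarith)
    ((hnle n).trans (by linarith)) (by simp [hη, hζ]) hμ₁ (mptb_mg_mono hm' (min_le_left _ _))
    (mptb_mg_mono (hmg n) (min_le_right _ _)) hθ0 h2 h3
  have s2 := hsl n θ (θs n) hθ0 h1 (hθ n).1 le_rfl
  rw [e] at s2 ⊢
  have bD : ∀ (θ : ℝ) (η : Fin N → ℝ) (q : ℝ × ℝ), |T.dqB X.F α θ η q| ≤ max (X.K : ℝ) (T.d α) :=
    fun θ η q => (mptb_dq_abs_le X.lip α θ η q).trans (le_max_left _ _)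
  have bA : ∀ q, |A q| ≤ max (X.K : ℝ) (T.d α) := fun q => by
    rw [abs_of_nonneg (hA2 q).1]
    exact (hA2 q).2.trans (le_max_right _ _)
  have tr1 := mptb_int_tri X.Λ X.u₁ X.u₂ 0 (hmeas θ η) (hmeas (θs n) ((κ₀ / 2 ^ n) • ζ)) hA1
    (bD _ _) (bD _ _) bA
  have tr2 := mptb_int_tri X.Λ X.u₁ X.u₂ 0 (hmeas θ η) (hmeas θ ((κ₀ / 2 ^ n) • ζ))
    (hmeas (θs n) ((κ₀ / 2 ^ n) • ζ)) (bD _ _) (bD _ _) (bD _ _)
  have s3 : X.C * ‖η - (κ₀ / 2 ^ n) • ζ‖ ≤ X.C * ‖η‖ + X.C * (κ₀ * ‖ζ‖) * (1 / 2) ^ n := by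
    have := norm_sub_le η ((κ₀ / 2 ^ n) • ζ)
    rw [hnorm] at this
    calc X.C * ‖η - (κ₀ / 2 ^ n) • ζ‖ ≤ X.C * (‖η‖ + κ₀ * ‖ζ‖ * (1 / 2) ^ n) :=
          mul_le_mul_of_nonneg_left this hC
      _ = _ := by ring
  have s4 : (1 + X.C * (κ₀ * ‖ζ‖)) * (1 / 2 : ℝ) ^ n = (1 / 2 : ℝ) ^ n + X.C * (κ₀ * ‖ζ‖) * (1 / 2) ^ n := by
    ring
  linarith

/-- **A5 FIELD + A6a** -/
theorem mptb_field (hT : T.Ok) (X : TrCtx T) : Nonempty (TrFld X) := by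
  choose A hA1 hA2 hA3 using fun α => mptb_f_one hT X α
  exact ⟨⟨A, hA1, hA2, fun α η μ ε => hA3 α η μ ε⟩⟩

end Claimed.Agent.R255
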