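-- KEEP
import Claimed.Agent.R255.Plane.TrBField
import Claimed.Agent.R255.Plane.TrBAff

/-!
# Row 255, block (B), chapter A, second half: context from A1 + A3, and the glue of Theorem 6.1      (architect helper188)

* `mptb_ctx`  : `MptbLip T`, `MptbStair T` ⟹ a context on any patch.  `δ₁ = min u₁ (1-u₂) / 2`, `(K, F)` from A1 at `δ₁`, `(C, δ', c')` from A3;  `δ = min δ' (δ₁/2)`, `c = min c' (1/(1+cλ))` with `cλ` from `mptb_mg_pert`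
   (`stepc`: `η + θ 1_α` has margin `≥ μ - cλ θ ≥ 0`);  `dom`, `eqf`: the label of `Π q + η` is `q.2 + η_v ∈ [u₁ - 2δ, u₂ + 2δ] ⊆ [δ₁, 1-δ₁]`, cone by `mptb_cone_pl`;
   `stair`: `T.dqB F = T.dqB f` on the patch (`setIntegral_congr_fun`).
* `mptb_main` : the chain on the enlarged patch `(Λ+1, u₁/2, (1+u₂)/2)` with margin `r₀ = min 1 (min (u₁/2) ((1-u₂)/2))`.
-/

set_option autoImplicit false

namespace Claimed.Agent.R255

open Filter Topology MeasureTheory Set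
open scoped NNReal

variable {N : ℕ} {T : MpIn N}

/-- the label of `Π q + η` -/
theorem mptb_ctx_label (hT : T.Ok) (q : ℝ × ℝ) (η : Fin N → ℝ) : (T.pl q + η) T.v = q.2 + η T.v := by
  rw [Pi.add_apply, mptb_pl_v hT]

theorem mptb_ctx_single_norm (α : Fin N) (θ : ℝ) : ‖(Pi.single α θ : Fin N → ℝ)‖ = |θ| := by
  rw [Pi.norm_single, Real.norm_eq_abs]

/-- A1 + A3 ⟹ a context on any patch -/
theorem mptb_ctx (hT : T.Ok) (hL : MptbLip T) (hS : MptbStair T) (Λ u₁ u₂ : ℝ) (hΛ : 0 < Λ) (h1 : 0 < u₁)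
    (h12 : u₁ < u₂) (h2 : u₂ < 1) : ∃ X : TrCtx T, X.Λ = Λ ∧ X.u₁ = u₁ ∧ X.u₂ = u₂ := by
  obtain ⟨δ₁, hδ₁⟩ : ∃ δ₁ : ℝ, δ₁ = min u₁ (1 - u₂) / 2 := ⟨_, rfl⟩
  have hδ₁pos : 0 < δ₁ := by
    rw [hδ₁]; exact half_pos (lt_min h1 (by linarith))
  have hδ₁a : 2 * δ₁ ≤ u₁ := by
    rw [hδ₁]; linarith [min_le_left u₁ (1 - u₂)]
  have hδ₁b : 2 * δ₁ ≤ 1 - u₂ := by
    rw [hδ₁]; linarith [min_le_right u₁ (1 - u₂)]
  obtain ⟨K, F, hF, hFf⟩ := hL δ₁ hδ₁pos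
  obtain ⟨C, δ', c', hC, hδ', hc', hst⟩ := hS Λ u₁ u₂ hΛ h1 h12 h2
  obtain ⟨cl, hcl, hpert⟩ := mptb_mg_pert T
  obtain ⟨δ, hδ⟩ : ∃ δ : ℝ, δ = min δ' (δ₁ / 2) := ⟨_, rfl⟩
  have hδpos : 0 < δ := by rw [hδ]; exact lt_min hδ' (by linarith)
  have hδa : δ ≤ δ' := by rw [hδ]; exact min_le_left _ _
  have hδb : 2 * δ ≤ δ₁ := by rw [hδ]; linarith [min_le_right δ' (δ₁ / 2)]
  obtain ⟨c, hc⟩ : ∃ c : ℝ, c = min c' (1 / (1 + cl)) := ⟨_, rfl⟩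
  have hcpos : 0 < c := by rw [hc]; exact lt_min hc' (by positivity)
  have hca : c ≤ c' := by rw [hc]; exact min_le_left _ _
  have hcb : c ≤ 1 / (1 + cl) := by rw [hc]; exact min_le_right _ _
  -- the label stays in the window
  have hlab : ∀ q ∈ mpatch Λ u₁ u₂ 0, ∀ η : Fin N → ℝ, ‖η‖ ≤ 2 * δ →
      δ₁ ≤ (T.pl q + η) T.v ∧ (T.pl q + η) T.v ≤ 1 - δ₁ := by
    intro q hq η hη
    rw [mptb_ctx_label hT]
    have hq2 : u₁ + 0 < q.2 ∧ q.2 < u₂ - 0 := hq.2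
    have h3 : |η T.v| ≤ δ₁ := by
      have := norm_le_pi_norm η T.v
      rw [Real.norm_eq_abs] at this
      linarith
    rw [abs_le] at h3
    constructor <;> linarith [h3.1, h3.2, hq2.1, hq2.2]
  have heqf : ∀ q ∈ mpatch Λ u₁ u₂ 0, ∀ η : Fin N → ℝ, T.Cone η → ‖η‖ ≤ 2 * δ →
      F (T.pl q + η) = T.f (T.pl q + η) := by
    intro q hq η hc hη
    exact hFf _ ((mptb_cone_pl hT q η).2 hc) (hlab q hq η hη).1 (hlab q hq η hη).2
  have hstepc : ∀ (α : Fin N) (η : Fin N → ℝ) (μ θ : ℝ), T.mgB η μ → 0 ≤ θ → θ ≤ c * μ →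
      T.Cone (η + Pi.single α θ) := by
    intro α η μ θ hm h0 hθ
    have hμ : 0 ≤ μ := by
      by_contra hneg
      push Not at hneg
      nlinarith
    have h3 := hpert η (Pi.single α θ) μ hm
    rw [mptb_ctx_single_norm, abs_of_nonneg h0] at h3
    refine mptb_mg_cone h3 ?_
    have h4 : θ ≤ 1 / (1 + cl) * μ := hθ.trans (mul_le_mul_of_nonneg_right hcb hμ)
    have h5 : (1 + cl) * θ ≤ μ := by
      have : (1 + cl) * θ ≤ (1 + cl) * (1 / (1 + cl) * μ) := mul_le_mul_of_nonneg_left h4 (by linarith)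
      have e : (1 + cl) * (1 / (1 + cl) * μ) = μ := by
        have : (1 + cl) ≠ 0 := by positivity
        field_simp
      linarith
    nlinarith
  refine ⟨⟨Λ, u₁, u₂, F, K, C, δ, c, hΛ, h1, h12, h2, hC, hδpos, hcpos, hF, ?_, heqf, hstepc, ?_⟩, rfl, rfl, rfl⟩
  · intro q hq η hc hη
    have := hlab q hq η hη
    exact ⟨(mptb_cone_pl hT q η).2 hc, by linarith [this.1], by linarith [this.2]⟩
  · intro α η η' μ θ hn hn' hα hμ hm hm' hθ0 hθ1 hθ2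
    have hdq : ∀ (ζ : Fin N → ℝ), ‖ζ‖ ≤ δ → T.mgB ζ μ → ∀ q ∈ mpatch Λ u₁ u₂ 0, T.dqB F α θ ζ q = T.dqB T.f α θ ζ q := by
      intro ζ hζ hmζ q hq
      unfold MpIn.dqB
      have e1 := heqf q hq ζ (mptb_mg_cone hmζ hμ.le) (by linarith)
      have e2 := heqf q hq (ζ + Pi.single α θ) (hstepc α ζ μ θ hmζ hθ0.le hθ1) (by
        refine (norm_add_le _ _).trans ?_
        rw [mptb_ctx_single_norm, abs_of_pos hθ0]
        linarith)
      rw [← add_assoc] at e2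
      rw [e1, e2]
    have hcongr : ∫ q in mpatch Λ u₁ u₂ 0, |T.dqB F α θ η q - T.dqB F α θ η' q|
        = ∫ q in mpatch Λ u₁ u₂ 0, |T.dqB T.f α θ η q - T.dqB T.f α θ η' q| := by
      refine setIntegral_congr_fun (mptb_patch_meas Λ u₁ u₂ 0) fun q hq => ?_
      show |T.dqB F α θ η q - T.dqB F α θ η' q| = |T.dqB T.f α θ η q - T.dqB T.f α θ η' q|
      rw [hdq η hn hm q hq, hdq η' hn' hm' q hq]
    rw [hcongr]
    exact hst α η η' μ θ (hn.trans hδa) (hn'.trans hδa) hα hμ hm hm' hθ0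
      (hθ1.trans (mul_le_mul_of_nonneg_right hca hμ.le)) (hθ2.trans hδa)

/-- **Theorem 6.1** from the chain -/
theorem mptb_main (hT : T.Ok) (hL : MptbLip T) (hS : MptbStair T) (Λ u₁ u₂ : ℝ) (hΛ : 0 < Λ) (h1 : 0 < u₁)
    (h12 : u₁ < u₂) (h2 : u₂ < 1) : Nonempty (MpOut T Λ u₁ u₂) := by
  obtain ⟨X, hXΛ, hX1, hX2⟩ := mptb_ctx hT hL hS (Λ + 1) (u₁ / 2) ((1 + u₂) / 2) (by linarith)
    (by linarith) (by linarith) (by linarith)
  obtain ⟨Y⟩ := mptb_field hT X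
  obtain ⟨r₀, hr₀⟩ : ∃ r₀ : ℝ, r₀ = min 1 (min (u₁ / 2) ((1 - u₂) / 2)) := ⟨_, rfl⟩
  have hr₀pos : 0 < r₀ := by
    rw [hr₀]
    exact lt_min one_pos (lt_min (by linarith) (by linarith))
  have hsub : ∀ r : ℝ, 0 ≤ r → mpatch Λ u₁ u₂ r ⊆ X.pat r₀ := by
    intro r hr
    unfold TrCtx.pat
    rw [hXΛ, hX1, hX2]
    exact mptb_patch_big Λ u₁ u₂ r r₀ hr (hr₀ ▸ min_le_left _ _)
      (hr₀ ▸ (min_le_right _ _).trans (min_le_left _ _)) (hr₀ ▸ (min_le_right _ _).trans (min_le_right _ _))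
  obtain ⟨hs, hs0, hslim, haff⟩ := mptb_aff hT X Y r₀ hr₀pos
  refine ⟨⟨Y.A, hs, Y.meas, Y.bd, hs0, hslim, ?_, ?_⟩⟩
  · filter_upwards [haff] with q hq hqp using hq (hsub 0 le_rfl hqp)
  · intro r hr α
    obtain ⟨C, s₀, hs₀, hbv⟩ := mptb_bv hT X Y r₀ hr₀pos α
    refine ⟨C, s₀, hs₀, fun s h0 h1 => le_trans ?_ (hbv s h0 h1)⟩
    have hmeas : Measurable (fun q : ℝ × ℝ => |Y.A α (q + s • T.V α) - Y.A α q|) :=
      (((Y.meas α).comp (measurable_id.add_const _)).sub (Y.meas α)).abs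
    have hbd : ∀ q : ℝ × ℝ, |(|Y.A α (q + s • T.V α) - Y.A α q|)| ≤ T.d α := by
      intro q
      rw [abs_abs, abs_le]
      have a1 := Y.bd α (q + s • T.V α)
      have a2 := Y.bd α q
      constructor <;> linarith [a1.1, a1.2, a2.1, a2.2]
    exact setIntegral_mono_set (mptb_intOn X.Λ X.u₁ X.u₂ r₀ hmeas hbd)
      (Eventually.of_forall fun q => abs_nonneg _) (hsub r hr.le).eventuallyLE

end Claimed.Agent.R255
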