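-- KEEP
import Claimed.Agent.R255.Plane.Defs

/-!
# Row 255, block (B), chapter A (Theorem 6.1), DEFINITIONS AND ELEMENTARY CALCULUS for the steps A1-A10 of Plane/Trace.lean      (helper137)

* `mptChi Λ u₁ u₂`   : the cut-off `χ` (1-Lipschitz, `> 0` exactly on `mpatch Λ u₁ u₂ 0`, `≥ r` on `mpatch Λ u₁ u₂ r`, compact support);
* `mptD F α h z`     : the increment `F (z + h 1_α) - F z`;      `mptR F α β z h k` : the mixed rectangle difference;
* `mptP T F α h η q` : the difference quotient `(F (Π q + η + h 1_α) - F (Π q + η)) / h`;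
* `T.Mg μ η`         : all constraints `≤ - μ` (margin `μ` in the cone);
* `MptW T Λ u₁ u₂ δ F L` : THE WORKING HYPOTHESES: `F` is globally `L`-Lipschitz and equals `T.f` on `Cone ∩ {δ ≤ label ≤ 1 - δ}`, `2 δ ≤ u₁`, `2 δ ≤ 1 - u₂`.
  All integrals are written with `F` (continuous integrands with compact support); for `q` in the patch and offsets `‖η‖ < δ` in the cone `F (Π q + η) = T.f (Π q + η)`.
-/

set_option autoImplicit false

namespace Claimed.Agent.R255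

open Filter Topology MeasureTheory Set
open scoped NNReal

/-- the cut-off. -/
def mptChi (Λ u₁ u₂ : ℝ) (q : ℝ × ℝ) : ℝ := max 0 (min (min (q.1 + Λ) (Λ - q.1)) (min (q.2 - u₁) (u₂ - q.2)))

variable {N : ℕ}

/-- the increment. -/
def mptD (F : (Fin N → ℝ) → ℝ) (α : Fin N) (h : ℝ) (z : Fin N → ℝ) : ℝ := F (z + Pi.single α h) - F z

/-- the mixed rectangle difference. -/
def mptR (F : (Fin N → ℝ) → ℝ) (α β : Fin N) (z : Fin N → ℝ) (h k : ℝ) : ℝ :=
  F (z + Pi.single α h + Pi.single β k) - F (z + Pi.single α h) - F (z + Pi.single β k) + F z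

/-- the difference quotient at the plane point `q` with offset `η`. -/
noncomputable def mptP (T : MpIn N) (F : (Fin N → ℝ) → ℝ) (α : Fin N) (h : ℝ) (η : Fin N → ℝ) (q : ℝ × ℝ) : ℝ :=
  mptD F α h (T.pl q + η) / h

/-- margin `μ` in the cone. -/
def MpIn.Mg (T : MpIn N) (μ : ℝ) (η : Fin N → ℝ) : Prop := ∀ l, ∑ α, T.lam l α * η α ≤ - μ

/-- **the working hypotheses.** -/
structure MptW (T : MpIn N) (Λ u₁ u₂ δ : ℝ) (F : (Fin N → ℝ) → ℝ) (L : ℝ≥0) : Prop where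
  ok : T.Ok
  Λ_pos : 0 < Λ
  u_lt : u₁ < u₂
  δ_pos : 0 < δ
  δ_u₁ : 2 * δ ≤ u₁
  δ_u₂ : 2 * δ ≤ 1 - u₂
  lip : LipschitzWith L F
  eq : ∀ z, T.Cone z → δ ≤ z T.v → z T.v ≤ 1 - δ → F z = T.f z

/-! ## the cut-off -/

theorem mptChi_nonneg (Λ u₁ u₂ : ℝ) (q : ℝ × ℝ) : 0 ≤ mptChi Λ u₁ u₂ q := le_max_left _ _

theorem mptChi_pos_iff (Λ u₁ u₂ : ℝ) (q : ℝ × ℝ) : 0 < mptChi Λ u₁ u₂ q ↔ q ∈ mpatch Λ u₁ u₂ 0 := by
  unfold mptChi mpatch
  simp only [lt_max_iff, lt_self_iff_false, false_or, lt_min_iff, mem_prod, mem_Ioo, add_zero, sub_zero]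
  constructor
  · rintro ⟨⟨a, b⟩, c, d⟩; exact ⟨⟨by linarith, by linarith⟩, by linarith, by linarith⟩
  · rintro ⟨⟨a, b⟩, c, d⟩; exact ⟨⟨by linarith, by linarith⟩, by linarith, by linarith⟩

theorem mptChi_eq_zero {Λ u₁ u₂ : ℝ} {q : ℝ × ℝ} (h : q ∉ mpatch Λ u₁ u₂ 0) : mptChi Λ u₁ u₂ q = 0 :=
  le_antisymm (not_lt.1 fun h' => h ((mptChi_pos_iff _ _ _ _).1 h')) (mptChi_nonneg _ _ _ _)

theorem mptChi_ge {Λ u₁ u₂ r : ℝ} {q : ℝ × ℝ} (h : q ∈ mpatch Λ u₁ u₂ r) : r ≤ mptChi Λ u₁ u₂ q := by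
  unfold mpatch at h
  simp only [mem_prod, mem_Ioo] at h
  obtain ⟨⟨a, b⟩, c, d⟩ := h
  unfold mptChi
  refine le_max_of_le_right (le_min (le_min ?_ ?_) (le_min ?_ ?_)) <;> linarith

theorem mptChi_le (Λ u₁ u₂ : ℝ) (hΛ : 0 ≤ Λ) (q : ℝ × ℝ) : mptChi Λ u₁ u₂ q ≤ Λ := by
  unfold mptChi
  refine max_le hΛ ?_
  rcases le_total 0 q.1 with h | h
  · exact (min_le_left _ _).trans ((min_le_right _ _).trans (by linarith))
  · exact (min_le_left _ _).trans ((min_le_left _ _).trans (by linarith))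

theorem mptChi_lip (Λ u₁ u₂ : ℝ) : LipschitzWith 1 (mptChi Λ u₁ u₂) := by
  unfold mptChi
  have h1 : LipschitzWith 1 (fun q : ℝ × ℝ => q.1) := LipschitzWith.prod_fst
  have h2 : LipschitzWith 1 (fun q : ℝ × ℝ => q.2) := LipschitzWith.prod_snd
  have a1 : LipschitzWith 1 (fun q : ℝ × ℝ => q.1 + Λ) := by
    simpa using h1.add (LipschitzWith.const Λ)
  have a2 : LipschitzWith 1 (fun q : ℝ × ℝ => Λ - q.1) := by
    simpa using (LipschitzWith.const Λ).sub h1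
  have a3 : LipschitzWith 1 (fun q : ℝ × ℝ => q.2 - u₁) := by
    simpa using h2.sub (LipschitzWith.const u₁)
  have a4 : LipschitzWith 1 (fun q : ℝ × ℝ => u₂ - q.2) := by
    simpa using (LipschitzWith.const u₂).sub h2
  have b := ((a1.min a2).min (a3.min a4)).const_max 0
  simpa using b

theorem mptChi_cont (Λ u₁ u₂ : ℝ) : Continuous (mptChi Λ u₁ u₂) := (mptChi_lip Λ u₁ u₂).continuous

theorem mptChi_abs_sub_le (Λ u₁ u₂ : ℝ) (q q' : ℝ × ℝ) : |mptChi Λ u₁ u₂ q - mptChi Λ u₁ u₂ q'| ≤ ‖q - q'‖ := by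
  have := (mptChi_lip Λ u₁ u₂).dist_le_mul q q'
  simpa [Real.dist_eq, dist_eq_norm] using this

theorem mpatch_subset_Icc (Λ u₁ u₂ : ℝ) : mpatch Λ u₁ u₂ 0 ⊆ Icc (-Λ) Λ ×ˢ Icc u₁ u₂ := by
  unfold mpatch
  simp only [add_zero, sub_zero]
  exact prod_mono Ioo_subset_Icc_self Ioo_subset_Icc_self

theorem mptChi_compact (Λ u₁ u₂ : ℝ) : HasCompactSupport (mptChi Λ u₁ u₂) := by
  refine HasCompactSupport.intro (K := Icc (-Λ) Λ ×ˢ Icc u₁ u₂) (isCompact_Icc.prod isCompact_Icc) ?_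
  intro q hq
  exact mptChi_eq_zero fun h => hq (mpatch_subset_Icc _ _ _ h)

/-- `χ g` is integrable for continuous `g`. -/
theorem mptChi_integrable (Λ u₁ u₂ : ℝ) {g : ℝ × ℝ → ℝ} (hg : Continuous g) :
    Integrable (fun q => mptChi Λ u₁ u₂ q * g q) :=
  ((mptChi_cont Λ u₁ u₂).mul hg).integrable_of_hasCompactSupport (mptChi_compact Λ u₁ u₂).mul_right

/-! ## basic calculus: the plane, the cone, margins -/

namespace MpIn

variable {T : MpIn N}

/-- the `l`-th constraint functional -/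
def lf (T : MpIn N) (l : Fin T.M) (ξ : Fin N → ℝ) : ℝ := ∑ α, T.lam l α * ξ α

theorem cone_iff (ξ : Fin N → ℝ) : T.Cone ξ ↔ ∀ l, T.lf l ξ ≤ 0 := Iff.rfl

theorem mg_iff (μ : ℝ) (ξ : Fin N → ℝ) : T.Mg μ ξ ↔ ∀ l, T.lf l ξ ≤ - μ := Iff.rfl

theorem lf_add (l : Fin T.M) (ξ ζ : Fin N → ℝ) : T.lf l (ξ + ζ) = T.lf l ξ + T.lf l ζ := by
  simp [lf, mul_add, Finset.sum_add_distrib]

theorem lf_smul (l : Fin T.M) (c : ℝ) (ξ : Fin N → ℝ) : T.lf l (c • ξ) = c * T.lf l ξ := by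
  simp only [lf, Pi.smul_apply, smul_eq_mul, Finset.mul_sum]
  exact Finset.sum_congr rfl fun α _ => by ring

theorem lf_single (l : Fin T.M) (α : Fin N) (h : ℝ) : T.lf l (Pi.single α h) = T.lam l α * h := by
  simp [lf, Pi.single_apply]

theorem lf_zero (l : Fin T.M) : T.lf l 0 = 0 := by simp [lf]

theorem pl_add (q q' : ℝ × ℝ) : T.pl (q + q') = T.pl q + T.pl q' := by
  ext α; simp [pl]; ring

theorem pl_smul (s : ℝ) (q : ℝ × ℝ) : T.pl (s • q) = s • T.pl q := by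
  ext α; simp [pl]; ring

theorem pl_V (α : Fin N) : T.pl (T.V α) = fun β => T.om α β := by
  ext β; simp [pl, V, om]; ring

theorem pl_add_V (q : ℝ × ℝ) (s : ℝ) (α : Fin N) : T.pl (q + s • T.V α) = T.pl q + s • (fun β => T.om α β) := by
  rw [pl_add, pl_smul, pl_V]

theorem om_self (α : Fin N) : T.om α α = 0 := by simp [om]; ring

theorem om_symm (α β : Fin N) : T.om β α = - T.om α β := by simp [om]; ring

theorem pl_cont : Continuous T.pl := by
  unfold pl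
  fun_prop

theorem Ok.lf_pl (hT : T.Ok) (l : Fin T.M) (q : ℝ × ℝ) : T.lf l (T.pl q) = 0 := by
  have h1 := hT.lam_e l
  have h2 := hT.lam_t l
  have : T.lf l (T.pl q) = q.1 * ∑ α, T.lam l α * T.e α + q.2 * ∑ α, T.lam l α * T.t α := by
    simp only [lf, pl, Finset.mul_sum, ← Finset.sum_add_distrib]
    exact Finset.sum_congr rfl fun α _ => by ring
  rw [this, h1, h2]; ring

theorem Ok.mg_pl_add (hT : T.Ok) (μ : ℝ) (q : ℝ × ℝ) (η : Fin N → ℝ) : T.Mg μ (T.pl q + η) ↔ T.Mg μ η := by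
  simp only [mg_iff, lf_add, hT.lf_pl, zero_add]

theorem Ok.cone_pl_add (hT : T.Ok) (q : ℝ × ℝ) (η : Fin N → ℝ) : T.Cone (T.pl q + η) ↔ T.Cone η := by
  simp only [cone_iff, lf_add, hT.lf_pl, zero_add]

theorem Ok.pl_v (hT : T.Ok) (q : ℝ × ℝ) : T.pl q T.v = q.2 := by
  simp [pl, hT.e_v, hT.t_v]

theorem Mg.cone {μ : ℝ} {η : Fin N → ℝ} (h : T.Mg μ η) (hμ : 0 ≤ μ) : T.Cone η := fun l => (h l).trans (by linarith)

theorem Cone.mg {η : Fin N → ℝ} (h : T.Cone η) : T.Mg 0 η := fun l => (h l).trans (by simp)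

theorem Mg.mono {μ μ' : ℝ} {η : Fin N → ℝ} (h : T.Mg μ η) (hμ : μ' ≤ μ) : T.Mg μ' η := fun l => (h l).trans (by linarith)

/-- a bound for all constraint functionals -/
theorem exists_lfBound (T : MpIn N) : ∃ Λ₁ : ℝ, 0 ≤ Λ₁ ∧ ∀ l ξ, |T.lf l ξ| ≤ Λ₁ * ‖ξ‖ := by
  refine ⟨∑ l, ∑ α, |T.lam l α|, Finset.sum_nonneg fun l _ => Finset.sum_nonneg fun α _ => abs_nonneg _, ?_⟩
  intro l ξ
  have h1 : |T.lf l ξ| ≤ ∑ α, |T.lam l α| * ‖ξ‖ := by
    refine (Finset.abs_sum_le_sum_abs _ _).trans (Finset.sum_le_sum fun α _ => ?_)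
    rw [abs_mul]
    exact mul_le_mul_of_nonneg_left (norm_le_pi_norm ξ α) (abs_nonneg _)
  rw [← Finset.sum_mul] at h1
  refine h1.trans (mul_le_mul_of_nonneg_right ?_ (norm_nonneg _))
  exact Finset.single_le_sum (f := fun l => ∑ α, |T.lam l α|)
    (fun l _ => Finset.sum_nonneg fun α _ => abs_nonneg _) (Finset.mem_univ l)

/-- the label direction is interior -/
theorem Ok.exists_m0 (hT : T.Ok) : ∃ m₀ : ℝ, 0 < m₀ ∧ ∀ l, T.lam l T.v ≤ - m₀ := by
  by_cases hM : Nonempty (Fin T.M)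
  · obtain ⟨l₀, -, hl₀⟩ := Finset.exists_max_image (Finset.univ : Finset (Fin T.M)) (fun l => T.lam l T.v)
      Finset.univ_nonempty
    exact ⟨- T.lam l₀ T.v, by have := hT.lam_v l₀; linarith, fun l => by simpa using hl₀ l (Finset.mem_univ l)⟩
  · exact ⟨1, one_pos, fun l => (hM ⟨l⟩).elim⟩

theorem Mg.add {μ μ' : ℝ} {η ξ : Fin N → ℝ} (h : T.Mg μ η) (h' : ∀ l, T.lf l ξ ≤ μ') : T.Mg (μ - μ') (η + ξ) := by
  intro l
  have := h l
  have h2 := h' l
  have h3 := T.lf_add l η ξ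
  simp only [lf] at h2 h3
  rw [h3]; linarith

theorem Mg.convex {μ a b : ℝ} {η η' : Fin N → ℝ} (h : T.Mg μ η) (h' : T.Mg μ η') (ha : 0 ≤ a) (hb : 0 ≤ b)
    (hab : a + b = 1) : T.Mg μ (a • η + b • η') := by
  rw [mg_iff] at *
  intro l
  rw [lf_add, lf_smul, lf_smul]
  have h1 := mul_le_mul_of_nonneg_left (h l) ha
  have h2 := mul_le_mul_of_nonneg_left (h' l) hb
  have : a * -μ + b * -μ = -μ := by rw [← add_mul, hab, one_mul]
  linarith

end MpIn


/-! ## increments and rectangle differences -/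

section incr

variable {F : (Fin N → ℝ) → ℝ} {L : ℝ≥0}

theorem mptf_norm_single (α : Fin N) (h : ℝ) : ‖(Pi.single α h : Fin N → ℝ)‖ = |h| := by
  rw [Pi.norm_single, Real.norm_eq_abs]

theorem mptD_abs_le (hF : LipschitzWith L F) (α : Fin N) (h : ℝ) (z : Fin N → ℝ) : |mptD F α h z| ≤ L * |h| := by
  have := hF.dist_le_mul (z + Pi.single α h) z
  rw [Real.dist_eq, dist_eq_norm, add_sub_cancel_left, mptf_norm_single] at this
  exact this

theorem mptD_zero (α : Fin N) (z : Fin N → ℝ) : mptD F α 0 z = 0 := by simp [mptD]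

theorem mptD_pert (hF : LipschitzWith L F) (α : Fin N) (h : ℝ) (z ξ : Fin N → ℝ) :
    |mptD F α h (z + ξ) - mptD F α h z| ≤ 2 * L * ‖ξ‖ := by
  have h1 := hF.dist_le_mul (z + ξ + Pi.single α h) (z + Pi.single α h)
  have h2 := hF.dist_le_mul (z + ξ) z
  rw [Real.dist_eq, dist_eq_norm] at h1 h2
  rw [show z + ξ + Pi.single α h - (z + Pi.single α h) = ξ by abel] at h1
  rw [add_sub_cancel_left] at h2
  unfold mptD
  rw [abs_le] at *
  constructor <;> linarith [h1.1, h1.2, h2.1, h2.2]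

theorem mptR_symm (α β : Fin N) (z : Fin N → ℝ) (h k : ℝ) : mptR F α β z h k = mptR F β α z k h := by
  unfold mptR
  rw [add_right_comm z (Pi.single α h) (Pi.single β k)]
  ring

theorem mptR_eq_D (α β : Fin N) (z : Fin N → ℝ) (h k : ℝ) :
    mptR F α β z h k = mptD F α h (z + Pi.single β k) - mptD F α h z := by
  unfold mptR mptD
  rw [add_right_comm z (Pi.single α h) (Pi.single β k)]
  ring

theorem mptR_zero_right (α β : Fin N) (z : Fin N → ℝ) (h : ℝ) : mptR F α β z h 0 = 0 := by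
  simp [mptR]

theorem mptR_add (α β : Fin N) (z : Fin N → ℝ) (h k k' : ℝ) :
    mptR F α β z h (k + k') = mptR F α β z h k + mptR F α β (z + Pi.single β k) h k' := by
  rw [mptR_eq_D, mptR_eq_D, mptR_eq_D, Pi.single_add, add_assoc z]
  ring

theorem mptR_neg (α β : Fin N) (z : Fin N → ℝ) (h k : ℝ) :
    mptR F α β z h (-k) = - mptR F α β (z + Pi.single β (-k)) h k := by
  have := mptR_add (F := F) α β z h (-k) k
  rw [neg_add_cancel, mptR_zero_right] at this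
  linarith

theorem mptR_pert (hF : LipschitzWith L F) (α β : Fin N) (z ξ : Fin N → ℝ) (h k : ℝ) :
    |mptR F α β (z + ξ) h k - mptR F α β z h k| ≤ 4 * L * ‖ξ‖ := by
  rw [mptR_eq_D, mptR_eq_D]
  have h1 := mptD_pert hF α h (z + Pi.single β k) ξ
  have h2 := mptD_pert hF α h z ξ
  rw [show z + Pi.single β k + ξ = z + ξ + Pi.single β k by abel] at h1
  rw [abs_le] at *
  constructor <;> linarith [h1.1, h1.2, h2.1, h2.2]

theorem mptD_cont (hF : Continuous F) (T : MpIn N) (α : Fin N) (h : ℝ) (η : Fin N → ℝ) :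
    Continuous fun q => mptD F α h (T.pl q + η) := by
  have := T.pl_cont
  unfold mptD
  fun_prop

theorem mptR_cont (hF : Continuous F) (T : MpIn N) (α β : Fin N) (h k : ℝ) (η : Fin N → ℝ) :
    Continuous fun q => mptR F α β (T.pl q + η) h k := by
  have := T.pl_cont
  unfold mptR
  fun_prop

theorem mptP_cont (hF : Continuous F) (T : MpIn N) (α : Fin N) (h : ℝ) (η : Fin N → ℝ) :
    Continuous (mptP T F α h η) := by
  have := mptD_cont hF T α h η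
  unfold mptP
  fun_prop

end incr

/-! ## consequences of the working hypotheses -/

namespace MptW

variable {T : MpIn N} {Λ u₁ u₂ δ : ℝ} {F : (Fin N → ℝ) → ℝ} {L : ℝ≥0}

theorem cont (W : MptW T Λ u₁ u₂ δ F L) : Continuous F := W.lip.continuous

/-- on the patch, with a small offset in the closed cone: the point is in the domain, and `F = f` there. -/
theorem dom (W : MptW T Λ u₁ u₂ δ F L) {q : ℝ × ℝ} (hq : q ∈ mpatch Λ u₁ u₂ 0) {η : Fin N → ℝ} (hη : T.Cone η)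
    (hn : ‖η‖ < δ) : T.Dom (T.pl q + η) ∧ F (T.pl q + η) = T.f (T.pl q + η) := by
  have hc : T.Cone (T.pl q + η) := (W.ok.cone_pl_add q η).2 hη
  have hv : (T.pl q + η) T.v = q.2 + η T.v := by rw [Pi.add_apply, W.ok.pl_v]
  have h1 : |η T.v| < δ := lt_of_le_of_lt (norm_le_pi_norm η T.v) hn
  rw [abs_lt] at h1
  unfold mpatch at hq
  simp only [mem_prod, mem_Ioo, add_zero, sub_zero] at hq
  have := W.δ_u₁
  have := W.δ_u₂
  have := W.δ_pos
  refine ⟨⟨hc, by rw [hv]; linarith [hq.2.1, h1.1], by rw [hv]; linarith [hq.2.2, h1.2]⟩, W.eq _ hc ?_ ?_⟩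
  · rw [hv]; linarith [hq.2.1, h1.1]
  · rw [hv]; linarith [hq.2.2, h1.2]

theorem norm_add_single_lt {η : Fin N → ℝ} {h c : ℝ} (α : Fin N) (hh : 0 ≤ h) (hn : ‖η‖ + h < c) :
    ‖η + Pi.single α h‖ < c :=
  lt_of_le_of_lt (norm_add_le _ _) (by rw [mptf_norm_single, abs_of_nonneg hh]; exact hn)

/-- increments on the patch -/
theorem D_bd (W : MptW T Λ u₁ u₂ δ F L) {q : ℝ × ℝ} (hq : q ∈ mpatch Λ u₁ u₂ 0) {η : Fin N → ℝ} {α : Fin N} {h : ℝ}
    (hh : 0 ≤ h) (hη : T.Cone η) (hη' : T.Cone (η + Pi.single α h)) (hn : ‖η‖ + h < δ) :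
    0 ≤ mptD F α h (T.pl q + η) ∧ mptD F α h (T.pl q + η) ≤ T.d α * h := by
  obtain ⟨d1, e1⟩ := W.dom hq hη (by linarith)
  obtain ⟨d2, e2⟩ := W.dom hq hη' (norm_add_single_lt α hh hn)
  rw [← add_assoc] at d2 e2
  unfold mptD
  rw [e1, e2]
  exact W.ok.cap α _ h hh d1 d2

/-- difference quotients on the patch -/
theorem P_bd (W : MptW T Λ u₁ u₂ δ F L) {q : ℝ × ℝ} (hq : q ∈ mpatch Λ u₁ u₂ 0) {η : Fin N → ℝ} {α : Fin N} {h : ℝ}
    (hh : 0 < h) (hη : T.Cone η) (hη' : T.Cone (η + Pi.single α h)) (hn : ‖η‖ + h < δ) :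
    0 ≤ mptP T F α h η q ∧ mptP T F α h η q ≤ T.d α := by
  obtain ⟨a, b⟩ := W.D_bd hq hh.le hη hη' hn
  unfold mptP
  exact ⟨div_nonneg a hh.le, by rw [div_le_iff₀ hh]; exact b⟩

/-- the sign of the rectangle differences on the patch -/
theorem R_nonpos (W : MptW T Λ u₁ u₂ δ F L) {q : ℝ × ℝ} (hq : q ∈ mpatch Λ u₁ u₂ 0) {η : Fin N → ℝ} {α β : Fin N}
    (hαβ : α ≠ β) {h k : ℝ} (hh : 0 ≤ h) (hk : 0 ≤ k) (hn : ‖η‖ + h + k < δ) (c0 : T.Cone η)
    (c1 : T.Cone (η + Pi.single α h)) (c2 : T.Cone (η + Pi.single β k))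
    (c3 : T.Cone (η + Pi.single α h + Pi.single β k)) : mptR F α β (T.pl q + η) h k ≤ 0 := by
  obtain ⟨d0, e0⟩ := W.dom hq c0 (by linarith)
  obtain ⟨d1, e1⟩ := W.dom hq c1 (norm_add_single_lt α hh (by linarith))
  obtain ⟨d2, e2⟩ := W.dom hq c2 (norm_add_single_lt β hk (by linarith))
  obtain ⟨d3, e3⟩ := W.dom hq c3 (norm_add_single_lt β hk
    (by have := norm_add_single_lt (c := δ - k) α hh (η := η) (by linarith); linarith))
  rw [← add_assoc] at d1 e1 d2 e2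
  rw [← add_assoc, ← add_assoc] at d3 e3
  unfold mptR
  rw [e0, e1, e2, e3]
  exact W.ok.rect α β hαβ _ h k hh hk d0 d1 d2 d3

end MptW

theorem mpt_trdefs_eqns_cite : True := by
  have := @mptChi.eq_1
  have := @mptD.eq_1
  have := @mptR.eq_1
  have := @mptP.eq_1
  have := @MpIn.Mg.eq_1
  have := @MpIn.lf.eq_1
  trivial

end Claimed.Agent.R255
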