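import Claimed.Agent.R255.Plane.TrDefs

/-!
# Row 255, block (B), chapter A, step A2 FLUX      (architect helper7; cut and proof helper243; prefix `mptx_`)

`E η := ∫ χ(q) F(Π q + η) dq`.  Then `∫ χ |mptR F α β (Π q + η) h k| = - mptR E α β η h k` (sign of the rectangle differences on the patch), so A2 is a statement on the function `E` of the offset:
* `MptxE` : (rect) `mptR E ≤ 0` on rectangles with corners in the cone, (flux) `mptD E α h (η + s Π V_α) - mptD E α h η ≥ - C₀ s h` for ALL `η` (translation of `χ`), (lip) `E` Lipschitz.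
* COMBINATORIAL PART (`mptx_comb`), no integrals: strong induction on `min α β`;
  `mptx_local` : a ball of radius `7 r` around `η` in the cone, `h ≤ r`, `s Σ ≤ r`: split `s Π V_α = k 1_β + w⁺ + w⁻`; `w⁺` steps have a sign, `w⁻` steps are bounded by the induction hypothesis;
  `mptx_interior` : `n × n` subdivision;   `mptx_closed` : `η + κ 1_v`, `κ ↓ 0`.
* ANALYTIC PART : `mptx_E` (the three properties), exit `mptx_flux`.
-/

set_option autoImplicit false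

namespace Claimed.Agent.R255

open Filter Topology MeasureTheory Set
open scoped NNReal

variable {N : ℕ}

/-! ## partial vectors -/

/-- the coordinates of `w` in `S`, the others `0` -/
def mptxPart (S : Finset (Fin N)) (w : Fin N → ℝ) : Fin N → ℝ := fun γ => if γ ∈ S then w γ else 0

theorem mptxPart_empty (w : Fin N → ℝ) : mptxPart ∅ w = 0 := by
  ext γ; simp [mptxPart]

theorem mptxPart_insert {S : Finset (Fin N)} {γ : Fin N} (hγ : γ ∉ S) (w : Fin N → ℝ) :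
    mptxPart (insert γ S) w = mptxPart S w + Pi.single γ (w γ) := by
  ext β
  by_cases hβ : β = γ
  · subst hβ; simp [mptxPart, hγ]
  · simp [mptxPart, hβ]

theorem mptxPart_norm_le (S : Finset (Fin N)) (w : Fin N → ℝ) : ‖mptxPart S w‖ ≤ ‖w‖ := by
  refine (pi_norm_le_iff_of_nonneg (norm_nonneg _)).2 fun γ => ?_
  unfold mptxPart
  split_ifs
  · exact norm_le_pi_norm w γ
  · simp

/-- the path lemma: one coordinate at a time, no ordering -/
theorem mptx_path (D : (Fin N → ℝ) → ℝ) (w ζ₀ c : Fin N → ℝ) (S : Finset (Fin N))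
    (hstep : ∀ S' : Finset (Fin N), S' ⊆ S → ∀ γ ∈ S, γ ∉ S' →
      D (ζ₀ + mptxPart S' w + Pi.single γ (w γ)) - D (ζ₀ + mptxPart S' w) ≤ c γ) :
    D (ζ₀ + mptxPart S w) - D ζ₀ ≤ ∑ γ ∈ S, c γ := by
  induction S using Finset.induction_on with
  | empty => simp [mptxPart_empty]
  | insert γ S hγ ih =>
    have h1 := ih fun S' hS' γ' hγ' hn =>
      hstep S' (hS'.trans (Finset.subset_insert _ _)) γ' (Finset.mem_insert_of_mem hγ') hn
    have h2 := hstep S (Finset.subset_insert _ _) γ (Finset.mem_insert_self _ _) hγ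
    rw [mptxPart_insert hγ, Finset.sum_insert hγ, ← add_assoc]
    linarith

/-! ## the hypotheses on `E` -/

/-- the abstract hypotheses -/
structure MptxE (T : MpIn N) (δ : ℝ) (E : (Fin N → ℝ) → ℝ) (C₀ : ℝ) (K : ℝ≥0) : Prop where
  ok : T.Ok
  C₀_nonneg : 0 ≤ C₀
  rect : ∀ α β : Fin N, α ≠ β → ∀ (η : Fin N → ℝ) (h k : ℝ), 0 ≤ h → 0 ≤ k → ‖η‖ + h + k < δ → T.Cone η →
    T.Cone (η + Pi.single α h) → T.Cone (η + Pi.single β k) → T.Cone (η + Pi.single α h + Pi.single β k) →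
    mptR E α β η h k ≤ 0
  flux : ∀ (α : Fin N) (η : Fin N → ℝ) (h s : ℝ), 0 ≤ h → 0 ≤ s →
    - (C₀ * s * h) ≤ mptD E α h (η + s • (fun β => T.om α β)) - mptD E α h η
  lip : LipschitzWith K E

/-- the flux bound for the pair `(α, β)` with the constant `C` -/
def MptxB (T : MpIn N) (δ : ℝ) (E : (Fin N → ℝ) → ℝ) (C : ℝ) (α β : Fin N) : Prop :=
  ∀ (η : Fin N → ℝ) (h k : ℝ), 0 ≤ h → 0 ≤ k → ‖η‖ + h + k < δ → T.Cone η →
    T.Cone (η + Pi.single α h) → T.Cone (η + Pi.single β k) → T.Cone (η + Pi.single α h + Pi.single β k) →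
    - mptR E α β η h k ≤ C * h * k

/-- `∑_γ |om α γ|` -/
def mptxS (T : MpIn N) (α : Fin N) : ℝ := ∑ γ, |T.om α γ|

theorem mptx_defs_forced : True := by
  have := @mptxPart.eq_1
  have := @MptxB.eq_1
  have := @mptxS.eq_1
  trivial

theorem mptxS_nonneg (T : MpIn N) (α : Fin N) : 0 ≤ mptxS T α := Finset.sum_nonneg fun _ _ => abs_nonneg _

theorem mptx_om_le (T : MpIn N) (α γ : Fin N) : |T.om α γ| ≤ mptxS T α :=
  Finset.single_le_sum (f := fun γ => |T.om α γ|) (fun _ _ => abs_nonneg _) (Finset.mem_univ γ)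

theorem MptxB.symm {T : MpIn N} {δ : ℝ} {E : (Fin N → ℝ) → ℝ} {C : ℝ} {α β : Fin N} (h : MptxB T δ E C α β) :
    MptxB T δ E C β α := by
  intro η h' k' hh hk hn c0 c1 c2 c3
  rw [mptR_symm]
  have := h η k' h' hk hh (by linarith) c0 c2 c1 (by rwa [add_right_comm])
  linarith

theorem MptxB.mono {T : MpIn N} {δ : ℝ} {E : (Fin N → ℝ) → ℝ} {C C' : ℝ} {α β : Fin N} (h : MptxB T δ E C α β)
    (hC : C ≤ C') : MptxB T δ E C' α β := by
  intro η h' k' hh hk hn c0 c1 c2 c3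
  refine (h η h' k' hh hk hn c0 c1 c2 c3).trans ?_
  exact mul_le_mul_of_nonneg_right (mul_le_mul_of_nonneg_right hC hh) hk

/-! ## norms of sums of small vectors -/

theorem mptx_norm_le (z η : Fin N → ℝ) (c : ℝ) (h : ‖z - η‖ ≤ c) : ‖z‖ ≤ ‖η‖ + c := by
  have : z = η + (z - η) := by abel
  calc ‖z‖ = ‖η + (z - η)‖ := by rw [← this]
    _ ≤ ‖η‖ + ‖z - η‖ := norm_add_le _ _
    _ ≤ ‖η‖ + c := by linarith

theorem mptx_n1 (η a : Fin N → ℝ) (r : ℝ) (ha : ‖a‖ ≤ r) : ‖η + a - η‖ ≤ 1 * r := by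
  rw [add_sub_cancel_left]; linarith

theorem mptx_nS (z η a : Fin N → ℝ) (c r : ℝ) (hz : ‖z - η‖ ≤ c * r) (ha : ‖a‖ ≤ r) : ‖z + a - η‖ ≤ (c + 1) * r := by
  have : z + a - η = (z - η) + a := by abel
  rw [this]
  refine (norm_add_le _ _).trans ?_
  linarith

/-! ## the local estimate -/

theorem mptx_local {T : MpIn N} {δ : ℝ} {E : (Fin N → ℝ) → ℝ} {C₀ : ℝ} {K : ℝ≥0} (H : MptxE T δ E C₀ K)
    (α β : Fin N) (hαβ : α < β) (C' : ℝ) (IH : ∀ γ, γ < α → MptxB T δ E C' α γ)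
    (η : Fin N → ℝ) (r h s : ℝ) (hr : 0 < r) (hball : ∀ z, ‖z - η‖ ≤ 7 * r → T.Cone z) (hn : ‖η‖ + 7 * r < δ)
    (hh : 0 ≤ h) (hhr : h ≤ r) (hs : 0 ≤ s) (hsr : s * mptxS T α ≤ r) (hC' : 0 ≤ C') :
    - mptR E α β η h (s * T.om α β) ≤ (C₀ + C' * mptxS T α) * s * h := by
  obtain ⟨w, hw⟩ : ∃ w : Fin N → ℝ, w = s • (fun γ => T.om α γ) := ⟨_, rfl⟩
  have hwγ : ∀ γ, w γ = s * T.om α γ := fun γ => by rw [hw]; rfl
  have hwabs : ∀ γ, |w γ| ≤ r := fun γ => by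
    rw [hwγ, abs_mul, abs_of_nonneg hs]
    exact (mul_le_mul_of_nonneg_left (mptx_om_le T α γ) hs).trans hsr
  have hwn : ‖w‖ ≤ r := (pi_norm_le_iff_of_nonneg hr.le).2 fun γ => by rw [Real.norm_eq_abs]; exact hwabs γ
  have hpart : ∀ S, ‖mptxPart S w‖ ≤ r := fun S => (mptxPart_norm_le S w).trans hwn
  have hsing : ∀ γ, ‖(Pi.single γ (w γ) : Fin N → ℝ)‖ ≤ r := fun γ => by rw [mptf_norm_single]; exact hwabs γ
  have hsα : ‖(Pi.single α h : Fin N → ℝ)‖ ≤ r := by rw [mptf_norm_single, abs_of_nonneg hh]; exact hhr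
  have cone : ∀ (z : Fin N → ℝ) (c : ℝ), ‖z - η‖ ≤ c * r → c ≤ 7 → T.Cone z := fun z c hz hc =>
    hball z (hz.trans (mul_le_mul_of_nonneg_right hc hr.le))
  obtain ⟨Sp, hSp⟩ : ∃ Sp : Finset (Fin N), Sp = Finset.univ.filter fun γ => α < γ ∧ γ ≠ β := ⟨_, rfl⟩
  obtain ⟨Sm, hSm⟩ : ∃ Sm : Finset (Fin N), Sm = Finset.univ.filter fun γ => γ < α := ⟨_, rfl⟩
  have hdec : η + w = η + Pi.single β (w β) + mptxPart Sp w + mptxPart Sm w := by
    ext γ
    simp only [Pi.add_apply, mptxPart, hSp, hSm, Finset.mem_filter, Finset.mem_univ, true_and, Pi.single_apply]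
    rcases lt_trichotomy γ α with h1 | h1 | h1
    · have h2 : γ ≠ β := (h1.trans hαβ).ne
      have h3 : ¬ α < γ := h1.le.not_gt
      simp [h1, h2, h3]
    · subst h1
      have h2 : γ ≠ β := hαβ.ne
      simp [h2, hwγ, T.om_self]
    · have h3 : ¬ γ < α := h1.le.not_gt
      by_cases h2 : γ = β
      · subst h2
        simp [h3]
      · simp [h1, h2, h3]
  -- the plus steps
  have b1 := mptx_n1 η (Pi.single β (w β)) r (hsing β)
  have plus : mptD E α h (η + Pi.single β (w β) + mptxPart Sp w) - mptD E α h (η + Pi.single β (w β))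
      ≤ ∑ γ ∈ Sp, (fun _ => (0 : ℝ)) γ := by
    refine mptx_path (mptD E α h) w (η + Pi.single β (w β)) (fun _ => 0) Sp fun S' _ γ hγ _ => ?_
    rw [hSp, Finset.mem_filter] at hγ
    have hγα : α < γ := hγ.2.1
    have hw0 : 0 ≤ w γ := by rw [hwγ]; exact mul_nonneg hs (H.ok.om_pos α γ hγα).le
    have b2 := mptx_nS _ η (mptxPart S' w) _ r b1 (hpart S')
    rw [← mptR_eq_D]
    have b3 := mptx_nS _ η (Pi.single α h) _ r b2 hsα
    have b3' := mptx_nS _ η (Pi.single γ (w γ)) _ r b2 (hsing γ)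
    have b4 := mptx_nS _ η (Pi.single γ (w γ)) _ r b3 (hsing γ)
    refine H.rect α γ hγα.ne _ h (w γ) hh hw0 ?_ (cone _ _ b2 (by norm_num)) (cone _ _ b3 (by norm_num))
      (cone _ _ b3' (by norm_num)) (cone _ _ b4 (by norm_num))
    have := mptx_norm_le _ η _ b2
    have h5 := le_abs_self (w γ)
    have h6 := hwabs γ
    linarith
  -- the minus steps
  have b2 := mptx_nS _ η (mptxPart Sp w) _ r b1 (hpart Sp)
  have minus : mptD E α h (η + Pi.single β (w β) + mptxPart Sp w + mptxPart Sm w)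
      - mptD E α h (η + Pi.single β (w β) + mptxPart Sp w) ≤ ∑ γ ∈ Sm, (fun γ => C' * h * |w γ|) γ := by
    refine mptx_path (mptD E α h) w (η + Pi.single β (w β) + mptxPart Sp w) (fun γ => C' * h * |w γ|) Sm
      fun S' _ γ hγ _ => ?_
    rw [hSm, Finset.mem_filter] at hγ
    have hγα : γ < α := hγ.2
    have hw0 : w γ ≤ 0 := by
      rw [hwγ, T.om_symm γ α]
      have := mul_nonneg hs (H.ok.om_pos γ α hγα).le
      linarith
    have b3 := mptx_nS _ η (mptxPart S' w) _ r b2 (hpart S')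
    rw [← mptR_eq_D]
    have e1 : mptR E α γ (η + Pi.single β (w β) + mptxPart Sp w + mptxPart S' w) h (w γ) =
        - mptR E α γ (η + Pi.single β (w β) + mptxPart Sp w + mptxPart S' w + Pi.single γ (w γ)) h (- w γ) := by
      have := mptR_neg (F := E) α γ (η + Pi.single β (w β) + mptxPart Sp w + mptxPart S' w) h (- w γ)
      rwa [neg_neg] at this
    rw [e1, abs_of_nonpos hw0]
    have hsn : ‖(Pi.single γ (- w γ) : Fin N → ℝ)‖ ≤ r := by
      rw [mptf_norm_single, abs_neg]; exact hwabs γ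
    have b4 := mptx_nS _ η (Pi.single γ (w γ)) _ r b3 (hsing γ)
    have b5 := mptx_nS _ η (Pi.single α h) _ r b4 hsα
    have b5' := mptx_nS _ η (Pi.single γ (- w γ)) _ r b4 hsn
    have b6 := mptx_nS _ η (Pi.single γ (- w γ)) _ r b5 hsn
    refine IH γ hγα _ h (- w γ) hh (by linarith) ?_ (cone _ _ b4 (by norm_num)) (cone _ _ b5 (by norm_num))
      (cone _ _ b5' (by norm_num)) (cone _ _ b6 (by norm_num))
    have := mptx_norm_le _ η _ b4
    have h6 := hwabs γ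
    rw [abs_of_nonpos hw0] at h6
    linarith
  have hsum : ∑ γ ∈ Sm, (fun γ => C' * h * |w γ|) γ ≤ C' * h * (s * mptxS T α) := by
    rw [← Finset.mul_sum]
    refine mul_le_mul_of_nonneg_left ?_ (mul_nonneg hC' hh)
    calc ∑ γ ∈ Sm, |w γ| ≤ ∑ γ, |w γ| :=
          Finset.sum_le_sum_of_subset_of_nonneg (Finset.subset_univ _) fun _ _ _ => abs_nonneg _
      _ = s * mptxS T α := by
          unfold mptxS
          rw [Finset.mul_sum]
          exact Finset.sum_congr rfl fun γ _ => by rw [hwγ, abs_mul, abs_of_nonneg hs]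
  have hfl := H.flux α η h s hh hs
  rw [← hw, hdec] at hfl
  rw [Finset.sum_const_zero] at plus
  rw [mptR_eq_D, ← hwγ β]
  nlinarith [hfl, plus, minus, hsum]

/-! ## subdivision -/

theorem mptx_sub_right (E : (Fin N → ℝ) → ℝ) (α β : Fin N) (z : Fin N → ℝ) (h k₀ C : ℝ) (n : ℕ)
    (hstep : ∀ j : ℕ, j < n → - mptR E α β (z + Pi.single β ((j : ℝ) * k₀)) h k₀ ≤ C * h * k₀) :
    - mptR E α β z h ((n : ℝ) * k₀) ≤ C * h * ((n : ℝ) * k₀) := by
  induction n with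
  | zero => simp [mptR_zero_right]
  | succ n ih =>
    have h1 := ih fun j hj => hstep j (Nat.lt_succ_of_lt hj)
    have h2 := hstep n (Nat.lt_succ_self n)
    have e : ((n + 1 : ℕ) : ℝ) * k₀ = (n : ℝ) * k₀ + k₀ := by push_cast; ring
    rw [e, mptR_add]
    linarith

theorem mptx_sub_left (E : (Fin N → ℝ) → ℝ) (α β : Fin N) (z : Fin N → ℝ) (h₀ k C : ℝ) (n : ℕ)
    (hstep : ∀ i : ℕ, i < n → - mptR E α β (z + Pi.single α ((i : ℝ) * h₀)) h₀ k ≤ C * h₀ * k) :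
    - mptR E α β z ((n : ℝ) * h₀) k ≤ C * ((n : ℝ) * h₀) * k := by
  rw [mptR_symm]
  have := mptx_sub_right E β α z k h₀ C n fun i hi => by
    rw [mptR_symm]
    have := hstep i hi
    linarith
  linarith

/-- the margin on a rectangle is at least the margin at its corners -/
theorem mptx_mg_rect (T : MpIn N) (μ : ℝ) (η : Fin N → ℝ) (α β : Fin N) (h k a b : ℝ) (ha : 0 ≤ a) (hah : a ≤ h)
    (hb : 0 ≤ b) (hbk : b ≤ k) (m0 : T.Mg μ η) (m1 : T.Mg μ (η + Pi.single α h)) (m2 : T.Mg μ (η + Pi.single β k))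
    (m3 : T.Mg μ (η + Pi.single α h + Pi.single β k)) : T.Mg μ (η + Pi.single α a + Pi.single β b) := by
  rw [MpIn.mg_iff] at *
  intro l
  have n0 := m0 l
  have n1 := m1 l
  have n2 := m2 l
  have n3 := m3 l
  rw [MpIn.lf_add, MpIn.lf_single] at n1 n2
  rw [MpIn.lf_add, MpIn.lf_add, MpIn.lf_single, MpIn.lf_single] at n3 ⊢
  rcases le_total 0 (T.lam l α) with s1 | s1 <;> rcases le_total 0 (T.lam l β) with s2 | s2
  · have := mul_le_mul_of_nonneg_left hah s1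
    have := mul_le_mul_of_nonneg_left hbk s2
    linarith
  · have := mul_le_mul_of_nonneg_left hah s1
    have := mul_nonpos_of_nonpos_of_nonneg s2 hb
    linarith
  · have := mul_nonpos_of_nonpos_of_nonneg s1 ha
    have := mul_le_mul_of_nonneg_left hbk s2
    linarith
  · have := mul_nonpos_of_nonpos_of_nonneg s1 ha
    have := mul_nonpos_of_nonpos_of_nonneg s2 hb
    linarith

/-! ## rectangles with interior corners -/

theorem mptx_interior {T : MpIn N} {δ : ℝ} {E : (Fin N → ℝ) → ℝ} {C₀ : ℝ} {K : ℝ≥0} (H : MptxE T δ E C₀ K)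
    (α β : Fin N) (hαβ : α < β) (C' : ℝ) (IH : ∀ γ, γ < α → MptxB T δ E C' α γ) (hC' : 0 ≤ C')
    (μ : ℝ) (hμ : 0 < μ) (η : Fin N → ℝ) (h k : ℝ) (hh : 0 ≤ h) (hk : 0 ≤ k) (hn : ‖η‖ + h + k < δ)
    (m0 : T.Mg μ η) (m1 : T.Mg μ (η + Pi.single α h)) (m2 : T.Mg μ (η + Pi.single β k))
    (m3 : T.Mg μ (η + Pi.single α h + Pi.single β k)) :
    - mptR E α β η h k ≤ (C₀ + C' * mptxS T α) / T.om α β * h * k := by
  obtain ⟨Λ₁, hΛ0, hΛ⟩ := T.exists_lfBound
  have hom : 0 < T.om α β := H.ok.om_pos α β hαβ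
  have hS := mptxS_nonneg T α
  obtain ⟨r, hr⟩ : ∃ r : ℝ, r = min (μ / (7 * (Λ₁ + 1))) ((δ - (‖η‖ + h + k)) / 8) := ⟨_, rfl⟩
  have hr0 : 0 < r := by
    rw [hr]
    exact lt_min (by positivity) (by linarith)
  have hr1 : 7 * r * Λ₁ ≤ μ := by
    have h1 : r ≤ μ / (7 * (Λ₁ + 1)) := by rw [hr]; exact min_le_left _ _
    rw [le_div_iff₀ (by positivity)] at h1
    nlinarith
  have hr2 : ‖η‖ + h + k + 8 * r ≤ δ := by
    have h1 : r ≤ (δ - (‖η‖ + h + k)) / 8 := by rw [hr]; exact min_le_right _ _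
    linarith
  obtain ⟨n, hn1, hn2⟩ : ∃ n : ℕ, h / r ≤ n ∧ k * mptxS T α / (T.om α β * r) ≤ n := by
    obtain ⟨n1, h1⟩ := exists_nat_ge (h / r)
    obtain ⟨n2, h2⟩ := exists_nat_ge (k * mptxS T α / (T.om α β * r))
    refine ⟨max n1 n2, h1.trans ?_, h2.trans ?_⟩
    · exact_mod_cast le_max_left n1 n2
    · exact_mod_cast le_max_right n1 n2
  obtain ⟨m, hm⟩ : ∃ m : ℕ, m = n + 1 := ⟨_, rfl⟩
  have hm0 : (0 : ℝ) < m := by rw [hm]; positivity
  have hmn : (n : ℝ) ≤ m := by rw [hm]; push_cast; linarith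
  obtain ⟨h₀, hh₀⟩ : ∃ h₀ : ℝ, h₀ = h / m := ⟨_, rfl⟩
  obtain ⟨k₀, hk₀⟩ : ∃ k₀ : ℝ, k₀ = k / m := ⟨_, rfl⟩
  have eh : (m : ℝ) * h₀ = h := by rw [hh₀]; field_simp
  have ek : (m : ℝ) * k₀ = k := by rw [hk₀]; field_simp
  have hh₀0 : 0 ≤ h₀ := by rw [hh₀]; positivity
  have hk₀0 : 0 ≤ k₀ := by rw [hk₀]; positivity
  have hh₀r : h₀ ≤ r := by
    rw [hh₀, div_le_iff₀ hm0]
    rw [div_le_iff₀ hr0] at hn1
    nlinarith
  have hs₀r : k₀ / T.om α β * mptxS T α ≤ r := by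
    rw [div_le_iff₀ (by positivity)] at hn2
    have h1 : k * mptxS T α ≤ m * (T.om α β * r) := hn2.trans (mul_le_mul_of_nonneg_right hmn (by positivity))
    rw [hk₀, div_div, div_mul_eq_mul_div, div_le_iff₀ (by positivity)]
    linarith
  rw [← eh, ← ek]
  refine mptx_sub_left E α β η h₀ ((m : ℝ) * k₀) _ m fun i hi => ?_
  refine mptx_sub_right E α β _ h₀ k₀ _ m fun j hj => ?_
  have hi' : (i : ℝ) * h₀ ≤ h := by
    rw [← eh]
    exact mul_le_mul_of_nonneg_right (by exact_mod_cast hi.le) hh₀0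
  have hj' : (j : ℝ) * k₀ ≤ k := by
    rw [← ek]
    exact mul_le_mul_of_nonneg_right (by exact_mod_cast hj.le) hk₀0
  have hi0 : 0 ≤ (i : ℝ) * h₀ := by positivity
  have hj0 : 0 ≤ (j : ℝ) * k₀ := by positivity
  have hmg := mptx_mg_rect T μ η α β h k _ _ hi0 hi' hj0 hj' m0 m1 m2 m3
  have hnorm : ‖η + Pi.single α ((i : ℝ) * h₀) + Pi.single β ((j : ℝ) * k₀)‖ ≤ ‖η‖ + h + k := by
    refine (norm_add_le _ _).trans (add_le_add ((norm_add_le _ _).trans (add_le_add le_rfl ?_)) ?_)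
    · rw [mptf_norm_single, abs_of_nonneg hi0]; exact hi'
    · rw [mptf_norm_single, abs_of_nonneg hj0]; exact hj'
  have hloc := mptx_local H α β hαβ C' IH (η + Pi.single α ((i : ℝ) * h₀) + Pi.single β ((j : ℝ) * k₀)) r h₀
    (k₀ / T.om α β) hr0 (fun z hz => by
      rw [MpIn.cone_iff]
      intro l
      have e : z = (η + Pi.single α ((i : ℝ) * h₀) + Pi.single β ((j : ℝ) * k₀)) +
          (z - (η + Pi.single α ((i : ℝ) * h₀) + Pi.single β ((j : ℝ) * k₀))) := by abel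
      rw [e, MpIn.lf_add]
      have h1 := (MpIn.mg_iff μ _).1 hmg l
      have h2 := (le_abs_self _).trans (hΛ l (z - (η + Pi.single α ((i : ℝ) * h₀) + Pi.single β ((j : ℝ) * k₀))))
      have h3 := mul_le_mul_of_nonneg_left hz hΛ0
      linarith) (by linarith) hh₀0 hh₀r (by positivity) hs₀r hC'
  have e1 : k₀ / T.om α β * T.om α β = k₀ := by field_simp
  rw [e1] at hloc
  refine hloc.trans (le_of_eq ?_)
  field_simp

/-! ## rectangles with corners in the closed cone -/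

theorem mptx_closed {T : MpIn N} {δ : ℝ} {E : (Fin N → ℝ) → ℝ} {C₀ : ℝ} {K : ℝ≥0} (H : MptxE T δ E C₀ K)
    (α β : Fin N) (hαβ : α < β) (C' : ℝ) (IH : ∀ γ, γ < α → MptxB T δ E C' α γ) (hC' : 0 ≤ C') :
    MptxB T δ E ((C₀ + C' * mptxS T α) / T.om α β) α β := by
  intro η h k hh hk hn c0 c1 c2 c3
  obtain ⟨m₀, hm₀, hm⟩ := H.ok.exists_m0
  refine le_of_forall_pos_le_add fun ε hε => ?_
  obtain ⟨κ, hκ⟩ : ∃ κ : ℝ, κ = min ((δ - (‖η‖ + h + k)) / 2) (ε / (4 * K + 1)) := ⟨_, rfl⟩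
  have hκ0 : 0 < κ := by
    rw [hκ]
    exact lt_min (by linarith) (by positivity)
  have hκ1 : κ ≤ (δ - (‖η‖ + h + k)) / 2 := by rw [hκ]; exact min_le_left _ _
  have hκ2 : 4 * K * κ ≤ ε := by
    have h1 : κ ≤ ε / (4 * K + 1) := by rw [hκ]; exact min_le_right _ _
    rw [le_div_iff₀ (by positivity)] at h1
    nlinarith
  have shift : ∀ ζ : Fin N → ℝ, T.Cone ζ → T.Mg (κ * m₀) (ζ + Pi.single T.v κ) := by
    intro ζ hζ
    rw [MpIn.mg_iff]
    intro l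
    rw [MpIn.lf_add, MpIn.lf_single]
    have h1 := (MpIn.cone_iff ζ).1 hζ l
    have h2 := mul_le_mul_of_nonneg_right (hm l) hκ0.le
    linarith
  have hnk : ‖(Pi.single T.v κ : Fin N → ℝ)‖ = κ := by rw [mptf_norm_single, abs_of_pos hκ0]
  have hint := mptx_interior H α β hαβ C' IH hC' (κ * m₀) (by positivity) (η + Pi.single T.v κ) h k hh hk
    (by have := norm_add_le η (Pi.single T.v κ : Fin N → ℝ); rw [hnk] at this; linarith)
    (shift _ c0) (by rw [add_right_comm]; exact shift _ c1) (by rw [add_right_comm]; exact shift _ c2)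
    (by
      have e : η + Pi.single T.v κ + Pi.single α h + Pi.single β k =
          η + Pi.single α h + Pi.single β k + Pi.single T.v κ := by abel
      rw [e]; exact shift _ c3)
  have hp := mptR_pert H.lip α β η (Pi.single T.v κ) h k
  rw [hnk] at hp
  have := (abs_le.1 hp).2
  linarith

/-! ## the induction -/

theorem mptx_comb {T : MpIn N} {δ : ℝ} {E : (Fin N → ℝ) → ℝ} {C₀ : ℝ} {K : ℝ≥0} (H : MptxE T δ E C₀ K) :
    ∃ C : ℝ, 0 ≤ C ∧ ∀ α β : Fin N, α ≠ β → MptxB T δ E C α β := by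
  have key : ∀ a : ℕ, ∃ C : ℝ, 0 ≤ C ∧ ∀ α β : Fin N, α < β → (α : ℕ) < a → MptxB T δ E C α β := by
    intro a
    induction a with
    | zero => exact ⟨0, le_rfl, fun α β _ h => absurd h (Nat.not_lt_zero _)⟩
    | succ a ih =>
      obtain ⟨C', hC', hB⟩ := ih
      have hterm : ∀ α β : Fin N, 0 ≤ (C₀ + C' * mptxS T α) / |T.om α β| := fun α β =>
        div_nonneg (add_nonneg H.C₀_nonneg (mul_nonneg hC' (mptxS_nonneg T α))) (abs_nonneg _)
      refine ⟨C' + ∑ α, ∑ β, (C₀ + C' * mptxS T α) / |T.om α β|,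
        add_nonneg hC' (Finset.sum_nonneg fun α _ => Finset.sum_nonneg fun β _ => hterm α β), ?_⟩
      intro α β hαβ hα
      have hsum0 : 0 ≤ ∑ α, ∑ β, (C₀ + C' * mptxS T α) / |T.om α β| :=
        Finset.sum_nonneg fun α _ => Finset.sum_nonneg fun β _ => hterm α β
      rcases Nat.lt_succ_iff_lt_or_eq.1 hα with h1 | h1
      · exact (hB α β hαβ h1).mono (by linarith)
      · have IH : ∀ γ, γ < α → MptxB T δ E C' α γ := fun γ hγ =>
          (hB γ α hγ (by rw [← h1]; exact hγ)).symm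
        refine (mptx_closed H α β hαβ C' IH hC').mono ?_
        have e : (C₀ + C' * mptxS T α) / T.om α β = (C₀ + C' * mptxS T α) / |T.om α β| := by
          rw [abs_of_pos (H.ok.om_pos α β hαβ)]
        rw [e]
        have s1 : (C₀ + C' * mptxS T α) / |T.om α β| ≤ ∑ β, (C₀ + C' * mptxS T α) / |T.om α β| :=
          Finset.single_le_sum (f := fun β => (C₀ + C' * mptxS T α) / |T.om α β|) (fun β _ => hterm α β)
            (Finset.mem_univ β)
        have s2 : ∑ β, (C₀ + C' * mptxS T α) / |T.om α β| ≤ ∑ α, ∑ β, (C₀ + C' * mptxS T α) / |T.om α β| :=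
          Finset.single_le_sum (f := fun α => ∑ β, (C₀ + C' * mptxS T α) / |T.om α β|)
            (fun α _ => Finset.sum_nonneg fun β _ => hterm α β) (Finset.mem_univ α)
        linarith
  obtain ⟨C, hC, hB⟩ := key N
  refine ⟨C, hC, fun α β hαβ => ?_⟩
  rcases lt_or_gt_of_ne hαβ with h | h
  · exact hB α β h α.isLt
  · exact (hB β α h β.isLt).symm

/-! ## the analytic part -/

/-- the averaged profile as a function of the offset -/
noncomputable def mptxE (T : MpIn N) (Λ u₁ u₂ : ℝ) (F : (Fin N → ℝ) → ℝ) (η : Fin N → ℝ) : ℝ :=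
  ∫ q, mptChi Λ u₁ u₂ q * F (T.pl q + η)

theorem mptxE_forced : True := by
  have := @mptxE.eq_1
  trivial

theorem mptx_F_cont (T : MpIn N) {F : (Fin N → ℝ) → ℝ} (hF : Continuous F) (η : Fin N → ℝ) :
    Continuous fun q => F (T.pl q + η) := by
  have := T.pl_cont
  fun_prop

theorem mptx_E_D (T : MpIn N) (Λ u₁ u₂ : ℝ) {F : (Fin N → ℝ) → ℝ} (hF : Continuous F) (α : Fin N) (h : ℝ)
    (η : Fin N → ℝ) :
    mptD (mptxE T Λ u₁ u₂ F) α h η = ∫ q, mptChi Λ u₁ u₂ q * mptD F α h (T.pl q + η) := by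
  unfold mptD mptxE
  rw [← integral_sub (mptChi_integrable Λ u₁ u₂ (mptx_F_cont T hF _)) (mptChi_integrable Λ u₁ u₂ (mptx_F_cont T hF _))]
  refine integral_congr_ae (Eventually.of_forall fun q => ?_)
  show _ = mptChi Λ u₁ u₂ q * (F (T.pl q + η + Pi.single α h) - F (T.pl q + η))
  rw [add_assoc]
  ring

theorem mptx_E_R (T : MpIn N) (Λ u₁ u₂ : ℝ) {F : (Fin N → ℝ) → ℝ} (hF : Continuous F) (α β : Fin N) (h k : ℝ)
    (η : Fin N → ℝ) :
    mptR (mptxE T Λ u₁ u₂ F) α β η h k = ∫ q, mptChi Λ u₁ u₂ q * mptR F α β (T.pl q + η) h k := by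
  rw [mptR_eq_D, mptx_E_D T Λ u₁ u₂ hF, mptx_E_D T Λ u₁ u₂ hF,
    ← integral_sub (mptChi_integrable Λ u₁ u₂ (mptD_cont hF T α h _)) (mptChi_integrable Λ u₁ u₂ (mptD_cont hF T α h _))]
  refine integral_congr_ae (Eventually.of_forall fun q => ?_)
  show _ = mptChi Λ u₁ u₂ q * mptR F α β (T.pl q + η) h k
  rw [mptR_eq_D, add_assoc]
  ring

/-- the integral of the absolute value -/
theorem mptx_abs {T : MpIn N} {Λ u₁ u₂ δ : ℝ} {F : (Fin N → ℝ) → ℝ} {L : ℝ≥0} (W : MptW T Λ u₁ u₂ δ F L)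
    (α β : Fin N) (hαβ : α ≠ β) (η : Fin N → ℝ) (h k : ℝ) (hh : 0 ≤ h) (hk : 0 ≤ k) (hn : ‖η‖ + h + k < δ)
    (c0 : T.Cone η) (c1 : T.Cone (η + Pi.single α h)) (c2 : T.Cone (η + Pi.single β k))
    (c3 : T.Cone (η + Pi.single α h + Pi.single β k)) :
    ∫ q, mptChi Λ u₁ u₂ q * |mptR F α β (T.pl q + η) h k| = - mptR (mptxE T Λ u₁ u₂ F) α β η h k := by
  rw [mptx_E_R T Λ u₁ u₂ W.cont, ← integral_neg]
  refine integral_congr_ae (Eventually.of_forall fun q => ?_)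
  show mptChi Λ u₁ u₂ q * |mptR F α β (T.pl q + η) h k| = - (mptChi Λ u₁ u₂ q * mptR F α β (T.pl q + η) h k)
  by_cases hq : q ∈ mpatch Λ u₁ u₂ 0
  · rw [abs_of_nonpos (W.R_nonpos hq hαβ hh hk hn c0 c1 c2 c3)]
    ring
  · rw [mptChi_eq_zero hq]
    ring

/-- the translation estimate -/
theorem mptx_transl (T : MpIn N) (Λ u₁ u₂ : ℝ) {F : (Fin N → ℝ) → ℝ} {L : ℝ≥0} (hF : LipschitzWith L F) (α : Fin N)
    (η : Fin N → ℝ) (h s : ℝ) (hh : 0 ≤ h) (hs : 0 ≤ s) :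
    |mptD (mptxE T Λ u₁ u₂ F) α h (η + s • (fun β => T.om α β)) - mptD (mptxE T Λ u₁ u₂ F) α h η| ≤
      2 * (∫ q, mptChi (Λ + 1) (u₁ - 1) (u₂ + 1) q) * L * ‖T.V α‖ * s * h := by
  obtain ⟨g, hg⟩ : ∃ g : ℝ × ℝ → ℝ, g = fun q => mptD F α h (T.pl q + η) := ⟨_, rfl⟩
  have hgc : Continuous g := by rw [hg]; exact mptD_cont hF.continuous T α h η
  have hgb : ∀ q, |g q| ≤ L * h := fun q => by
    rw [hg]
    have := mptD_abs_le hF α h (T.pl q + η)
    rwa [abs_of_nonneg hh] at this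
  obtain ⟨V, hV⟩ : ∃ V : ℝ × ℝ, V = s • T.V α := ⟨_, rfl⟩
  have hVn : ‖V‖ = s * ‖T.V α‖ := by rw [hV, norm_smul, Real.norm_eq_abs, abs_of_nonneg hs]
  have e1 : mptD (mptxE T Λ u₁ u₂ F) α h (η + s • (fun β => T.om α β)) = ∫ q, mptChi Λ u₁ u₂ (q - V) * g q := by
    rw [mptx_E_D T Λ u₁ u₂ hF.continuous, ← integral_add_right_eq_self (fun q => mptChi Λ u₁ u₂ (q - V) * g q) V]
    refine integral_congr_ae (Eventually.of_forall fun q => ?_)
    show mptChi Λ u₁ u₂ q * mptD F α h (T.pl q + (η + s • fun β => T.om α β)) = mptChi Λ u₁ u₂ (q + V - V) * g (q + V)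
    rw [add_sub_cancel_right, hg, hV]
    show _ = mptChi Λ u₁ u₂ q * mptD F α h (T.pl (q + s • T.V α) + η)
    rw [T.pl_add_V]
    congr 2
    abel
  have e2 : mptD (mptxE T Λ u₁ u₂ F) α h η = ∫ q, mptChi Λ u₁ u₂ q * g q := by
    rw [mptx_E_D T Λ u₁ u₂ hF.continuous, hg]
  have i2 : Integrable fun q => mptChi Λ u₁ u₂ q * g q := mptChi_integrable Λ u₁ u₂ hgc
  have i1 : Integrable fun q => mptChi Λ u₁ u₂ (q - V) * g q := by
    have h1 : Integrable fun q => mptChi Λ u₁ u₂ q * g (q + V) :=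
      mptChi_integrable Λ u₁ u₂ (hgc.comp (continuous_id.add continuous_const))
    have h2 := h1.comp_sub_right V
    refine h2.congr (Eventually.of_forall fun q => ?_)
    show mptChi Λ u₁ u₂ (q - V) * g (q - V + V) = _
    rw [sub_add_cancel]
  rw [e1, e2, ← integral_sub i1 i2]
  obtain ⟨J, hJ⟩ : ∃ J : ℝ × ℝ → ℝ, J = mptChi (Λ + 1) (u₁ - 1) (u₂ + 1) := ⟨_, rfl⟩
  have hJi : Integrable J := by
    rw [hJ]
    exact (mptChi_cont _ _ _).integrable_of_hasCompactSupport (mptChi_compact _ _ _)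
  have hJ0 : ∀ q, 0 ≤ J q := fun q => by rw [hJ]; exact mptChi_nonneg _ _ _ _
  have hJ1 : ∀ q ∈ mpatch Λ u₁ u₂ 0, 1 ≤ J q := fun q hq => by
    rw [hJ]
    refine mptChi_ge ?_
    unfold mpatch at hq ⊢
    simp only [mem_prod, mem_Ioo, add_zero, sub_zero] at hq ⊢
    exact ⟨⟨by linarith [hq.1.1], by linarith [hq.1.2]⟩, by linarith [hq.2.1], by linarith [hq.2.2]⟩
  have hbd : ∀ q, ‖mptChi Λ u₁ u₂ (q - V) * g q - mptChi Λ u₁ u₂ q * g q‖ ≤
      ‖V‖ * (L * h) * (J (q - V) + J q) := by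
    intro q
    rw [← sub_mul, norm_mul, Real.norm_eq_abs, Real.norm_eq_abs]
    have hLh : 0 ≤ (L : ℝ) * h := mul_nonneg L.coe_nonneg hh
    have h1 : |mptChi Λ u₁ u₂ (q - V) - mptChi Λ u₁ u₂ q| ≤ ‖V‖ * (J (q - V) + J q) := by
      by_cases c1 : q - V ∈ mpatch Λ u₁ u₂ 0
      · have := mptChi_abs_sub_le Λ u₁ u₂ (q - V) q
        rw [sub_sub_cancel_left, norm_neg] at this
        refine this.trans ?_
        have h3 : 1 ≤ J (q - V) + J q := by linarith [hJ1 _ c1, hJ0 q]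
        nlinarith [norm_nonneg V]
      · by_cases c2 : q ∈ mpatch Λ u₁ u₂ 0
        · have := mptChi_abs_sub_le Λ u₁ u₂ (q - V) q
          rw [sub_sub_cancel_left, norm_neg] at this
          refine this.trans ?_
          have h3 : 1 ≤ J (q - V) + J q := by linarith [hJ1 _ c2, hJ0 (q - V)]
          nlinarith [norm_nonneg V]
        · rw [mptChi_eq_zero c1, mptChi_eq_zero c2, sub_zero, abs_zero]
          exact mul_nonneg (norm_nonneg _) (add_nonneg (hJ0 _) (hJ0 _))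
    calc |mptChi Λ u₁ u₂ (q - V) - mptChi Λ u₁ u₂ q| * |g q| ≤ (‖V‖ * (J (q - V) + J q)) * (L * h) :=
          mul_le_mul h1 (hgb q) (abs_nonneg _) (mul_nonneg (norm_nonneg _) (add_nonneg (hJ0 _) (hJ0 _)))
      _ = ‖V‖ * (L * h) * (J (q - V) + J q) := by ring
  have hJs : Integrable fun q => J (q - V) := hJi.comp_sub_right V
  have hbi : Integrable fun q => ‖V‖ * (L * h) * (J (q - V) + J q) := (hJs.add hJi).const_mul _
  have := norm_integral_le_of_norm_le hbi (Eventually.of_forall hbd)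
  rw [Real.norm_eq_abs] at this
  refine this.trans (le_of_eq ?_)
  rw [integral_const_mul, integral_add hJs hJi, integral_sub_right_eq_self J V, hVn, hJ]
  ring

theorem mptx_E_lip (T : MpIn N) (Λ u₁ u₂ : ℝ) {F : (Fin N → ℝ) → ℝ} {L : ℝ≥0} (hF : LipschitzWith L F) :
    LipschitzWith (L * Real.toNNReal (∫ q, mptChi Λ u₁ u₂ q)) (mptxE T Λ u₁ u₂ F) := by
  have hχi : Integrable (mptChi Λ u₁ u₂) :=
    (mptChi_cont _ _ _).integrable_of_hasCompactSupport (mptChi_compact _ _ _)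
  have hχ0 : 0 ≤ ∫ q, mptChi Λ u₁ u₂ q := integral_nonneg fun q => mptChi_nonneg _ _ _ _
  refine LipschitzWith.of_dist_le_mul fun η η' => ?_
  rw [Real.dist_eq, dist_eq_norm, NNReal.coe_mul, Real.coe_toNNReal _ hχ0]
  unfold mptxE
  rw [← integral_sub (mptChi_integrable Λ u₁ u₂ (mptx_F_cont T hF.continuous _))
    (mptChi_integrable Λ u₁ u₂ (mptx_F_cont T hF.continuous _))]
  have hbd : ∀ q, ‖mptChi Λ u₁ u₂ q * F (T.pl q + η) - mptChi Λ u₁ u₂ q * F (T.pl q + η')‖ ≤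
      (L * ‖η - η'‖) * mptChi Λ u₁ u₂ q := by
    intro q
    rw [← mul_sub, norm_mul, Real.norm_eq_abs, Real.norm_eq_abs, abs_of_nonneg (mptChi_nonneg _ _ _ _)]
    have := hF.dist_le_mul (T.pl q + η) (T.pl q + η')
    rw [Real.dist_eq, dist_eq_norm, add_sub_add_left_eq_sub] at this
    have h2 := mul_le_mul_of_nonneg_left this (mptChi_nonneg Λ u₁ u₂ q)
    linarith
  have := norm_integral_le_of_norm_le (hχi.const_mul (L * ‖η - η'‖)) (Eventually.of_forall hbd)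
  rw [Real.norm_eq_abs, integral_const_mul] at this
  refine this.trans (le_of_eq ?_)
  ring

/-- the three properties of the averaged profile -/
theorem mptx_E {T : MpIn N} {Λ u₁ u₂ δ : ℝ} {F : (Fin N → ℝ) → ℝ} {L : ℝ≥0} (W : MptW T Λ u₁ u₂ δ F L) :
    ∃ (C₀ : ℝ) (K : ℝ≥0), MptxE T δ (mptxE T Λ u₁ u₂ F) C₀ K := by
  have hJ0 : 0 ≤ ∫ q, mptChi (Λ + 1) (u₁ - 1) (u₂ + 1) q := integral_nonneg fun q => mptChi_nonneg _ _ _ _
  have hVs : 0 ≤ ∑ α, ‖T.V α‖ := Finset.sum_nonneg fun _ _ => norm_nonneg _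
  refine ⟨2 * (∫ q, mptChi (Λ + 1) (u₁ - 1) (u₂ + 1) q) * L * ∑ α, ‖T.V α‖, _, W.ok, by positivity, ?_, ?_,
    mptx_E_lip T Λ u₁ u₂ W.lip⟩
  · intro α β hαβ η h k hh hk hn c0 c1 c2 c3
    have h1 := mptx_abs W α β hαβ η h k hh hk hn c0 c1 c2 c3
    have h2 : 0 ≤ ∫ q, mptChi Λ u₁ u₂ q * |mptR F α β (T.pl q + η) h k| :=
      integral_nonneg fun q => mul_nonneg (mptChi_nonneg _ _ _ _) (abs_nonneg _)
    linarith
  · intro α η h s hh hs
    have h1 := (abs_le.1 (mptx_transl T Λ u₁ u₂ W.lip α η h s hh hs)).1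
    have h2 : ‖T.V α‖ ≤ ∑ α, ‖T.V α‖ :=
      Finset.single_le_sum (f := fun α => ‖T.V α‖) (fun _ _ => norm_nonneg _) (Finset.mem_univ α)
    have h3 : 2 * (∫ q, mptChi (Λ + 1) (u₁ - 1) (u₂ + 1) q) * L * ‖T.V α‖ * s * h ≤
        2 * (∫ q, mptChi (Λ + 1) (u₁ - 1) (u₂ + 1) q) * L * (∑ α, ‖T.V α‖) * s * h := by
      refine mul_le_mul_of_nonneg_right (mul_le_mul_of_nonneg_right (mul_le_mul_of_nonneg_left h2 ?_) hs) hh
      positivity
    linarith

/-- **A2 FLUX** -/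
theorem mptx_flux {T : MpIn N} {Λ u₁ u₂ δ : ℝ} {F : (Fin N → ℝ) → ℝ} {L : ℝ≥0} (W : MptW T Λ u₁ u₂ δ F L) :
    ∃ C : ℝ, 0 ≤ C ∧ ∀ α β : Fin N, α ≠ β → ∀ (η : Fin N → ℝ) (h k : ℝ), 0 ≤ h → 0 ≤ k → ‖η‖ + h + k < δ →
      T.Cone η → T.Cone (η + Pi.single α h) → T.Cone (η + Pi.single β k) →
      T.Cone (η + Pi.single α h + Pi.single β k) →
      ∫ q, mptChi Λ u₁ u₂ q * |mptR F α β (T.pl q + η) h k| ≤ C * h * k := by
  obtain ⟨C₀, K, H⟩ := mptx_E W
  obtain ⟨C, hC, hB⟩ := mptx_comb H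
  refine ⟨C, hC, fun α β hαβ η h k hh hk hn c0 c1 c2 c3 => ?_⟩
  rw [mptx_abs W α β hαβ η h k hh hk hn c0 c1 c2 c3]
  exact hB α β hαβ η h k hh hk hn c0 c1 c2 c3

end Claimed.Agent.R255
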