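-- KEEP
import Claimed.Agent.R255.Plane.TrDefs

/-!
# Row 255, block (B), chapter A: A3 STAIR from A2 FLUX      (helper142; prefix `mpts_`)

EXIT: `mpts_stair` : the closed-cone flux bound `MptsFlux` implies the staircase bound (statement of `mptf_stair`).
1. `mpts_step`  : one signed coordinate step `k 1_γ` changes `δ^θ_α F` by `± R_{αγ}`: cost `C θ |k|`.
2. `mpts_multi` : all coordinates `γ ≠ α` once (Finset induction), inside a box of radius `ρ` contained in the cone.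
3. `mpts_seg`   : `n` such steps along the segment.
4. `mpts_stair` : push both offsets inside by `κ ζ_α` (`ζ_α` interior, `α`-component `0`; pointwise cost `2 L κ ‖ζ‖`), `κ ↓ 0` at fixed `θ`.
-/

set_option autoImplicit false

namespace Claimed.Agent.R255

open Filter Topology MeasureTheory Set
open scoped NNReal

variable {N : ℕ}

/-- weighted `L¹` distance -/
noncomputable def mptsI (Λ u₁ u₂ : ℝ) (a b : ℝ × ℝ → ℝ) : ℝ := ∫ q, mptChi Λ u₁ u₂ q * |a q - b q|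

/-- the closed-cone flux bound with constant `C` -/
def MptsFlux (T : MpIn N) (Λ u₁ u₂ δ : ℝ) (F : (Fin N → ℝ) → ℝ) (C : ℝ) : Prop :=
  ∀ α β : Fin N, α ≠ β → ∀ (η : Fin N → ℝ) (h k : ℝ), 0 ≤ h → 0 ≤ k → ‖η‖ + h + k < δ →
    T.Cone η → T.Cone (η + Pi.single α h) → T.Cone (η + Pi.single β k) →
    T.Cone (η + Pi.single α h + Pi.single β k) →
    ∫ q, mptChi Λ u₁ u₂ q * |mptR F α β (T.pl q + η) h k| ≤ C * h * k

theorem mpts_int (Λ u₁ u₂ : ℝ) {a b : ℝ × ℝ → ℝ} (ha : Continuous a) (hb : Continuous b) :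
    Integrable (fun q => mptChi Λ u₁ u₂ q * |a q - b q|) :=
  mptChi_integrable Λ u₁ u₂ (ha.sub hb).abs

theorem mpts_tri (Λ u₁ u₂ : ℝ) {a b c : ℝ × ℝ → ℝ} (ha : Continuous a) (hb : Continuous b) (hc : Continuous c) :
    mptsI Λ u₁ u₂ a c ≤ mptsI Λ u₁ u₂ a b + mptsI Λ u₁ u₂ b c := by
  unfold mptsI
  rw [← integral_add (mpts_int Λ u₁ u₂ ha hb) (mpts_int Λ u₁ u₂ hb hc)]
  refine integral_mono (mpts_int Λ u₁ u₂ ha hc) ((mpts_int Λ u₁ u₂ ha hb).add (mpts_int Λ u₁ u₂ hb hc)) fun q => ?_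
  have h1 : |a q - c q| ≤ |a q - b q| + |b q - c q| := abs_sub_le _ _ _
  have h2 := mptChi_nonneg Λ u₁ u₂ q
  simp only []
  nlinarith

theorem mpts_self (Λ u₁ u₂ : ℝ) (a : ℝ × ℝ → ℝ) : mptsI Λ u₁ u₂ a a = 0 := by
  unfold mptsI; simp

theorem mpts_symm (Λ u₁ u₂ : ℝ) (a b : ℝ × ℝ → ℝ) : mptsI Λ u₁ u₂ a b = mptsI Λ u₁ u₂ b a := by
  unfold mptsI; simp only [abs_sub_comm]

theorem mpts_nonneg (Λ u₁ u₂ : ℝ) (a b : ℝ × ℝ → ℝ) : 0 ≤ mptsI Λ u₁ u₂ a b :=
  integral_nonneg fun q => mul_nonneg (mptChi_nonneg _ _ _ q) (abs_nonneg _)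

theorem mpts_le_pw (Λ u₁ u₂ : ℝ) {a b : ℝ × ℝ → ℝ} (ha : Continuous a) (hb : Continuous b) (ε : ℝ)
    (h : ∀ q, |a q - b q| ≤ ε) : mptsI Λ u₁ u₂ a b ≤ ε * ∫ q, mptChi Λ u₁ u₂ q := by
  unfold mptsI
  rw [← integral_const_mul]
  have hi : Integrable (fun q => ε * mptChi Λ u₁ u₂ q) := by
    have := mptChi_integrable Λ u₁ u₂ (g := fun _ => ε) continuous_const
    simpa [mul_comm] using this
  refine integral_mono (mpts_int Λ u₁ u₂ ha hb) hi fun q => ?_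
  have h2 := mptChi_nonneg Λ u₁ u₂ q
  simp only []
  nlinarith [h q]

section

variable {T : MpIn N} {Λ u₁ u₂ δ : ℝ} {F : (Fin N → ℝ) → ℝ} {L : ℝ≥0}

/-- one signed coordinate step -/
theorem mpts_step {C : ℝ} (hfl : MptsFlux T Λ u₁ u₂ δ F C) {α γ : Fin N} (hαγ : α ≠ γ) (η : Fin N → ℝ) (θ k : ℝ)
    (hθ : 0 ≤ θ) (hn : ‖η‖ + θ + 2 * |k| < δ) (c0 : T.Cone η) (c1 : T.Cone (η + Pi.single α θ))
    (c2 : T.Cone (η + Pi.single γ k)) (c3 : T.Cone (η + Pi.single γ k + Pi.single α θ)) :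
    mptsI Λ u₁ u₂ (fun q => mptD F α θ (T.pl q + (η + Pi.single γ k))) (fun q => mptD F α θ (T.pl q + η))
      ≤ C * θ * |k| := by
  rcases le_total 0 k with hk | hk
  · have := hfl α γ hαγ η θ k hθ hk (by rw [abs_of_nonneg hk] at hn; linarith) c0 c1 c2
      (by rwa [add_right_comm])
    rw [abs_of_nonneg hk]
    unfold mptsI
    refine le_trans (le_of_eq ?_) this
    refine integral_congr_ae (Eventually.of_forall fun q => ?_)
    simp only []
    rw [mptR_eq_D, add_assoc]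
  · have hk' : |k| = -k := abs_of_nonpos hk
    have e0 : η + Pi.single γ k + Pi.single γ (-k) = η := by
      rw [add_assoc, ← Pi.single_add, add_neg_cancel, Pi.single_zero, add_zero]
    have nn : ‖η + Pi.single γ k‖ ≤ ‖η‖ + |k| := by
      refine (norm_add_le _ _).trans ?_
      rw [mptf_norm_single]
    have := hfl α γ hαγ (η + Pi.single γ k) θ (-k) hθ (by linarith) (by rw [hk'] at hn nn; linarith) c2 c3
      (by rw [e0]; exact c0) (by rw [add_right_comm, e0]; exact c1)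
    rw [hk']
    unfold mptsI
    refine le_trans (le_of_eq ?_) this
    refine integral_congr_ae (Eventually.of_forall fun q => ?_)
    simp only []
    rw [mptR_eq_D, add_assoc (T.pl q), e0, abs_sub_comm]

/-- all coordinates once -/
theorem mpts_multi (hF : Continuous F) {C : ℝ} (hC : 0 ≤ C) (hfl : MptsFlux T Λ u₁ u₂ δ F C) (α : Fin N)
    (p d : Fin N → ℝ) (θ ρ : ℝ) (hθ : 0 ≤ θ) (hdα : d α = 0) (hd : ∀ γ, |d γ| ≤ ρ) (hn : ‖p‖ + θ + 3 * ρ < δ)
    (hcone : ∀ y : Fin N → ℝ, (∀ γ, |y γ| ≤ ρ) → T.Cone (p + y) ∧ T.Cone (p + y + Pi.single α θ)) :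
    mptsI Λ u₁ u₂ (fun q => mptD F α θ (T.pl q + (p + d))) (fun q => mptD F α θ (T.pl q + p))
      ≤ C * θ * ∑ γ, |d γ| := by
  classical
  have hρ : 0 ≤ ρ := (abs_nonneg _).trans (hd α)
  have key : ∀ s : Finset (Fin N),
      mptsI Λ u₁ u₂ (fun q => mptD F α θ (T.pl q + (p + fun γ => if γ ∈ s then d γ else 0)))
        (fun q => mptD F α θ (T.pl q + p)) ≤ C * θ * ∑ γ ∈ s, |d γ| := by
    intro s
    induction s using Finset.induction_on with
    | empty =>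
      have : (fun γ : Fin N => if γ ∈ (∅ : Finset (Fin N)) then d γ else 0) = 0 := by
        funext γ; simp
      rw [this, add_zero, mpts_self]; simp
    | insert β s hβ ih =>
      have hds' : (fun γ : Fin N => if γ ∈ insert β s then d γ else 0)
          = (fun γ => if γ ∈ s then d γ else 0) + Pi.single β (d β) := by
        funext γ
        by_cases hγ : γ = β
        · subst hγ; simp [hβ]
        · simp [hγ, Finset.mem_insert]
      rw [Finset.sum_insert hβ]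
      by_cases hβα : β = α
      · rw [hds', hβα, hdα, Pi.single_zero, add_zero, abs_zero, zero_add]; exact ih
      · obtain ⟨ds, hds⟩ : ∃ ds : Fin N → ℝ, ds = fun γ => if γ ∈ s then d γ else 0 := ⟨_, rfl⟩
        rw [hds', ← hds]
        rw [← hds] at ih
        have b1 : ∀ γ, |ds γ| ≤ ρ := by
          intro γ; rw [hds]
          by_cases hγ : γ ∈ s
          · simp only [hγ, if_true]; exact hd γ
          · simp only [hγ, if_false, abs_zero]; exact hρ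
        have b2 : ∀ γ, |(ds + Pi.single β (d β) : Fin N → ℝ) γ| ≤ ρ := by
          intro γ; rw [hds]
          by_cases hγ : γ = β
          · subst hγ; simp only [Pi.add_apply, hβ, if_false, Pi.single_eq_same, zero_add]; exact hd γ
          · simp only [Pi.add_apply, Pi.single_eq_of_ne hγ, add_zero]
            by_cases hγ' : γ ∈ s
            · simp only [hγ', if_true]; exact hd γ
            · simp only [hγ', if_false, abs_zero]; exact hρ
        have n1 : ‖p + ds‖ ≤ ‖p‖ + ρ := by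
          refine (norm_add_le _ _).trans (by
            gcongr
            exact (pi_norm_le_iff_of_nonneg hρ).2 fun γ => by rw [Real.norm_eq_abs]; exact b1 γ)
        have S := mpts_step hfl (Ne.symm hβα) (p + ds) θ (d β) hθ (by linarith [hd β]) (hcone ds b1).1 (hcone ds b1).2
          (by rw [add_assoc]; exact (hcone _ b2).1) (by rw [add_assoc p]; exact (hcone _ b2).2)
        have Tr := mpts_tri Λ u₁ u₂ (mptD_cont hF T α θ (p + ds + Pi.single β (d β))) (mptD_cont hF T α θ (p + ds))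
          (mptD_cont hF T α θ p)
        rw [add_assoc p] at S Tr
        have e : C * θ * (|d β| + ∑ γ ∈ s, |d γ|) = C * θ * |d β| + C * θ * ∑ γ ∈ s, |d γ| := by ring
        rw [e]
        linarith
  have := key Finset.univ
  simpa using this

/-- `n` steps along the segment -/
theorem mpts_seg (hF : Continuous F) {C : ℝ} (hC : 0 ≤ C) (hfl : MptsFlux T Λ u₁ u₂ δ F C) (α : Fin N)
    (η₀ d : Fin N → ℝ) (θ ρ : ℝ) (hθ : 0 ≤ θ) (hdα : d α = 0) (n : ℕ) (hn0 : 0 < n) (hdn : ∀ γ, |d γ| ≤ ρ * n)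
    (hnorm : ∀ τ : ℝ, 0 ≤ τ → τ ≤ 1 → ‖η₀ + τ • d‖ + θ + 3 * ρ < δ)
    (hcone : ∀ τ : ℝ, 0 ≤ τ → τ ≤ 1 → ∀ y : Fin N → ℝ, (∀ γ, |y γ| ≤ ρ) →
      T.Cone (η₀ + τ • d + y) ∧ T.Cone (η₀ + τ • d + y + Pi.single α θ)) :
    mptsI Λ u₁ u₂ (fun q => mptD F α θ (T.pl q + (η₀ + d))) (fun q => mptD F α θ (T.pl q + η₀))
      ≤ C * θ * ∑ γ, |d γ| := by
  have hnR : (0 : ℝ) < n := Nat.cast_pos.2 hn0
  have key : ∀ j : ℕ, j ≤ n →
      mptsI Λ u₁ u₂ (fun q => mptD F α θ (T.pl q + (η₀ + ((j : ℝ) / n) • d))) (fun q => mptD F α θ (T.pl q + η₀))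
        ≤ C * θ * (((j : ℝ) / n) * ∑ γ, |d γ|) := by
    intro j
    induction j with
    | zero =>
      intro _
      simp only [Nat.cast_zero, zero_div, zero_smul, add_zero, zero_mul, mul_zero]
      rw [mpts_self]
    | succ j ih =>
      intro hj
      have ih' := ih (by omega)
      have hτ0 : (0 : ℝ) ≤ (j : ℝ) / n := by positivity
      have hτ1 : (j : ℝ) / n ≤ 1 := by
        rw [div_le_one hnR]; exact_mod_cast (by omega : j ≤ n)
      have M := mpts_multi hF hC hfl α (η₀ + ((j : ℝ) / n) • d) ((1 / (n : ℝ)) • d) θ ρ hθ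
        (by simp [hdα]) (fun γ => by
          rw [Pi.smul_apply, smul_eq_mul, abs_mul, abs_of_pos (by positivity : (0 : ℝ) < 1 / n)]
          rw [one_div, inv_mul_le_iff₀ hnR]
          linarith [hdn γ, mul_comm ρ (n : ℝ)]) (hnorm _ hτ0 hτ1) (hcone _ hτ0 hτ1)
      have e1 : η₀ + ((j : ℝ) / n) • d + (1 / (n : ℝ)) • d = η₀ + (((j + 1 : ℕ) : ℝ) / n) • d := by
        rw [add_assoc, ← add_smul]
        congr 2
        push_cast; ring
      rw [e1] at M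
      have e2 : ∑ γ, |((1 / (n : ℝ)) • d) γ| = (1 / (n : ℝ)) * ∑ γ, |d γ| := by
        rw [Finset.mul_sum]
        refine Finset.sum_congr rfl fun γ _ => ?_
        rw [Pi.smul_apply, smul_eq_mul, abs_mul, abs_of_pos (by positivity : (0 : ℝ) < 1 / n)]
      rw [e2] at M
      have Tr := mpts_tri Λ u₁ u₂ (mptD_cont hF T α θ (η₀ + (((j + 1 : ℕ) : ℝ) / n) • d))
        (mptD_cont hF T α θ (η₀ + ((j : ℝ) / n) • d)) (mptD_cont hF T α θ η₀)
      have e3 : C * θ * ((((j + 1 : ℕ) : ℝ) / n) * ∑ γ, |d γ|)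
          = C * θ * ((1 / (n : ℝ)) * ∑ γ, |d γ|) + C * θ * (((j : ℝ) / n) * ∑ γ, |d γ|) := by
        push_cast; ring
      rw [e3]
      linarith
  have := key n le_rfl
  rwa [div_self hnR.ne', one_smul, one_mul] at this

/-- an interior direction with vanishing `α`-component -/
theorem mpts_zeta (hT : T.Ok) (α : Fin N) :
    ∃ (ζ : Fin N → ℝ) (m₀ : ℝ), 0 < m₀ ∧ ζ α = 0 ∧ ∀ l, T.lf l ζ ≤ - m₀ := by
  obtain ⟨m₀, hm₀, hm⟩ := hT.exists_m0
  by_cases hα : α = T.v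
  · refine ⟨Pi.single T.v 1 + (-1 : ℝ) • T.pl ((0 : ℝ), (1 : ℝ)), m₀, hm₀, ?_, fun l => ?_⟩
    · rw [hα, Pi.add_apply, Pi.smul_apply, hT.pl_v, Pi.single_eq_same]; simp
    · rw [MpIn.lf_add, MpIn.lf_smul, hT.lf_pl, MpIn.lf_single, mul_zero, add_zero, mul_one]; exact hm l
  · refine ⟨Pi.single T.v 1, m₀, hm₀, Pi.single_eq_of_ne hα _, fun l => ?_⟩
    rw [MpIn.lf_single, mul_one]; exact hm l

/-- the interior staircase: both offsets have margin `μ` -/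
theorem mpts_inner (hF : Continuous F) {C : ℝ} (hC : 0 ≤ C) (hfl : MptsFlux T Λ u₁ u₂ δ F C) (α : Fin N)
    (η η' : Fin N → ℝ) (θ μ : ℝ) (hθ : 0 ≤ θ) (hμ : 0 < μ) (hα : η α = η' α)
    (c0 : ∀ l, T.lf l η ≤ - μ) (c0' : ∀ l, T.lf l η' ≤ - μ)
    (c1 : ∀ l, T.lf l (η + Pi.single α θ) ≤ - μ) (c1' : ∀ l, T.lf l (η' + Pi.single α θ) ≤ - μ)
    (n0 : ‖η‖ + θ < δ) (n0' : ‖η'‖ + θ < δ) :
    mptsI Λ u₁ u₂ (fun q => mptD F α θ (T.pl q + η')) (fun q => mptD F α θ (T.pl q + η))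
      ≤ C * θ * ∑ γ, |η' γ - η γ| := by
  obtain ⟨Λ₁, hΛ₁, hb⟩ := T.exists_lfBound
  obtain ⟨d, hd⟩ : ∃ d : Fin N → ℝ, d = η' - η := ⟨_, rfl⟩
  obtain ⟨σ, hσ⟩ : ∃ σ : ℝ, σ = δ - θ - max ‖η‖ ‖η'‖ := ⟨_, rfl⟩
  have hσ0 : 0 < σ := by
    rw [hσ]
    rcases max_cases ‖η‖ ‖η'‖ with h | h <;> rw [h.1] <;> linarith
  obtain ⟨ρ, hρ⟩ : ∃ ρ : ℝ, ρ = min (μ / (Λ₁ + 1)) (σ / 4) := ⟨_, rfl⟩
  have hρ0 : 0 < ρ := by rw [hρ]; exact lt_min (by positivity) (by positivity)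
  have hρ1 : Λ₁ * ρ ≤ μ := by
    have : ρ ≤ μ / (Λ₁ + 1) := by rw [hρ]; exact min_le_left _ _
    rw [le_div_iff₀ (by linarith)] at this
    nlinarith
  have hρ2 : 3 * ρ < σ := by
    have : ρ ≤ σ / 4 := by rw [hρ]; exact min_le_right _ _
    linarith
  obtain ⟨n, hn⟩ := exists_nat_gt (‖d‖ / ρ)
  have hn' : ‖d‖ < ρ * n := by rw [div_lt_iff₀ hρ0] at hn; linarith
  have hn0 : 0 < n := by
    rcases Nat.eq_zero_or_pos n with h | h
    · subst h; simp at hn'; exact absurd hn' (not_lt.2 (norm_nonneg d))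
    · exact h
  have hseg : ∀ τ : ℝ, η + τ • d = (1 - τ) • η + τ • η' := by
    intro τ; rw [hd, smul_sub, sub_smul, one_smul]; abel
  have hy : ∀ y : Fin N → ℝ, (∀ γ, |y γ| ≤ ρ) → ∀ l, T.lf l y ≤ μ := by
    intro y hy l
    refine (le_abs_self _).trans ((hb l y).trans (le_trans ?_ hρ1))
    gcongr
    exact (pi_norm_le_iff_of_nonneg hρ0.le).2 fun γ => by rw [Real.norm_eq_abs]; exact hy γ
  have S := mpts_seg hF hC hfl α η d θ ρ hθ (by rw [hd, Pi.sub_apply, hα, sub_self]) n hn0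
    (fun γ => (norm_le_pi_norm d γ).trans hn'.le)
    (fun τ h0 h1 => by
      have : ‖η + τ • d‖ ≤ max ‖η‖ ‖η'‖ := by
        rw [hseg]
        refine (norm_add_le _ _).trans ?_
        rw [norm_smul, norm_smul, Real.norm_eq_abs, Real.norm_eq_abs, abs_of_nonneg h0,
          abs_of_nonneg (by linarith : (0 : ℝ) ≤ 1 - τ)]
        have a1 := le_max_left ‖η‖ ‖η'‖
        have a2 := le_max_right ‖η‖ ‖η'‖
        nlinarith
      rw [hσ] at hρ2
      linarith)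
    (fun τ h0 h1 y hyy => by
      constructor
      · rw [MpIn.cone_iff]; intro l
        rw [hseg, MpIn.lf_add, MpIn.lf_add, MpIn.lf_smul, MpIn.lf_smul]
        have a1 := c0 l
        have a2 := c0' l
        have a3 := hy y hyy l
        nlinarith
      · rw [MpIn.cone_iff]; intro l
        have e : η + τ • d + y + Pi.single α θ
            = (1 - τ) • (η + Pi.single α θ) + τ • (η' + Pi.single α θ) + y := by
          rw [hseg, smul_add, smul_add, sub_smul, sub_smul, one_smul, one_smul]; abel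
        rw [e, MpIn.lf_add, MpIn.lf_add, MpIn.lf_smul, MpIn.lf_smul]
        have a1 := c1 l
        have a2 := c1' l
        have a3 := hy y hyy l
        nlinarith)
  have e1 : η + d = η' := by rw [hd]; abel
  rw [e1] at S
  have e2 : ∀ γ, d γ = η' γ - η γ := fun γ => by rw [hd]; rfl
  simp only [e2] at S
  exact S

/-- closed cone: push both offsets inside -/
theorem mpts_core (W : MptW T Λ u₁ u₂ δ F L) {C : ℝ} (hC : 0 ≤ C) (hfl : MptsFlux T Λ u₁ u₂ δ F C) (α : Fin N)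
    (η η' : Fin N → ℝ) (θ : ℝ) (hθ : 0 ≤ θ) (hα : η α = η' α) (c0 : T.Cone η) (c0' : T.Cone η')
    (c1 : T.Cone (η + Pi.single α θ)) (c1' : T.Cone (η' + Pi.single α θ)) (n0 : ‖η‖ + θ < δ) (n0' : ‖η'‖ + θ < δ) :
    mptsI Λ u₁ u₂ (fun q => mptD F α θ (T.pl q + η')) (fun q => mptD F α θ (T.pl q + η))
      ≤ C * θ * ∑ γ, |η' γ - η γ| := by
  obtain ⟨ζ, m₀, hm₀, hζα, hζ⟩ := mpts_zeta W.ok α
  have hF := W.cont
  obtain ⟨Iχ, hIχ⟩ : ∃ Iχ : ℝ, Iχ = ∫ q, mptChi Λ u₁ u₂ q := ⟨_, rfl⟩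
  have hI0 : 0 ≤ Iχ := by rw [hIχ]; exact integral_nonneg fun q => mptChi_nonneg _ _ _ q
  refine le_of_forall_pos_le_add fun ε hε => ?_
  obtain ⟨σ, hσ⟩ : ∃ σ : ℝ, σ = min (δ - θ - ‖η‖) (δ - θ - ‖η'‖) := ⟨_, rfl⟩
  have hσ0 : 0 < σ := by rw [hσ]; exact lt_min (by linarith) (by linarith)
  obtain ⟨B, hB⟩ : ∃ B : ℝ, B = 4 * L * ‖ζ‖ * Iχ := ⟨_, rfl⟩
  have hB0 : 0 ≤ B := by rw [hB]; positivity
  obtain ⟨κ, hκ⟩ : ∃ κ : ℝ, κ = min (ε / (B + 1)) (σ / (2 * (‖ζ‖ + 1))) := ⟨_, rfl⟩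
  have hκ0 : 0 < κ := by rw [hκ]; exact lt_min (by positivity) (by positivity)
  have hκ1 : κ * B ≤ ε := by
    have : κ ≤ ε / (B + 1) := by rw [hκ]; exact min_le_left _ _
    rw [le_div_iff₀ (by linarith)] at this
    nlinarith
  have hκ2 : κ * ‖ζ‖ < σ := by
    have : κ ≤ σ / (2 * (‖ζ‖ + 1)) := by rw [hκ]; exact min_le_right _ _
    rw [le_div_iff₀ (by positivity)] at this
    nlinarith [norm_nonneg ζ]
  have nζ : ‖κ • ζ‖ = κ * ‖ζ‖ := by rw [norm_smul, Real.norm_eq_abs, abs_of_pos hκ0]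
  have s1 : σ ≤ δ - θ - ‖η‖ := by rw [hσ]; exact min_le_left _ _
  have s2 : σ ≤ δ - θ - ‖η'‖ := by rw [hσ]; exact min_le_right _ _
  have lz : ∀ l, T.lf l (κ • ζ) ≤ - (κ * m₀) := by
    intro l; rw [MpIn.lf_smul]; nlinarith [hζ l]
  rw [MpIn.cone_iff] at c0 c0' c1 c1'
  have In := mpts_inner hF hC hfl α (η + κ • ζ) (η' + κ • ζ) θ (κ * m₀) hθ (by positivity)
    (by simp [hα])
    (fun l => by rw [MpIn.lf_add]; linarith [c0 l, lz l])
    (fun l => by rw [MpIn.lf_add]; linarith [c0' l, lz l])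
    (fun l => by rw [add_right_comm, MpIn.lf_add]; linarith [c1 l, lz l])
    (fun l => by rw [add_right_comm, MpIn.lf_add]; linarith [c1' l, lz l])
    (by have := norm_add_le η (κ • ζ); rw [nζ] at this; linarith)
    (by have := norm_add_le η' (κ • ζ); rw [nζ] at this; linarith)
  have e : ∀ γ, (η' + κ • ζ) γ - (η + κ • ζ) γ = η' γ - η γ := fun γ => by
    simp only [Pi.add_apply]; ring
  simp only [e] at In
  have P1 : mptsI Λ u₁ u₂ (fun q => mptD F α θ (T.pl q + η')) (fun q => mptD F α θ (T.pl q + (η' + κ • ζ)))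
      ≤ 2 * L * ‖κ • ζ‖ * Iχ := by
    rw [hIχ, mpts_symm]
    refine mpts_le_pw Λ u₁ u₂ (mptD_cont hF T α θ _) (mptD_cont hF T α θ _) _ fun q => ?_
    have := mptD_pert W.lip α θ (T.pl q + η') (κ • ζ)
    rwa [add_assoc] at this
  have P2 : mptsI Λ u₁ u₂ (fun q => mptD F α θ (T.pl q + (η + κ • ζ))) (fun q => mptD F α θ (T.pl q + η))
      ≤ 2 * L * ‖κ • ζ‖ * Iχ := by
    rw [hIχ]
    refine mpts_le_pw Λ u₁ u₂ (mptD_cont hF T α θ _) (mptD_cont hF T α θ _) _ fun q => ?_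
    have := mptD_pert W.lip α θ (T.pl q + η) (κ • ζ)
    rwa [add_assoc] at this
  have T1 := mpts_tri Λ u₁ u₂ (mptD_cont hF T α θ η') (mptD_cont hF T α θ (η' + κ • ζ)) (mptD_cont hF T α θ η)
  have T2 := mpts_tri Λ u₁ u₂ (mptD_cont hF T α θ (η' + κ • ζ)) (mptD_cont hF T α θ (η + κ • ζ)) (mptD_cont hF T α θ η)
  have hsum : 2 * L * ‖κ • ζ‖ * Iχ + 2 * L * ‖κ • ζ‖ * Iχ = κ * B := by rw [nζ, hB]; ring
  linarith

/-- **A3 STAIR** from the closed-cone flux bound -/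
theorem mpts_stair (W : MptW T Λ u₁ u₂ δ F L) {C : ℝ} (hC : 0 ≤ C) (hfl : MptsFlux T Λ u₁ u₂ δ F C) :
    ∃ C' : ℝ, 0 ≤ C' ∧ ∀ (α : Fin N) (η η' : Fin N → ℝ) (θ : ℝ), 0 < θ → η α = η' α →
      T.Cone η → T.Cone η' → T.Cone (η + Pi.single α θ) → T.Cone (η' + Pi.single α θ) →
      ‖η‖ + θ < δ → ‖η'‖ + θ < δ →
      ∫ q, mptChi Λ u₁ u₂ q * |mptP T F α θ η q - mptP T F α θ η' q| ≤ C' * ‖η - η'‖ := by
  refine ⟨C * N, by positivity, fun α η η' θ hθ hα c0 c0' c1 c1' n0 n0' => ?_⟩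
  have K := mpts_core W hC hfl α η η' θ hθ.le hα c0 c0' c1 c1' n0 n0'
  have hs : ∑ γ, |η' γ - η γ| ≤ N * ‖η - η'‖ := by
    have : ∀ γ ∈ (Finset.univ : Finset (Fin N)), |η' γ - η γ| ≤ ‖η - η'‖ := fun γ _ => by
      have := norm_le_pi_norm (η - η') γ
      rwa [Pi.sub_apply, Real.norm_eq_abs, abs_sub_comm] at this
    have := Finset.sum_le_card_nsmul _ _ _ this
    simpa using this
  have e : ∫ q, mptChi Λ u₁ u₂ q * |mptP T F α θ η q - mptP T F α θ η' q|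
      = θ⁻¹ * mptsI Λ u₁ u₂ (fun q => mptD F α θ (T.pl q + η')) (fun q => mptD F α θ (T.pl q + η)) := by
    unfold mptsI
    rw [← integral_const_mul]
    refine integral_congr_ae (Eventually.of_forall fun q => ?_)
    simp only []
    unfold mptP
    rw [← sub_div, abs_div, abs_of_pos hθ, abs_sub_comm]
    field_simp
  rw [e, inv_mul_le_iff₀ hθ]
  have : C * θ * ∑ γ, |η' γ - η γ| ≤ C * θ * (N * ‖η - η'‖) :=
    mul_le_mul_of_nonneg_left hs (by positivity)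
  calc _ ≤ _ := K
    _ ≤ _ := this
    _ = θ * (C * N * ‖η - η'‖) := by ring

end

theorem mpts_eqns_cite : True := by
  have := @mptsI.eq_1
  have := @MptsFlux.eq_1
  trivial

end Claimed.Agent.R255
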