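-- KEEP
import Claimed.Agent.R255.Plane.TrDefs
import Claimed.Agent.R255.Plane.TrStair
import Claimed.Agent.R255.Plane.TrFx

/-!
# Row 255, block (B), chapter A (Theorem 6.1): steps A1 LIP, A2 FLUX, A3 STAIR of Plane/Trace.lean      (helper137)

EXITS (all in closed-cone form, no margins in the statements):
* `mptf_lip`   : A1 (= the statement of `mpt_lip`);
* `mptf_W`     : the working hypotheses `MptW T Λ u₁ u₂ δ F L` can be realised (global Lipschitz extension `F`);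
* `mptf_flux`  : A2, `∫ χ |R_{αβ}(Π q + η; h, k)| ≤ C h k`;
* `mptf_stair` : A3, `∫ χ |P^θ_α(q; η) - P^θ_α(q; η')| ≤ C ‖η - η'‖` for offsets with the same `α`-component.
-/

set_option autoImplicit false

namespace Claimed.Agent.R255

open Filter Topology MeasureTheory Set
open scoped NNReal

variable {N : ℕ}

/-! ## partial vectors -/

/-- the coordinates of `Δ` in `S`, the others `0` -/
def mptPart (S : Finset (Fin N)) (Δ : Fin N → ℝ) : Fin N → ℝ := fun γ => if γ ∈ S then Δ γ else 0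

theorem mptPart_empty (Δ : Fin N → ℝ) : mptPart ∅ Δ = 0 := by
  ext γ; simp [mptPart]

theorem mptPart_univ (Δ : Fin N → ℝ) : mptPart Finset.univ Δ = Δ := by
  ext γ; simp [mptPart]

theorem mptPart_insert {S : Finset (Fin N)} {γ : Fin N} (hγ : γ ∉ S) (Δ : Fin N → ℝ) :
    mptPart (insert γ S) Δ = mptPart S Δ + Pi.single γ (Δ γ) := by
  ext β
  by_cases hβ : β = γ
  · subst hβ; simp [mptPart, hγ]
  · simp [mptPart, hβ]

theorem mptPart_norm_le (S : Finset (Fin N)) (Δ : Fin N → ℝ) : ‖mptPart S Δ‖ ≤ ‖Δ‖ := by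
  refine (pi_norm_le_iff_of_nonneg (norm_nonneg _)).2 fun γ => ?_
  unfold mptPart
  split_ifs
  · exact norm_le_pi_norm Δ γ
  · simp

theorem mptPart_apply_of_zero (S : Finset (Fin N)) {Δ : Fin N → ℝ} {γ : Fin N} (h : Δ γ = 0) : mptPart S Δ γ = 0 := by
  unfold mptPart; split_ifs <;> simp [h]

/-! ## A1 -/

/-- the monotone path: label first, then the data coordinates -/
theorem mptf_path {T : MpIn N} (hT : T.Ok) {Λ₁ m₀ : ℝ} (hΛ : ∀ l ξ, |T.lf l ξ| ≤ Λ₁ * ‖ξ‖) (hm : ∀ l, T.lam l T.v ≤ - m₀)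
    {z ξ : Fin N → ℝ} {c : ℝ} (hz : T.Dom z) (hc : 0 ≤ c) (hξ : ∀ γ, 0 ≤ ξ γ) (hξv : ξ T.v = 0)
    (hmg : Λ₁ * ‖ξ‖ ≤ m₀ * c) (hlab : z T.v + c < 1) :
    |T.f (z + Pi.single T.v c + ξ) - T.f z| ≤ (∑ α, |T.d α|) * (c + ‖ξ‖) := by
  have hdom : ∀ S : Finset (Fin N), T.Dom (z + Pi.single T.v c + mptPart S ξ) := by
    intro S
    refine ⟨(T.cone_iff _).2 fun l => ?_, ?_, ?_⟩
    · rw [T.lf_add, T.lf_add, T.lf_single]
      have h1 := (T.cone_iff _).1 hz.1 l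
      have h2 := (abs_le.1 (hΛ l (mptPart S ξ))).2
      have h3 : Λ₁ * ‖mptPart S ξ‖ ≤ Λ₁ * ‖ξ‖ := by
        have hΛ0 : 0 ≤ Λ₁ ∨ ‖ξ‖ = 0 := by
          by_contra hcon
          push Not at hcon
          have := hΛ l ξ
          have h5 : 0 < ‖ξ‖ := lt_of_le_of_ne (norm_nonneg _) (Ne.symm hcon.2)
          nlinarith [abs_nonneg (T.lf l ξ)]
        rcases hΛ0 with h | h
        · exact mul_le_mul_of_nonneg_left (mptPart_norm_le S ξ) h
        · have : ‖mptPart S ξ‖ = 0 := le_antisymm (h ▸ mptPart_norm_le S ξ) (norm_nonneg _)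
          rw [this, h]
      have h4 := mul_le_mul_of_nonneg_right (hm l) hc
      nlinarith
    · simp only [Pi.add_apply, Pi.single_eq_same, mptPart_apply_of_zero S hξv]
      linarith [hz.2.1]
    · simp only [Pi.add_apply, Pi.single_eq_same, mptPart_apply_of_zero S hξv]
      linarith
  have hstep : ∀ S : Finset (Fin N), |T.f (z + Pi.single T.v c + mptPart S ξ) - T.f (z + Pi.single T.v c)|
      ≤ (∑ α ∈ S, |T.d α|) * ‖ξ‖ := by
    intro S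
    induction S using Finset.induction_on with
    | empty => simp [mptPart_empty]
    | insert γ S hγ ih =>
      rw [Finset.sum_insert hγ]
      have h1 := hdom S
      have h2 := hdom (insert γ S)
      rw [mptPart_insert hγ, ← add_assoc] at h2 ⊢
      obtain ⟨a, b⟩ := hT.cap γ _ (ξ γ) (hξ γ) h1 h2
      have h3 : T.d γ * ξ γ ≤ |T.d γ| * ‖ξ‖ :=
        mul_le_mul (le_abs_self _) ((le_abs_self _).trans (norm_le_pi_norm ξ γ)) (hξ γ) (abs_nonneg _)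
      rw [abs_le] at ih ⊢
      constructor <;> nlinarith [ih.1, ih.2]
  have h0 := hdom ∅
  rw [mptPart_empty, add_zero] at h0
  obtain ⟨a, b⟩ := hT.cap T.v z c hc hz h0
  have h1 := hstep Finset.univ
  rw [mptPart_univ] at h1
  have h2 : T.d T.v * c ≤ (∑ α, |T.d α|) * c :=
    mul_le_mul_of_nonneg_right ((le_abs_self _).trans
      (Finset.single_le_sum (f := fun α => |T.d α|) (fun _ _ => abs_nonneg _) (Finset.mem_univ T.v))) hc
  rw [abs_le] at h1 ⊢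
  constructor <;> nlinarith [h1.1, h1.2]


/-- chaining along a segment -/
theorem mptf_chain {E : Type*} [NormedAddCommGroup E] [NormedSpace ℝ E] {s : Set E} (hs : Convex ℝ s) {g : E → ℝ}
    {r L : ℝ} (hr : 0 < r) (hloc : ∀ x ∈ s, ∀ y ∈ s, ‖x - y‖ < r → |g x - g y| ≤ L * ‖x - y‖) :
    ∀ x ∈ s, ∀ y ∈ s, |g x - g y| ≤ L * ‖x - y‖ := by
  intro x hx y hy
  obtain ⟨n, hn⟩ := exists_nat_gt (‖x - y‖ / r)
  have hn0 : (0 : ℝ) < n := lt_of_le_of_lt (div_nonneg (norm_nonneg _) hr.le) hn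
  set p : ℕ → E := fun j => x + ((j : ℝ) / n) • (y - x) with hp
  have hmem : ∀ j, j ≤ n → p j ∈ s := by
    intro j hj
    have h1 : (0 : ℝ) ≤ (j : ℝ) / n := by positivity
    have h2 : (j : ℝ) / n ≤ 1 := by rw [div_le_one hn0]; exact_mod_cast hj
    exact hs.add_smul_sub_mem hx hy ⟨h1, h2⟩
  have hd : ∀ j, ‖p (j + 1) - p j‖ = ‖x - y‖ / n := by
    intro j
    have : p (j + 1) - p j = (1 / (n : ℝ)) • (y - x) := by
      simp only [hp, Nat.cast_add, Nat.cast_one, add_sub_add_left_eq_sub, ← sub_smul]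
      congr 1; field_simp; ring
    rw [this, norm_smul, norm_sub_rev y x, Real.norm_eq_abs, abs_of_pos (by positivity)]
    ring
  have hsmall : ‖x - y‖ / n < r := by
    rw [div_lt_iff₀ hn0]; rw [div_lt_iff₀ hr] at hn; linarith
  have hst : ∀ j, j ≤ n → |g (p j) - g (p 0)| ≤ L * (j * (‖x - y‖ / n)) := by
    intro j
    induction j with
    | zero => intro _; simp
    | succ j ih =>
      intro hj
      have h1 := ih (by omega)
      have h2 := hloc _ (hmem (j + 1) hj) _ (hmem j (by omega)) (by rw [hd]; exact hsmall)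
      rw [hd] at h2
      push_cast
      rw [abs_le] at *
      constructor <;> nlinarith [h1.1, h1.2, h2.1, h2.2]
  have h := hst n le_rfl
  have e0 : p 0 = x := by simp [hp]
  have e1 : p n = y := by simp [hp, div_self hn0.ne']
  rw [e0, e1, abs_sub_comm, mul_div_cancel₀ _ hn0.ne'] at h
  exact h

/-- A1, local form -/
theorem mptf_lip_loc {T : MpIn N} (hT : T.Ok) {Λ₁ m₀ δ : ℝ} (hΛ0 : 0 ≤ Λ₁) (hΛ : ∀ l ξ, |T.lf l ξ| ≤ Λ₁ * ‖ξ‖)
    (hm0 : 0 < m₀) (hm : ∀ l, T.lam l T.v ≤ - m₀) {z z' : Fin N → ℝ} (hz : T.Dom z) (hz' : T.Dom z')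
    (h1 : z T.v ≤ 1 - δ) (hsm : (2 * Λ₁ / m₀ + 1) * ‖z - z'‖ < δ) :
    |T.f z - T.f z'| ≤ ((∑ α, |T.d α|) * (2 * (2 * Λ₁ / m₀ + 1) + 4)) * ‖z - z'‖ := by
  set ρ := ‖z - z'‖ with hρ
  have hρ0 : 0 ≤ ρ := norm_nonneg _
  set K := 2 * Λ₁ / m₀ + 1 with hK
  have hK1 : 1 ≤ K := by rw [hK]; have : 0 ≤ 2 * Λ₁ / m₀ := by positivity
                         linarith
  have hKm : m₀ * (K - 1) = 2 * Λ₁ := by rw [hK]; field_simp; ring
  set c := K * ρ with hc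
  have hc0 : 0 ≤ c := by positivity
  set ξ : Fin N → ℝ := fun γ => if γ = T.v then 0 else ρ with hξ
  set c' := z T.v - z' T.v + c with hc'
  set ξ' : Fin N → ℝ := fun γ => if γ = T.v then 0 else z γ - z' γ + ρ with hξ'
  have hco : ∀ γ, |z γ - z' γ| ≤ ρ := fun γ => norm_le_pi_norm (z - z') γ
  have hw : z + Pi.single T.v c + ξ = z' + Pi.single T.v c' + ξ' := by
    ext γ
    by_cases hγ : γ = T.v
    · subst hγ; simp [hξ, hξ', hc']; ring
    · simp [hξ, hξ', hγ]; ring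
  have n1 : ‖ξ‖ ≤ ρ := by
    refine (pi_norm_le_iff_of_nonneg hρ0).2 fun γ => ?_
    simp only [hξ]; split_ifs
    · simpa using hρ0
    · rw [Real.norm_eq_abs, abs_of_nonneg hρ0]
  have n2 : ‖ξ'‖ ≤ 2 * ρ := by
    refine (pi_norm_le_iff_of_nonneg (by positivity)).2 fun γ => ?_
    simp only [hξ']; split_ifs
    · simpa using hρ0
    · rw [Real.norm_eq_abs, abs_le]; have := abs_le.1 (hco γ); constructor <;> linarith [this.1, this.2]
  have hv := abs_le.1 (hco T.v)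
  have hc'0 : (K - 1) * ρ ≤ c' := by rw [hc', hc]; nlinarith [hv.1]
  have hc'1 : c' ≤ (K + 1) * ρ := by rw [hc', hc]; nlinarith [hv.2]
  have p1 := mptf_path hT hΛ hm (z := z) (ξ := ξ) (c := c) hz hc0
    (fun γ => by simp only [hξ]; split_ifs <;> simp [hρ0]) (by simp [hξ])
    (by have : Λ₁ * ‖ξ‖ ≤ Λ₁ * ρ := mul_le_mul_of_nonneg_left n1 hΛ0
        have h3 : m₀ * c = m₀ * (K - 1) * ρ + m₀ * ρ := by rw [hc]; ring
        rw [h3, hKm]; nlinarith) (by linarith)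
  have p2 := mptf_path hT hΛ hm (z := z') (ξ := ξ') (c := c') hz'
    (le_trans (by have : 0 ≤ K - 1 := by linarith
                  positivity) hc'0)
    (fun γ => by simp only [hξ']; split_ifs
                 · exact le_rfl
                 · linarith [(abs_le.1 (hco γ)).1]) (by simp [hξ'])
    (by have : Λ₁ * ‖ξ'‖ ≤ Λ₁ * (2 * ρ) := mul_le_mul_of_nonneg_left n2 hΛ0
        have h3 : m₀ * ((K - 1) * ρ) ≤ m₀ * c' := mul_le_mul_of_nonneg_left hc'0 hm0.le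
        have h4 : m₀ * ((K - 1) * ρ) = 2 * Λ₁ * ρ := by rw [← mul_assoc, hKm]
        linarith) (by rw [hc']; linarith)
  rw [← hw] at p2
  have hD : 0 ≤ ∑ α, |T.d α| := Finset.sum_nonneg fun _ _ => abs_nonneg _
  have q1 : (∑ α, |T.d α|) * (c + ‖ξ‖) ≤ (∑ α, |T.d α|) * ((K + 1) * ρ) :=
    mul_le_mul_of_nonneg_left (by rw [hc]; linarith) hD
  have q2 : (∑ α, |T.d α|) * (c' + ‖ξ'‖) ≤ (∑ α, |T.d α|) * ((K + 3) * ρ) :=
    mul_le_mul_of_nonneg_left (by linarith) hD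
  rw [abs_le] at p1 p2 ⊢
  constructor <;> nlinarith [p1.1, p1.2, p2.1, p2.2]

/-- A1 -/
theorem mptf_lip (T : MpIn N) (hT : T.Ok) (δ : ℝ) (hδ : 0 < δ) :
    ∃ L : ℝ≥0, ∀ z z' : Fin N → ℝ, T.Dom z → T.Dom z' → δ ≤ z T.v → z T.v ≤ 1 - δ → δ ≤ z' T.v → z' T.v ≤ 1 - δ →
      |T.f z - T.f z'| ≤ L * ‖z - z'‖ := by
  obtain ⟨Λ₁, hΛ0, hΛ⟩ := T.exists_lfBound
  obtain ⟨m₀, hm0, hm⟩ := hT.exists_m0
  have hD : 0 ≤ ∑ α, |T.d α| := Finset.sum_nonneg fun _ _ => abs_nonneg _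
  have hK : 0 < 2 * Λ₁ / m₀ + 1 := by positivity
  set s : Set (Fin N → ℝ) := {z | T.Cone z ∧ δ ≤ z T.v ∧ z T.v ≤ 1 - δ} with hs
  have hconv : Convex ℝ s := by
    intro x hx y hy a b ha hb hab
    refine ⟨(hx.1.mg.convex hy.1.mg ha hb hab).cone le_rfl, ?_, ?_⟩
    · simp only [Pi.add_apply, Pi.smul_apply, smul_eq_mul]
      nlinarith [hx.2.1, hy.2.1]
    · simp only [Pi.add_apply, Pi.smul_apply, smul_eq_mul]
      nlinarith [hx.2.2, hy.2.2]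
  have hdom : ∀ z ∈ s, T.Dom z := fun z hz => ⟨hz.1, by linarith [hz.2.1], by linarith [hz.2.2]⟩
  have key := mptf_chain hconv (g := T.f) (r := δ / (2 * Λ₁ / m₀ + 1))
    (L := (∑ α, |T.d α|) * (2 * (2 * Λ₁ / m₀ + 1) + 4)) (by positivity)
    (fun x hx y hy hxy => mptf_lip_loc hT hΛ0 hΛ hm0 hm (hdom x hx) (hdom y hy) hx.2.2
      (by rw [lt_div_iff₀ hK] at hxy; linarith))
  refine ⟨⟨(∑ α, |T.d α|) * (2 * (2 * Λ₁ / m₀ + 1) + 4), by positivity⟩, ?_⟩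
  intro z z' hz hz' a b a' b'
  exact key z ⟨hz.1, a, b⟩ z' ⟨hz'.1, a', b'⟩

/-- the working hypotheses can be realised -/
theorem mptf_W (T : MpIn N) (hT : T.Ok) (Λ u₁ u₂ : ℝ) (hΛ : 0 < Λ) (h1 : 0 < u₁) (h12 : u₁ < u₂) (h2 : u₂ < 1) :
    ∃ (δ : ℝ) (F : (Fin N → ℝ) → ℝ) (L : ℝ≥0), MptW T Λ u₁ u₂ δ F L := by
  set δ := min u₁ (1 - u₂) / 2 with hδ
  have hδ0 : 0 < δ := by have : 0 < min u₁ (1 - u₂) := lt_min h1 (by linarith)
                         positivity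
  obtain ⟨L, hL⟩ := mptf_lip T hT δ hδ0
  have hon : LipschitzOnWith L T.f {z | T.Cone z ∧ δ ≤ z T.v ∧ z T.v ≤ 1 - δ} := by
    refine LipschitzOnWith.of_dist_le_mul fun z hz z' hz' => ?_
    rw [Real.dist_eq, dist_eq_norm]
    exact hL z z' ⟨hz.1, by linarith [hz.2.1], by linarith [hz.2.2]⟩ ⟨hz'.1, by linarith [hz'.2.1], by linarith [hz'.2.2]⟩
      hz.2.1 hz.2.2 hz'.2.1 hz'.2.2
  obtain ⟨F, hF, hEq⟩ := hon.extend_real
  refine ⟨δ, F, L, hT, hΛ, h12, hδ0, ?_, ?_, hF, fun z a b c => (hEq ⟨a, b, c⟩).symm⟩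
  · have := min_le_left u₁ (1 - u₂); rw [hδ]; linarith
  · have := min_le_right u₁ (1 - u₂); rw [hδ]; linarith

/-- A2 -/
theorem mptf_flux {T : MpIn N} {Λ u₁ u₂ δ : ℝ} {F : (Fin N → ℝ) → ℝ} {L : ℝ≥0} (W : MptW T Λ u₁ u₂ δ F L) :
    ∃ C : ℝ, 0 ≤ C ∧ ∀ α β : Fin N, α ≠ β → ∀ (η : Fin N → ℝ) (h k : ℝ), 0 ≤ h → 0 ≤ k → ‖η‖ + h + k < δ →
      T.Cone η → T.Cone (η + Pi.single α h) → T.Cone (η + Pi.single β k) →
      T.Cone (η + Pi.single α h + Pi.single β k) →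
      ∫ q, mptChi Λ u₁ u₂ q * |mptR F α β (T.pl q + η) h k| ≤ C * h * k :=
  mptx_flux W

/-- A3 -/
theorem mptf_stair {T : MpIn N} {Λ u₁ u₂ δ : ℝ} {F : (Fin N → ℝ) → ℝ} {L : ℝ≥0} (W : MptW T Λ u₁ u₂ δ F L) :
    ∃ C : ℝ, 0 ≤ C ∧ ∀ (α : Fin N) (η η' : Fin N → ℝ) (θ : ℝ), 0 < θ → η α = η' α →
      T.Cone η → T.Cone η' → T.Cone (η + Pi.single α θ) → T.Cone (η' + Pi.single α θ) →
      ‖η‖ + θ < δ → ‖η'‖ + θ < δ →
      ∫ q, mptChi Λ u₁ u₂ q * |mptP T F α θ η q - mptP T F α θ η' q| ≤ C * ‖η - η'‖ := by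
  obtain ⟨C, hC, hfl⟩ := mptf_flux W
  exact mpts_stair W hC hfl

theorem mpt_trflux_eqns_cite : True := by
  have := @mptPart.eq_1
  trivial

end Claimed.Agent.R255
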