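-- KEEP
import Claimed.Agent.R255.Plane.TrFlux
import Claimed.Agent.R255.Plane.TrBMain

/-!
# Row 255, block (B), chapter A: the interface between the two halves      (helper188)

`MptbLip T` from `mptf_lip` (+ `LipschitzOnWith.extend_real`), `MptbStair T` from `mptf_W` + `mptf_stair` on the LARGER patch `(Λ+1, u₁/2, (1+u₂)/2)` (`χ ≥ r₀` on the given patch),
and Theorem 6.1 `mptb_thm` (= the statement of `mpt_main`).
-/

set_option autoImplicit false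

namespace Claimed.Agent.R255

open Filter Topology MeasureTheory Set
open scoped NNReal

variable {N : ℕ} {T : MpIn N}

theorem mptb_in_lip (hT : T.Ok) : MptbLip T := by
  intro δ hδ0
  obtain ⟨L, hL⟩ := mptf_lip T hT δ hδ0
  have hon : LipschitzOnWith L T.f {z | T.Cone z ∧ δ ≤ z T.v ∧ z T.v ≤ 1 - δ} := by
    refine LipschitzOnWith.of_dist_le_mul fun z hz z' hz' => ?_
    rw [Real.dist_eq, dist_eq_norm]
    exact hL z z' ⟨hz.1, by linarith [hz.2.1], by linarith [hz.2.2]⟩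
      ⟨hz'.1, by linarith [hz'.2.1], by linarith [hz'.2.2]⟩ hz.2.1 hz.2.2 hz'.2.1 hz'.2.2
  obtain ⟨F, hF, hEq⟩ := hon.extend_real
  exact ⟨L, F, hF, fun z a b c => (hEq ⟨a, b, c⟩).symm⟩

theorem mptb_in_dq (F : (Fin N → ℝ) → ℝ) (α : Fin N) (θ : ℝ) (η : Fin N → ℝ) (q : ℝ × ℝ) :
    T.dqB F α θ η q = mptP T F α θ η q := rfl

theorem mptb_in_stair (hT : T.Ok) : MptbStair T := by
  intro Λ u₁ u₂ hΛ h1 h12 h2
  obtain ⟨δW, F, L, W⟩ := mptf_W T hT (Λ + 1) (u₁ / 2) ((1 + u₂) / 2) (by linarith) (by linarith)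
    (by linarith) (by linarith)
  obtain ⟨CW, hCW, hst⟩ := mptf_stair W
  obtain ⟨Λ₁, hΛ₁, hlf⟩ := T.exists_lfBound
  obtain ⟨r₀, hr₀⟩ : ∃ r₀ : ℝ, r₀ = min 1 (min (u₁ / 2) ((1 - u₂) / 2)) := ⟨_, rfl⟩
  have hr₀pos : 0 < r₀ := by
    rw [hr₀]
    exact lt_min one_pos (lt_min (by linarith) (by linarith))
  have hsub : mpatch Λ u₁ u₂ 0 ⊆ mpatch (Λ + 1) (u₁ / 2) ((1 + u₂) / 2) r₀ :=
    mptb_patch_big Λ u₁ u₂ 0 r₀ le_rfl (hr₀ ▸ min_le_left _ _)
      (hr₀ ▸ (min_le_right _ _).trans (min_le_left _ _)) (hr₀ ▸ (min_le_right _ _).trans (min_le_right _ _))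
  have hsub0 : mpatch Λ u₁ u₂ 0 ⊆ mpatch (Λ + 1) (u₁ / 2) ((1 + u₂) / 2) 0 :=
    hsub.trans (mptb_patch_anti _ _ _ hr₀pos.le)
  have hδW := W.δ_pos
  refine ⟨CW / r₀, δW / 3, 1 / (1 + Λ₁), by positivity, by positivity, by positivity, ?_⟩
  intro α η η' μ θ hη hη' hαα hμ hm hm' hθ hθc hθδ
  -- the shifted offsets stay in the cone
  have hstep : ∀ ζ : Fin N → ℝ, T.mgB ζ μ → T.Cone (ζ + Pi.single α θ) := by
    intro ζ hζ
    rw [T.cone_iff]
    intro l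
    rw [T.lf_add]
    have a1 : T.lf l ζ ≤ - μ := hζ l
    have a2 := (abs_le.1 (hlf l (Pi.single α θ))).2
    rw [mptf_norm_single, abs_of_pos hθ] at a2
    have a3 : Λ₁ * θ ≤ Λ₁ * (1 / (1 + Λ₁) * μ) := mul_le_mul_of_nonneg_left hθc hΛ₁
    have a4 : Λ₁ * (1 / (1 + Λ₁) * μ) ≤ μ := by
      have : Λ₁ * (1 / (1 + Λ₁) * μ) = (Λ₁ / (1 + Λ₁)) * μ := by ring
      rw [this]
      have h5 : Λ₁ / (1 + Λ₁) ≤ 1 := by
        rw [div_le_one (by linarith)]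
        linarith
      nlinarith
    linarith
  have hc : T.Cone η := mptb_mg_cone hm hμ.le
  have hc' : T.Cone η' := mptb_mg_cone hm' hμ.le
  have key := hst α η η' θ hθ hαα hc hc' (hstep η hm) (hstep η' hm') (by linarith) (by linarith)
  -- comparison of the integrals
  have hcontP : Continuous fun q => |mptP T F α θ η q - mptP T F α θ η' q| :=
    ((mptP_cont W.cont T α θ η).sub (mptP_cont W.cont T α θ η')).abs
  have hint := mptChi_integrable (Λ + 1) (u₁ / 2) ((1 + u₂) / 2) hcontP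
  have hnorm : ∀ ζ : Fin N → ℝ, ‖ζ‖ ≤ δW / 3 → ‖ζ + Pi.single α θ‖ < δW := by
    intro ζ hζ
    refine lt_of_le_of_lt (norm_add_le _ _) ?_
    rw [mptf_norm_single, abs_of_pos hθ]
    linarith
  have heq : ∀ ζ : Fin N → ℝ, T.mgB ζ μ → ‖ζ‖ ≤ δW / 3 → ∀ q ∈ mpatch Λ u₁ u₂ 0,
      T.dqB T.f α θ ζ q = mptP T F α θ ζ q := by
    intro ζ hζ hn q hq
    have e1 := (W.dom (hsub0 hq) (mptb_mg_cone hζ hμ.le) (by linarith)).2
    have e2 := (W.dom (hsub0 hq) (hstep ζ hζ) (hnorm ζ hn)).2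
    unfold MpIn.dqB mptP mptD
    rw [e1, add_assoc, e2]
  have hmeasS : MeasurableSet (mpatch Λ u₁ u₂ 0) := mptb_patch_meas _ _ _ _
  have s1 : ∫ q in mpatch Λ u₁ u₂ 0, |T.dqB T.f α θ η q - T.dqB T.f α θ η' q|
      = ∫ q in mpatch Λ u₁ u₂ 0, |mptP T F α θ η q - mptP T F α θ η' q| := by
    refine setIntegral_congr_fun hmeasS fun q hq => ?_
    simp only [heq η hm hη q hq, heq η' hm' hη' q hq]
  have s2 : r₀ * ∫ q in mpatch Λ u₁ u₂ 0, |mptP T F α θ η q - mptP T F α θ η' q|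
      ≤ ∫ q in mpatch Λ u₁ u₂ 0,
        mptChi (Λ + 1) (u₁ / 2) ((1 + u₂) / 2) q * |mptP T F α θ η q - mptP T F α θ η' q| := by
    rw [← integral_const_mul]
    refine setIntegral_mono_on ?_ hint.integrableOn hmeasS fun q hq => ?_
    · refine Integrable.const_mul ?_ _
      refine (hcontP.continuousOn.integrableOn_compact
        (isCompact_Icc.prod isCompact_Icc : IsCompact (Icc (-Λ) Λ ×ˢ Icc u₁ u₂))).mono_set ?_
      exact mpatch_subset_Icc Λ u₁ u₂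
    · exact mul_le_mul_of_nonneg_right (mptChi_ge (hsub hq)) (abs_nonneg _)
  have s3 : ∫ q in mpatch Λ u₁ u₂ 0,
        mptChi (Λ + 1) (u₁ / 2) ((1 + u₂) / 2) q * |mptP T F α θ η q - mptP T F α θ η' q|
      ≤ ∫ q, mptChi (Λ + 1) (u₁ / 2) ((1 + u₂) / 2) q * |mptP T F α θ η q - mptP T F α θ η' q| :=
    setIntegral_le_integral hint
      (Eventually.of_forall fun q => mul_nonneg (mptChi_nonneg _ _ _ _) (abs_nonneg _))
  rw [s1, div_mul_eq_mul_div, le_div_iff₀ hr₀pos, mul_comm]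
  exact s2.trans (s3.trans key)

/-- **Theorem 6.1** -/
theorem mptb_thm (T : MpIn N) (hT : T.Ok) (Λ u₁ u₂ : ℝ) (hΛ : 0 < Λ) (h1 : 0 < u₁) (h12 : u₁ < u₂)
    (h2 : u₂ < 1) : Nonempty (MpOut T Λ u₁ u₂) :=
  mptb_main hT (mptb_in_lip hT) (mptb_in_stair hT) Λ u₁ u₂ hΛ h1 h12 h2

end Claimed.Agent.R255
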