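-- KEEP
import Claimed.Agent.R255.Plane.TrFlux

/-!
# Row 255, block (B), chapter A: WEAK = (6.7) `V_Z (A Z) ≥ ∂_i (A v)` in weak form      (helper142; prefix `mptw_`)

EXIT: `mptw_main` (= `mpt_weak` of Plane/Trace.lean under the working hypotheses `MptW`).
Uses only `T.Ok`, the fields `aff` of an ARBITRARY `O : MpOut` and the Lipschitz representative `F`.
1. `mptw_lower` : an increment `δ^h_α F` does not decrease when other coordinates are lowered (rectangle inequality, one coordinate at a time).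
2. `mptw_pw`    : `[δ_Z F(z + h1_v - w) - δ_Z F(z)] + [δ_v F(z - w') - δ_v F(z + h 1_Z)] ≥ 0`  (the two `R_{Zv}` cancel identically).
3. `mptw_int`   : multiply by `φ ≥ 0`, integrate, shift the variable.
4. `mptw_main`  : divide by `h²`, `h = hs l`, dominated convergence.
-/

set_option autoImplicit false

namespace Claimed.Agent.R255

open Filter Topology MeasureTheory Set
open scoped NNReal

variable {N : ℕ}

/-- an increment does not decrease when the other coordinates are lowered -/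
theorem mptw_lower {T : MpIn N} {Λ u₁ u₂ δ : ℝ} {F : (Fin N → ℝ) → ℝ} {L : ℝ≥0} (W : MptW T Λ u₁ u₂ δ F L)
    {q : ℝ × ℝ} (hq : q ∈ mpatch Λ u₁ u₂ 0) (α : Fin N) (η c : Fin N → ℝ) (h ρ : ℝ) (hh : 0 ≤ h)
    (hc : ∀ γ, 0 ≤ c γ ∧ c γ ≤ ρ) (hcα : c α = 0) (hn : ‖η‖ + ρ + h + ρ < δ)
    (hcone : ∀ (c' : Fin N → ℝ) (h' : ℝ), (∀ γ, 0 ≤ c' γ ∧ c' γ ≤ c γ) → 0 ≤ h' → h' ≤ h →
      T.Cone (η - c' + Pi.single α h')) :
    mptD F α h (T.pl q + η) ≤ mptD F α h (T.pl q + (η - c)) := by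
  classical
  have hρ : 0 ≤ ρ := (hc α).1.trans (hc α).2
  have key : ∀ s : Finset (Fin N),
      mptD F α h (T.pl q + η) ≤ mptD F α h (T.pl q + (η - fun γ => if γ ∈ s then c γ else 0)) := by
    intro s
    induction s using Finset.induction_on with
    | empty =>
      have : (fun γ : Fin N => if γ ∈ (∅ : Finset (Fin N)) then c γ else 0) = 0 := by
        funext γ; simp
      rw [this, sub_zero]
    | insert β s hβ ih =>
      have hcs' : (fun γ : Fin N => if γ ∈ insert β s then c γ else 0)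
          = (fun γ => if γ ∈ s then c γ else 0) + Pi.single β (c β) := by
        funext γ
        by_cases hγ : γ = β
        · subst hγ; simp [hβ]
        · simp [hγ, Finset.mem_insert]
      by_cases hβα : β = α
      · rw [hcs', hβα, hcα, Pi.single_zero, add_zero]; exact ih
      · refine ih.trans ?_
        obtain ⟨cs, hcs⟩ : ∃ cs : Fin N → ℝ, cs = fun γ => if γ ∈ s then c γ else 0 := ⟨_, rfl⟩
        obtain ⟨cs', hcs'd⟩ : ∃ cs' : Fin N → ℝ, cs' = cs + Pi.single β (c β) := ⟨_, rfl⟩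
        rw [hcs', ← hcs, ← hcs'd]
        have b1 : ∀ γ, 0 ≤ cs γ ∧ cs γ ≤ c γ := by
          intro γ; rw [hcs]
          by_cases hγ : γ ∈ s
          · simp [hγ, (hc γ).1]
          · simp [hγ, (hc γ).1]
        have b2 : ∀ γ, 0 ≤ cs' γ ∧ cs' γ ≤ c γ := by
          intro γ; rw [hcs'd, hcs]
          by_cases hγ : γ = β
          · subst hγ; simp [hβ, (hc γ).1]
          · by_cases hγ' : γ ∈ s
            · simp [hγ, hγ', (hc γ).1]
            · simp [hγ, hγ', (hc γ).1]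
        have e1 : η - cs' + Pi.single β (c β) = η - cs := by rw [hcs'd]; abel
        have e2 : η - cs' + Pi.single α h + Pi.single β (c β) = η - cs + Pi.single α h := by rw [hcs'd]; abel
        have n1 : ‖η - cs'‖ ≤ ‖η‖ + ρ := by
          refine (norm_sub_le _ _).trans (by
            gcongr
            refine (pi_norm_le_iff_of_nonneg hρ).2 fun γ => ?_
            rw [Real.norm_eq_abs, abs_of_nonneg (b2 γ).1]
            exact (b2 γ).2.trans (hc γ).2)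
        have c0 : T.Cone (η - cs') := by
          have := hcone cs' 0 b2 le_rfl hh
          rwa [Pi.single_zero, add_zero] at this
        have c1 : T.Cone (η - cs' + Pi.single α h) := hcone cs' h b2 hh le_rfl
        have c2 : T.Cone (η - cs' + Pi.single β (c β)) := by
          rw [e1]
          have := hcone cs 0 b1 le_rfl hh
          rwa [Pi.single_zero, add_zero] at this
        have c3 : T.Cone (η - cs' + Pi.single α h + Pi.single β (c β)) := by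
          rw [e2]; exact hcone cs h b1 hh le_rfl
        have R := W.R_nonpos hq (Ne.symm hβα) hh (hc β).1 (by linarith [(hc β).2]) c0 c1 c2 c3
        unfold mptR at R
        unfold mptD
        have f1 : T.pl q + (η - cs') + Pi.single α h + Pi.single β (c β) = T.pl q + (η - cs) + Pi.single α h := by
          rw [add_assoc, add_assoc, ← add_assoc (η - cs'), e2, ← add_assoc]
        have f2 : T.pl q + (η - cs') + Pi.single β (c β) = T.pl q + (η - cs) := by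
          rw [add_assoc, e1]
        rw [f1, f2] at R
        linarith
  have := key Finset.univ
  simpa using this

/-- the pointwise inequality: the two mixed `(Z, v)` rectangle differences cancel -/
theorem mptw_pw {T : MpIn N} {Λ u₁ u₂ δ : ℝ} {F : (Fin N → ℝ) → ℝ} {L : ℝ≥0} (W : MptW T Λ u₁ u₂ δ F L)
    {q : ℝ × ℝ} (hq : q ∈ mpatch Λ u₁ u₂ 0) (jZ : Fin N) (hZv : jZ ≠ T.v) (η w w' : Fin N → ℝ) (h ρ : ℝ)
    (hh : 0 ≤ h) (hhρ : h ≤ ρ) (hw : ∀ γ, 0 ≤ w γ ∧ w γ ≤ ρ) (hwZ : w jZ = 0) (hwv : w T.v = 0)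
    (hw' : ∀ γ, 0 ≤ w' γ ∧ w' γ ≤ ρ) (hw'v : w' T.v = 0) (hn : ‖η‖ + 4 * ρ < δ)
    (hcone : ∀ y : Fin N → ℝ, (∀ γ, |y γ| ≤ ρ) → T.Cone (η + y)) :
    0 ≤ mptD F jZ h (T.pl q + (η + Pi.single T.v h - w)) - mptD F jZ h (T.pl q + η)
      + (mptD F T.v h (T.pl q + (η - w')) - mptD F T.v h (T.pl q + (η + Pi.single jZ h))) := by
  have hρ : 0 ≤ ρ := hh.trans hhρ
  have na : ‖η + Pi.single T.v h‖ ≤ ‖η‖ + ρ := by
    refine (norm_add_le _ _).trans ?_
    rw [mptf_norm_single, abs_of_nonneg hh]; linarith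
  have A := mptw_lower W hq jZ (η + Pi.single T.v h) w h ρ hh hw hwZ (by linarith) (by
    intro c' h' hc' h0 h1
    have : η + Pi.single T.v h - c' + Pi.single jZ h' = η + (Pi.single T.v h - c' + Pi.single jZ h') := by abel
    rw [this]
    refine hcone _ fun γ => ?_
    by_cases g1 : γ = T.v
    · subst g1
      have : c' T.v = 0 := le_antisymm ((hc' _).2.trans hwv.le) (hc' _).1
      simp only [Pi.add_apply, Pi.sub_apply, Pi.single_eq_same, this, Pi.single_eq_of_ne (Ne.symm hZv)]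
      rw [sub_zero, add_zero, abs_of_nonneg hh]; exact hhρ
    · by_cases g2 : γ = jZ
      · subst g2
        have : c' γ = 0 := le_antisymm ((hc' _).2.trans hwZ.le) (hc' _).1
        simp only [Pi.add_apply, Pi.sub_apply, Pi.single_eq_same, this, Pi.single_eq_of_ne g1]
        rw [sub_zero, zero_add, abs_of_nonneg h0]; exact h1.trans hhρ
      · simp only [Pi.add_apply, Pi.sub_apply, Pi.single_eq_of_ne g1, Pi.single_eq_of_ne g2]
        rw [zero_sub, add_zero, abs_neg, abs_of_nonneg (hc' γ).1]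
        exact (hc' γ).2.trans (hw γ).2)
  have B := mptw_lower W hq T.v η w' h ρ hh hw' hw'v (by linarith) (by
    intro c' h' hc' h0 h1
    have : η - c' + Pi.single T.v h' = η + (- c' + Pi.single T.v h') := by abel
    rw [this]
    refine hcone _ fun γ => ?_
    by_cases g1 : γ = T.v
    · subst g1
      have : c' T.v = 0 := le_antisymm ((hc' _).2.trans hw'v.le) (hc' _).1
      simp only [Pi.add_apply, Pi.neg_apply, Pi.single_eq_same, this]
      rw [neg_zero, zero_add, abs_of_nonneg h0]; exact h1.trans hhρ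
    · simp only [Pi.add_apply, Pi.neg_apply, Pi.single_eq_of_ne g1]
      rw [add_zero, abs_neg, abs_of_nonneg (hc' γ).1]
      exact (hc' γ).2.trans (hw' γ).2)
  have e1 : T.pl q + (η + Pi.single T.v h) + Pi.single jZ h = T.pl q + (η + Pi.single jZ h) + Pi.single T.v h := by abel
  have e2 : T.pl q + (η + Pi.single T.v h) = T.pl q + η + Pi.single T.v h := by abel
  have e3 : T.pl q + (η + Pi.single jZ h) = T.pl q + η + Pi.single jZ h := by abel
  have C : mptD F jZ h (T.pl q + (η + Pi.single T.v h)) - mptD F jZ h (T.pl q + η)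
      + (mptD F T.v h (T.pl q + η) - mptD F T.v h (T.pl q + (η + Pi.single jZ h))) = 0 := by
    unfold mptD
    rw [e1, e2, e3]; ring
  linarith

/-- a label offset `K h` absorbs all perturbations of size `c h` -/
theorem mptw_exK {T : MpIn N} (hT : T.Ok) (c : ℝ) (hc : 0 ≤ c) :
    ∃ K : ℝ, 0 ≤ K ∧ ∀ h : ℝ, 0 ≤ h → ∀ y : Fin N → ℝ, (∀ γ, |y γ| ≤ c * h) → T.Cone (Pi.single T.v (h * K) + y) := by
  obtain ⟨Λ₁, hΛ₁, hb⟩ := T.exists_lfBound
  obtain ⟨m₀, hm₀, hm⟩ := hT.exists_m0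
  refine ⟨Λ₁ * c / m₀, by positivity, fun h hh y hy => ?_⟩
  rw [MpIn.cone_iff]
  intro l
  rw [MpIn.lf_add, MpIn.lf_single]
  have h1 : T.lf l y ≤ Λ₁ * (c * h) := by
    refine (le_abs_self _).trans ((hb l y).trans ?_)
    gcongr
    exact (pi_norm_le_iff_of_nonneg (by positivity)).2 fun γ => by rw [Real.norm_eq_abs]; exact hy γ
  have h2 : T.lam l T.v * (h * (Λ₁ * c / m₀)) ≤ - m₀ * (h * (Λ₁ * c / m₀)) :=
    mul_le_mul_of_nonneg_right (hm l) (by positivity)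
  have h3 : - m₀ * (h * (Λ₁ * c / m₀)) = - (Λ₁ * (c * h)) := by field_simp
  linarith

/-- `δ^h_Z F` at the offset `K h 1_v` -/
def mptwG1 (T : MpIn N) (F : (Fin N → ℝ) → ℝ) (jZ : Fin N) (K h : ℝ) (q : ℝ × ℝ) : ℝ :=
  mptD F jZ h (T.pl q + Pi.single T.v (h * K))

/-- `δ^h_v F` at the offset `K h 1_v + h 1_Z` -/
def mptwG2 (T : MpIn N) (F : (Fin N → ℝ) → ℝ) (jZ : Fin N) (K h : ℝ) (q : ℝ × ℝ) : ℝ :=
  mptD F T.v h (T.pl q + (Pi.single T.v (h * K) + Pi.single jZ h))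

theorem mptw_pl_V {T : MpIn N} (hT : T.Ok) (jZ : Fin N) (hZv : jZ ≠ T.v) (heZ : T.e jZ = 1) (h : ℝ) :
    T.pl (h • T.V jZ) = Pi.single T.v h - fun γ => if γ = jZ ∨ γ = T.v then 0 else h * T.om γ jZ := by
  rw [MpIn.pl_smul, MpIn.pl_V]
  funext γ
  by_cases g1 : γ = T.v
  · subst g1
    simp [MpIn.om, hT.e_v, hT.t_v, heZ]
  · by_cases g2 : γ = jZ
    · subst g2
      simp [MpIn.om_self, g1]
    · simp only [Pi.smul_apply, smul_eq_mul, Pi.sub_apply, Pi.single_eq_of_ne g1, g1, g2, or_self, if_false]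
      rw [MpIn.om_symm]; ring

theorem mptw_pl_E {T : MpIn N} (hT : T.Ok) (jZ : Fin N) (hZv : jZ ≠ T.v) (heZ : T.e jZ = 1) (h : ℝ) :
    T.pl (h • ((1 : ℝ), (0 : ℝ))) = Pi.single jZ h + fun γ => if γ = jZ ∨ γ = T.v then 0 else h * T.e γ := by
  funext γ
  by_cases g1 : γ = T.v
  · subst g1
    simp [MpIn.pl, hT.e_v, Pi.single_eq_of_ne (Ne.symm hZv)]
  · by_cases g2 : γ = jZ
    · subst g2
      simp [MpIn.pl, heZ]
    · simp [MpIn.pl, g1, g2]

theorem mptw_pwq {T : MpIn N} {Λ u₁ u₂ δ : ℝ} {F : (Fin N → ℝ) → ℝ} {L : ℝ≥0} (W : MptW T Λ u₁ u₂ δ F L)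
    (jZ : Fin N) (hZv : jZ < T.v) (hZ : ∀ β, β ≠ jZ → β ≠ T.v → β < jZ) (heZ : T.e jZ = 1) :
    ∃ K h₀ : ℝ, 0 ≤ K ∧ 0 < h₀ ∧
      (∀ h : ℝ, 0 ≤ h → ∀ y : Fin N → ℝ, (∀ γ, |y γ| ≤ h) → T.Cone (Pi.single T.v (h * K) + y)) ∧
      ∀ h : ℝ, 0 < h → h < h₀ → ∀ q ∈ mpatch Λ u₁ u₂ 0,
        0 ≤ mptwG1 T F jZ K h (q + h • T.V jZ) - mptwG1 T F jZ K h q
          + (mptwG2 T F jZ K h (q - h • ((1 : ℝ), (0 : ℝ))) - mptwG2 T F jZ K h q) := by
  have hT := W.ok
  have hne : jZ ≠ T.v := hZv.ne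
  obtain ⟨cW, hcW⟩ : ∃ cW : ℝ, cW = 1 + ∑ γ, (|T.om γ jZ| + |T.e γ|) := ⟨_, rfl⟩
  have hsum0 : 0 ≤ ∑ γ, (|T.om γ jZ| + |T.e γ|) := Finset.sum_nonneg fun γ _ => by positivity
  have hcW1 : 1 ≤ cW := by rw [hcW]; linarith
  have hterm : ∀ γ, |T.om γ jZ| + |T.e γ| ≤ cW := by
    intro γ
    have := Finset.single_le_sum (f := fun γ => |T.om γ jZ| + |T.e γ|) (fun γ _ => by positivity) (Finset.mem_univ γ)
    rw [hcW]; linarith
  obtain ⟨K, hK0, hK⟩ := mptw_exK hT cW (by linarith)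
  refine ⟨K, δ / (K + 4 * cW + 1), hK0, div_pos W.δ_pos (by linarith), ?_, ?_⟩
  · intro h hh y hy
    exact hK h hh y fun γ => (hy γ).trans (by nlinarith)
  intro h hh hh0 q hq
  rw [lt_div_iff₀ (by linarith)] at hh0
  obtain ⟨w, hw⟩ : ∃ w : Fin N → ℝ, w = fun γ => if γ = jZ ∨ γ = T.v then 0 else h * T.om γ jZ := ⟨_, rfl⟩
  obtain ⟨w', hw'⟩ : ∃ w' : Fin N → ℝ, w' = fun γ => if γ = jZ ∨ γ = T.v then 0 else h * T.e γ := ⟨_, rfl⟩
  have hρ0 : 0 ≤ cW * h := by positivity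
  have bw : ∀ γ, 0 ≤ w γ ∧ w γ ≤ cW * h := by
    intro γ
    rw [hw]
    by_cases g : γ = jZ ∨ γ = T.v
    · simp only [g, if_true]; exact ⟨le_rfl, hρ0⟩
    · simp only [g, if_false]
      push Not at g
      have h1 : 0 < T.om γ jZ := hT.om_pos γ jZ (hZ γ g.1 g.2)
      have h2 : T.om γ jZ ≤ cW := (le_abs_self _).trans (le_trans (by linarith [abs_nonneg (T.e γ)]) (hterm γ))
      exact ⟨by positivity, by nlinarith⟩
  have bw' : ∀ γ, 0 ≤ w' γ ∧ w' γ ≤ cW * h := by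
    intro γ
    rw [hw']
    by_cases g : γ = jZ ∨ γ = T.v
    · simp only [g, if_true]; exact ⟨le_rfl, hρ0⟩
    · simp only [g, if_false]
      push Not at g
      have h1 : 0 < T.om γ T.v := hT.om_pos γ T.v ((hZ γ g.1 g.2).trans hZv)
      have h1' : T.om γ T.v = T.e γ := by simp [MpIn.om, hT.e_v, hT.t_v]
      rw [h1'] at h1
      have h2 : T.e γ ≤ cW := (le_abs_self _).trans (le_trans (by linarith [abs_nonneg (T.om γ jZ)]) (hterm γ))
      exact ⟨by positivity, by nlinarith⟩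
  have P := mptw_pw W hq jZ hne (Pi.single T.v (h * K)) w w' h (cW * h) hh.le (by nlinarith) bw
    (by rw [hw]; simp) (by rw [hw]; simp) bw' (by rw [hw']; simp)
    (by rw [mptf_norm_single, abs_of_nonneg (by positivity)]; nlinarith) (hK h hh.le)
  have e1 : T.pl (q + h • T.V jZ) + Pi.single T.v (h * K) = T.pl q + (Pi.single T.v (h * K) + Pi.single T.v h - w) := by
    rw [MpIn.pl_add, mptw_pl_V hT jZ hne heZ, ← hw]; abel
  have e2 : T.pl (q - h • ((1 : ℝ), (0 : ℝ))) + (Pi.single T.v (h * K) + Pi.single jZ h)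
      = T.pl q + (Pi.single T.v (h * K) - w') := by
    have : T.pl q = T.pl (q - h • ((1 : ℝ), (0 : ℝ))) + T.pl (h • ((1 : ℝ), (0 : ℝ))) := by
      rw [← MpIn.pl_add, sub_add_cancel]
    rw [this, mptw_pl_E hT jZ hne heZ, ← hw']; abel
  unfold mptwG1 mptwG2
  rw [e1, e2]
  exact P

/-- shift of the variable -/
theorem mptw_shift (φ g : ℝ × ℝ → ℝ) (hφ : Continuous φ) (hc : HasCompactSupport φ) (hg : Continuous g) (a : ℝ × ℝ) :
    Integrable (fun q => φ q * g (q + a)) ∧ Integrable (fun q => φ (q - a) * g q) ∧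
      ∫ q, φ (q - a) * g q = ∫ q, φ q * g (q + a) := by
  have I1 : Integrable (fun q => φ q * g (q + a)) :=
    (hφ.mul (hg.comp (continuous_id.add continuous_const))).integrable_of_hasCompactSupport hc.mul_right
  have e : (fun q => φ (q - a) * g q) = fun q => (fun p => φ p * g (p + a)) (q - a) := by
    funext q; simp
  refine ⟨I1, ?_, ?_⟩
  · rw [e]; exact I1.comp_sub_right a
  · rw [e]; exact integral_sub_right_eq_self (fun p => φ p * g (p + a)) a

/-- integrated form of a pointwise inequality between translates -/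
theorem mptw_int (φ g₁ g₂ : ℝ × ℝ → ℝ) (hφ : Continuous φ) (hc : HasCompactSupport φ) (hφ0 : ∀ q, 0 ≤ φ q)
    (hg₁ : Continuous g₁) (hg₂ : Continuous g₂) (a b : ℝ × ℝ)
    (hpw : ∀ q, φ q ≠ 0 → 0 ≤ g₁ (q + a) - g₁ q + (g₂ (q - b) - g₂ q)) :
    0 ≤ ∫ q, ((φ (q - a) - φ q) * g₁ q + (φ (q + b) - φ q) * g₂ q) := by
  obtain ⟨A1, A2, A3⟩ := mptw_shift φ g₁ hφ hc hg₁ a
  obtain ⟨B1, B2, B3⟩ := mptw_shift φ g₂ hφ hc hg₂ (-b)
  simp only [sub_neg_eq_add, ← sub_eq_add_neg] at B1 B2 B3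
  have C1 : Integrable (fun q => φ q * g₁ q) := (hφ.mul hg₁).integrable_of_hasCompactSupport hc.mul_right
  have C2 : Integrable (fun q => φ q * g₂ q) := (hφ.mul hg₂).integrable_of_hasCompactSupport hc.mul_right
  have h0 : 0 ≤ ∫ q, φ q * (g₁ (q + a) - g₁ q + (g₂ (q - b) - g₂ q)) := by
    refine integral_nonneg fun q => ?_
    by_cases h : φ q = 0
    · simp [h]
    · exact mul_nonneg (hφ0 q) (hpw q h)
  have h1 : ∫ q, φ q * (g₁ (q + a) - g₁ q + (g₂ (q - b) - g₂ q))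
      = (∫ q, φ q * g₁ (q + a)) - (∫ q, φ q * g₁ q) + ((∫ q, φ q * g₂ (q - b)) - ∫ q, φ q * g₂ q) := by
    have D1 : Integrable (fun q => φ q * g₁ (q + a) - φ q * g₁ q) := A1.sub C1
    have D2 : Integrable (fun q => φ q * g₂ (q - b) - φ q * g₂ q) := B1.sub C2
    have e : (fun q => φ q * (g₁ (q + a) - g₁ q + (g₂ (q - b) - g₂ q)))
        = fun q => (φ q * g₁ (q + a) - φ q * g₁ q) + (φ q * g₂ (q - b) - φ q * g₂ q) := by
      funext q; ring
    rw [e, integral_add D1 D2, integral_sub A1 C1, integral_sub B1 C2]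
  have h2 : ∫ q, ((φ (q - a) - φ q) * g₁ q + (φ (q + b) - φ q) * g₂ q)
      = (∫ q, φ (q - a) * g₁ q) - (∫ q, φ q * g₁ q) + ((∫ q, φ (q + b) * g₂ q) - ∫ q, φ q * g₂ q) := by
    have D1 : Integrable (fun q => φ (q - a) * g₁ q - φ q * g₁ q) := A2.sub C1
    have D2 : Integrable (fun q => φ (q + b) * g₂ q - φ q * g₂ q) := B2.sub C2
    have e : (fun q => (φ (q - a) - φ q) * g₁ q + (φ (q + b) - φ q) * g₂ q)
        = fun q => (φ (q - a) * g₁ q - φ q * g₁ q) + (φ (q + b) * g₂ q - φ q * g₂ q) := by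
      funext q; ring
    rw [e, integral_add D1 D2, integral_sub A2 C1, integral_sub B2 C2]
  rw [h2, A3, B3, ← h1]
  exact h0

/-- difference quotients of `φ` along a sequence of scales -/
theorem mptw_dq (φ : ℝ × ℝ → ℝ) (q V : ℝ × ℝ) (ψ : ℝ) (hd : HasLineDerivAt ℝ φ ψ q V) (hs : ℕ → ℝ)
    (hpos : ∀ l, 0 < hs l) (hlim : Tendsto hs atTop (𝓝 0)) :
    Tendsto (fun l => (φ (q + hs l • V) - φ q) / hs l) atTop (𝓝 ψ) ∧
      Tendsto (fun l => (φ (q - hs l • V) - φ q) / hs l) atTop (𝓝 (-ψ)) := by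
  have h0 : Tendsto (fun t : ℝ => t⁻¹ • ((fun t : ℝ => φ (q + t • V)) (0 + t) - (fun t : ℝ => φ (q + t • V)) 0))
      (𝓝[≠] 0) (𝓝 ψ) := HasDerivAt.tendsto_slope_zero hd
  simp only [zero_add, zero_smul, add_zero, smul_eq_mul] at h0
  have t1 : Tendsto hs atTop (𝓝[≠] 0) :=
    tendsto_nhdsWithin_iff.2 ⟨hlim, Eventually.of_forall fun l => (hpos l).ne'⟩
  have t2 : Tendsto (fun l => - hs l) atTop (𝓝[≠] 0) :=
    tendsto_nhdsWithin_iff.2 ⟨by simpa using hlim.neg, Eventually.of_forall fun l => by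
      simpa using (hpos l).ne'⟩
  constructor
  · refine (h0.comp t1).congr fun l => ?_
    simp only [Function.comp]
    rw [div_eq_inv_mul]
  · refine ((h0.comp t2).neg).congr fun l => ?_
    simp only [Function.comp]
    rw [neg_smul, ← sub_eq_add_neg, div_eq_inv_mul, inv_neg]; ring

/-- the affine blow-up gives the limit of the difference quotient between two cone directions -/
theorem mptw_aff {T : MpIn N} {Λ u₁ u₂ δ : ℝ} {F : (Fin N → ℝ) → ℝ} {L : ℝ≥0} (W : MptW T Λ u₁ u₂ δ F L)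
    {q : ℝ × ℝ} (hq : q ∈ mpatch Λ u₁ u₂ 0) (hs : ℕ → ℝ) (hpos : ∀ l, 0 < hs l) (hlim : Tendsto hs atTop (𝓝 0))
    (a : Fin N → ℝ) (haff : T.AffAt q hs a) (ξ ξ' : Fin N → ℝ) (hξ : T.Cone ξ) (hξ' : T.Cone ξ') :
    Tendsto (fun l => (F (T.pl q + hs l • ξ') - F (T.pl q + hs l • ξ)) / hs l) atTop
      (𝓝 (∑ α, a α * ξ' α - ∑ α, a α * ξ α)) := by
  rw [Metric.tendsto_nhds]
  intro ε hε
  have hsm : ∀ᶠ l in atTop, hs l * (‖ξ‖ + ‖ξ'‖ + 1) < δ := by
    have : Tendsto (fun l => hs l * (‖ξ‖ + ‖ξ'‖ + 1)) atTop (𝓝 (0 * (‖ξ‖ + ‖ξ'‖ + 1))) := hlim.mul_const _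
    rw [zero_mul] at this
    exact this.eventually (gt_mem_nhds W.δ_pos)
  filter_upwards [haff (‖ξ‖ + ‖ξ'‖) (ε / 3) (by positivity), hsm] with l hl hl2
  have hh := hpos l
  have c1 : T.Cone (hs l • ξ) := by
    rw [MpIn.cone_iff] at hξ ⊢
    intro k; rw [MpIn.lf_smul]; exact mul_nonpos_of_nonneg_of_nonpos hh.le (hξ k)
  have c2 : T.Cone (hs l • ξ') := by
    rw [MpIn.cone_iff] at hξ' ⊢
    intro k; rw [MpIn.lf_smul]; exact mul_nonpos_of_nonneg_of_nonpos hh.le (hξ' k)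
  have n1 : ‖hs l • ξ‖ < δ := by
    rw [norm_smul, Real.norm_eq_abs, abs_of_pos hh]
    nlinarith [norm_nonneg ξ, norm_nonneg ξ']
  have n2 : ‖hs l • ξ'‖ < δ := by
    rw [norm_smul, Real.norm_eq_abs, abs_of_pos hh]
    nlinarith [norm_nonneg ξ, norm_nonneg ξ']
  rw [(W.dom hq c1 n1).2, (W.dom hq c2 n2).2]
  have e1 := hl ξ hξ fun α => (norm_le_pi_norm ξ α).trans (by linarith [norm_nonneg ξ'])
  have e2 := hl ξ' hξ' fun α => (norm_le_pi_norm ξ' α).trans (by linarith [norm_nonneg ξ])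
  rw [Real.dist_eq]
  have : (T.f (T.pl q + hs l • ξ') - T.f (T.pl q + hs l • ξ)) / hs l - (∑ α, a α * ξ' α - ∑ α, a α * ξ α)
      = ((T.f (T.pl q + hs l • ξ') - T.f (T.pl q) - hs l * ∑ α, a α * ξ' α)
        - (T.f (T.pl q + hs l • ξ) - T.f (T.pl q) - hs l * ∑ α, a α * ξ α)) / hs l := by
    field_simp; ring
  rw [this, abs_div, abs_of_pos hh, div_lt_iff₀ hh]
  have := abs_sub (T.f (T.pl q + hs l • ξ') - T.f (T.pl q) - hs l * ∑ α, a α * ξ' α)
    (T.f (T.pl q + hs l • ξ) - T.f (T.pl q) - hs l * ∑ α, a α * ξ α)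
  nlinarith

theorem mptw_patch_shift {Λ u₁ u₂ r : ℝ} {q a : ℝ × ℝ} (ha : ‖a‖ ≤ r) (h : q + a ∈ mpatch Λ u₁ u₂ r) :
    q ∈ mpatch Λ u₁ u₂ 0 := by
  unfold mpatch at h ⊢
  simp only [mem_prod, mem_Ioo, Prod.fst_add, Prod.snd_add, add_zero, sub_zero] at h ⊢
  have h1 : |a.1| ≤ r := (norm_fst_le a).trans ha
  have h2 : |a.2| ≤ r := (norm_snd_le a).trans ha
  rw [abs_le] at h1 h2
  obtain ⟨⟨a1, a2⟩, a3, a4⟩ := h
  exact ⟨⟨by linarith, by linarith⟩, by linarith, by linarith⟩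

theorem mptw_patch_norm {Λ u₁ u₂ r : ℝ} (hr : 0 ≤ r) (h1 : 0 ≤ u₁) (h2 : u₂ ≤ 1) {q : ℝ × ℝ} (h : q ∈ mpatch Λ u₁ u₂ r) :
    ‖q‖ ≤ Λ + 1 := by
  unfold mpatch at h
  simp only [mem_prod, mem_Ioo] at h
  obtain ⟨⟨a1, a2⟩, a3, a4⟩ := h
  rw [Prod.norm_def]
  refine max_le ?_ ?_
  · rw [Real.norm_eq_abs, abs_le]; constructor <;> linarith
  · rw [Real.norm_eq_abs, abs_le]; constructor <;> linarith

theorem mptw_G1_cont {T : MpIn N} {F : (Fin N → ℝ) → ℝ} (hF : Continuous F) (jZ : Fin N) (K h : ℝ) :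
    Continuous (mptwG1 T F jZ K h) := by
  unfold mptwG1
  exact mptD_cont hF T jZ h _

theorem mptw_G2_cont {T : MpIn N} {F : (Fin N → ℝ) → ℝ} (hF : Continuous F) (jZ : Fin N) (K h : ℝ) :
    Continuous (mptwG2 T F jZ K h) := by
  unfold mptwG2
  exact mptD_cont hF T T.v h _

/-- limits of the two difference quotients at an affine point -/
theorem mptw_G_lim {T : MpIn N} {Λ u₁ u₂ δ : ℝ} {F : (Fin N → ℝ) → ℝ} {L : ℝ≥0} (W : MptW T Λ u₁ u₂ δ F L)
    {q : ℝ × ℝ} (hq : q ∈ mpatch Λ u₁ u₂ 0) (hs : ℕ → ℝ) (hpos : ∀ l, 0 < hs l) (hlim : Tendsto hs atTop (𝓝 0))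
    (a : Fin N → ℝ) (haff : T.AffAt q hs a) (jZ : Fin N) (K : ℝ)
    (hKc : ∀ h : ℝ, 0 ≤ h → ∀ y : Fin N → ℝ, (∀ γ, |y γ| ≤ h) → T.Cone (Pi.single T.v (h * K) + y)) (hZv : jZ ≠ T.v) :
    Tendsto (fun l => mptwG1 T F jZ K (hs l) q / hs l) atTop (𝓝 (a jZ)) ∧
      Tendsto (fun l => mptwG2 T F jZ K (hs l) q / hs l) atTop (𝓝 (a T.v)) := by
  classical
  obtain ⟨ξ0, h0⟩ : ∃ ξ0 : Fin N → ℝ, ξ0 = Pi.single T.v K := ⟨_, rfl⟩
  obtain ⟨ξ1, h1⟩ : ∃ ξ1 : Fin N → ℝ, ξ1 = Pi.single T.v K + Pi.single jZ 1 := ⟨_, rfl⟩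
  obtain ⟨ξ2, h2⟩ : ∃ ξ2 : Fin N → ℝ, ξ2 = Pi.single T.v K + (Pi.single jZ 1 + Pi.single T.v 1) := ⟨_, rfl⟩
  have c0 : T.Cone ξ0 := by
    have := hKc 1 zero_le_one 0 (fun γ => by simp)
    rwa [one_mul, add_zero, ← h0] at this
  have c1 : T.Cone ξ1 := by
    have := hKc 1 zero_le_one (Pi.single jZ 1) (fun γ => by
      by_cases g : γ = jZ
      · subst g; simp
      · simp [Pi.single_eq_of_ne g])
    rwa [one_mul, ← h1] at this
  have c2 : T.Cone ξ2 := by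
    have := hKc 1 zero_le_one (Pi.single jZ 1 + Pi.single T.v 1) (fun γ => by
      by_cases g : γ = jZ
      · subst g; simp [Pi.single_eq_of_ne hZv]
      · by_cases g' : γ = T.v
        · subst g'; simp [Pi.single_eq_of_ne g]
        · simp [Pi.single_eq_of_ne g, Pi.single_eq_of_ne g'])
    rwa [one_mul, ← h2] at this
  have s0 : ∑ α, a α * ξ0 α = a T.v * K := by
    rw [h0]; simp [Pi.single_apply]
  have s1 : ∑ α, a α * ξ1 α = a T.v * K + a jZ := by
    rw [h1]; simp [Pi.single_apply, mul_add, Finset.sum_add_distrib]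
  have s2 : ∑ α, a α * ξ2 α = a T.v * K + (a jZ + a T.v) := by
    rw [h2]; simp [Pi.single_apply, mul_add, Finset.sum_add_distrib]
  have m0 : ∀ h : ℝ, h • ξ0 = Pi.single T.v (h * K) := by
    intro h; rw [h0, ← Pi.single_smul, smul_eq_mul]
  have m1 : ∀ h : ℝ, h • ξ1 = Pi.single T.v (h * K) + Pi.single jZ h := by
    intro h; rw [h1, smul_add, ← Pi.single_smul, ← Pi.single_smul, smul_eq_mul, smul_eq_mul, mul_one]
  have m2 : ∀ h : ℝ, h • ξ2 = Pi.single T.v (h * K) + Pi.single jZ h + Pi.single T.v h := by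
    intro h
    rw [h2, smul_add, smul_add, ← Pi.single_smul, ← Pi.single_smul, ← Pi.single_smul, smul_eq_mul, smul_eq_mul,
      mul_one, add_assoc]
  constructor
  · have := mptw_aff W hq hs hpos hlim a haff ξ0 ξ1 c0 c1
    rw [s0, s1, add_sub_cancel_left] at this
    refine this.congr fun l => ?_
    unfold mptwG1 mptD
    rw [m0, m1, add_assoc]
  · have := mptw_aff W hq hs hpos hlim a haff ξ1 ξ2 c1 c2
    rw [s1, s2] at this
    have e : a T.v * K + (a jZ + a T.v) - (a T.v * K + a jZ) = a T.v := by ring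
    rw [e] at this
    refine this.congr fun l => ?_
    unfold mptwG2 mptD
    rw [m1, m2, add_assoc (T.pl q)]

/-- the rescaled integrand -/
noncomputable def mptwH (T : MpIn N) (F : (Fin N → ℝ) → ℝ) (jZ : Fin N) (K : ℝ) (φ : ℝ × ℝ → ℝ) (h : ℝ) (q : ℝ × ℝ) : ℝ :=
  (φ (q - h • T.V jZ) - φ q) / h * (mptwG1 T F jZ K h q / h)
    + (φ (q + h • ((1 : ℝ), (0 : ℝ))) - φ q) / h * (mptwG2 T F jZ K h q / h)

theorem mptw_H_eq (T : MpIn N) (F : (Fin N → ℝ) → ℝ) (jZ : Fin N) (K : ℝ) (φ : ℝ × ℝ → ℝ) (h : ℝ) (q : ℝ × ℝ) :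
    mptwH T F jZ K φ h q = (h ^ 2)⁻¹ * ((φ (q - h • T.V jZ) - φ q) * mptwG1 T F jZ K h q
      + (φ (q + h • ((1 : ℝ), (0 : ℝ))) - φ q) * mptwG2 T F jZ K h q) := by
  unfold mptwH
  by_cases hh : h = 0
  · subst hh; simp
  · field_simp

theorem mptw_H_bound {T : MpIn N} {F : (Fin N → ℝ) → ℝ} {L' : ℝ≥0} (hF : LipschitzWith L' F) (jZ : Fin N) (K : ℝ)
    (φ : ℝ × ℝ → ℝ) (L : ℝ≥0) (hφL : LipschitzWith L φ) (h : ℝ) (hh : 0 < h) (q : ℝ × ℝ) :
    |mptwH T F jZ K φ h q| ≤ L * ‖T.V jZ‖ * L' + L * ‖((1 : ℝ), (0 : ℝ))‖ * L' := by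
  have d1 : |(φ (q - h • T.V jZ) - φ q) / h| ≤ L * ‖T.V jZ‖ := by
    rw [abs_div, abs_of_pos hh, div_le_iff₀ hh]
    have := hφL.dist_le_mul (q - h • T.V jZ) q
    rw [Real.dist_eq, dist_eq_norm, sub_sub_cancel_left, norm_neg, norm_smul, Real.norm_eq_abs, abs_of_pos hh] at this
    linarith
  have d2 : |(φ (q + h • ((1 : ℝ), (0 : ℝ))) - φ q) / h| ≤ L * ‖((1 : ℝ), (0 : ℝ))‖ := by
    rw [abs_div, abs_of_pos hh, div_le_iff₀ hh]
    have := hφL.dist_le_mul (q + h • ((1 : ℝ), (0 : ℝ))) q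
    rw [Real.dist_eq, dist_eq_norm, add_sub_cancel_left, norm_smul, Real.norm_eq_abs, abs_of_pos hh] at this
    linarith
  have g1 : |mptwG1 T F jZ K h q / h| ≤ L' := by
    rw [abs_div, abs_of_pos hh, div_le_iff₀ hh]
    have := mptD_abs_le hF jZ h (T.pl q + Pi.single T.v (h * K))
    rwa [abs_of_pos hh] at this
  have g2 : |mptwG2 T F jZ K h q / h| ≤ L' := by
    rw [abs_div, abs_of_pos hh, div_le_iff₀ hh]
    have := mptD_abs_le hF T.v h (T.pl q + (Pi.single T.v (h * K) + Pi.single jZ h))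
    rwa [abs_of_pos hh] at this
  unfold mptwH
  refine (abs_add_le _ _).trans (add_le_add ?_ ?_)
  · rw [abs_mul]; exact mul_le_mul d1 g1 (abs_nonneg _) (by positivity)
  · rw [abs_mul]; exact mul_le_mul d2 g2 (abs_nonneg _) (by positivity)

/-- **WEAK**, under the working hypotheses -/
theorem mptw_main {T : MpIn N} {Λ u₁ u₂ δ : ℝ} {F : (Fin N → ℝ) → ℝ} {L' : ℝ≥0} (W : MptW T Λ u₁ u₂ δ F L')
    (O : MpOut T Λ u₁ u₂) (jZ : Fin N) (hZv : jZ < T.v) (hZ : ∀ β, β ≠ jZ → β ≠ T.v → β < jZ) (heZ : T.e jZ = 1)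
    (φ ψ₁ ψ₂ : ℝ × ℝ → ℝ) (L : ℝ≥0) (hφL : LipschitzWith L φ) (hφ0 : ∀ q, 0 ≤ φ q) (r : ℝ) (hr : 0 < r)
    (hsupp : ∀ q, q ∉ mpatch Λ u₁ u₂ r → φ q = 0)
    (hd₁ : ∀ᵐ q : ℝ × ℝ, HasLineDerivAt ℝ φ (ψ₁ q) q (T.V jZ))
    (hd₂ : ∀ᵐ q : ℝ × ℝ, HasLineDerivAt ℝ φ (ψ₂ q) q ((1, 0) : ℝ × ℝ)) :
    ∫ q : ℝ × ℝ, (O.A jZ q * ψ₁ q - O.A T.v q * ψ₂ q) ≤ 0 := by
  obtain ⟨K, h₀, hK0, hh₀, hKc, hpw⟩ := mptw_pwq W jZ hZv hZ heZ
  have hu1 : 0 ≤ u₁ := by linarith [W.δ_u₁, W.δ_pos]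
  have hu2 : u₂ ≤ 1 := by linarith [W.δ_u₂, W.δ_pos]
  have hφc : Continuous φ := hφL.continuous
  have hnorm0 : ∀ p : ℝ × ℝ, Λ + 1 < ‖p‖ → φ p = 0 := fun p hp =>
    hsupp p fun h => absurd (mptw_patch_norm hr.le hu1 hu2 h) (not_le.2 hp)
  have hcs : HasCompactSupport φ :=
    HasCompactSupport.intro (K := Metric.closedBall 0 (Λ + 1)) (isCompact_closedBall _ _) fun p hp =>
      hnorm0 p (by simpa [Metric.mem_closedBall, dist_zero_right] using hp)
  obtain ⟨V, hV⟩ : ∃ V : ℝ × ℝ, V = T.V jZ := ⟨_, rfl⟩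
  obtain ⟨E, hE⟩ : ∃ E : ℝ × ℝ, E = ((1 : ℝ), (0 : ℝ)) := ⟨_, rfl⟩
  obtain ⟨C, hC⟩ : ∃ C : ℝ, C = L * ‖T.V jZ‖ * L' + L * ‖((1 : ℝ), (0 : ℝ))‖ * L' := ⟨_, rfl⟩
  obtain ⟨R₀, hR₀⟩ : ∃ R₀ : ℝ, R₀ = Λ + 1 + ‖V‖ + ‖E‖ := ⟨_, rfl⟩
  have hC0 : 0 ≤ C := by rw [hC]; positivity
  -- smallness of the scales
  have ev1 : ∀ᶠ l in atTop, O.hs l < h₀ := O.hs_lim.eventually (gt_mem_nhds hh₀)
  have ev2 : ∀ᶠ l in atTop, O.hs l < 1 := O.hs_lim.eventually (gt_mem_nhds one_pos)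
  have ev3 : ∀ᶠ l in atTop, O.hs l * (‖V‖ + ‖E‖ + 1) < r := by
    have : Tendsto (fun l => O.hs l * (‖V‖ + ‖E‖ + 1)) atTop (𝓝 (0 * (‖V‖ + ‖E‖ + 1))) := O.hs_lim.mul_const _
    rw [zero_mul] at this
    exact this.eventually (gt_mem_nhds hr)
  -- nonnegativity of the integrals
  have hnn : ∀ᶠ l in atTop, 0 ≤ ∫ q, mptwH T F jZ K φ (O.hs l) q := by
    filter_upwards [ev1] with l hl
    have := mptw_int φ (mptwG1 T F jZ K (O.hs l)) (mptwG2 T F jZ K (O.hs l)) hφc hcs hφ0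
      (mptw_G1_cont W.cont jZ K _) (mptw_G2_cont W.cont jZ K _) (O.hs l • T.V jZ) (O.hs l • ((1 : ℝ), (0 : ℝ)))
      (fun q hq => hpw (O.hs l) (O.hs_pos l) hl q (by
        by_contra hcon
        refine hq (hsupp q fun h => hcon ?_)
        exact mptw_patch_shift (a := 0) (by simpa using hr.le) (by simpa using h)))
    simp only [mptw_H_eq]
    rw [integral_const_mul]
    exact mul_nonneg (by have := O.hs_pos l; positivity) this
  -- dominated convergence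
  have hlim : Tendsto (fun l => ∫ q, mptwH T F jZ K φ (O.hs l) q) atTop
      (𝓝 (∫ q, -(O.A jZ q * ψ₁ q - O.A T.v q * ψ₂ q))) := by
    refine tendsto_integral_filter_of_dominated_convergence
      ((Metric.closedBall (0 : ℝ × ℝ) R₀).indicator fun _ => C) ?_ ?_ ?_ ?_
    · refine Eventually.of_forall fun l => Continuous.aestronglyMeasurable ?_
      unfold mptwH
      have c1 := mptw_G1_cont (T := T) W.cont jZ K (O.hs l)
      have c2 := mptw_G2_cont (T := T) W.cont jZ K (O.hs l)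
      fun_prop
    · filter_upwards [ev2] with l hl
      refine Eventually.of_forall fun q => ?_
      have hh := O.hs_pos l
      by_cases hq : q ∈ Metric.closedBall (0 : ℝ × ℝ) R₀
      · rw [indicator_of_mem hq, Real.norm_eq_abs, hC]
        exact mptw_H_bound W.lip jZ K φ L hφL _ hh q
      · rw [indicator_of_notMem hq]
        have hq' : R₀ < ‖q‖ := by simpa [Metric.mem_closedBall, dist_zero_right] using hq
        have z0 : φ q = 0 := hnorm0 q (by rw [hR₀] at hq'; linarith [norm_nonneg V, norm_nonneg E])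
        have z1 : φ (q - O.hs l • T.V jZ) = 0 := by
          rw [← hV]
          refine hnorm0 _ ?_
          have := norm_sub_norm_le q (O.hs l • V)
          rw [norm_smul, Real.norm_eq_abs, abs_of_pos hh] at this
          rw [hR₀] at hq'
          nlinarith [norm_nonneg V, norm_nonneg E, mul_nonneg (sub_nonneg.2 hl.le) (norm_nonneg V)]
        have z2 : φ (q + O.hs l • ((1 : ℝ), (0 : ℝ))) = 0 := by
          rw [← hE]
          refine hnorm0 _ ?_
          have := norm_sub_norm_le q (-(O.hs l • E))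
          rw [sub_neg_eq_add, norm_neg, norm_smul, Real.norm_eq_abs, abs_of_pos hh] at this
          rw [hR₀] at hq'
          nlinarith [norm_nonneg V, norm_nonneg E, mul_nonneg (sub_nonneg.2 hl.le) (norm_nonneg E)]
        unfold mptwH
        rw [z0, z1, z2]; simp
    · rw [integrable_indicator_iff measurableSet_closedBall]
      exact integrableOn_const (by exact measure_closedBall_lt_top.ne)
    · filter_upwards [hd₁, hd₂, O.aff] with q h1 h2 h3
      have D1 := (mptw_dq φ q (T.V jZ) (ψ₁ q) h1 O.hs O.hs_pos O.hs_lim).2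
      have D2 := (mptw_dq φ q ((1 : ℝ), (0 : ℝ)) (ψ₂ q) h2 O.hs O.hs_pos O.hs_lim).1
      by_cases hq : q ∈ mpatch Λ u₁ u₂ 0
      · obtain ⟨G1, G2⟩ := mptw_G_lim W hq O.hs O.hs_pos O.hs_lim (fun α => O.A α q) (h3 hq) jZ K hKc hZv.ne
        have := (D1.mul G1).add (D2.mul G2)
        have e : -ψ₁ q * O.A jZ q + ψ₂ q * O.A T.v q = -(O.A jZ q * ψ₁ q - O.A T.v q * ψ₂ q) := by ring
        rw [e] at this
        exact this
      · have z0 : φ q = 0 := hsupp q fun h => hq (mptw_patch_shift (a := 0) (by simpa using hr.le) (by simpa using h))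
        have z1 : ∀ᶠ l in atTop, φ (q - O.hs l • T.V jZ) = 0 := by
          filter_upwards [ev3] with l hl
          refine hsupp _ fun h => hq (mptw_patch_shift (a := -(O.hs l • T.V jZ)) ?_ (by rwa [← sub_eq_add_neg]))
          rw [norm_neg, norm_smul, Real.norm_eq_abs, abs_of_pos (O.hs_pos l), ← hV]
          nlinarith [norm_nonneg V, norm_nonneg E, O.hs_pos l]
        have z2 : ∀ᶠ l in atTop, φ (q + O.hs l • ((1 : ℝ), (0 : ℝ))) = 0 := by
          filter_upwards [ev3] with l hl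
          refine hsupp _ fun h => hq (mptw_patch_shift (a := O.hs l • ((1 : ℝ), (0 : ℝ))) ?_ h)
          rw [norm_smul, Real.norm_eq_abs, abs_of_pos (O.hs_pos l), ← hE]
          nlinarith [norm_nonneg V, norm_nonneg E, O.hs_pos l]
        have p1 : -ψ₁ q = 0 := by
          refine tendsto_nhds_unique D1 (tendsto_const_nhds.congr' ?_)
          filter_upwards [z1] with l hl
          rw [hl, z0]; simp
        have p2 : ψ₂ q = 0 := by
          refine tendsto_nhds_unique D2 (tendsto_const_nhds.congr' ?_)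
          filter_upwards [z2] with l hl
          rw [hl, z0]; simp
        have p1' : ψ₁ q = 0 := by linarith
        rw [p1', p2]
        simp only [mul_zero, sub_zero, neg_zero]
        refine tendsto_const_nhds.congr' ?_
        filter_upwards [z1, z2] with l hl1 hl2
        unfold mptwH
        rw [hl1, hl2, z0]; simp
  have hfin : 0 ≤ ∫ q, -(O.A jZ q * ψ₁ q - O.A T.v q * ψ₂ q) := ge_of_tendsto hlim hnn
  rw [integral_neg] at hfin
  linarith

theorem mptw_eqns_cite : True := by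
  have := @mptwG1.eq_1
  have := @mptwG2.eq_1
  have := @mptwH.eq_1
  trivial

end Claimed.Agent.R255
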