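-- KEEP
import Claimed.Agent.R255.Plane.TrFlux
import Claimed.Agent.R255.Plane.TrWeak
import Claimed.Agent.R255.Plane.TrBIn

/-!
# Row 255, block (B), CHAPTER A = Theorem 6.1 (characteristic-plane traces), abstract form      (architect helper7)

EXITS: `mpt_lip` (A1), `mpt_main` (fields, affine blow-up a.e. along ONE sequence of scales, directional BV) and `mpt_weak` (= (6.7) `V_n a_n ≥ ∂_i D`, weak form).
No smoothing, no distributions, no measures `ν`: only rectangle differences, translations of the plane and `L¹` estimates.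

NOTATION. `1_α = Pi.single α 1`; `R_{αβ}(z;h,k) = f(z+h1_α+k1_β) - f(z+h1_α) - f(z+k1_β) + f(z) ≤ 0`;
`P^h_α(q;η) = (f(Π q + η + h 1_α) - f(Π q + η))/h ∈ [0, d α]`; `Π(q + s V α) = Π q + s ∑_β om α β 1_β` (no `α` component);
`χ` = a Lipschitz cut-off, `> 0` exactly on the patch `mpatch Λ u₁ u₂ 0` (e.g. distance to the complement, capped by 1); `‖g‖_χ = ∫ χ |g|`.
All offsets `η` are small: `|η| ≤ δ₀ < min u₁ (1-u₂)`, so the label of `Π q + η` stays in `(0,1)` on the support of `χ`.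
`mg η = min_l (-λ_l η)` = margin of an offset in the cone; `1_v` is interior (`lam_v`), `ζ_α` := `1_v` (`α ≠ v`), `1_v - t` (`α = v`): interior, `α`-component `0`.

PLAN (each step = one file / one or two leaves).
A1 LIP. `f` is Lipschitz on `Dom ∩ {δ₀ ≤ label ≤ 1-δ₀}`: for `z, z'` raise both labels to `max + C|z-z'|`, then move the data coordinates one at a time
   (all intermediate points are in `Dom` by the margin gained), use `cap`.  Extend: `F` globally Lipschitz, `= f` there (`LipschitzOnWith.extend_real`).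
A2 FLUX (✦). `∃ C, ∀ α ≠ β, ∀ η h k` (small, `0 ≤ h,k`, the four corners `η, η+h1_α, η+k1_β, η+h1_α+k1_β` in the closed cone): `∫ χ(q) |R_{αβ}(Π q+η;h,k)| dq ≤ C h k`.
   Strong induction on `min α β =: α`.  (i) rectangles small against the margin of `η`: put `s = k / om α β` and telescope
   `δ^h_α f(Π(q+sV α)+η) - δ^h_α f(Π q+η)` over the coordinates `γ ≠ α`, the step `β` FIRST (so its base point is `η`).  Steps `γ > α` are `R_{αγ} ≤ 0`,
   steps `γ < α` are `-R_{αγ}(· - κ1_γ) ≥ 0` and are bounded by the induction hypothesis (`R` symmetric).  The left side integrated against `χ` is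
   `∫ (χ(q - sV α) - χ(q)) δ^h_α f ≥ - Lip(χ) |V α| s · area · d α h`.  (ii) corners interior: cut into `n × n` subrectangles (`R` additive; the margin on the rectangle is
   the minimum over the corners).  (iii) closed cone: replace `η` by `η + κ 1_v`, `κ ↓ 0`, continuity of `f` + dominated convergence.
A3 STAIR. `η, η'` interior, same `α`-component, `θ` small against both margins: `‖P^θ_α(·;η) - P^θ_α(·;η')‖_χ ≤ C |η-η'|₁`  (staircase along the segment, steps `≤` margin; A2 divided by `θ`).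
A4 SLICE. For EVERY interior `η₀`: `P^θ_α(·;η₀)` is Cauchy in `‖ ‖_χ` as `θ ↓ 0`.  Take `a_α ∈ ℝ²` with `(Π a_α)_α = 1` (`(1,0)` resp. `(0,1)`), `ρ_α = Π a_α - 1_α`,
   `𝒢(q,σ) = F(Π q + η₀ - σ ρ_α)`; then `P^θ_α(q;η₀-σρ_α) = (𝒢(q+θ a_α, σ+θ) - 𝒢(q,σ))/θ`.  `LipschitzWith.ae_lineDifferentiableAt` on `(ℝ×ℝ)×ℝ` + Fubini: for a.e. `σ` convergence for a.e. `q`,
   hence (dominated) Cauchy; A3 moves `σ` to `0` at cost `C σ`.
A5 FIELD. `U_κ := lim_θ P^θ_α(·;κ ζ_α)` is Cauchy as `κ ↓ 0` (A3); `A α` := a measurable limit with values in `[0, d α]` (`cauchy_complete_eLpNorm`, then clamp).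
A6 OFFSET. `N(η) := limsup_θ ‖P^θ_α(·;η) - A α‖_χ ≤ C|η| + ω(C|η|)`, `ω` = `L¹` translation modulus of `A α` on the patch:
   `Π q + η = Π(q + η_α a_α) + η♮`, `η♮ = η - η_α Π a_α` (zero `α`-component, same margin), A3 between `η♮` and `κ ζ_α`, `κ ↓ 0`.
A7 QUOT (I2). `∀ ε ∃ δ`: `η`, `η + h 1_α` in the CLOSED cone, `|η| ≤ δ`, `0 < h ≤ δ` ⟹ `‖P^h_α(·;η) - A α‖_χ ≤ ε`.   Interior first:
   `P^h_α(q;η) = h⁻¹ ∫_0^h u(Π q+η+τ1_α) dτ`, `u = lineDeriv F · 1_α` (FTC for Lipschitz functions on lines); for a.e. `τ`, a.e. `q`: `u(..) = lim_θ P^θ_α(q;η+τ1_α)` (Fubini), so by Tonelli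
   the norm is `≤ sup_τ N(η+τ1_α)`.  Closed cone: add `κ 1_v`, `κ ↓ 0`.
A8 DIR. `ξ` in the cone: `(f(Π q+hξ) - f(Π q))/h → ∑ A α ξ_α` in `‖ ‖_χ`.  Path inside the cone: label up by `K h` (`K ≥ C|ξ|`), the data coordinates in any order, label down to `ξ_v h`; A7 for each step.
A9 AFF. countable dense subset of the cone, diagonal subsequence `hs` with summable errors ⟹ a.e. convergence for all of them; uniformity on `|ξ| ≤ R` from A1 (equi-Lipschitz + finite nets).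
A10 BV. `A α(q+sV α) - A α(q)`: `P^θ_α(q+sV α;η) = P^θ_α(q;η + s Π(V α))`, `Π(V α)` has no `α`-component and lies in the lineality space (margin unchanged): A3 gives `C s`; pass to the limit with A5/A6.
WEAK. pointwise inequality for `η` interior with margin `≫ h`:
   `[δ^h_Z f(Π(q+hV_Z)+η) - δ^h_Z f(Π q+η)] + [δ^h_v f(Π(q-(h,0))+η+h1_Z) - δ^h_v f(Π q+η+h1_Z)] ≥ 0`
   (telescope the first bracket with the `v`-step first, the second with the `Z`-step first: the two `R_{Zv}(Π q+η;h,h)` cancel, all other terms are `≥ 0`).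
   Take `η = K h 1_v`, `h = hs l`, divide by `h²`, multiply by `φ ≥ 0`, shift the variable, and use `aff` (a.e. convergence of `P^h_Z(q;K h 1_v) → A Z`, `P^h_v(..) → A v`) + dominated convergence.
-/

set_option autoImplicit false

namespace Claimed.Agent.R255

open Filter Topology MeasureTheory Set
open scoped NNReal

/-- A1: `f` is Lipschitz on the part of the domain with label in `[δ, 1-δ]` (closed faces included) -/
theorem mpt_lip {N : ℕ} (T : MpIn N) (hT : T.Ok) (δ : ℝ) (hδ : 0 < δ) :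
    ∃ L : ℝ≥0, ∀ z z' : Fin N → ℝ, T.Dom z → T.Dom z' → δ ≤ z T.v → z T.v ≤ 1 - δ → δ ≤ z' T.v → z' T.v ≤ 1 - δ →
      |T.f z - T.f z'| ≤ L * ‖z - z'‖ :=
  mptf_lip T hT δ hδ

/-- **Theorem 6.1** (1),(2),(3) in the form used by Sections 7 and 8 -/
theorem mpt_main {N : ℕ} (T : MpIn N) (hT : T.Ok) (Λ u₁ u₂ : ℝ) (hΛ : 0 < Λ) (h1 : 0 < u₁) (h12 : u₁ < u₂) (h2 : u₂ < 1) :
    Nonempty (MpOut T Λ u₁ u₂) :=
  mptb_thm T hT Λ u₁ u₂ hΛ h1 h12 h2

/-- **(6.7)** `V_Z (A Z) + V_v (A v) ≥ 0` weakly, `V_v = -∂_i`: for Lipschitz `φ ≥ 0` supported in the patch,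
with a.e. directional derivatives `ψ₁` (along `V Z`) and `ψ₂` (along `∂_i`) -/
theorem mpt_weak {N : ℕ} (T : MpIn N) (hT : T.Ok) (Λ u₁ u₂ : ℝ) (hΛ : 0 < Λ) (h1 : 0 < u₁) (h12 : u₁ < u₂) (h2 : u₂ < 1)
    (O : MpOut T Λ u₁ u₂) (jZ : Fin N) (hZv : jZ < T.v) (hZ : ∀ β, β ≠ jZ → β ≠ T.v → β < jZ) (heZ : T.e jZ = 1)
    (φ ψ₁ ψ₂ : ℝ × ℝ → ℝ) (L : ℝ≥0) (hφL : LipschitzWith L φ) (hφ0 : ∀ q, 0 ≤ φ q) (r : ℝ) (hr : 0 < r)
    (hsupp : ∀ q, q ∉ mpatch Λ u₁ u₂ r → φ q = 0) (hψ₁ : Measurable ψ₁) (hψ₂ : Measurable ψ₂)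
    (hd₁ : ∀ᵐ q : ℝ × ℝ, HasLineDerivAt ℝ φ (ψ₁ q) q (T.V jZ))
    (hd₂ : ∀ᵐ q : ℝ × ℝ, HasLineDerivAt ℝ φ (ψ₂ q) q ((1, 0) : ℝ × ℝ)) :
    ∫ q : ℝ × ℝ, (O.A jZ q * ψ₁ q - O.A T.v q * ψ₂ q) ≤ 0 := by
  obtain ⟨δ, F, L', W⟩ := mptf_W T hT Λ u₁ u₂ hΛ h1 h12 h2
  exact mptw_main W O jZ hZv hZ heZ φ ψ₁ ψ₂ L hφL hφ0 r hr hsupp hd₁ hd₂

end Claimed.Agent.R255
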