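import Claimed.Agent.R255.Plane.CloseCtx
import Claimed.Agent.R255.Plane.Trace

/-!
# Row 255, block (B), chapter C, leaf C8 JUMP      (architect helper7; proof helper243; prefix `mpzj_`, `mtent`)

`mpt_weak` with `φ(i,u) = tent_τ(i - b u) · tent_ρ(u - u₀)` (unnormalised tents, slopes `±1`), `τ = a ρ`:
`(w⁺ - w⁻) τ ρ² ≤ ρ (∫_{B⁺}|w - w⁺| + ∫_{B⁻}|w - w⁻|) + 4 C ρ τ²`, `w = (c + b'(u)) A_Z + A_v`, `c = t_Z`; then `ρ → 0`, `a → 0`.
-/

set_option autoImplicit false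

namespace Claimed.Agent.R255

open Filter Topology MeasureTheory Set
open scoped NNReal

/-! ## tents -/

/-- the tent of half width `w` and slopes `±1` -/
noncomputable def mtent (w x : ℝ) : ℝ := max 0 (w - |x|)

/-- its derivative off the three kinks -/
noncomputable def mtentD (w x : ℝ) : ℝ := if 0 < x ∧ x < w then -1 else if -w < x ∧ x < 0 then 1 else 0

theorem mtent_forced : True := by
  have := @mtent.eq_1
  have := @mtentD.eq_1
  trivial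

theorem mtent_nonneg (w x : ℝ) : 0 ≤ mtent w x := le_max_left _ _

theorem mtent_le (w x : ℝ) (hw : 0 ≤ w) : mtent w x ≤ w :=
  max_le hw (by linarith [abs_nonneg x])

theorem mtent_eq_zero (w x : ℝ) (h : w ≤ |x|) : mtent w x = 0 := max_eq_left (by linarith)

theorem mtent_lip (w : ℝ) : LipschitzWith 1 (mtent w) := by
  have h1 : LipschitzWith 1 (fun x : ℝ => w - |x|) := by
    refine LipschitzWith.of_dist_le_mul fun x y => ?_
    rw [Real.dist_eq, Real.dist_eq, NNReal.coe_one, one_mul]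
    have : w - |x| - (w - |y|) = |y| - |x| := by ring
    rw [this, abs_sub_comm x y]
    exact abs_abs_sub_abs_le_abs_sub y x
  exact h1.const_max 0

theorem mtent_meas (w : ℝ) : Measurable (mtent w) := (mtent_lip w).continuous.measurable

theorem mtentD_abs_le (w x : ℝ) : |mtentD w x| ≤ 1 := by
  unfold mtentD
  split_ifs <;> simp

theorem mtentD_meas (w : ℝ) : Measurable (mtentD w) := by
  unfold mtentD
  refine Measurable.ite ?_ measurable_const (Measurable.ite ?_ measurable_const measurable_const)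
  · exact (measurableSet_Ioo (a := (0 : ℝ)) (b := w))
  · exact (measurableSet_Ioo (a := -w) (b := (0 : ℝ)))

theorem mtentD_eq_zero (w x : ℝ) (h : w ≤ |x|) : mtentD w x = 0 := by
  unfold mtentD
  rw [if_neg, if_neg]
  · rintro ⟨h1, h2⟩
    rw [abs_of_neg h2] at h
    linarith
  · rintro ⟨h1, h2⟩
    rw [abs_of_pos h1] at h
    linarith

theorem mtent_hasDerivAt (w x : ℝ) (h0 : x ≠ 0) (h1 : x ≠ w) (h2 : x ≠ -w) :
    HasDerivAt (mtent w) (mtentD w x) x := by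
  by_cases c1 : 0 < x ∧ x < w
  · have e : mtentD w x = -1 := by unfold mtentD; rw [if_pos c1]
    rw [e]
    have hd : HasDerivAt (fun y : ℝ => w - y) (-1) x := by
      simpa using (hasDerivAt_id x).const_sub w
    refine hd.congr_of_eventuallyEq ?_
    filter_upwards [Ioo_mem_nhds c1.1 c1.2] with y hy
    unfold mtent
    rw [abs_of_pos hy.1, max_eq_right (by linarith [hy.2])]
  · by_cases c2 : -w < x ∧ x < 0
    · have e : mtentD w x = 1 := by unfold mtentD; rw [if_neg c1, if_pos c2]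
      rw [e]
      have hd : HasDerivAt (fun y : ℝ => w + y) 1 x := by
        simpa using (hasDerivAt_id x).const_add w
      refine hd.congr_of_eventuallyEq ?_
      filter_upwards [Ioo_mem_nhds c2.1 c2.2] with y hy
      unfold mtent
      rw [abs_of_neg hy.2, max_eq_right (by linarith [hy.1])]
      ring
    · have e : mtentD w x = 0 := by unfold mtentD; rw [if_neg c1, if_neg c2]
      rw [e]
      have hw : w < |x| := by
        rcases lt_or_gt_of_ne h0 with h | h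
        · rw [abs_of_neg h]
          by_contra hc
          push Not at hc
          exact c2 ⟨lt_of_le_of_ne (by linarith) (Ne.symm h2), h⟩
        · rw [abs_of_pos h]
          by_contra hc
          push Not at hc
          exact c1 ⟨h, lt_of_le_of_ne hc h1⟩
      refine (hasDerivAt_const x (0 : ℝ)).congr_of_eventuallyEq ?_
      have : ∀ᶠ y in 𝓝 x, w < |y| := continuous_abs.continuousAt.eventually (lt_mem_nhds hw)
      filter_upwards [this] with y hy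
      exact mtent_eq_zero w y hy.le

theorem mtent_integral (ρ u₀ : ℝ) (hρ : 0 < ρ) : ∫ u in (u₀ - ρ)..(u₀ + ρ), mtent ρ (u - u₀) = ρ ^ 2 := by
  have hc : Continuous fun u : ℝ => mtent ρ (u - u₀) := (mtent_lip ρ).continuous.comp (continuous_id.sub continuous_const)
  rw [← intervalIntegral.integral_add_adjacent_intervals (b := u₀) (hc.intervalIntegrable _ _)
    (hc.intervalIntegrable _ _)]
  have e1 : ∫ u in (u₀ - ρ)..u₀, mtent ρ (u - u₀) = ∫ u in (u₀ - ρ)..u₀, (ρ - u₀ + u) := by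
    refine intervalIntegral.integral_congr fun u hu => ?_
    rw [uIcc_of_le (by linarith)] at hu
    show mtent ρ (u - u₀) = ρ - u₀ + u
    unfold mtent
    rw [abs_of_nonpos (by linarith [hu.2]), max_eq_right (by linarith [hu.1])]
    ring
  have e2 : ∫ u in u₀..(u₀ + ρ), mtent ρ (u - u₀) = ∫ u in u₀..(u₀ + ρ), (ρ + u₀ - u) := by
    refine intervalIntegral.integral_congr fun u hu => ?_
    rw [uIcc_of_le (by linarith)] at hu
    show mtent ρ (u - u₀) = ρ + u₀ - u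
    unfold mtent
    rw [abs_of_nonneg (by linarith [hu.1]), max_eq_right (by linarith [hu.2])]
    ring
  rw [e1, e2, intervalIntegral.integral_add intervalIntegrable_const intervalIntegral.intervalIntegrable_id,
    intervalIntegral.integral_sub intervalIntegrable_const intervalIntegral.intervalIntegrable_id,
    intervalIntegral.integral_const, intervalIntegral.integral_const, integral_id, integral_id]
  simp only [smul_eq_mul]
  ring

/-! ## null sets -/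

theorem mpzj_ae_graph (b : ℝ → ℝ) (hb : Measurable b) (c : ℝ) : ∀ᵐ q : ℝ × ℝ, q.1 - b q.2 ≠ c := by
  have hs : MeasurableSet {q : ℝ × ℝ | q.1 - b q.2 = c} :=
    (measurable_fst.sub (hb.comp measurable_snd)) (measurableSet_singleton c)
  rw [ae_iff]
  simp only [not_not]
  rw [Measure.volume_eq_prod, Measure.prod_apply_symm hs]
  have : ∀ y : ℝ, (volume : Measure ℝ) ((fun x => (x, y)) ⁻¹' {q : ℝ × ℝ | q.1 - b q.2 = c}) = 0 := by
    intro y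
    have : (fun x => (x, y)) ⁻¹' {q : ℝ × ℝ | q.1 - b q.2 = c} = {c + b y} := by
      ext x
      simp only [mem_preimage, mem_ofPred_eq, mem_singleton_iff]
      constructor <;> intro h <;> linarith
    rw [this]
    exact measure_singleton _
  rw [lintegral_congr this]
  simp

theorem mpzj_ae_snd (P : ℝ → Prop) (h : ∀ᵐ u : ℝ, P u) : ∀ᵐ q : ℝ × ℝ, P q.2 :=
  (Measure.quasiMeasurePreserving_snd (μ := (volume : Measure ℝ)) (ν := (volume : Measure ℝ))).ae h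

theorem mpzj_ae_ne (c : ℝ) : ∀ᵐ u : ℝ, u ≠ c := by
  rw [ae_iff]
  simp

/-! ## the test function -/

/-- the test function -/
noncomputable def mjphi (b : ℝ → ℝ) (u₀ ρ τ : ℝ) (q : ℝ × ℝ) : ℝ :=
  mtent τ (q.1 - b q.2) * mtent ρ (q.2 - u₀)

/-- its derivative along `(1, 0)` -/
noncomputable def mjpsi2 (b : ℝ → ℝ) (u₀ ρ τ : ℝ) (q : ℝ × ℝ) : ℝ :=
  mtentD τ (q.1 - b q.2) * mtent ρ (q.2 - u₀)

/-- its derivative along `(-c, 1)` -/
noncomputable def mjpsi1 (b : ℝ → ℝ) (c u₀ ρ τ : ℝ) (q : ℝ × ℝ) : ℝ :=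
  mtentD τ (q.1 - b q.2) * (-c - deriv b q.2) * mtent ρ (q.2 - u₀)
    + mtent τ (q.1 - b q.2) * mtentD ρ (q.2 - u₀)

theorem mjphi_forced : True := by
  have := @mjphi.eq_1
  have := @mjpsi2.eq_1
  have := @mjpsi1.eq_1
  trivial

theorem mjphi_nonneg (b : ℝ → ℝ) (u₀ ρ τ : ℝ) (q : ℝ × ℝ) : 0 ≤ mjphi b u₀ ρ τ q :=
  mul_nonneg (mtent_nonneg _ _) (mtent_nonneg _ _)

theorem mjphi_lip (b : ℝ → ℝ) (Lb : ℝ≥0) (hb : LipschitzWith Lb b) (u₀ ρ τ : ℝ) (hρ : 0 ≤ ρ) (hτ : 0 ≤ τ) :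
    LipschitzWith (Real.toNNReal ((1 + Lb) * ρ + τ)) (mjphi b u₀ ρ τ) := by
  refine LipschitzWith.of_dist_le_mul fun q q' => ?_
  rw [Real.coe_toNNReal _ (by positivity), Real.dist_eq, dist_eq_norm]
  have h1 : |q.1 - q'.1| ≤ ‖q - q'‖ := norm_fst_le (q - q')
  have h2 : |q.2 - q'.2| ≤ ‖q - q'‖ := norm_snd_le (q - q')
  have h3 : |b q.2 - b q'.2| ≤ Lb * |q.2 - q'.2| := by
    have := hb.dist_le_mul q.2 q'.2
    simpa [Real.dist_eq] using this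
  have t1 : |mtent τ (q.1 - b q.2) - mtent τ (q'.1 - b q'.2)| ≤ (1 + Lb) * ‖q - q'‖ := by
    have := (mtent_lip τ).dist_le_mul (q.1 - b q.2) (q'.1 - b q'.2)
    rw [Real.dist_eq, Real.dist_eq, NNReal.coe_one, one_mul] at this
    refine this.trans ?_
    have e : q.1 - b q.2 - (q'.1 - b q'.2) = (q.1 - q'.1) - (b q.2 - b q'.2) := by ring
    rw [e]
    refine (abs_sub _ _).trans ?_
    have : (Lb : ℝ) * |q.2 - q'.2| ≤ Lb * ‖q - q'‖ := mul_le_mul_of_nonneg_left h2 Lb.coe_nonneg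
    linarith
  have t2 : |mtent ρ (q.2 - u₀) - mtent ρ (q'.2 - u₀)| ≤ ‖q - q'‖ := by
    have := (mtent_lip ρ).dist_le_mul (q.2 - u₀) (q'.2 - u₀)
    rw [Real.dist_eq, Real.dist_eq, NNReal.coe_one, one_mul] at this
    refine this.trans ?_
    have e : q.2 - u₀ - (q'.2 - u₀) = q.2 - q'.2 := by ring
    rw [e]
    exact h2
  have e : mjphi b u₀ ρ τ q - mjphi b u₀ ρ τ q' =
      (mtent τ (q.1 - b q.2) - mtent τ (q'.1 - b q'.2)) * mtent ρ (q.2 - u₀)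
        + mtent τ (q'.1 - b q'.2) * (mtent ρ (q.2 - u₀) - mtent ρ (q'.2 - u₀)) := by
    unfold mjphi
    ring
  rw [e]
  refine (abs_add_le _ _).trans ?_
  rw [abs_mul, abs_mul, abs_of_nonneg (mtent_nonneg ρ _), abs_of_nonneg (mtent_nonneg τ _)]
  have a1 : |mtent τ (q.1 - b q.2) - mtent τ (q'.1 - b q'.2)| * mtent ρ (q.2 - u₀) ≤
      (1 + Lb) * ‖q - q'‖ * ρ :=
    mul_le_mul t1 (mtent_le ρ _ hρ) (mtent_nonneg _ _) (by positivity)
  have a2 : mtent τ (q'.1 - b q'.2) * |mtent ρ (q.2 - u₀) - mtent ρ (q'.2 - u₀)| ≤ τ * ‖q - q'‖ :=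
    mul_le_mul (mtent_le τ _ hτ) t2 (abs_nonneg _) hτ
  linarith

theorem mjphi_fderiv (b : ℝ → ℝ) (u₀ ρ τ : ℝ) (q : ℝ × ℝ) (hb : DifferentiableAt ℝ b q.2)
    (r0 : q.1 - b q.2 ≠ 0) (r1 : q.1 - b q.2 ≠ τ) (r2 : q.1 - b q.2 ≠ -τ)
    (y0 : q.2 - u₀ ≠ 0) (y1 : q.2 - u₀ ≠ ρ) (y2 : q.2 - u₀ ≠ -ρ) :
    HasFDerivAt (mjphi b u₀ ρ τ)
      (mtent τ (q.1 - b q.2) • (mtentD ρ (q.2 - u₀) • ContinuousLinearMap.snd ℝ ℝ ℝ) +
        mtent ρ (q.2 - u₀) • (mtentD τ (q.1 - b q.2) •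
          (ContinuousLinearMap.fst ℝ ℝ ℝ - deriv b q.2 • ContinuousLinearMap.snd ℝ ℝ ℝ))) q := by
  have f1 : HasFDerivAt (fun q : ℝ × ℝ => q.1) (ContinuousLinearMap.fst ℝ ℝ ℝ) q := hasFDerivAt_fst
  have f2 : HasFDerivAt (fun q : ℝ × ℝ => q.2) (ContinuousLinearMap.snd ℝ ℝ ℝ) q := hasFDerivAt_snd
  have f3 : HasFDerivAt (fun q : ℝ × ℝ => b q.2) (deriv b q.2 • ContinuousLinearMap.snd ℝ ℝ ℝ) q :=
    hb.hasDerivAt.comp_hasFDerivAt q f2
  have f4 : HasFDerivAt (fun q : ℝ × ℝ => q.1 - b q.2)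
      (ContinuousLinearMap.fst ℝ ℝ ℝ - deriv b q.2 • ContinuousLinearMap.snd ℝ ℝ ℝ) q := f1.sub f3
  have f5 : HasFDerivAt (fun q : ℝ × ℝ => q.2 - u₀) (ContinuousLinearMap.snd ℝ ℝ ℝ) q := f2.sub_const u₀
  have g1 : HasFDerivAt (mtent τ ∘ fun q : ℝ × ℝ => q.1 - b q.2) (mtentD τ (q.1 - b q.2) •
      (ContinuousLinearMap.fst ℝ ℝ ℝ - deriv b q.2 • ContinuousLinearMap.snd ℝ ℝ ℝ)) q :=
    HasDerivAt.comp_hasFDerivAt (h₂ := mtent τ) q (mtent_hasDerivAt τ _ r0 r1 r2) f4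
  have g2 : HasFDerivAt (mtent ρ ∘ fun q : ℝ × ℝ => q.2 - u₀)
      (mtentD ρ (q.2 - u₀) • ContinuousLinearMap.snd ℝ ℝ ℝ) q :=
    HasDerivAt.comp_hasFDerivAt (h₂ := mtent ρ) q (mtent_hasDerivAt ρ _ y0 y1 y2) f5
  exact g1.mul g2

theorem mjphi_ae (b : ℝ → ℝ) (Lb : ℝ≥0) (hb : LipschitzWith Lb b) (c u₀ ρ τ : ℝ) :
    (∀ᵐ q : ℝ × ℝ, HasLineDerivAt ℝ (mjphi b u₀ ρ τ) (mjpsi1 b c u₀ ρ τ q) q ((-c, 1) : ℝ × ℝ)) ∧
    (∀ᵐ q : ℝ × ℝ, HasLineDerivAt ℝ (mjphi b u₀ ρ τ) (mjpsi2 b u₀ ρ τ q) q ((1, 0) : ℝ × ℝ)) := by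
  have hbm : Measurable b := hb.continuous.measurable
  have key : ∀ᵐ q : ℝ × ℝ, HasFDerivAt (mjphi b u₀ ρ τ)
      (mtent τ (q.1 - b q.2) • (mtentD ρ (q.2 - u₀) • ContinuousLinearMap.snd ℝ ℝ ℝ) +
        mtent ρ (q.2 - u₀) • (mtentD τ (q.1 - b q.2) •
          (ContinuousLinearMap.fst ℝ ℝ ℝ - deriv b q.2 • ContinuousLinearMap.snd ℝ ℝ ℝ))) q := by
    filter_upwards [mpzj_ae_snd _ hb.ae_differentiableAt, mpzj_ae_graph b hbm 0, mpzj_ae_graph b hbm τ,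
      mpzj_ae_graph b hbm (-τ), mpzj_ae_snd _ (mpzj_ae_ne u₀), mpzj_ae_snd _ (mpzj_ae_ne (u₀ + ρ)),
      mpzj_ae_snd _ (mpzj_ae_ne (u₀ - ρ))] with q a1 a2 a3 a4 a5 a6 a7
    refine mjphi_fderiv b u₀ ρ τ q a1 a2 a3 a4 (sub_ne_zero.2 a5) (fun h => a6 (by linarith))
      (fun h => a7 (by linarith))
  constructor
  · filter_upwards [key] with q hq
    have := hq.hasLineDerivAt ((-c, 1) : ℝ × ℝ)
    have e : mjpsi1 b c u₀ ρ τ q = (mtent τ (q.1 - b q.2) • (mtentD ρ (q.2 - u₀) • ContinuousLinearMap.snd ℝ ℝ ℝ) +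
        mtent ρ (q.2 - u₀) • (mtentD τ (q.1 - b q.2) •
          (ContinuousLinearMap.fst ℝ ℝ ℝ - deriv b q.2 • ContinuousLinearMap.snd ℝ ℝ ℝ))) ((-c, 1) : ℝ × ℝ) := by
      simp [mjpsi1]
      ring
    rw [e]
    exact this
  · filter_upwards [key] with q hq
    have := hq.hasLineDerivAt ((1, 0) : ℝ × ℝ)
    have e : mjpsi2 b u₀ ρ τ q = (mtent τ (q.1 - b q.2) • (mtentD ρ (q.2 - u₀) • ContinuousLinearMap.snd ℝ ℝ ℝ) +
        mtent ρ (q.2 - u₀) • (mtentD τ (q.1 - b q.2) •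
          (ContinuousLinearMap.fst ℝ ℝ ℝ - deriv b q.2 • ContinuousLinearMap.snd ℝ ℝ ℝ))) ((1, 0) : ℝ × ℝ) := by
      simp [mjpsi2]
      ring
    rw [e]
    exact this

theorem mjpsi2_meas (b : ℝ → ℝ) (hb : Measurable b) (u₀ ρ τ : ℝ) : Measurable (mjpsi2 b u₀ ρ τ) := by
  unfold mjpsi2
  exact ((mtentD_meas τ).comp (measurable_fst.sub (hb.comp measurable_snd))).mul
    ((mtent_meas ρ).comp (measurable_snd.sub_const u₀))

theorem mjpsi1_meas (b : ℝ → ℝ) (hb : Measurable b) (c u₀ ρ τ : ℝ) : Measurable (mjpsi1 b c u₀ ρ τ) := by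
  unfold mjpsi1
  have hr : Measurable fun q : ℝ × ℝ => q.1 - b q.2 := measurable_fst.sub (hb.comp measurable_snd)
  have hd : Measurable fun q : ℝ × ℝ => deriv b q.2 := (measurable_deriv b).comp measurable_snd
  exact ((((mtentD_meas τ).comp hr).mul (measurable_const.sub hd)).mul
    ((mtent_meas ρ).comp (measurable_snd.sub_const u₀))).add
    (((mtent_meas τ).comp hr).mul ((mtentD_meas ρ).comp (measurable_snd.sub_const u₀)))

/-! ## the integral inequality -/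

theorem mpzj_intOn (b : ℝ → ℝ) (hb : Measurable b) (u₀ ρ τ sg : ℝ) (hsg : sg = 1 ∨ sg = -1) (hρ : 0 < ρ) (hτ : 0 < τ)
    (g : ℝ × ℝ → ℝ) (hg : Measurable g) (C : ℝ) (hC : ∀ q, |g q| ≤ C) : IntegrableOn g (mbx b u₀ ρ τ sg) := by
  refine Measure.integrableOn_of_bounded (M := C) ?_ hg.aestronglyMeasurable
    (Eventually.of_forall fun q => by rw [Real.norm_eq_abs]; exact hC q)
  rw [mbx_volume b hb u₀ ρ τ sg hsg hρ hτ]
  exact ENNReal.ofReal_ne_top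

theorem mpzj_int_tent (b : ℝ → ℝ) (hb : Measurable b) (u₀ ρ τ sg : ℝ) (hsg : sg = 1 ∨ sg = -1) (hρ : 0 < ρ) (hτ : 0 < τ) :
    ∫ q in mbx b u₀ ρ τ sg, mtent ρ (q.2 - u₀) = τ * ρ ^ 2 := by
  rw [mbx_integral b hb u₀ ρ τ sg hsg hρ hτ (fun q => mtent ρ (q.2 - u₀))
    ((mtent_meas ρ).comp (measurable_snd.sub_const u₀)) ρ
    (fun q => by rw [abs_of_nonneg (mtent_nonneg _ _)]; exact mtent_le _ _ hρ.le)]
  simp only [intervalIntegral.integral_const, sub_zero, smul_eq_mul]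
  rw [intervalIntegral.integral_const_mul, mtent_integral ρ u₀ hρ]

theorem mpzj_int_const (b : ℝ → ℝ) (hb : Measurable b) (u₀ ρ τ sg : ℝ) (hsg : sg = 1 ∨ sg = -1) (hρ : 0 < ρ) (hτ : 0 < τ)
    (k : ℝ) : ∫ _q in mbx b u₀ ρ τ sg, k = 2 * ρ * τ * k := by
  rw [mbx_integral b hb u₀ ρ τ sg hsg hρ hτ (fun _ => k) measurable_const |k| (fun _ => le_rfl)]
  simp only [intervalIntegral.integral_const, sub_zero, smul_eq_mul]
  ring

theorem mjpsi2_abs (b : ℝ → ℝ) (u₀ ρ τ : ℝ) (hρ : 0 ≤ ρ) (q : ℝ × ℝ) : |mjpsi2 b u₀ ρ τ q| ≤ ρ := by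
  unfold mjpsi2
  rw [abs_mul, abs_of_nonneg (mtent_nonneg ρ _)]
  calc |mtentD τ (q.1 - b q.2)| * mtent ρ (q.2 - u₀) ≤ 1 * ρ :=
        mul_le_mul (mtentD_abs_le _ _) (mtent_le _ _ hρ) (mtent_nonneg _ _) zero_le_one
    _ = ρ := one_mul ρ

theorem mjpsi1_abs (b : ℝ → ℝ) (Lb : ℝ≥0) (hb : LipschitzWith Lb b) (c u₀ ρ τ : ℝ) (hρ : 0 ≤ ρ) (hτ : 0 ≤ τ)
    (q : ℝ × ℝ) : |mjpsi1 b c u₀ ρ τ q| ≤ (|c| + Lb) * ρ + τ := by
  unfold mjpsi1
  have hd : |deriv b q.2| ≤ Lb := by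
    have := norm_deriv_le_of_lipschitz (x₀ := q.2) hb
    rwa [Real.norm_eq_abs] at this
  have h1 : |-c - deriv b q.2| ≤ |c| + Lb := by
    have : -c - deriv b q.2 = -(c + deriv b q.2) := by ring
    rw [this, abs_neg]
    exact (abs_add_le _ _).trans (by linarith)
  refine (abs_add_le _ _).trans (add_le_add ?_ ?_)
  · rw [abs_mul, abs_mul, abs_of_nonneg (mtent_nonneg ρ _)]
    calc |mtentD τ (q.1 - b q.2)| * |-c - deriv b q.2| * mtent ρ (q.2 - u₀) ≤ 1 * (|c| + Lb) * ρ :=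
          mul_le_mul (mul_le_mul (mtentD_abs_le _ _) h1 (abs_nonneg _) zero_le_one) (mtent_le _ _ hρ)
            (mtent_nonneg _ _) (by positivity)
      _ = (|c| + Lb) * ρ := by ring
  · rw [abs_mul, abs_of_nonneg (mtent_nonneg τ _)]
    calc mtent τ (q.1 - b q.2) * |mtentD ρ (q.2 - u₀)| ≤ τ * 1 :=
          mul_le_mul (mtent_le _ _ hτ) (mtentD_abs_le _ _) (abs_nonneg _) hτ
      _ = τ := mul_one τ

/-- pointwise lower bound on a strip -/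
theorem mpzj_ptw (w wt T2 ρ e Cτ : ℝ) (h0 : 0 ≤ T2) (h1 : T2 ≤ ρ) (he : |e| ≤ Cτ) :
    wt * T2 - ρ * |w - wt| - Cτ ≤ w * T2 + e := by
  have a1 : -( ρ * |w - wt|) ≤ (w - wt) * T2 := by
    have := neg_abs_le ((w - wt) * T2)
    rw [abs_mul, abs_of_nonneg h0] at this
    have h2 : |w - wt| * T2 ≤ |w - wt| * ρ := mul_le_mul_of_nonneg_left h1 (abs_nonneg _)
    linarith
  have a2 := neg_abs_le e
  nlinarith

theorem mpzj_split (b : ℝ → ℝ) (Lb : ℝ≥0) (hb : LipschitzWith Lb b) (c u₀ ρ τ : ℝ) (hρ : 0 < ρ) (hτ : 0 < τ)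
    (AZ AV : ℝ × ℝ → ℝ) (hZm : Measurable AZ) (hVm : Measurable AV) (C : ℝ) (hZC : ∀ q, |AZ q| ≤ C)
    (hVC : ∀ q, |AV q| ≤ C)
    (hint : ∫ q, (AZ q * mjpsi1 b c u₀ ρ τ q - AV q * mjpsi2 b u₀ ρ τ q) ≤ 0) (wp wm : ℝ) :
    (wp - wm) * (τ * ρ ^ 2) ≤
      ρ * ((∫ q in mbx b u₀ ρ τ 1, |(c + deriv b q.2) * AZ q + AV q - wp|) +
        ∫ q in mbx b u₀ ρ τ (-1), |(c + deriv b q.2) * AZ q + AV q - wm|) + 4 * C * ρ * τ ^ 2 := by
  have hbm : Measurable b := hb.continuous.measurable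
  have hC0 : 0 ≤ C := (abs_nonneg _).trans (hZC 0)
  have hBp := mbx_meas b hbm u₀ ρ τ 1
  have hBm := mbx_meas b hbm u₀ ρ τ (-1)
  have hdm : Measurable fun q : ℝ × ℝ => deriv b q.2 := (measurable_deriv b).comp measurable_snd
  have hdb : ∀ q : ℝ × ℝ, |deriv b q.2| ≤ Lb := fun q => by
    have := norm_deriv_le_of_lipschitz (x₀ := q.2) hb
    rwa [Real.norm_eq_abs] at this
  -- the integrand
  obtain ⟨h, hh⟩ : ∃ h : ℝ × ℝ → ℝ, h = fun q => AZ q * mjpsi1 b c u₀ ρ τ q - AV q * mjpsi2 b u₀ ρ τ q := ⟨_, rfl⟩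
  have hhm : Measurable h := by
    rw [hh]
    exact (hZm.mul (mjpsi1_meas b hbm c u₀ ρ τ)).sub (hVm.mul (mjpsi2_meas b hbm u₀ ρ τ))
  have hhb : ∀ q, |h q| ≤ C * ((|c| + Lb) * ρ + τ) + C * ρ := by
    intro q
    rw [hh]
    refine (abs_sub _ _).trans (add_le_add ?_ ?_)
    · rw [abs_mul]
      exact mul_le_mul (hZC q) (mjpsi1_abs b Lb hb c u₀ ρ τ hρ.le hτ.le q) (abs_nonneg _) hC0
    · rw [abs_mul]
      exact mul_le_mul (hVC q) (mjpsi2_abs b u₀ ρ τ hρ.le q) (abs_nonneg _) hC0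
  -- the weight
  obtain ⟨w, hw⟩ : ∃ w : ℝ × ℝ → ℝ, w = fun q => (c + deriv b q.2) * AZ q + AV q := ⟨_, rfl⟩
  have hwm : Measurable w := by
    rw [hw]
    exact ((measurable_const.add hdm).mul hZm).add hVm
  have hwb : ∀ q, |w q| ≤ (|c| + Lb) * C + C := by
    intro q
    rw [hw]
    refine (abs_add_le _ _).trans (add_le_add ?_ (hVC q))
    rw [abs_mul]
    exact mul_le_mul ((abs_add_le _ _).trans (by linarith [hdb q])) (hZC q) (abs_nonneg _) (by positivity)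
  -- support
  have hae : h =ᵐ[volume] (mbx b u₀ ρ τ 1 ∪ mbx b u₀ ρ τ (-1)).indicator h := by
    filter_upwards [mpzj_ae_graph b hbm 0] with q hq
    by_cases hmem : q ∈ mbx b u₀ ρ τ 1 ∪ mbx b u₀ ρ τ (-1)
    · rw [indicator_of_mem hmem]
    · rw [indicator_of_notMem hmem]
      by_cases h1 : ρ ≤ |q.2 - u₀|
      · rw [hh]
        simp only [mjpsi1, mjpsi2, mtent_eq_zero ρ _ h1, mtentD_eq_zero ρ _ h1]
        ring
      · by_cases h2 : τ ≤ |q.1 - b q.2|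
        · rw [hh]
          simp only [mjpsi1, mjpsi2, mtent_eq_zero τ _ h2, mtentD_eq_zero τ _ h2]
          ring
        · exfalso
          push Not at h1 h2
          apply hmem
          rcases lt_or_gt_of_ne hq with h3 | h3
          · right
            rw [abs_of_neg h3] at h2
            exact ⟨h1, by linarith, by linarith⟩
          · left
            rw [abs_of_pos h3] at h2
            exact ⟨h1, by linarith, by linarith⟩
  have hdisj : Disjoint (mbx b u₀ ρ τ 1) (mbx b u₀ ρ τ (-1)) := by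
    rw [Set.disjoint_left]
    rintro q ⟨-, h1, -⟩ ⟨-, h2, -⟩
    linarith
  have hIp := mpzj_intOn b hbm u₀ ρ τ 1 (Or.inl rfl) hρ hτ h hhm _ hhb
  have hIm := mpzj_intOn b hbm u₀ ρ τ (-1) (Or.inr rfl) hρ hτ h hhm _ hhb
  have hsum : ∫ q, h q = (∫ q in mbx b u₀ ρ τ 1, h q) + ∫ q in mbx b u₀ ρ τ (-1), h q := by
    rw [integral_congr_ae hae, integral_indicator (hBp.union hBm), setIntegral_union hdisj hBm hIp hIm]
  -- lower bounds
  have hT2m : Measurable fun q : ℝ × ℝ => mtent ρ (q.2 - u₀) := (mtent_meas ρ).comp (measurable_snd.sub_const u₀)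
  have hT2b : ∀ q : ℝ × ℝ, |mtent ρ (q.2 - u₀)| ≤ ρ := fun q => by
    rw [abs_of_nonneg (mtent_nonneg _ _)]; exact mtent_le _ _ hρ.le
  have low : ∀ (sg wt : ℝ) (hsg : sg = 1 ∨ sg = -1),
      (∀ q ∈ mbx b u₀ ρ τ sg, sg * wt * mtent ρ (q.2 - u₀) - ρ * |w q - wt| - C * τ ≤ h q) →
      sg * wt * (τ * ρ ^ 2) - ρ * (∫ q in mbx b u₀ ρ τ sg, |w q - wt|) - 2 * ρ * τ * (C * τ)
        ≤ ∫ q in mbx b u₀ ρ τ sg, h q := by
    intro sg wt hsg hpt
    have i1 : IntegrableOn (fun q : ℝ × ℝ => sg * wt * mtent ρ (q.2 - u₀)) (mbx b u₀ ρ τ sg) :=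
      (mpzj_intOn b hbm u₀ ρ τ sg hsg hρ hτ _ hT2m _ hT2b).const_mul _
    have i2' : IntegrableOn (fun q : ℝ × ℝ => |w q - wt|) (mbx b u₀ ρ τ sg) :=
      mpzj_intOn b hbm u₀ ρ τ sg hsg hρ hτ _ (hwm.sub_const wt).abs ((|c| + Lb) * C + C + |wt|) fun q => by
        rw [abs_abs]
        exact (abs_sub _ _).trans (by linarith [hwb q])
    have i2 : IntegrableOn (fun q : ℝ × ℝ => ρ * |w q - wt|) (mbx b u₀ ρ τ sg) := i2'.const_mul _
    have i3 : IntegrableOn (fun _ : ℝ × ℝ => C * τ) (mbx b u₀ ρ τ sg) :=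
      mpzj_intOn b hbm u₀ ρ τ sg hsg hρ hτ _ measurable_const |C * τ| fun _ => le_rfl
    have i12 : IntegrableOn (fun q : ℝ × ℝ => sg * wt * mtent ρ (q.2 - u₀) - ρ * |w q - wt|)
        (mbx b u₀ ρ τ sg) := i1.sub i2
    have i123 : IntegrableOn (fun q : ℝ × ℝ => sg * wt * mtent ρ (q.2 - u₀) - ρ * |w q - wt| - C * τ)
        (mbx b u₀ ρ τ sg) := i12.sub i3
    have hmono := setIntegral_mono_on i123
      (mpzj_intOn b hbm u₀ ρ τ sg hsg hρ hτ h hhm _ hhb) (mbx_meas b hbm u₀ ρ τ sg) hpt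
    have e : ∫ q in mbx b u₀ ρ τ sg, (sg * wt * mtent ρ (q.2 - u₀) - ρ * |w q - wt| - C * τ) =
        sg * wt * (τ * ρ ^ 2) - ρ * (∫ q in mbx b u₀ ρ τ sg, |w q - wt|) - 2 * ρ * τ * (C * τ) := by
      rw [integral_sub i12 i3, integral_sub i1 i2, integral_const_mul, integral_const_mul,
        mpzj_int_tent b hbm u₀ ρ τ sg hsg hρ hτ, mpzj_int_const b hbm u₀ ρ τ sg hsg hρ hτ]
    rw [← e]
    exact hmono
  have err : ∀ q : ℝ × ℝ, |AZ q * (mtent τ (q.1 - b q.2) * mtentD ρ (q.2 - u₀))| ≤ C * τ := by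
    intro q
    rw [abs_mul, abs_mul, abs_of_nonneg (mtent_nonneg τ _)]
    refine mul_le_mul (hZC q) ?_ (mul_nonneg (mtent_nonneg _ _) (abs_nonneg _)) hC0
    calc mtent τ (q.1 - b q.2) * |mtentD ρ (q.2 - u₀)| ≤ τ * 1 :=
          mul_le_mul (mtent_le _ _ hτ.le) (mtentD_abs_le _ _) (abs_nonneg _) hτ.le
      _ = τ := mul_one τ
  have lp := low 1 wp (Or.inl rfl) (by
    rintro q ⟨-, h1, h2⟩
    rw [one_mul] at h1 h2
    have eD : mtentD τ (q.1 - b q.2) = -1 := by unfold mtentD; rw [if_pos ⟨h1, h2⟩]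
    have eh : h q = w q * mtent ρ (q.2 - u₀) + AZ q * (mtent τ (q.1 - b q.2) * mtentD ρ (q.2 - u₀)) := by
      rw [hh, hw]
      simp only [mjpsi1, mjpsi2, eD]
      ring
    rw [eh, one_mul]
    exact mpzj_ptw _ _ _ ρ _ _ (mtent_nonneg _ _) (mtent_le _ _ hρ.le) (err q))
  have lm := low (-1) wm (Or.inr rfl) (by
    rintro q ⟨-, h1, h2⟩
    have eD : mtentD τ (q.1 - b q.2) = 1 := by
      unfold mtentD
      rw [if_neg (by rintro ⟨h3, -⟩; linarith), if_pos ⟨by linarith, by linarith⟩]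
    have eh : h q = (- w q) * mtent ρ (q.2 - u₀) + AZ q * (mtent τ (q.1 - b q.2) * mtentD ρ (q.2 - u₀)) := by
      rw [hh, hw]
      simp only [mjpsi1, mjpsi2, eD]
      ring
    rw [eh]
    have := mpzj_ptw (- w q) (- wm) _ ρ _ _ (mtent_nonneg ρ (q.2 - u₀)) (mtent_le _ _ hρ.le) (err q)
    have e2 : |-w q - -wm| = |w q - wm| := by
      rw [← abs_neg]; congr 1; ring
    rw [e2] at this
    linarith)
  have hfin : ∫ q, h q ≤ 0 := by rw [hh]; exact hint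
  rw [hsum] at hfin
  rw [hw] at lp lm
  nlinarith [lp, lm, hfin]

/-! ## the weak inequality for the tent test function -/

theorem mpzj_weak {N : ℕ} (T : MpIn N) (hT : T.Ok) (Λ : ℝ) (hΛ : 0 < Λ) (O : MpOut T Λ (1 / 8) (7 / 8)) (jZ : Fin N)
    (hZv : jZ < T.v) (hZ : ∀ β, β ≠ jZ → β ≠ T.v → β < jZ) (heZ : T.e jZ = 1) (b : ℝ → ℝ) (Lb : ℝ≥0)
    (hb : LipschitzWith Lb b) (hbr : ∀ u, |b u| + 2 ≤ Λ) (u₀ : ℝ) (hu : u₀ ∈ Ioo (1 / 4 : ℝ) (3 / 4)) (ρ τ : ℝ)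
    (hρ : 0 < ρ) (hρ' : ρ ≤ 1 / 16) (hτ : 0 < τ) (hτ' : τ ≤ 1) :
    ∫ q, (O.A jZ q * mjpsi1 b (T.t jZ) u₀ ρ τ q - O.A T.v q * mjpsi2 b u₀ ρ τ q) ≤ 0 := by
  have hbm : Measurable b := hb.continuous.measurable
  have hae := mjphi_ae b Lb hb (T.t jZ) u₀ ρ τ
  have hV : T.V jZ = ((-T.t jZ, 1) : ℝ × ℝ) := by unfold MpIn.V; rw [heZ]
  refine mpt_weak T hT Λ (1 / 8) (7 / 8) hΛ (by norm_num) (by norm_num) (by norm_num) O jZ hZv hZ heZ
    (mjphi b u₀ ρ τ) _ _ _ (mjphi_lip b Lb hb u₀ ρ τ hρ.le hτ.le) (mjphi_nonneg b u₀ ρ τ) (1 / 16) (by norm_num)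
    (fun q hq => ?_) (mjpsi1_meas b hbm _ u₀ ρ τ) (mjpsi2_meas b hbm u₀ ρ τ) (by rw [hV]; exact hae.1) hae.2
  by_contra hne
  apply hq
  have h1 : |q.1 - b q.2| < τ := by
    by_contra hc
    push Not at hc
    exact hne (by unfold mjphi; rw [mtent_eq_zero τ _ hc, zero_mul])
  have h2 : |q.2 - u₀| < ρ := by
    by_contra hc
    push Not at hc
    exact hne (by unfold mjphi; rw [mtent_eq_zero ρ _ hc, mul_zero])
  rw [abs_lt] at h1 h2
  have h3 := hbr q.2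
  have h4 := abs_le.1 (le_refl |b q.2|)
  refine ⟨⟨?_, ?_⟩, ⟨?_, ?_⟩⟩
  · linarith [h1.1, h4.1]
  · linarith [h1.2, h4.2]
  · linarith [h2.1, hu.1]
  · linarith [h2.2, hu.2]

/-- the strong trace of the weight `w = (c + d) A_Z + A_v` -/
theorem mpzj_mstr_w (b : ℝ → ℝ) (hbm : Measurable b) (u₀ sg : ℝ) (hsg : sg = 1 ∨ sg = -1) (AZ AV d : ℝ × ℝ → ℝ)
    (hZm : Measurable AZ) (hVm : Measurable AV) (hdm : Measurable d) (C : ℝ) (hZC : ∀ q, |AZ q| ≤ C)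
    (hVC : ∀ q, |AV q| ≤ C) (hdC : ∀ q, |d q| ≤ C) (c p z D : ℝ) (h1 : MStr AZ b u₀ sg z)
    (h2 : MStr d b u₀ sg (-p)) (h3 : MStr AV b u₀ sg D) :
    MStr (fun q => (c + d q) * AZ q + AV q) b u₀ sg ((c - p) * z + D) := by
  unfold MStr at h1 h2 h3 ⊢
  have hC0 : 0 ≤ C := (abs_nonneg _).trans (hZC 0)
  have hlim : Tendsto (fun ρ : ℝ => |c - p| * ((ρ ^ 2)⁻¹ * ∫ q in mbx b u₀ ρ ρ sg, |AZ q - z|)
      + C * ((ρ ^ 2)⁻¹ * ∫ q in mbx b u₀ ρ ρ sg, |d q - -p|)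
      + (ρ ^ 2)⁻¹ * ∫ q in mbx b u₀ ρ ρ sg, |AV q - D|) (𝓝[>] 0) (𝓝 0) := by
    have := ((h1.const_mul |c - p|).add (h2.const_mul C)).add h3
    simpa using this
  refine squeeze_zero' (Eventually.of_forall fun ρ => mul_nonneg (by positivity)
    (integral_nonneg fun q => abs_nonneg _)) ?_ hlim
  filter_upwards [self_mem_nhdsWithin] with ρ hρ
  have hρ0 : (0 : ℝ) < ρ := hρ
  have i1 : IntegrableOn (fun q => |AZ q - z|) (mbx b u₀ ρ ρ sg) :=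
    mpzj_intOn b hbm u₀ ρ ρ sg hsg hρ0 hρ0 _ (hZm.sub_const z).abs (C + |z|) fun q => by
      rw [abs_abs]; exact (abs_sub _ _).trans (by linarith [hZC q])
  have i2 : IntegrableOn (fun q => |d q - -p|) (mbx b u₀ ρ ρ sg) :=
    mpzj_intOn b hbm u₀ ρ ρ sg hsg hρ0 hρ0 _ (hdm.sub_const (-p)).abs (C + |(-p)|) fun q => by
      rw [abs_abs]; exact (abs_sub _ _).trans (by linarith [hdC q])
  have i3 : IntegrableOn (fun q => |AV q - D|) (mbx b u₀ ρ ρ sg) :=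
    mpzj_intOn b hbm u₀ ρ ρ sg hsg hρ0 hρ0 _ (hVm.sub_const D).abs (C + |D|) fun q => by
      rw [abs_abs]; exact (abs_sub _ _).trans (by linarith [hVC q])
  have j1 : IntegrableOn (fun q => |c - p| * |AZ q - z|) (mbx b u₀ ρ ρ sg) := i1.const_mul _
  have j2 : IntegrableOn (fun q => C * |d q - -p|) (mbx b u₀ ρ ρ sg) := i2.const_mul _
  have j12 : IntegrableOn (fun q => |c - p| * |AZ q - z| + C * |d q - -p|) (mbx b u₀ ρ ρ sg) := j1.add j2
  have j123 : IntegrableOn (fun q => |c - p| * |AZ q - z| + C * |d q - -p| + |AV q - D|) (mbx b u₀ ρ ρ sg) :=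
    j12.add i3
  have hle : ∫ q in mbx b u₀ ρ ρ sg, |(c + d q) * AZ q + AV q - ((c - p) * z + D)| ≤
      ∫ q in mbx b u₀ ρ ρ sg, (|c - p| * |AZ q - z| + C * |d q - -p| + |AV q - D|) := by
    refine integral_mono_of_nonneg (Eventually.of_forall fun q => abs_nonneg _) j123
      (Eventually.of_forall fun q => ?_)
    have e : (c + d q) * AZ q + AV q - ((c - p) * z + D) =
        (c - p) * (AZ q - z) + AZ q * (d q - -p) + (AV q - D) := by ring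
    show |(c + d q) * AZ q + AV q - ((c - p) * z + D)| ≤ _
    rw [e]
    refine (abs_add_le _ _).trans (add_le_add ((abs_add_le _ _).trans (add_le_add ?_ ?_)) le_rfl)
    · rw [abs_mul]
    · rw [abs_mul]
      exact mul_le_mul_of_nonneg_right (hZC q) (abs_nonneg _)
  rw [integral_add j12 i3, integral_add j1 j2, integral_const_mul, integral_const_mul] at hle
  have hinv : 0 ≤ (ρ ^ 2)⁻¹ := by positivity
  calc (ρ ^ 2)⁻¹ * ∫ q in mbx b u₀ ρ ρ sg, |(c + d q) * AZ q + AV q - ((c - p) * z + D)|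
      ≤ (ρ ^ 2)⁻¹ * (|c - p| * (∫ q in mbx b u₀ ρ ρ sg, |AZ q - z|) + C * (∫ q in mbx b u₀ ρ ρ sg, |d q - -p|)
        + ∫ q in mbx b u₀ ρ ρ sg, |AV q - D|) := mul_le_mul_of_nonneg_left hle hinv
    _ = _ := by ring

/-- **C8 JUMP**, abstract form -/
theorem mpzj_main {N : ℕ} (T : MpIn N) (hT : T.Ok) (Λ : ℝ) (hΛ : 0 < Λ) (O : MpOut T Λ (1 / 8) (7 / 8)) (jZ : Fin N)
    (hZv : jZ < T.v) (hZ : ∀ β, β ≠ jZ → β ≠ T.v → β < jZ) (heZ : T.e jZ = 1) (b : ℝ → ℝ) (Lb : ℝ≥0)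
    (hb : LipschitzWith Lb b) (hbr : ∀ u, |b u| + 2 ≤ Λ) (u₀ : ℝ) (hu : u₀ ∈ Ioo (1 / 4 : ℝ) (3 / 4)) (p : ℝ)
    (lb : Tendsto (fun ρ : ℝ => ρ⁻¹ * ∫ u in (u₀ - ρ)..(u₀ + ρ), |deriv b u - (-p)|) (𝓝[>] 0) (𝓝 0))
    (zp zm Dp Dm : ℝ) (h1 : MStr (O.A jZ) b u₀ 1 zp) (h2 : MStr (O.A jZ) b u₀ (-1) zm)
    (h3 : MStr (O.A T.v) b u₀ 1 Dp) (h4 : MStr (O.A T.v) b u₀ (-1) Dm) :
    (T.t jZ - p) * (zp - zm) ≤ Dm - Dp := by
  have hbm : Measurable b := hb.continuous.measurable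
  obtain ⟨C, hC⟩ : ∃ C : ℝ, C = max (max (T.d jZ) (T.d T.v)) Lb := ⟨_, rfl⟩
  have hZC : ∀ q, |O.A jZ q| ≤ C := fun q => by
    rw [abs_of_nonneg (O.bd jZ q).1, hC]
    exact (O.bd jZ q).2.trans ((le_max_left _ _).trans (le_max_left _ _))
  have hVC : ∀ q, |O.A T.v q| ≤ C := fun q => by
    rw [abs_of_nonneg (O.bd T.v q).1, hC]
    exact (O.bd T.v q).2.trans ((le_max_right _ _).trans (le_max_left _ _))
  have hdC' : ∀ u : ℝ, |deriv b u| ≤ C := fun u => by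
    have := norm_deriv_le_of_lipschitz (x₀ := u) hb
    rw [Real.norm_eq_abs] at this
    rw [hC]
    exact this.trans (le_max_right _ _)
  have hC0 : 0 ≤ C := (abs_nonneg _).trans (hZC 0)
  have hdm : Measurable fun q : ℝ × ℝ => deriv b q.2 := (measurable_deriv b).comp measurable_snd
  have hdp := mstr_snd b hbm u₀ 1 (Or.inl rfl) (deriv b) (measurable_deriv b) C hdC' (-p) lb
  have hdn := mstr_snd b hbm u₀ (-1) (Or.inr rfl) (deriv b) (measurable_deriv b) C hdC' (-p) lb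
  have wP := mpzj_mstr_w b hbm u₀ 1 (Or.inl rfl) (O.A jZ) (O.A T.v) (fun q => deriv b q.2) (O.meas _) (O.meas _)
    hdm C hZC hVC (fun q => hdC' q.2) (T.t jZ) p zp Dp h1 hdp h3
  have wM := mpzj_mstr_w b hbm u₀ (-1) (Or.inr rfl) (O.A jZ) (O.A T.v) (fun q => deriv b q.2) (O.meas _) (O.meas _)
    hdm C hZC hVC (fun q => hdC' q.2) (T.t jZ) p zm Dm h2 hdn h4
  obtain ⟨wp, hwp⟩ : ∃ wp : ℝ, wp = (T.t jZ - p) * zp + Dp := ⟨_, rfl⟩
  obtain ⟨wm, hwm⟩ : ∃ wm : ℝ, wm = (T.t jZ - p) * zm + Dm := ⟨_, rfl⟩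
  rw [← hwp] at wP
  rw [← hwm] at wM
  unfold MStr at wP wM
  have key : ∀ a : ℝ, 0 < a → a ≤ 1 → ∀ η : ℝ, 0 < η → (wp - wm) * a ≤ 2 * η + 4 * C * a ^ 2 := by
    intro a ha ha1 η hη
    have e1 : ∀ᶠ ρ in 𝓝[>] (0 : ℝ), ρ ≤ 1 / 16 := by
      have : Iio (1 / 16 : ℝ) ∈ 𝓝 (0 : ℝ) := Iio_mem_nhds (by norm_num)
      filter_upwards [mem_nhdsWithin_of_mem_nhds this] with ρ hρ using le_of_lt hρ
    obtain ⟨ρ, hρ16, hP, hM, hρ⟩ := (e1.and ((wP.eventually_lt_const hη).and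
      ((wM.eventually_lt_const hη).and self_mem_nhdsWithin))).exists
    have hρ0 : (0 : ℝ) < ρ := hρ
    have hτ : 0 < a * ρ := mul_pos ha hρ0
    have hτρ : a * ρ ≤ ρ := by nlinarith
    have hsp := mpzj_split b Lb hb (T.t jZ) u₀ ρ (a * ρ) hρ0 hτ (O.A jZ) (O.A T.v) (O.meas _) (O.meas _) C hZC hVC
      (mpzj_weak T hT Λ hΛ O jZ hZv hZ heZ b Lb hb hbr u₀ hu ρ (a * ρ) hρ0 hρ16 hτ (by linarith)) wp wm
    have hwmeas : Measurable fun q : ℝ × ℝ => (T.t jZ + deriv b q.2) * O.A jZ q + O.A T.v q :=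
      ((measurable_const.add hdm).mul (O.meas _)).add (O.meas _)
    have hwb : ∀ q : ℝ × ℝ, |(T.t jZ + deriv b q.2) * O.A jZ q + O.A T.v q| ≤ (|T.t jZ| + C) * C + C := by
      intro q
      refine (abs_add_le _ _).trans (add_le_add ?_ (hVC q))
      rw [abs_mul]
      exact mul_le_mul ((abs_add_le _ _).trans (by linarith [hdC' q.2])) (hZC q) (abs_nonneg _) (by positivity)
    have thin : ∀ (sg wt : ℝ), (sg = 1 ∨ sg = -1) →
        ∫ q in mbx b u₀ ρ (a * ρ) sg, |(T.t jZ + deriv b q.2) * O.A jZ q + O.A T.v q - wt| ≤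
          ∫ q in mbx b u₀ ρ ρ sg, |(T.t jZ + deriv b q.2) * O.A jZ q + O.A T.v q - wt| := by
      intro sg wt hsg
      refine setIntegral_mono_set ?_ (Eventually.of_forall fun q => abs_nonneg _)
        (LE.le.eventuallyLE (mbx_mono b u₀ ρ ρ (a * ρ) ρ sg le_rfl hτρ))
      exact mpzj_intOn b hbm u₀ ρ ρ sg hsg hρ0 hρ0 _ (hwmeas.sub_const wt).abs ((|T.t jZ| + C) * C + C + |wt|)
        fun q => by
          rw [abs_abs]
          exact (abs_sub _ _).trans (by linarith [hwb q])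
    have tp := thin 1 wp (Or.inl rfl)
    have tm := thin (-1) wm (Or.inr rfl)
    have hρ2 : 0 < ρ ^ 2 := by positivity
    rw [inv_mul_lt_iff₀ hρ2] at hP hM
    have hall : (wp - wm) * (a * ρ * ρ ^ 2) ≤ ρ * (ρ ^ 2 * η + ρ ^ 2 * η) + 4 * C * ρ * (a * ρ) ^ 2 := by
      refine hsp.trans ?_
      have : (∫ q in mbx b u₀ ρ (a * ρ) 1, |(T.t jZ + deriv b q.2) * O.A jZ q + O.A T.v q - wp|) +
          ∫ q in mbx b u₀ ρ (a * ρ) (-1), |(T.t jZ + deriv b q.2) * O.A jZ q + O.A T.v q - wm| ≤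
          ρ ^ 2 * η + ρ ^ 2 * η := by linarith
      have := mul_le_mul_of_nonneg_left this hρ0.le
      linarith
    have hρ3 : 0 < ρ ^ 3 := by positivity
    have e : ((wp - wm) * a) * ρ ^ 3 ≤ (2 * η + 4 * C * a ^ 2) * ρ ^ 3 := by
      calc ((wp - wm) * a) * ρ ^ 3 = (wp - wm) * (a * ρ * ρ ^ 2) := by ring
        _ ≤ ρ * (ρ ^ 2 * η + ρ ^ 2 * η) + 4 * C * ρ * (a * ρ) ^ 2 := hall
        _ = (2 * η + 4 * C * a ^ 2) * ρ ^ 3 := by ring
    exact le_of_mul_le_mul_right e hρ3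
  have hfin : wp - wm ≤ 0 := by
    by_contra hpos
    push Not at hpos
    obtain ⟨a, ha⟩ : ∃ a : ℝ, a = min 1 ((wp - wm) / (16 * C + 1)) := ⟨_, rfl⟩
    have hden : 0 < 16 * C + 1 := by positivity
    have ha0 : 0 < a := by rw [ha]; exact lt_min one_pos (div_pos hpos hden)
    have ha1 : a ≤ 1 := by rw [ha]; exact min_le_left _ _
    have ha2 : a * (16 * C + 1) ≤ wp - wm := by
      have : a ≤ (wp - wm) / (16 * C + 1) := by rw [ha]; exact min_le_right _ _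
      rwa [le_div_iff₀ hden] at this
    have hk := key a ha0 ha1 ((wp - wm) * a / 4) (by positivity)
    have h5 : (wp - wm) * a ≤ 8 * C * a * a := by nlinarith
    have h6 : wp - wm ≤ 8 * C * a := le_of_mul_le_mul_right h5 ha0
    nlinarith
  rw [hwp, hwm] at hfin
  linarith

end Claimed.Agent.R255
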