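import Claimed.Agent.R255.Plane.CloseCtx
import Claimed.Agent.R255.Plane.Trace

/-!
# Row 255, block (B), chapter C, leaf C1 POT: the potential `G = Φ - ψ`      (architect helper7; proof helper243; prefix `mpzp_`)

`Φ` := Lipschitz extension of `q ↦ f (Π q)` from the patch (`mpt_lip`, `δ = 1/8`), `ψ̃` := the obstacle with `S` replaced by the clamped `St` (globally Lipschitz).
Rademacher for `Φ`, the two partial derivatives are identified along `O.hs` by `O.aff` (`ξ = Π (1,0)`, `Π (0,1)`).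
-/

set_option autoImplicit false

namespace Claimed.Agent.R255

open Filter Topology MeasureTheory Set
open scoped NNReal

variable {N : ℕ}

theorem mpzp_clamp (u : ℝ) (hu : u ∈ Icc (1 / 8 : ℝ) (7 / 8)) : mclamp u = u := by
  unfold mclamp
  rw [min_eq_left hu.2, max_eq_right hu.1]

theorem mpzp_clamp_mem (u : ℝ) : mclamp u ∈ Icc (1 / 8 : ℝ) (7 / 8) := by
  unfold mclamp
  refine ⟨le_max_left _ _, max_le (by norm_num) (min_le_right _ _)⟩

theorem mpzp_clamp_lip : LipschitzWith 1 mclamp :=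
  (LipschitzWith.id.min_const (7 / 8)).const_max (1 / 8)

theorem mpzp_St_lip (X : MzIn N) (hX : X.Ok) : LipschitzWith 1 X.St := by
  refine LipschitzWith.of_dist_le_mul fun u u' => ?_
  have h1 := mpzp_clamp_lip.dist_le_mul u u'
  simp only [NNReal.coe_one, one_mul] at h1 ⊢
  refine le_trans ?_ h1
  have a := mpzp_clamp_mem u
  have a' := mpzp_clamp_mem u'
  unfold MzIn.St
  rw [Real.dist_eq, Real.dist_eq]
  rcases le_total (mclamp u) (mclamp u') with h | h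
  · have := hX.S_lip (mclamp u) (mclamp u') (by linarith [a.1]) h (by linarith [a'.2])
    rw [abs_sub_comm, abs_sub_comm (mclamp u), abs_of_nonneg (sub_nonneg.2 h)]
    exact this
  · have := hX.S_lip (mclamp u') (mclamp u) (by linarith [a'.1]) h (by linarith [a.2])
    rw [abs_of_nonneg (sub_nonneg.2 h)]
    exact this

/-- linearity of the plane map -/
theorem mpzp_pl_add (T : MpIn N) (q w : ℝ × ℝ) (h : ℝ) : T.pl (q + h • w) = T.pl q + h • T.pl w := by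
  funext α
  simp only [MpIn.pl, Prod.fst_add, Prod.snd_add, Prod.smul_fst, Prod.smul_snd, smul_eq_mul, Pi.add_apply,
    Pi.smul_apply]
  ring

theorem mpzp_pl_cone (T : MpIn N) (hT : T.Ok) (q : ℝ × ℝ) : T.Cone (T.pl q) := by
  intro l
  have h1 := hT.lam_e l
  have h2 := hT.lam_t l
  have : ∑ α, T.lam l α * T.pl q α = q.1 * ∑ α, T.lam l α * T.e α + q.2 * ∑ α, T.lam l α * T.t α := by
    rw [Finset.mul_sum, Finset.mul_sum, ← Finset.sum_add_distrib]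
    refine Finset.sum_congr rfl fun α _ => ?_
    simp only [MpIn.pl]
    ring
  rw [this, h1, h2]
  simp

theorem mpzp_pl_v (T : MpIn N) (hT : T.Ok) (q : ℝ × ℝ) : T.pl q T.v = q.2 := by
  simp only [MpIn.pl, hT.e_v, hT.t_v]
  ring

theorem mpzp_pl_norm (T : MpIn N) (q q' : ℝ × ℝ) :
    ‖T.pl q - T.pl q'‖ ≤ (∑ α, (|T.e α| + |T.t α|)) * ‖q - q'‖ := by
  have hC : 0 ≤ ∑ α, (|T.e α| + |T.t α|) := Finset.sum_nonneg fun α _ => by positivity
  rw [pi_norm_le_iff_of_nonneg (mul_nonneg hC (norm_nonneg _))]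
  intro α
  have h1 : |q.1 - q'.1| ≤ ‖q - q'‖ := norm_fst_le (q - q')
  have h2 : |q.2 - q'.2| ≤ ‖q - q'‖ := norm_snd_le (q - q')
  have h3 : |T.e α| + |T.t α| ≤ ∑ α, (|T.e α| + |T.t α|) :=
    Finset.single_le_sum (f := fun α => |T.e α| + |T.t α|) (fun α _ => by positivity) (Finset.mem_univ α)
  have e : (T.pl q - T.pl q') α = (q.1 - q'.1) * T.e α + (q.2 - q'.2) * T.t α := by
    simp only [MpIn.pl, Pi.sub_apply]
    ring
  rw [e, Real.norm_eq_abs]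
  calc |(q.1 - q'.1) * T.e α + (q.2 - q'.2) * T.t α|
      ≤ |q.1 - q'.1| * |T.e α| + |q.2 - q'.2| * |T.t α| := by
        rw [← abs_mul, ← abs_mul]; exact abs_add_le _ _
    _ ≤ ‖q - q'‖ * |T.e α| + ‖q - q'‖ * |T.t α| :=
        add_le_add (mul_le_mul_of_nonneg_right h1 (abs_nonneg _)) (mul_le_mul_of_nonneg_right h2 (abs_nonneg _))
    _ = (|T.e α| + |T.t α|) * ‖q - q'‖ := by ring
    _ ≤ _ := mul_le_mul_of_nonneg_right h3 (norm_nonneg _)

theorem mpzp_patch_open (Λ u₁ u₂ r : ℝ) : IsOpen (mpatch Λ u₁ u₂ r) := isOpen_Ioo.prod isOpen_Ioo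

/-- a partial derivative from the affine blow-up -/
theorem mpzp_partial (T : MpIn N) (Φ : ℝ × ℝ → ℝ) (U : Set (ℝ × ℝ)) (hU : IsOpen U)
    (hΦ : ∀ q ∈ U, Φ q = T.f (T.pl q)) (q : ℝ × ℝ) (hq : q ∈ U) (hs : ℕ → ℝ) (hs0 : ∀ l, 0 < hs l)
    (hsl : Tendsto hs atTop (𝓝 0)) (a : Fin N → ℝ) (haff : T.AffAt q hs a) (L : ℝ × ℝ →L[ℝ] ℝ)
    (hL : HasFDerivAt Φ L q) (w : ℝ × ℝ) (hw : T.Cone (T.pl w)) : L w = ∑ α, a α * T.pl w α := by
  have hinv : Tendsto (fun l => ‖(hs l)⁻¹‖) atTop atTop := by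
    have h1 : Tendsto hs atTop (𝓝[>] 0) :=
      tendsto_nhdsWithin_iff.2 ⟨hsl, Eventually.of_forall fun l => hs0 l⟩
    have h2 : Tendsto (fun l => (hs l)⁻¹) atTop atTop := tendsto_inv_nhdsGT_zero.comp h1
    refine h2.congr fun l => ?_
    rw [Real.norm_eq_abs, abs_of_pos (inv_pos.2 (hs0 l))]
  have hlim := hL.lim w hinv
  refine tendsto_nhds_unique hlim ?_
  rw [Metric.tendsto_atTop']
  intro ε hε
  have hmem : ∀ᶠ l in atTop, q + hs l • w ∈ U := by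
    have hc : Tendsto (fun l => q + hs l • w) atTop (𝓝 (q + (0 : ℝ) • w)) :=
      tendsto_const_nhds.add (hsl.smul_const w)
    rw [zero_smul, add_zero] at hc
    exact hc.eventually (hU.mem_nhds hq)
  have haf := haff (∑ α, |T.pl w α|) (ε / 2) (by positivity)
  obtain ⟨n, hn⟩ := (hmem.and haf).exists_forall_of_atTop
  refine ⟨n, fun l hl => ?_⟩
  obtain ⟨h1, h2⟩ := hn l hl.le
  have h3 := h2 (T.pl w) hw fun α =>
    Finset.single_le_sum (f := fun α => |T.pl w α|) (fun α _ => abs_nonneg _) (Finset.mem_univ α)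
  have hp := hs0 l
  rw [inv_inv, hΦ _ h1, hΦ _ hq, mpzp_pl_add, Real.dist_eq, smul_eq_mul]
  have e : (hs l)⁻¹ * (T.f (T.pl q + hs l • T.pl w) - T.f (T.pl q)) - ∑ α, a α * T.pl w α =
      (hs l)⁻¹ * (T.f (T.pl q + hs l • T.pl w) - T.f (T.pl q) - hs l * ∑ α, a α * T.pl w α) := by
    field_simp
  rw [e, abs_mul, abs_of_pos (inv_pos.2 hp)]
  calc (hs l)⁻¹ * |T.f (T.pl q + hs l • T.pl w) - T.f (T.pl q) - hs l * ∑ α, a α * T.pl w α|
      ≤ (hs l)⁻¹ * (ε / 2 * hs l) := mul_le_mul_of_nonneg_left h3 (inv_pos.2 hp).le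
    _ = ε / 2 := by field_simp
    _ < ε := by linarith

/-- a continuous linear form on the plane from its values on the basis -/
theorem mpzp_clm (L : ℝ × ℝ →L[ℝ] ℝ) :
    L = L (1, 0) • ContinuousLinearMap.fst ℝ ℝ ℝ + L (0, 1) • ContinuousLinearMap.snd ℝ ℝ ℝ := by
  ext
  · simp
  · simp

/-- the obstacle with the clamped time profile -/
noncomputable def MzIn.psit (X : MzIn N) (q : ℝ × ℝ) : ℝ :=
  2 * q.1 + (1 - X.γ) * X.m * q.2 + 2 * X.St q.2 - X.β * q.2 - X.τ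

theorem mpzp_psit_forced : True := by
  have := @MzIn.psit.eq_1
  trivial

theorem mpzp_psit_lip (X : MzIn N) (hX : X.Ok) :
    LipschitzWith (Real.toNNReal (2 + |(1 - X.γ) * X.m| + 2 + |X.β|)) X.psit := by
  refine LipschitzWith.of_dist_le_mul fun q q' => ?_
  rw [Real.coe_toNNReal _ (by positivity), Real.dist_eq, dist_eq_norm]
  have h1 : |q.1 - q'.1| ≤ ‖q - q'‖ := norm_fst_le (q - q')
  have h2 : |q.2 - q'.2| ≤ ‖q - q'‖ := norm_snd_le (q - q')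
  have h3 : |X.St q.2 - X.St q'.2| ≤ |q.2 - q'.2| := by
    have := (mpzp_St_lip X hX).dist_le_mul q.2 q'.2
    simpa [Real.dist_eq] using this
  have e : X.psit q - X.psit q' = 2 * (q.1 - q'.1) + (1 - X.γ) * X.m * (q.2 - q'.2)
      + 2 * (X.St q.2 - X.St q'.2) - X.β * (q.2 - q'.2) := by
    unfold MzIn.psit
    ring
  rw [e]
  have t1 : |2 * (q.1 - q'.1)| ≤ 2 * ‖q - q'‖ := by
    rw [abs_mul, abs_of_pos (by norm_num : (0 : ℝ) < 2)]; linarith
  have t2 : |(1 - X.γ) * X.m * (q.2 - q'.2)| ≤ |(1 - X.γ) * X.m| * ‖q - q'‖ := by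
    rw [abs_mul]; exact mul_le_mul_of_nonneg_left h2 (abs_nonneg _)
  have t3 : |2 * (X.St q.2 - X.St q'.2)| ≤ 2 * ‖q - q'‖ := by
    rw [abs_mul, abs_of_pos (by norm_num : (0 : ℝ) < 2)]; linarith
  have t4 : |X.β * (q.2 - q'.2)| ≤ |X.β| * ‖q - q'‖ := by
    rw [abs_mul]; exact mul_le_mul_of_nonneg_left h2 (abs_nonneg _)
  calc |2 * (q.1 - q'.1) + (1 - X.γ) * X.m * (q.2 - q'.2) + 2 * (X.St q.2 - X.St q'.2) - X.β * (q.2 - q'.2)|
      ≤ |2 * (q.1 - q'.1)| + |(1 - X.γ) * X.m * (q.2 - q'.2)| + |2 * (X.St q.2 - X.St q'.2)|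
        + |X.β * (q.2 - q'.2)| :=
        (abs_sub _ _).trans (add_le_add_left ((abs_add_le _ _).trans
          (add_le_add_left (abs_add_le _ _) _)) _)
    _ ≤ (2 + |(1 - X.γ) * X.m| + 2 + |X.β|) * ‖q - q'‖ := by linarith

theorem mpzp_psit_der (X : MzIn N) (q : ℝ × ℝ) (h : DifferentiableAt ℝ X.St q.2) :
    HasFDerivAt X.psit ((2 : ℝ) • ContinuousLinearMap.fst ℝ ℝ ℝ +
      ((1 - X.γ) * X.m + 2 * deriv X.St q.2 - X.β) • ContinuousLinearMap.snd ℝ ℝ ℝ) q := by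
  have f1 : HasFDerivAt (fun q : ℝ × ℝ => q.1) (ContinuousLinearMap.fst ℝ ℝ ℝ) q := hasFDerivAt_fst
  have f2 : HasFDerivAt (fun q : ℝ × ℝ => q.2) (ContinuousLinearMap.snd ℝ ℝ ℝ) q := hasFDerivAt_snd
  have f3 : HasFDerivAt (fun q : ℝ × ℝ => X.St q.2) (deriv X.St q.2 • ContinuousLinearMap.snd ℝ ℝ ℝ) q :=
    h.hasDerivAt.comp_hasFDerivAt q f2
  have := ((((f1.const_mul 2).add (f2.const_mul ((1 - X.γ) * X.m))).add (f3.const_mul 2)).sub
    (f2.const_mul X.β)).sub_const X.τ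
  refine this.congr_fderiv ?_
  ext
  · simp
  · simp

/-- **C1 POT** -/
theorem mpzp_pot (X : MzIn N) (hX : X.Ok) (O : MpOut X.T X.Lam (1 / 8) (7 / 8)) :
    ∃ (G : ℝ × ℝ → ℝ) (LG : ℝ≥0), MzPot X O.A G LG := by
  obtain ⟨L, hL⟩ := mpt_lip X.T hX.T_ok (1 / 8) (by norm_num)
  have hdom : ∀ q ∈ mpatch X.Lam (1 / 8) (7 / 8) 0,
      X.T.Dom (X.T.pl q) ∧ 1 / 8 ≤ X.T.pl q X.T.v ∧ X.T.pl q X.T.v ≤ 1 - 1 / 8 := by
    intro q hq
    have h2 : q.2 ∈ Ioo (1 / 8 + 0 : ℝ) (7 / 8 - 0) := hq.2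
    rw [mpzp_pl_v X.T hX.T_ok]
    refine ⟨⟨mpzp_pl_cone X.T hX.T_ok q, ?_, ?_⟩, ?_, ?_⟩
    · rw [mpzp_pl_v X.T hX.T_ok]; linarith [h2.1]
    · rw [mpzp_pl_v X.T hX.T_ok]; linarith [h2.2]
    · linarith [h2.1]
    · linarith [h2.2]
  have hC : 0 ≤ ∑ α, (|X.T.e α| + |X.T.t α|) := Finset.sum_nonneg fun α _ => by positivity
  have hlipOn : LipschitzOnWith (L * Real.toNNReal (∑ α, (|X.T.e α| + |X.T.t α|)))
      (fun q => X.T.f (X.T.pl q)) (mpatch X.Lam (1 / 8) (7 / 8) 0) := by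
    refine LipschitzOnWith.of_dist_le_mul fun q hq q' hq' => ?_
    obtain ⟨d1, d2, d3⟩ := hdom q hq
    obtain ⟨d1', d2', d3'⟩ := hdom q' hq'
    have h1 := hL _ _ d1 d1' d2 d3 d2' d3'
    have h2 := mpzp_pl_norm X.T q q'
    rw [Real.dist_eq, dist_eq_norm, NNReal.coe_mul, Real.coe_toNNReal _ hC, mul_assoc]
    exact h1.trans (mul_le_mul_of_nonneg_left h2 L.coe_nonneg)
  obtain ⟨Φ, hΦl, hΦe⟩ := hlipOn.extend_real
  refine ⟨fun q => Φ q - X.psit q, _, hΦl.sub (mpzp_psit_lip X hX), fun q hq => ?_, ?_⟩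
  · have h2 : q.2 ∈ Ioo (1 / 8 + 0 : ℝ) (7 / 8 - 0) := hq.2
    have e1 : X.St q.2 = X.S q.2 := by
      unfold MzIn.St
      rw [mpzp_clamp q.2 ⟨by linarith [h2.1], by linarith [h2.2]⟩]
    show Φ q - X.psit q = _
    rw [← hΦe hq]
    unfold MzIn.psit MzIn.psi
    rw [e1]
  · have hd1 : ∀ᵐ q : ℝ × ℝ, DifferentiableAt ℝ Φ q := hΦl.ae_differentiableAt
    have hd2 : ∀ᵐ u : ℝ, DifferentiableAt ℝ X.St u := (mpzp_St_lip X hX).ae_differentiableAt
    have hd3 : ∀ᵐ q : ℝ × ℝ, DifferentiableAt ℝ X.St q.2 :=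
      (Measure.quasiMeasurePreserving_snd (μ := (volume : Measure ℝ)) (ν := (volume : Measure ℝ))).ae hd2
    filter_upwards [hd1, hd3, O.aff] with q h1 h3 haff hq
    have hF := h1.hasFDerivAt
    have p1 := mpzp_partial X.T Φ _ (mpzp_patch_open _ _ _ _) (fun q hq => (hΦe hq).symm) q hq O.hs O.hs_pos
      O.hs_lim _ (haff hq) _ hF (1, 0) (mpzp_pl_cone X.T hX.T_ok _)
    have p2 := mpzp_partial X.T Φ _ (mpzp_patch_open _ _ _ _) (fun q hq => (hΦe hq).symm) q hq O.hs O.hs_pos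
      O.hs_lim _ (haff hq) _ hF (0, 1) (mpzp_pl_cone X.T hX.T_ok _)
    rw [mpzp_clm (fderiv ℝ Φ q), p1, p2] at hF
    refine (hF.sub (mpzp_psit_der X q h3)).congr_fderiv ?_
    have s1 : ∑ α, O.A α q * X.T.pl (1, 0) α = ∑ α, X.T.e α * O.A α q :=
      Finset.sum_congr rfl fun α _ => by simp only [MpIn.pl]; ring
    have s2 : ∑ α, O.A α q * X.T.pl (0, 1) α = ∑ α, X.T.e α * (X.T.t α - 0) * O.A α q + O.A X.T.v q := by
      have : ∀ α, O.A α q * X.T.pl (0, 1) α =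
          X.T.e α * (X.T.t α - 0) * O.A α q + (if α = X.T.v then O.A X.T.v q else 0) := by
        intro α
        simp only [MpIn.pl]
        by_cases hα : α = X.T.v
        · subst hα
          rw [if_pos rfl, hX.T_ok.e_v, hX.T_ok.t_v]
          ring
        · rw [if_neg hα, hX.e_one α hα]
          ring
      rw [Finset.sum_congr rfl fun α _ => this α, Finset.sum_add_distrib, Finset.sum_ite_eq' Finset.univ X.T.v]
      simp
    rw [s1, s2]
    unfold MzIn.Bq MzIn.Vq MzIn.F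
    ext
    · simp
    · simp
      ring

end Claimed.Agent.R255
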