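import Claimed.Agent.R255.Plane.CloseCtx
import Claimed.Agent.R255.Plane.Trace
import Claimed.Agent.R255.Plane.Curve

/-!
# Row 255, block (B), chapter C, leaf C7 WEDGE (Lemma 8.2)      (helper77)

`mpzw_wedge`, `mpzw_trx`, `mpzw_wed0` = proofs of `mpz_wedge`, `mpz_trx`, `mpz_wed0` of Plane/ClosePieces.lean.
Route: `g(d) = f(Π(b u,u) + d 1_X)` is monotone and 1-Lipschitz; at an affine point `(i, u-h)` of the wedge `g'(i - b u) ≤ x` (hx2);
FTC for Lipschitz functions + Fubini give the wedge bound.   On the minus side every point is `(b u, u - h)` (IVT), so `x ≥ γ` POINTWISE at affine points.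
-/

set_option autoImplicit false

namespace Claimed.Agent.R255

open Filter Topology MeasureTheory Set
open scoped NNReal

variable {N : ℕ}

/-! ## the clamp -/

theorem mpzw_clamp (u : ℝ) (hu : u ∈ Icc (1 / 8 : ℝ) (7 / 8)) : mclamp u = u := by
  unfold mclamp
  rw [min_eq_left hu.2, max_eq_right hu.1]

theorem mpzw_clamp_mem (u : ℝ) : mclamp u ∈ Icc (1 / 8 : ℝ) (7 / 8) := by
  unfold mclamp
  exact ⟨le_max_left _ _, max_le (by norm_num) (min_le_right _ _)⟩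

theorem mpzw_clamp_mono : Monotone mclamp := by
  intro a b h
  unfold mclamp
  exact max_le_max le_rfl (min_le_min h le_rfl)

theorem mpzw_clamp_sub (a b : ℝ) (h : a ≤ b) : mclamp b - mclamp a ≤ b - a := by
  unfold mclamp
  simp only [max_def, min_def]
  split_ifs <;> linarith

theorem mpzw_bt_eq (X : MzIn N) (u : ℝ) (hu : u ∈ Icc (1 / 8 : ℝ) (7 / 8)) : X.bt u = X.b u := by
  unfold MzIn.bt
  rw [mpzw_clamp u hu]

theorem mpzw_bt_anti (X : MzIn N) (hX : X.Ok) : Antitone X.bt := by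
  intro a b h
  have ha := mpzw_clamp_mem a
  have hb := mpzw_clamp_mem b
  exact hX.b_anti _ _ (by linarith [ha.1]) (mpzw_clamp_mono h) (by linarith [hb.2])

theorem mpzw_bt_lip (X : MzIn N) (hX : X.Ok) (a b : ℝ) (h : a ≤ b) : X.bt a - X.bt b ≤ (1 + X.m) * (b - a) := by
  have ha := mpzw_clamp_mem a
  have hb := mpzw_clamp_mem b
  have h1 := hX.b_lip _ _ (by linarith [ha.1]) (mpzw_clamp_mono h) (by linarith [hb.2])
  have h2 := mpzw_clamp_sub a b h
  have := hX.m_pos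
  unfold MzIn.bt
  nlinarith

theorem mpzw_bt_cont (X : MzIn N) (hX : X.Ok) : Continuous X.bt := by
  have hm := hX.m_pos
  have : LipschitzWith (Real.toNNReal (1 + X.m)) X.bt := by
    refine LipschitzWith.of_dist_le_mul fun a b => ?_
    rw [Real.dist_eq, Real.dist_eq, Real.coe_toNNReal _ (by linarith)]
    rcases le_total a b with h | h
    · have h1 := mpzw_bt_lip X hX a b h
      have h2 := mpzw_bt_anti X hX h
      rw [abs_of_nonneg (by linarith), abs_of_nonpos (by linarith)]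
      linarith
    · have h1 := mpzw_bt_lip X hX b a h
      have h2 := mpzw_bt_anti X hX h
      rw [abs_of_nonpos (by linarith), abs_of_nonneg (by linarith)]
      linarith
  exact this.continuous

theorem mpzw_b_rng (X : MzIn N) (hX : X.Ok) (u : ℝ) (h0 : 0 < u) (h1 : u < 1) : 0 ≤ X.b u ∧ X.b u ≤ 1 + X.m := by
  refine ⟨hX.b_nonneg u h0 h1, ?_⟩
  have := hX.b_top u h0 h1
  have := hX.m_pos
  nlinarith

/-! ## the `X`-direction -/

theorem mpzw_sum_single (jX : Fin N) (c : Fin N → ℝ) (d : ℝ) :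
    ∑ α, c α * (Pi.single jX d : Fin N → ℝ) α = c jX * d := by
  rw [Finset.sum_eq_single jX]
  · simp
  · intro b _ hb
    simp [Pi.single_eq_of_ne hb]
  · simp

theorem mpzw_dom (X : MzIn N) (hX : X.Ok) (i u d : ℝ) (h0 : 0 < u) (h1 : u < 1) (hd : 0 ≤ d) :
    X.T.Dom (X.T.pl (i, u) + Pi.single X.jX d) := by
  have hv : (X.T.pl (i, u) + Pi.single X.jX d : Fin N → ℝ) X.T.v = u := by
    simp [MpIn.pl, hX.T_ok.e_v, hX.T_ok.t_v, Pi.single_eq_of_ne (Ne.symm hX.jX_ne)]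
  refine ⟨fun l => ?_, by rw [hv]; exact h0, by rw [hv]; exact h1⟩
  have : ∑ α, X.T.lam l α * (X.T.pl (i, u) + Pi.single X.jX d : Fin N → ℝ) α
      = i * ∑ α, X.T.lam l α * X.T.e α + u * ∑ α, X.T.lam l α * X.T.t α + X.T.lam l X.jX * d := by
    rw [← mpzw_sum_single X.jX (X.T.lam l) d, Finset.mul_sum, Finset.mul_sum, ← Finset.sum_add_distrib,
      ← Finset.sum_add_distrib]
    refine Finset.sum_congr rfl fun α _ => ?_
    simp only [Pi.add_apply, MpIn.pl]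
    ring
  rw [this, hX.T_ok.lam_e, hX.T_ok.lam_t]
  have := hX.lamX l
  nlinarith

/-- upper bound of the `X`-difference quotient at an affine point -/
theorem mpzw_aff_le (X : MzIn N) (hX : X.Ok) (q : ℝ × ℝ) (hs : ℕ → ℝ) (a : Fin N → ℝ)
    (haff : X.T.AffAt q hs a) (ε : ℝ) (hε : 0 < ε) :
    ∀ᶠ l in atTop, X.T.f (X.T.pl q + Pi.single X.jX (hs l)) - X.T.f (X.T.pl q) ≤ hs l * (a X.jX + ε) := by
  filter_upwards [haff 1 ε hε] with l hl
  have hc : X.T.Cone (Pi.single X.jX 1) := by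
    intro k
    rw [mpzw_sum_single]
    simpa using hX.lamX k
  have hb : ∀ α, |(Pi.single X.jX (1 : ℝ) : Fin N → ℝ) α| ≤ 1 := by
    intro α
    by_cases h : α = X.jX
    · subst h
      simp
    · simp [Pi.single_eq_of_ne h]
  have h1 := hl _ hc hb
  have e1 : hs l • (Pi.single X.jX (1 : ℝ) : Fin N → ℝ) = Pi.single X.jX (hs l) := by
    ext α
    by_cases h : α = X.jX
    · subst h
      simp
    · simp [Pi.single_eq_of_ne h]
  rw [e1, mpzw_sum_single] at h1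
  have := (abs_le.1 h1).2
  nlinarith

/-- on the minus side `x ≥ γ` pointwise -/
theorem mpzw_x_ge (X : MzIn N) (hX : X.Ok) (u h : ℝ) (h0 : 0 < h) (hu : h < u) (hu1 : u < 1) (hs : ℕ → ℝ) (a : Fin N → ℝ)
    (hs_pos : ∀ l, 0 < hs l) (hs_lim : Tendsto hs atTop (𝓝 0)) (haff : X.T.AffAt (X.b u, u - h) hs a) :
    X.γ ≤ a X.jX := by
  refine le_of_forall_pos_le_add fun ε hε => ?_
  have hmu : 0 < X.m * u := mul_pos hX.m_pos (by linarith)
  have h1 : ∀ᶠ l in atTop, hs l < X.m * u := hs_lim.eventually_lt_const hmu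
  obtain ⟨l, hl1, hl2⟩ := (h1.and (mpzw_aff_le X hX _ hs a haff ε hε)).exists
  have hmin : 0 < min 1 X.m := lt_min one_pos hX.m_pos
  have h2 := hX.hx2 u h (X.b u) (hs l) h0 hu hu1 le_rfl (by nlinarith) (hs_pos l).le (by linarith)
  have h3 := hX.hx1 u (hs l) (by linarith) hu1 (hs_pos l).le hl1.le
  simp only [sub_self, zero_add, Pi.single_zero, add_zero] at h2
  have h4 : X.γ * hs l ≤ hs l * (a X.jX + ε) := by linarith
  have := hs_pos l
  nlinarith

/-! ## the profile `g` of (8.6) -/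

/-- `g(d) = f(Π(b u, u) + d 1_X)`, frozen outside `[0, m u]` -/
noncomputable def mpzwG (X : MzIn N) (u d : ℝ) : ℝ :=
  X.T.f (X.T.pl (X.b u, u) + Pi.single X.jX (max 0 (min d (X.m * u))))

theorem mpzwG_eq (X : MzIn N) (u d : ℝ) (h0 : 0 ≤ d) (h1 : d ≤ X.m * u) :
    mpzwG X u d = X.T.f (X.T.pl (X.b u, u) + Pi.single X.jX d) := by
  unfold mpzwG
  rw [min_eq_left h1, max_eq_right h0]

theorem mpzwG_step (X : MzIn N) (hX : X.Ok) (u : ℝ) (h0 : 0 < u) (h1 : u < 1) (a b : ℝ) (h : a ≤ b) :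
    0 ≤ mpzwG X u b - mpzwG X u a ∧ mpzwG X u b - mpzwG X u a ≤ b - a := by
  have hmu : 0 < X.m * u := mul_pos hX.m_pos h0
  set ca := max 0 (min a (X.m * u)) with hca
  set cb := max 0 (min b (X.m * u)) with hcb
  have hca0 : 0 ≤ ca := le_max_left _ _
  have hab : ca ≤ cb := max_le_max le_rfl (min_le_min h le_rfl)
  have hab' : cb - ca ≤ b - a := by
    rw [hca, hcb]
    simp only [max_def, min_def]
    split_ifs <;> linarith
  have h2 := hX.T_ok.cap X.jX (X.T.pl (X.b u, u) + Pi.single X.jX ca) (cb - ca) (by linarith)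
    (mpzw_dom X hX _ u ca h0 h1 hca0)
  have e : X.T.pl (X.b u, u) + Pi.single X.jX ca + Pi.single X.jX (cb - ca)
      = X.T.pl (X.b u, u) + Pi.single X.jX cb := by
    rw [add_assoc, ← Pi.single_add]
    congr 2
    ring
  rw [e, hX.dX] at h2
  have h3 := h2 (mpzw_dom X hX _ u cb h0 h1 (by linarith))
  unfold mpzwG
  rw [← hca, ← hcb]
  exact ⟨h3.1, by linarith [h3.2]⟩

theorem mpzwG_lip (X : MzIn N) (hX : X.Ok) (u : ℝ) (h0 : 0 < u) (h1 : u < 1) : LipschitzWith 1 (mpzwG X u) := by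
  refine LipschitzWith.of_dist_le_mul fun a b => ?_
  rw [Real.dist_eq, Real.dist_eq, NNReal.coe_one, one_mul]
  rcases le_total a b with h | h
  · have := mpzwG_step X hX u h0 h1 a b h
    rw [abs_of_nonpos (by linarith), abs_of_nonpos (by linarith)]
    linarith
  · have := mpzwG_step X hX u h0 h1 b a h
    rw [abs_of_nonneg (by linarith), abs_of_nonneg (by linarith)]
    linarith

/-- FTC + (8.6) -/
theorem mpzwG_int (X : MzIn N) (hX : X.Ok) (u : ℝ) (h0 : 0 < u) (h1 : u < 1) (L : ℝ) (hL0 : 0 ≤ L) (hL : L ≤ X.m * u) :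
    X.γ * L ≤ ∫ d in (0 : ℝ)..L, deriv (mpzwG X u) d := by
  have hac : AbsolutelyContinuousOnInterval (mpzwG X u) 0 L :=
    ((mpzwG_lip X hX u h0 h1).lipschitzOnWith (s := uIcc 0 L)).absolutelyContinuousOnInterval
  rw [hac.integral_deriv_eq_sub, mpzwG_eq X u L hL0 hL, mpzwG_eq X u 0 le_rfl (by linarith)]
  have := hX.hx1 u L h0 h1 hL0 hL
  simpa using this

theorem mpzwG_deriv_bd (X : MzIn N) (hX : X.Ok) (u : ℝ) (h0 : 0 < u) (h1 : u < 1) (d : ℝ) :
    |deriv (mpzwG X u) d| ≤ 1 := by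
  have := norm_deriv_le_of_lipschitz (x₀ := d) (mpzwG_lip X hX u h0 h1)
  simpa using this

/-- `g'(i - b u) ≤ x(i, u - h)` at affine points of the wedge -/
theorem mpzw_deriv_le (X : MzIn N) (hX : X.Ok) (u h i : ℝ) (h0 : 0 < h) (hu : h < u) (hu1 : u < 1)
    (hi0 : X.b u ≤ i) (hi1 : i < X.b u + min 1 X.m * h) (hs : ℕ → ℝ) (a : Fin N → ℝ)
    (hs_pos : ∀ l, 0 < hs l) (hs_lim : Tendsto hs atTop (𝓝 0)) (haff : X.T.AffAt (i, u - h) hs a) (ha0 : 0 ≤ a X.jX) :
    deriv (mpzwG X u) (i - X.b u) ≤ a X.jX := by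
  by_cases hd : DifferentiableAt ℝ (mpzwG X u) (i - X.b u)
  swap
  · rw [deriv_zero_of_not_differentiableAt hd]
    exact ha0
  refine le_of_forall_pos_le_add fun ε hε => ?_
  have hm := hX.m_pos
  have hmin : min 1 X.m * h ≤ X.m * h := mul_le_mul_of_nonneg_right (min_le_right _ _) h0.le
  have hgap : 0 < X.m * u - (i - X.b u) := by nlinarith
  have h1 : ∀ᶠ l in atTop, hs l < X.m * u - (i - X.b u) := hs_lim.eventually_lt_const hgap
  have hsl := hd.hasDerivAt.tendsto_slope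
  have hto : Tendsto (fun l => i - X.b u + hs l) atTop (𝓝[≠] (i - X.b u)) := by
    refine tendsto_nhdsWithin_iff.2 ⟨?_, Eventually.of_forall fun l => ?_⟩
    · simpa using (tendsto_const_nhds (x := i - X.b u)).add hs_lim
    · have := hs_pos l
      simp only [mem_compl_iff, mem_singleton_iff]
      linarith
  have hlim := hsl.comp hto
  refine le_of_tendsto hlim ?_
  filter_upwards [h1, mpzw_aff_le X hX _ hs a haff ε hε] with l hl1 hl2
  have hp := hs_pos l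
  have h2 := hX.hx2 u h i (hs l) h0 hu hu1 hi0 hi1.le hp.le (by linarith)
  simp only [Function.comp, slope_def_field]
  rw [mpzwG_eq X u (i - X.b u + hs l) (by linarith) (by linarith), mpzwG_eq X u (i - X.b u) (by linarith) (by linarith)]
  rw [div_le_iff₀ (by linarith)]
  have e : i - X.b u + hs l - (i - X.b u) = hs l := by ring
  rw [e]
  linarith

/-! ## the wedge -/

theorem mwd_meas (b₀ u₀ lam ρ : ℝ) : MeasurableSet (mwd b₀ u₀ lam ρ) := by
  unfold mwd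
  refine MeasurableSet.inter (measurableSet_lt measurable_const measurable_snd) ?_
  refine MeasurableSet.inter (measurableSet_lt measurable_snd measurable_const) ?_
  refine MeasurableSet.inter (measurableSet_lt measurable_const measurable_fst) ?_
  exact measurableSet_lt measurable_fst (by fun_prop)

theorem mwd_subset (b₀ u₀ lam ρ : ℝ) (hl : 0 < lam) :
    mwd b₀ u₀ lam ρ ⊆ Ioo b₀ (b₀ + lam * (2 * ρ)) ×ˢ Ioo (u₀ - 2 * ρ) (u₀ - ρ) := by
  rintro ⟨i, u⟩ ⟨h1, h2, h3, h4⟩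
  simp only at h1 h2 h3 h4
  refine ⟨⟨h3, ?_⟩, h1, h2⟩
  simp only
  nlinarith

theorem mwd_finite (b₀ u₀ lam ρ : ℝ) (hl : 0 < lam) : volume (mwd b₀ u₀ lam ρ) ≠ ⊤ := by
  refine ne_top_of_le_ne_top ?_ (measure_mono (mwd_subset b₀ u₀ lam ρ hl))
  rw [Measure.volume_eq_prod, Measure.prod_prod, Real.volume_Ioo, Real.volume_Ioo]
  exact ENNReal.mul_ne_top ENNReal.ofReal_ne_top ENNReal.ofReal_ne_top

theorem mwd_integrable (b₀ u₀ lam ρ : ℝ) (hl : 0 < lam) (φ : ℝ × ℝ → ℝ) (hφ : Measurable φ) (C : ℝ) (hC : ∀ q, |φ q| ≤ C) :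
    IntegrableOn φ (mwd b₀ u₀ lam ρ) :=
  Measure.integrableOn_of_bounded (M := C) (mwd_finite b₀ u₀ lam ρ hl) hφ.aestronglyMeasurable
    (Eventually.of_forall fun q => by simpa using hC q)

/-- Fubini on the wedge -/
theorem mwd_integral (b₀ u₀ lam ρ : ℝ) (hl : 0 < lam) (hρ : 0 < ρ) (φ : ℝ × ℝ → ℝ) (hφ : Measurable φ) (C : ℝ)
    (hC : ∀ q, |φ q| ≤ C) :
    ∫ q in mwd b₀ u₀ lam ρ, φ q = ∫ u in (u₀ - 2 * ρ)..(u₀ - ρ), ∫ i in b₀..(b₀ + lam * (u₀ - u)), φ (i, u) := by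
  have hint : Integrable ((mwd b₀ u₀ lam ρ).indicator φ) (volume.prod volume) := by
    rw [← Measure.volume_eq_prod]
    exact (mwd_integrable b₀ u₀ lam ρ hl φ hφ C hC).integrable_indicator (mwd_meas b₀ u₀ lam ρ)
  rw [← integral_indicator (mwd_meas b₀ u₀ lam ρ), Measure.volume_eq_prod, integral_prod_symm _ hint,
    intervalIntegral.integral_of_le (by linarith), integral_Ioc_eq_integral_Ioo, ← integral_indicator measurableSet_Ioo]
  refine integral_congr_ae (Eventually.of_forall fun u => ?_)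
  simp only
  by_cases hu : u ∈ Ioo (u₀ - 2 * ρ) (u₀ - ρ)
  · rw [indicator_of_mem hu, intervalIntegral.integral_of_le (by nlinarith [hu.2]), integral_Ioc_eq_integral_Ioo,
      ← integral_indicator measurableSet_Ioo]
    refine integral_congr_ae (Eventually.of_forall fun i => ?_)
    simp only
    by_cases hi : i ∈ Ioo b₀ (b₀ + lam * (u₀ - u))
    · rw [indicator_of_mem hi, indicator_of_mem]
      exact ⟨hu.1, hu.2, hi.1, hi.2⟩
    · rw [indicator_of_notMem hi, indicator_of_notMem]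
      rintro ⟨-, -, h3, h4⟩
      exact hi ⟨h3, h4⟩
  · rw [indicator_of_notMem hu]
    have : ∀ i : ℝ, (mwd b₀ u₀ lam ρ).indicator φ (i, u) = 0 := by
      intro i
      rw [indicator_of_notMem]
      rintro ⟨h1, h2, -, -⟩
      exact hu ⟨h1, h2⟩
    simp [this]

theorem mpzw_wedge (X : MzIn N) (hX : X.Ok) (O : MpOut X.T X.Lam (1 / 8) (7 / 8)) (u₀ : ℝ) (hu : u₀ ∈ Ioo (1 / 4 : ℝ) (3 / 4))
    (lam : ℝ) (hl : 0 < lam) (hl' : lam < min 1 X.m) :
    ∀ᶠ ρ in 𝓝[>] (0 : ℝ), X.γ * (3 / 2 * lam * ρ ^ 2) ≤ ∫ q in mwd (X.bt u₀) u₀ lam ρ, O.A X.jX q := by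
  have hm := hX.m_pos
  have hua := hu.1
  have hub := hu.2
  have hu0 : 0 < u₀ := by linarith [hu.1]
  have hu1 : u₀ < 1 := by linarith [hu.2]
  have hbt : X.bt u₀ = X.b u₀ := mpzw_bt_eq X u₀ ⟨by linarith [hu.1], by linarith [hu.2]⟩
  obtain ⟨hb0, hb1⟩ := mpzw_b_rng X hX u₀ hu0 hu1
  have hlam1 : lam < 1 := lt_of_lt_of_le hl' (min_le_left _ _)
  have hlamm : lam < X.m := lt_of_lt_of_le hl' (min_le_right _ _)
  have hsmall : ∀ᶠ ρ in 𝓝[>] (0 : ℝ), ρ < 1 / 16 :=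
    mem_nhdsWithin_of_mem_nhds (Iio_mem_nhds (by norm_num))
  filter_upwards [hsmall, self_mem_nhdsWithin] with ρ hρ1 hρ0
  have hρ0 : 0 < ρ := hρ0
  rw [hbt]
  set g := mpzwG X u₀ with hg
  have hgm : Measurable (fun q : ℝ × ℝ => deriv g (q.1 - X.b u₀)) :=
    (measurable_deriv g).comp (measurable_fst.sub_const _)
  have hgb : ∀ q : ℝ × ℝ, |deriv g (q.1 - X.b u₀)| ≤ 1 := fun q => mpzwG_deriv_bd X hX u₀ hu0 hu1 _
  have hAb : ∀ q : ℝ × ℝ, |O.A X.jX q| ≤ 1 := by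
    intro q
    have := O.bd X.jX q
    rw [hX.dX] at this
    rw [abs_of_nonneg this.1]
    exact this.2
  -- step 1: pointwise comparison
  have h1 : ∫ q in mwd (X.b u₀) u₀ lam ρ, deriv g (q.1 - X.b u₀) ≤ ∫ q in mwd (X.b u₀) u₀ lam ρ, O.A X.jX q := by
    refine setIntegral_mono_on_ae (mwd_integrable _ _ _ _ hl _ hgm 1 hgb) (mwd_integrable _ _ _ _ hl _ (O.meas _) 1 hAb)
      (mwd_meas _ _ _ _) ?_
    filter_upwards [O.aff] with q hq hqW
    obtain ⟨i, u⟩ := q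
    obtain ⟨w1, w2, w3, w4⟩ := hqW
    simp only at w1 w2 w3 w4
    have hLam : 3 + X.m ≤ X.Lam := by
      unfold MzIn.Lam
      have : 0 ≤ ∑ α, |X.T.t α| := Finset.sum_nonneg fun _ _ => abs_nonneg _
      linarith
    have hpatch : (i, u) ∈ mpatch X.Lam (1 / 8) (7 / 8) 0 := by
      refine ⟨⟨?_, ?_⟩, ?_, ?_⟩ <;> simp only <;> nlinarith
    have haff : X.T.AffAt (i, u₀ - (u₀ - u)) O.hs (fun α => O.A α (i, u)) := by
      have e : u₀ - (u₀ - u) = u := by ring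
      rw [e]
      exact hq hpatch
    refine mpzw_deriv_le X hX u₀ (u₀ - u) i (by linarith) (by linarith) hu1 w3.le ?_ O.hs _ O.hs_pos O.hs_lim haff
      (O.bd X.jX _).1
    have : lam * (u₀ - u) < min 1 X.m * (u₀ - u) := mul_lt_mul_of_pos_right hl' (by linarith)
    linarith
  refine le_trans ?_ h1
  -- step 2: Fubini and FTC
  rw [mwd_integral _ _ _ _ hl hρ0 _ hgm 1 hgb]
  have h2 : ∀ u ∈ Icc (u₀ - 2 * ρ) (u₀ - ρ), X.γ * (lam * (u₀ - u)) ≤
      ∫ i in (X.b u₀)..(X.b u₀ + lam * (u₀ - u)), deriv g (i - X.b u₀) := by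
    intro u hu'
    have e := intervalIntegral.integral_comp_sub_right (a := X.b u₀) (b := X.b u₀ + lam * (u₀ - u))
      (fun d => deriv g d) (X.b u₀)
    rw [e]
    have e1 : X.b u₀ - X.b u₀ = 0 := by ring
    have e2 : X.b u₀ + lam * (u₀ - u) - X.b u₀ = lam * (u₀ - u) := by ring
    rw [e1, e2]
    refine mpzwG_int X hX u₀ hu0 hu1 _ (mul_nonneg hl.le (by linarith [hu'.2])) ?_
    have : u₀ - u ≤ u₀ := by linarith [hu'.1]
    nlinarith [hu'.2]
  have h3 : ∫ u in (u₀ - 2 * ρ)..(u₀ - ρ), X.γ * (lam * (u₀ - u)) = X.γ * (3 / 2 * lam * ρ ^ 2) := by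
    rw [intervalIntegral.integral_const_mul, intervalIntegral.integral_const_mul]
    have e := intervalIntegral.integral_comp_sub_left (a := u₀ - 2 * ρ) (b := u₀ - ρ) (fun x => x) u₀
    rw [e, integral_id]
    ring
  rw [← h3]
  refine intervalIntegral.integral_mono_on (by linarith)
    ((by fun_prop : Continuous fun u => X.γ * (lam * (u₀ - u))).intervalIntegrable _ _) ?_ h2
  -- integrability of the inner integral: it equals `g(lam (u₀ - u)) - g 0`
  have h4 : ∀ u : ℝ, ∫ i in (X.b u₀)..(X.b u₀ + lam * (u₀ - u)), deriv g (i - X.b u₀) = g (lam * (u₀ - u)) - g 0 := by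
    intro u
    have e := intervalIntegral.integral_comp_sub_right (a := X.b u₀) (b := X.b u₀ + lam * (u₀ - u))
      (fun d => deriv g d) (X.b u₀)
    rw [e]
    have e1 : X.b u₀ - X.b u₀ = 0 := by ring
    have e2 : X.b u₀ + lam * (u₀ - u) - X.b u₀ = lam * (u₀ - u) := by ring
    rw [e1, e2]
    exact (((mpzwG_lip X hX u₀ hu0 hu1).lipschitzOnWith (s := uIcc 0 (lam * (u₀ - u)))).absolutelyContinuousOnInterval).integral_deriv_eq_sub
  simp only [h4]
  have hgc : Continuous g := (mpzwG_lip X hX u₀ hu0 hu1).continuous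
  exact (by fun_prop : Continuous fun u => g (lam * (u₀ - u)) - g 0).intervalIntegrable _ _

/-! ## the minus side, `p > 0` -/

theorem mpzw_bt_rng (X : MzIn N) (hX : X.Ok) (u : ℝ) : 0 ≤ X.bt u ∧ X.bt u ≤ 1 + X.m := by
  have h := mpzw_clamp_mem u
  exact mpzw_b_rng X hX _ (by linarith [h.1]) (by linarith [h.2])

theorem mpzw_Lam (X : MzIn N) : 3 + X.m ≤ X.Lam := by
  unfold MzIn.Lam
  have : 0 ≤ ∑ α, |X.T.t α| := Finset.sum_nonneg fun _ _ => abs_nonneg _
  linarith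

/-- first order expansion of `bt` at `u₀`, evaluated at `u₀ + K ρ` -/
theorem mpzw_expand (bt : ℝ → ℝ) (u₀ p K ε : ℝ) (hε : 0 < ε) (db : HasDerivAt bt (-p) u₀) :
    ∀ᶠ ρ in 𝓝[>] (0 : ℝ), |bt (u₀ + K * ρ) - bt u₀ + p * (K * ρ)| ≤ ε * |K * ρ| := by
  have h1 := (hasDerivAt_iff_isLittleO.1 db).def hε
  have hto : Tendsto (fun ρ : ℝ => u₀ + K * ρ) (𝓝[>] (0 : ℝ)) (𝓝 u₀) := by
    have : Tendsto (fun ρ : ℝ => u₀ + K * ρ) (𝓝 (0 : ℝ)) (𝓝 (u₀ + K * 0)) :=
      (by fun_prop : Continuous fun ρ : ℝ => u₀ + K * ρ).tendsto 0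
    simp only [mul_zero, add_zero] at this
    exact this.mono_left nhdsWithin_le_nhds
  filter_upwards [hto.eventually h1] with ρ hρ
  simp only [Real.norm_eq_abs, smul_eq_mul, add_sub_cancel_left] at hρ
  have e : bt (u₀ + K * ρ) - bt u₀ + p * (K * ρ) = bt (u₀ + K * ρ) - bt u₀ - K * ρ * -p := by ring
  rw [e]
  exact hρ

theorem mpzw_rep (X : MzIn N) (hX : X.Ok) (u₀ p : ℝ) (hu : u₀ ∈ Ioo (1 / 4 : ℝ) (3 / 4)) (db : HasDerivAt X.bt (-p) u₀)
    (hp : 0 < p) :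
    ∀ᶠ ρ in 𝓝[>] (0 : ℝ), ∀ q ∈ mbx X.bt u₀ ρ ρ (-1), q ∈ mpatch X.Lam (1 / 8) (7 / 8) 0 ∧
      ∃ u h : ℝ, 0 < h ∧ h < u ∧ u < 1 ∧ q = (X.b u, u - h) := by
  have hm := hX.m_pos
  have hua := hu.1
  have hub := hu.2
  set K : ℝ := 2 * (2 + X.m) / p + 1 with hK
  have hK1 : 1 ≤ K := by
    have : 0 ≤ 2 * (2 + X.m) / p := by positivity
    linarith
  have hKp : 2 + X.m ≤ p / 2 * K := by
    have : p / 2 * K = (2 + X.m) + p / 2 := by
      rw [hK]
      field_simp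
    linarith
  have hsmall : ∀ᶠ ρ in 𝓝[>] (0 : ℝ), K * ρ < 1 / 8 := by
    have : Tendsto (fun ρ : ℝ => K * ρ) (𝓝[>] (0 : ℝ)) (𝓝 0) := by
      have : Tendsto (fun ρ : ℝ => K * ρ) (𝓝 (0 : ℝ)) (𝓝 (K * 0)) :=
        (by fun_prop : Continuous fun ρ : ℝ => K * ρ).tendsto 0
      simp only [mul_zero] at this
      exact this.mono_left nhdsWithin_le_nhds
    exact this.eventually_lt_const (by norm_num)
  filter_upwards [hsmall, self_mem_nhdsWithin, mpzw_expand X.bt u₀ p K (p / 2) (by linarith) db] with ρ hρ1 hρ0 hex q hq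
  have hρ0 : 0 < ρ := hρ0
  obtain ⟨i, v⟩ := q
  obtain ⟨q1, q2, q3⟩ := hq
  simp only at q1 q2 q3
  obtain ⟨q1a, q1b⟩ := abs_lt.1 q1
  have hρK : ρ ≤ K * ρ := by nlinarith
  have hLam := mpzw_Lam X
  obtain ⟨r0, r1⟩ := mpzw_bt_rng X hX v
  refine ⟨⟨⟨?_, ?_⟩, ?_, ?_⟩, ?_⟩
  · simp only
    linarith
  · simp only
    linarith
  · simp only
    linarith
  · simp only
    linarith
  -- the end point `u₀ + K ρ`
  have hKρ : 0 ≤ K * ρ := by positivity
  rw [abs_of_nonneg hKρ] at hex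
  have h1 : X.bt (u₀ + K * ρ) ≤ X.bt u₀ - (2 + X.m) * ρ := by
    have := (abs_le.1 hex).2
    nlinarith
  have h2 : X.bt u₀ - (1 + X.m) * ρ ≤ X.bt v := by
    have a1 := mpzw_bt_lip X hX u₀ (u₀ + ρ) (by linarith)
    have a2 := mpzw_bt_anti X hX (show v ≤ u₀ + ρ by linarith)
    have e : u₀ + ρ - u₀ = ρ := by ring
    rw [e] at a1
    linarith
  have hmem : i ∈ Icc (X.bt (u₀ + K * ρ)) (X.bt v) := ⟨by linarith, by linarith⟩
  obtain ⟨u, hu', hui⟩ := intermediate_value_Icc' (show v ≤ u₀ + K * ρ by linarith) (mpzw_bt_cont X hX).continuousOn hmem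
  have hne : u ≠ v := by
    rintro rfl
    linarith
  have hlt : v < u := lt_of_le_of_ne hu'.1 (Ne.symm hne)
  refine ⟨u, u - v, by linarith, by linarith, by linarith [hu'.2], ?_⟩
  rw [← mpzw_bt_eq X u ⟨by linarith, by linarith [hu'.2]⟩, hui]
  congr 1
  ring

theorem mpzw_trx (X : MzIn N) (hX : X.Ok) (O : MpOut X.T X.Lam (1 / 8) (7 / 8)) (u₀ p s₀ : ℝ) (hg : MzGood X O.A u₀ p s₀) (hp : 0 < p)
    (xm : ℝ) (h : MStr (O.A X.jX) X.bt u₀ (-1) xm) : X.γ ≤ xm := by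
  have hbm : Measurable X.bt := (mpzw_bt_cont X hX).measurable
  have hlow : ∀ᶠ ρ in 𝓝[>] (0 : ℝ), 2 * (X.γ - xm) ≤ (ρ ^ 2)⁻¹ * ∫ q in mbx X.bt u₀ ρ ρ (-1), |O.A X.jX q - xm| := by
    filter_upwards [mpzw_rep X hX u₀ p hg.hu hg.db hp, self_mem_nhdsWithin] with ρ hrep hρ0
    have hρ0 : 0 < ρ := hρ0
    have hvol := mbx_volume X.bt hbm u₀ ρ ρ (-1) (Or.inr rfl) hρ0 hρ0
    have hfin : volume (mbx X.bt u₀ ρ ρ (-1)) ≠ ⊤ := by
      rw [hvol]
      exact ENNReal.ofReal_ne_top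
    have hms := mbx_meas X.bt hbm u₀ ρ ρ (-1)
    have hAb : ∀ q : ℝ × ℝ, ‖|O.A X.jX q - xm|‖ ≤ 1 + |xm| := by
      intro q
      have := O.bd X.jX q
      rw [hX.dX] at this
      rw [Real.norm_eq_abs, abs_abs]
      calc |O.A X.jX q - xm| ≤ |O.A X.jX q| + |xm| := abs_sub _ _
        _ ≤ 1 + |xm| := by rw [abs_of_nonneg this.1]; linarith [this.2]
    have hi2 : IntegrableOn (fun q => |O.A X.jX q - xm|) (mbx X.bt u₀ ρ ρ (-1)) :=
      Measure.integrableOn_of_bounded (M := 1 + |xm|) hfin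
        (((O.meas X.jX).sub_const xm).abs.aestronglyMeasurable) (Eventually.of_forall hAb)
    have hi1 : IntegrableOn (fun _ : ℝ × ℝ => X.γ - xm) (mbx X.bt u₀ ρ ρ (-1)) :=
      integrableOn_const hfin
    have hmono : ∫ _q in mbx X.bt u₀ ρ ρ (-1), (X.γ - xm) ≤ ∫ q in mbx X.bt u₀ ρ ρ (-1), |O.A X.jX q - xm| := by
      refine setIntegral_mono_on_ae hi1 hi2 hms ?_
      filter_upwards [O.aff] with q hq hqB
      obtain ⟨hpatch, u, hh, h0, h1, h2, rfl⟩ := hrep q hqB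
      have := mpzw_x_ge X hX u hh h0 h1 h2 O.hs _ O.hs_pos O.hs_lim (hq hpatch)
      exact le_trans (by linarith) (le_abs_self _)
    rw [setIntegral_const, Measure.real, hvol, ENNReal.toReal_ofReal (by positivity), smul_eq_mul] at hmono
    have hρ2 : 0 < ρ ^ 2 := by positivity
    rw [← div_eq_inv_mul, le_div_iff₀ hρ2]
    nlinarith
  have := ge_of_tendsto h hlow
  linarith

/-! ## the plus side, `p = 0` -/

theorem mpzw_half : Tendsto (fun ρ : ℝ => ρ / 2) (𝓝[>] (0 : ℝ)) (𝓝[>] (0 : ℝ)) := by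
  refine tendsto_nhdsWithin_iff.2 ⟨?_, ?_⟩
  · have : Tendsto (fun ρ : ℝ => ρ / 2) (𝓝 (0 : ℝ)) (𝓝 (0 / 2)) :=
      (by fun_prop : Continuous fun ρ : ℝ => ρ / 2).tendsto 0
    simp only [zero_div] at this
    exact this.mono_left nhdsWithin_le_nhds
  · filter_upwards [self_mem_nhdsWithin] with ρ hρ
    have hρ : 0 < ρ := hρ
    exact half_pos hρ

theorem mpzw_wed0 (X : MzIn N) (hX : X.Ok) (O : MpOut X.T X.Lam (1 / 8) (7 / 8)) (u₀ p s₀ : ℝ) (hg : MzGood X O.A u₀ p s₀) (hp : p = 0) :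
    ∃ c : ℝ, 0 < c ∧ ∀ᶠ ρ in 𝓝[>] (0 : ℝ), ENNReal.ofReal (c * ρ ^ 2) ≤ volume ({q | 0 < O.A X.jX q} ∩ mbx X.bt u₀ ρ ρ 1) := by
  have hm := hX.m_pos
  have hγ := hX.γ_pos
  have hbm : Measurable X.bt := (mpzw_bt_cont X hX).measurable
  have hmin : 0 < min 1 X.m := lt_min one_pos hm
  set lam : ℝ := min 1 X.m / 2 with hlam
  have hl : 0 < lam := by positivity
  have hl' : lam < min 1 X.m := by linarith
  have hl1 : lam < 1 := lt_of_lt_of_le hl' (min_le_left _ _)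
  set ε' : ℝ := X.γ * lam / 4 with hε'
  have hε0 : 0 < ε' := by positivity
  refine ⟨X.γ * lam / 4, by positivity, ?_⟩
  have db := hg.db
  rw [hp] at db
  filter_upwards [mpzw_half.eventually (mpzw_wedge X hX O u₀ hg.hu lam hl hl'), self_mem_nhdsWithin,
    mpzw_expand X.bt u₀ 0 (-1) ε' hε0 db] with ρ hW hρ0 hex
  have hρ0 : 0 < ρ := hρ0
  set b₀ := X.bt u₀ with hb₀
  set S : Set (ℝ × ℝ) := {q | 0 < O.A X.jX q} with hS
  have hSm : MeasurableSet S := measurableSet_lt measurable_const (O.meas X.jX)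
  set W := mwd b₀ u₀ lam (ρ / 2) with hWdef
  set E := S ∩ mbx X.bt u₀ ρ ρ 1 with hE
  set R : Set (ℝ × ℝ) := Ioc b₀ (b₀ + ε' * ρ) ×ˢ Ioo (u₀ - ρ) (u₀ - ρ / 2) with hR
  have hWm : MeasurableSet W := mwd_meas _ _ _ _
  have hWf : volume W ≠ ⊤ := mwd_finite _ _ _ _ hl
  have hvol := mbx_volume X.bt hbm u₀ ρ ρ 1 (Or.inl rfl) hρ0 hρ0
  have hEf : volume E ≠ ⊤ := by
    refine ne_top_of_le_ne_top ?_ (measure_mono inter_subset_right)
    rw [hvol]
    exact ENNReal.ofReal_ne_top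
  have hRv : volume R = ENNReal.ofReal (ε' * ρ) * ENNReal.ofReal (ρ / 2) := by
    rw [hR, Measure.volume_eq_prod, Measure.prod_prod, Real.volume_Ioc, Real.volume_Ioo]
    congr 2 <;> ring
  have hRf : volume R ≠ ⊤ := by
    rw [hRv]
    exact ENNReal.mul_ne_top ENNReal.ofReal_ne_top ENNReal.ofReal_ne_top
  -- `bt` is within `ε' ρ` of `b₀` on the window
  have hbt : X.bt (u₀ - ρ) ≤ b₀ + ε' * ρ := by
    have := (abs_le.1 hex).2
    have e : u₀ + -1 * ρ = u₀ - ρ := by ring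
    rw [e] at this
    have e2 : |(-1 : ℝ) * ρ| = ρ := by rw [abs_mul, abs_neg, abs_one, one_mul, abs_of_pos hρ0]
    rw [e2] at this
    linarith
  have hsub : S ∩ W ⊆ E ∪ R := by
    rintro ⟨i, u⟩ ⟨hs, w1, w2, w3, w4⟩
    simp only at w1 w2 w3 w4
    have a1 : b₀ ≤ X.bt u := mpzw_bt_anti X hX (show u ≤ u₀ by linarith)
    have a2 : X.bt u ≤ X.bt (u₀ - ρ) := mpzw_bt_anti X hX (show u₀ - ρ ≤ u by linarith)
    by_cases hi : X.bt u < i
    · left
      refine ⟨hs, ?_, ?_, ?_⟩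
      · simp only
        rw [abs_lt]
        constructor <;> linarith
      · simp only
        linarith
      · simp only
        have : lam * (u₀ - u) < 1 * ρ := by
          have : u₀ - u < ρ := by linarith
          nlinarith
        linarith
    · right
      push Not at hi
      exact ⟨⟨w3, by linarith⟩, by simp only; linarith, w2⟩
  -- the integral is at most the measure of `S ∩ W`
  have hAb : ∀ q : ℝ × ℝ, |O.A X.jX q| ≤ 1 := by
    intro q
    have := O.bd X.jX q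
    rw [hX.dX] at this
    rw [abs_of_nonneg this.1]
    exact this.2
  have h1 : ∫ q in W, O.A X.jX q ≤ volume.real (S ∩ W) := by
    have e : volume.real (S ∩ W) = ∫ q in W, S.indicator (fun _ => (1 : ℝ)) q := by
      rw [integral_indicator hSm, Measure.restrict_restrict hSm, setIntegral_const, smul_eq_mul, mul_one]
    rw [e]
    refine setIntegral_mono (mwd_integrable _ _ _ _ hl _ (O.meas _) 1 hAb) ?_ fun q => ?_
    · exact (integrableOn_const hWf).indicator hSm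
    · have := O.bd X.jX q
      rw [hX.dX] at this
      by_cases hq : q ∈ S
      · rw [indicator_of_mem hq]
        exact this.2
      · rw [indicator_of_notMem hq]
        have : ¬ 0 < O.A X.jX q := hq
        linarith
  have h2 : volume.real (S ∩ W) ≤ volume.real E + volume.real R :=
    le_trans (measureReal_mono hsub (by
      exact ne_top_of_le_ne_top (ENNReal.add_ne_top.2 ⟨hEf, hRf⟩) (measure_union_le _ _))) (measureReal_union_le _ _)
  have h3 : volume.real R = ε' * ρ * (ρ / 2) := by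
    rw [Measure.real, hRv, ENNReal.toReal_mul, ENNReal.toReal_ofReal (by positivity), ENNReal.toReal_ofReal (by positivity)]
  rw [ENNReal.ofReal_le_iff_le_toReal hEf]
  have h4 : (volume E).toReal = volume.real E := rfl
  rw [h4]
  have h5 : X.γ * (3 / 2 * lam * (ρ / 2) ^ 2) ≤ volume.real E + ε' * ρ * (ρ / 2) := by
    rw [← h3]
    exact le_trans hW (le_trans h1 h2)
  rw [hε'] at h5
  nlinarith

end Claimed.Agent.R255
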