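-- KEEP
import Claimed.Agent.R255.Plane.CloseCtx
import Claimed.Agent.R255.Plane.Trace
import Claimed.Agent.R255.Plane.Curve
import Claimed.Agent.R255.Plane.CzWedge
import Claimed.Agent.R255.Plane.CzPot
import Claimed.Agent.R255.Plane.CzJump

/-!
# Row 255, block (B), chapter C, file 3: the pieces C0-C8 (statements; plans in Plane/Close.lean)      (architect helper7)

Each section = ONE leaf; provers: put long proofs in your own file `Plane/Cz<Name>.lean` (import CloseCtx, Trace, Curve; prefix `mpz_`) and cite it here, or fill in place (patch only your block).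
-/

set_option autoImplicit false

namespace Claimed.Agent.R255

open Filter Topology MeasureTheory Set
open scoped NNReal

variable {N : ℕ}

/-! ## C0 BASIC -/

theorem mz_clamp_eq (u : ℝ) (hu : u ∈ Icc (1 / 8 : ℝ) (7 / 8)) : mclamp u = u := by
  unfold mclamp
  rw [min_eq_left hu.2, max_eq_right hu.1]

theorem mz_clamp_mem (u : ℝ) : mclamp u ∈ Icc (1 / 8 : ℝ) (7 / 8) := by
  unfold mclamp
  exact ⟨le_max_left _ _, max_le (by norm_num) (min_le_right _ _)⟩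

theorem mz_clamp_mono : Monotone mclamp := by
  intro u v h
  unfold mclamp
  exact max_le_max le_rfl (min_le_min h le_rfl)

theorem mz_clamp_sub (u v : ℝ) (h : u ≤ v) : mclamp v - mclamp u ≤ v - u := by
  unfold mclamp
  rcases le_total u (7 / 8) with h1 | h1 <;> rcases le_total v (7 / 8) with h2 | h2 <;>
    rcases le_total (1 / 8) u with h3 | h3 <;> rcases le_total (1 / 8) v with h4 | h4 <;>
    simp only [min_eq_left, min_eq_right, max_eq_left, max_eq_right, h1, h2, h3, h4] <;>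
    first
      | linarith
      | (norm_num; linarith)
      | (exfalso; linarith)

/-- a function which is `K`-Lipschitz on `[1/8,7/8]`, composed with the clamp -/
theorem mz_clamp_lip (f : ℝ → ℝ) (K : ℝ) (hK : 0 ≤ K)
    (hf : ∀ r t : ℝ, 0 < r → r ≤ t → t < 1 → |f t - f r| ≤ K * (t - r)) :
    LipschitzWith (Real.toNNReal K) fun u => f (mclamp u) := by
  have key : ∀ u v : ℝ, u ≤ v → |f (mclamp v) - f (mclamp u)| ≤ K * (v - u) := by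
    intro u v h
    have h1 := mz_clamp_mem u
    have h2 := mz_clamp_mem v
    have h3 := hf (mclamp u) (mclamp v) (by linarith [h1.1]) (mz_clamp_mono h) (by linarith [h2.2])
    exact h3.trans (mul_le_mul_of_nonneg_left (mz_clamp_sub u v h) hK)
  refine LipschitzWith.of_dist_le_mul fun u v => ?_
  rw [Real.coe_toNNReal K hK, Real.dist_eq, Real.dist_eq]
  rcases le_total u v with h | h
  · rw [abs_sub_comm, abs_sub_comm u v, abs_of_nonneg (sub_nonneg.2 h)]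
    exact key u v h
  · rw [abs_of_nonneg (sub_nonneg.2 h)]
    exact key v u h

theorem mz_bt_eq (X : MzIn N) (u : ℝ) (hu : u ∈ Icc (1 / 8 : ℝ) (7 / 8)) : X.bt u = X.b u := by
  unfold MzIn.bt
  rw [mz_clamp_eq u hu]

theorem mz_St_eq (X : MzIn N) (u : ℝ) (hu : u ∈ Icc (1 / 8 : ℝ) (7 / 8)) : X.St u = X.S u := by
  unfold MzIn.St
  rw [mz_clamp_eq u hu]

theorem mz_bt_lip (X : MzIn N) (hX : X.Ok) : LipschitzWith (Real.toNNReal (1 + X.m)) X.bt := by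
  refine mz_clamp_lip X.b (1 + X.m) (by linarith [hX.m_pos]) fun r t h0 hrt h1 => ?_
  rw [abs_sub_comm, abs_of_nonneg (sub_nonneg.2 (hX.b_anti r t h0 hrt h1))]
  exact hX.b_lip r t h0 hrt h1

theorem mz_bt_anti (X : MzIn N) (hX : X.Ok) : Antitone X.bt := by
  intro u v h
  have h1 := mz_clamp_mem u
  have h2 := mz_clamp_mem v
  exact hX.b_anti (mclamp u) (mclamp v) (by linarith [h1.1]) (mz_clamp_mono h) (by linarith [h2.2])

theorem mz_bt_rng (X : MzIn N) (hX : X.Ok) (u : ℝ) : 0 ≤ X.bt u ∧ X.bt u ≤ 1 + X.m := by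
  have h1 := mz_clamp_mem u
  have h0 : 0 < mclamp u := by linarith [h1.1]
  have h2 : mclamp u < 1 := by linarith [h1.2]
  refine ⟨hX.b_nonneg _ h0 h2, ?_⟩
  have h3 := hX.b_top _ h0 h2
  have h4 : 0 ≤ (1 + X.m) * mclamp u := mul_nonneg (by linarith [hX.m_pos]) h0.le
  show X.b (mclamp u) ≤ _
  linarith

theorem mz_St_lip (X : MzIn N) (hX : X.Ok) : LipschitzWith 1 X.St := by
  have := mz_clamp_lip X.S 1 zero_le_one fun r t h0 hrt h1 => by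
    rw [one_mul]
    exact hX.S_lip r t h0 hrt h1
  rwa [Real.toNNReal_one] at this

/-- `𝒱_P = 𝒱_{P'} - (P - P') ℬ` -/
theorem mz_V_shift (X : MzIn N) (A : Fin N → ℝ × ℝ → ℝ) (P P' : ℝ) (q : ℝ × ℝ) :
    X.Vq A P q = X.Vq A P' q - (P - P') * X.Bq A q := by
  have h : ∑ α, X.T.e α * (X.T.t α - P) * A α q =
      ∑ α, X.T.e α * (X.T.t α - P') * A α q - (P - P') * ∑ α, X.T.e α * A α q := by
    rw [Finset.mul_sum, ← Finset.sum_sub_distrib]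
    exact Finset.sum_congr rfl fun α _ => by ring
  unfold MzIn.Vq MzIn.Bq MzIn.F
  rw [h]
  ring

theorem mz_Bq_meas (X : MzIn N) (A : Fin N → ℝ × ℝ → ℝ) (hA : ∀ α, Measurable (A α)) : Measurable (X.Bq A) := by
  unfold MzIn.Bq
  exact (Finset.measurable_sum _ fun α _ => (hA α).const_mul _).sub_const _

theorem mz_Vq_meas (X : MzIn N) (A : Fin N → ℝ × ℝ → ℝ) (hA : ∀ α, Measurable (A α)) (P : ℝ) : Measurable (X.Vq A P) := by
  unfold MzIn.Vq MzIn.F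
  have h1 : Measurable fun q : ℝ × ℝ => ∑ α, X.T.e α * (X.T.t α - P) * A α q :=
    Finset.measurable_sum _ fun α _ => (hA α).const_mul _
  have h2 : Measurable fun q : ℝ × ℝ => deriv X.St q.2 := (measurable_deriv X.St).comp measurable_snd
  exact ((h1.const_add _).add (hA _)).sub (((h2.const_mul _).sub_const _).sub_const _)

theorem mz_sum_bd (X : MzIn N) (A : Fin N → ℝ × ℝ → ℝ) (hA : ∀ α q, 0 ≤ A α q ∧ A α q ≤ X.T.d α) (c : Fin N → ℝ) (q : ℝ × ℝ) :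
    |∑ α, c α * A α q| ≤ ∑ α, |c α| * X.T.d α := by
  refine (Finset.abs_sum_le_sum_abs _ _).trans (Finset.sum_le_sum fun α _ => ?_)
  rw [abs_mul, abs_of_nonneg (hA α q).1]
  exact mul_le_mul_of_nonneg_left (hA α q).2 (abs_nonneg _)

theorem mz_sum_bd_nonneg (X : MzIn N) (A : Fin N → ℝ × ℝ → ℝ) (hA : ∀ α q, 0 ≤ A α q ∧ A α q ≤ X.T.d α) (c : Fin N → ℝ) :
    0 ≤ ∑ α, |c α| * X.T.d α :=
  Finset.sum_nonneg fun α _ => mul_nonneg (abs_nonneg _) ((hA α (0, 0)).1.trans (hA α (0, 0)).2)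

theorem mz_Bq_bd (X : MzIn N) (A : Fin N → ℝ × ℝ → ℝ) (hA : ∀ α q, 0 ≤ A α q ∧ A α q ≤ X.T.d α) :
    ∃ C : ℝ, 0 ≤ C ∧ ∀ q, |X.Bq A q| ≤ C := by
  refine ⟨∑ α, |X.T.e α| * X.T.d α + 2, by linarith [mz_sum_bd_nonneg X A hA X.T.e], fun q => ?_⟩
  unfold MzIn.Bq
  have h1 := mz_sum_bd X A hA X.T.e q
  have h2 := abs_sub (∑ α, X.T.e α * A α q) 2
  rw [abs_of_pos (by norm_num : (0 : ℝ) < 2)] at h2
  linarith

theorem mz_Vq_bd (X : MzIn N) (hX : X.Ok) (A : Fin N → ℝ × ℝ → ℝ) (hA : ∀ α q, 0 ≤ A α q ∧ A α q ≤ X.T.d α) (P : ℝ) :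
    ∃ C : ℝ, 0 ≤ C ∧ ∀ q, |X.Vq A P q| ≤ C := by
  refine ⟨|2 * P - X.m| + ∑ α, |X.T.e α * (X.T.t α - P)| * X.T.d α + X.T.d X.T.v + (2 + |X.β| + |X.γ * X.m|), ?_, fun q => ?_⟩
  · have h1 := mz_sum_bd_nonneg X A hA fun α => X.T.e α * (X.T.t α - P)
    have h2 := (hA X.T.v (0, 0)).1.trans (hA X.T.v (0, 0)).2
    have h3 := abs_nonneg (2 * P - X.m)
    have h4 := abs_nonneg X.β
    have h5 := abs_nonneg (X.γ * X.m)
    linarith
  · unfold MzIn.Vq MzIn.F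
    have h1 := mz_sum_bd X A hA (fun α => X.T.e α * (X.T.t α - P)) q
    have h2 : |A X.T.v q| ≤ X.T.d X.T.v := by
      rw [abs_of_nonneg (hA _ q).1]
      exact (hA _ q).2
    have h3 : |deriv X.St q.2| ≤ 1 := by
      have := norm_deriv_le_of_lipschitz (x₀ := q.2) (mz_St_lip X hX)
      simpa using this
    have e1 := abs_le.1 h1
    have e2 := abs_le.1 h2
    have e3 := abs_le.1 h3
    have e4 := abs_le.1 (le_refl |2 * P - X.m|)
    have e5 := abs_le.1 (le_refl |X.β|)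
    have e6 := abs_le.1 (le_refl |X.γ * X.m|)
    rw [abs_le]
    constructor <;> linarith [e1.1, e1.2, e2.1, e2.2, e3.1, e3.2, e4.1, e4.2, e5.1, e5.2, e6.1, e6.2]

/-- small boxes at a contact point `u₀ ∈ (1/4,3/4)` lie in the patch -/
theorem mz_box_patch (X : MzIn N) (hX : X.Ok) (u₀ : ℝ) (hu : u₀ ∈ Ioo (1 / 4 : ℝ) (3 / 4)) (sg : ℝ) (hsg : sg = 1 ∨ sg = -1)
    (ρ τ : ℝ) (hρ : ρ ≤ 1 / 8) (hτ : τ ≤ 1) : mbx X.bt u₀ ρ τ sg ⊆ mpatch X.Lam (1 / 8) (7 / 8) 0 := by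
  rintro q ⟨h1, h2, h3⟩
  have hb := mz_bt_rng X hX q.2
  have hL : 3 + X.m ≤ X.Lam := by
    unfold MzIn.Lam
    have : 0 ≤ ∑ α, |X.T.t α| := Finset.sum_nonneg fun α _ => abs_nonneg _
    linarith
  have hm := hX.m_pos
  have h4 := abs_lt.1 h1
  unfold mpatch
  refine ⟨⟨?_, ?_⟩, ⟨?_, ?_⟩⟩
  · rcases hsg with rfl | rfl <;> linarith
  · rcases hsg with rfl | rfl <;> linarith
  · linarith [h4.1, hu.1]
  · linarith [h4.2, hu.2]

theorem mz_box_pos_plus (X : MzIn N) (hX : X.Ok) (u₀ ρ τ : ℝ) (q : ℝ × ℝ) (hq : q ∈ mbx X.bt u₀ ρ τ 1) : 0 < q.1 := by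
  obtain ⟨-, h2, -⟩ := hq
  have hb := mz_bt_rng X hX q.2
  linarith

theorem mz_box_pos_minus (X : MzIn N) (hX : X.Ok) (u₀ : ℝ) (h0 : 0 < X.bt u₀) :
    ∀ᶠ ρ in 𝓝[>] (0 : ℝ), ∀ q ∈ mbx X.bt u₀ ρ ρ (-1), 0 < q.1 := by
  have hm := hX.m_pos
  have hpos : 0 < X.bt u₀ / (2 + X.m) := div_pos h0 (by linarith)
  filter_upwards [Ioo_mem_nhdsGT hpos] with ρ hρ
  rintro q ⟨h1, -, h3⟩
  have hl := (mz_bt_lip X hX).dist_le_mul u₀ q.2
  rw [Real.coe_toNNReal _ (by linarith : 0 ≤ 1 + X.m), Real.dist_eq, Real.dist_eq, abs_sub_comm u₀ q.2] at hl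
  have h4 : X.bt u₀ - X.bt q.2 ≤ (1 + X.m) * ρ :=
    (le_abs_self _).trans (hl.trans (mul_le_mul_of_nonneg_left h1.le (by linarith)))
  have h5 : ρ * (2 + X.m) < X.bt u₀ := (lt_div_iff₀ (by linarith)).1 hρ.2
  nlinarith

/-! ## C1 POT -/

theorem mpz_pot (X : MzIn N) (hX : X.Ok) (O : MpOut X.T X.Lam (1 / 8) (7 / 8)) : ∃ (G : ℝ × ℝ → ℝ) (LG : ℝ≥0), MzPot X O.A G LG :=
  mpzp_pot X hX O

/-! ## C2 GEN -/

theorem mpz_gen (X : MzIn N) (hX : X.Ok) (O : MpOut X.T X.Lam (1 / 8) (7 / 8)) :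
    ∀ᵐ q : ℝ × ℝ, q ∈ mpatch X.Lam (1 / 8) (7 / 8) 0 → 0 < q.1 →
      (0 < O.A X.jX q → O.A X.jZ q < 1 → X.del ≤ X.Vq O.A ((1 + X.m) / 2) q) ∧
      (0 < O.A X.jX q → X.del - (1 + X.m) * (1 - O.A X.jZ q) ≤ X.Vq O.A 0 q) ∧
      (O.A X.jZ q < 1 → X.del - (1 + X.m) * O.A X.jX q ≤ X.Vq O.A (1 + X.m) q) ∧
      (0 < O.A X.jX q → O.A X.jZ q < 1 → ∀ P : ℝ, 0 ≤ P → P ≤ (1 + X.m) / 2 →
        X.del + O.A X.T.v q ≤ X.Vq O.A P q + (1 + X.m - P) * (1 - O.A X.jZ q)) := by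
  have hd1 : ∀ᵐ u : ℝ, DifferentiableAt ℝ X.St u := (mz_St_lip X hX).ae_differentiableAt_of_real
  have hd2 : ∀ᵐ q : ℝ × ℝ, DifferentiableAt ℝ X.St q.2 := by
    rw [Measure.volume_eq_prod]
    exact (Measure.quasiMeasurePreserving_snd (μ := (volume : Measure ℝ)) (ν := (volume : Measure ℝ))).ae hd1
  filter_upwards [O.aff, hd2] with q haff hdq hq hq1
  have hq2 : q.2 ∈ Ioo (1 / 8 : ℝ) (7 / 8) := by
    have := hq.2
    simpa using this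
  have hS : HasDerivAt X.S (deriv X.St q.2) q.2 := by
    refine hdq.hasDerivAt.congr_of_eventuallyEq ?_
    filter_upwards [Ioo_mem_nhds hq2.1 hq2.2] with u hu
    exact (mz_St_eq X u ⟨hu.1.le, hu.2.le⟩).symm
  obtain ⟨-, hs1, r1, r2, r3, r4⟩ := hX.rate q.1 q.2 (deriv X.St q.2) (fun α => O.A α q) O.hs hq1
    (by linarith [hq2.1]) (by linarith [hq2.2]) O.hs_pos O.hs_lim (haff hq) (fun α => O.bd α q) hS
  have hD : 0 ≤ O.A X.T.v q := (O.bd X.T.v q).1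
  unfold MzIn.Vq MzIn.del
  refine ⟨fun a b => ?_, fun a => ?_, fun b => ?_, fun a b P hP0 hP1 => ?_⟩
  · have := r1 a b
    linarith
  · have := r2 a
    linarith
  · have := r3 b
    linarith
  · have := r4 a b P hP0 hP1
    linarith

/-! ## C4 GOOD -/

/-- Lebesgue points of a bounded measurable function, symmetric intervals -/
theorem mpz_leb (φ : ℝ → ℝ) (hφ : Measurable φ) (C : ℝ) (hC : ∀ u, |φ u| ≤ C) :
    ∀ᵐ u₀ : ℝ, Tendsto (fun ρ : ℝ => ρ⁻¹ * ∫ u in (u₀ - ρ)..(u₀ + ρ), |φ u - φ u₀|) (𝓝[>] 0) (𝓝 0) := by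
  have hloc : LocallyIntegrable φ volume :=
    (locallyIntegrable_const C).mono hφ.aestronglyMeasurable
      (Filter.Eventually.of_forall fun u => by
        rw [Real.norm_eq_abs, Real.norm_eq_abs]
        exact (hC u).trans (le_abs_self C))
  filter_upwards [IsUnifLocDoublingMeasure.ae_tendsto_average_norm_sub volume hloc 1] with u₀ h
  have h1 := h (fun _ : ℝ => u₀) id tendsto_id (by
    filter_upwards [self_mem_nhdsWithin] with ρ hρ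
    have : (0 : ℝ) < ρ := hρ
    simp [this.le])
  have h2 := h1.const_mul 2
  rw [mul_zero] at h2
  refine h2.congr' ?_
  filter_upwards [self_mem_nhdsWithin] with ρ hρ
  have hρ' : (0 : ℝ) < ρ := hρ
  simp only [id]
  rw [setAverage_eq, Real.closedBall_eq_Icc, Real.volume_real_Icc, intervalIntegral.integral_of_le (by linarith),
    integral_Icc_eq_integral_Ioc, smul_eq_mul, max_eq_left (by linarith)]
  simp only [Real.norm_eq_abs]
  rw [← mul_assoc]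
  congr 1
  have e : u₀ + ρ - (u₀ - ρ) = 2 * ρ := by ring
  rw [e, mul_inv, ← mul_assoc, mul_inv_cancel₀ two_ne_zero, one_mul]

theorem mpz_patch_integrable (X : MzIn N) (O : MpOut X.T X.Lam (1 / 8) (7 / 8)) (α : Fin N) (w : ℝ × ℝ) (r : ℝ) :
    IntegrableOn (fun q => |O.A α (q + w) - O.A α q|) (mpatch X.Lam (1 / 8) (7 / 8) r) volume := by
  refine Measure.integrableOn_of_bounded (M := X.T.d α) ?_ ?_ ?_
  · exact ((Metric.isBounded_Ioo _ _).prod (Metric.isBounded_Ioo _ _)).measure_lt_top.ne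
  · exact ((((O.meas α).comp (measurable_id.add_const w)).sub (O.meas α)).abs).aestronglyMeasurable
  · refine Filter.Eventually.of_forall fun q => ?_
    rw [Real.norm_eq_abs, abs_abs, abs_le]
    constructor <;> linarith [(O.bd α q).1, (O.bd α q).2, (O.bd α (q + w)).1, (O.bd α (q + w)).2]

theorem mpz_abs_A_le (X : MzIn N) (O : MpOut X.T X.Lam (1 / 8) (7 / 8)) (α : Fin N) (q : ℝ × ℝ) :
    |O.A α q| ≤ X.T.d α := by
  rw [abs_of_nonneg (O.bd α q).1]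
  exact (O.bd α q).2

theorem mpz_good_data (X : MzIn N) (hX : X.Ok) (O : MpOut X.T X.Lam (1 / 8) (7 / 8)) (α : Fin N) (hα : α ≠ X.T.v) :
    ∀ᵐ u₀ : ℝ, u₀ ∈ Ioo (1 / 8 + 1 / 16 : ℝ) (7 / 8 - 1 / 16) → ∀ p : ℝ, HasDerivAt X.bt (-p) u₀ → p ≠ X.T.t α →
      ∃ Tp Tm : ℝ, MStr (O.A α) X.bt u₀ 1 Tp ∧ MStr (O.A α) X.bt u₀ (-1) Tm := by
  obtain ⟨C, σ₀, hσ₀, hbv⟩ := O.bv (1 / 16) (by norm_num) α
  have hV : X.T.V α = (-X.T.t α, 1) := by rw [MpIn.V, hX.e_one α hα]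
  have hm := hX.m_pos
  have hc : |X.T.t α| ≤ ∑ β, |X.T.t β| :=
    Finset.single_le_sum (f := fun β => |X.T.t β|) (fun _ _ => abs_nonneg _) (Finset.mem_univ α)
  have hcu : ∀ u ∈ Ioo (1 / 8 + 1 / 16 : ℝ) (7 / 8 - 1 / 16), |X.T.t α * u| ≤ |X.T.t α| := by
    intro u hu
    rw [abs_mul]
    have : |u| ≤ 1 := by
      rw [abs_le]
      constructor <;> linarith [hu.1, hu.2]
    exact mul_le_of_le_one_right (abs_nonneg _) this
  refine mpc_data (O.A α) (O.meas α) (X.T.d α) (mpz_abs_A_le X O α) (X.T.t α) X.bt _ (mz_bt_lip X hX)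
    (1 / 8 + 1 / 16) (7 / 8 - 1 / 16) (-1 - |X.T.t α|) (2 + X.m + |X.T.t α|) C σ₀ hσ₀ ?_ ?_
  · intro σ h1 h2
    have h3 := hbv σ h1 h2
    rw [hV] at h3
    refine le_trans (setIntegral_mono_set (mpz_patch_integrable X O α _ _)
      (Filter.Eventually.of_forall fun q => abs_nonneg _) (LE.le.eventuallyLE ?_)) h3
    rintro ⟨i, u⟩ ⟨hu, hi⟩
    simp only at hu hi
    have := abs_le.1 (hcu u hu)
    refine ⟨⟨?_, ?_⟩, hu⟩
    · show -X.Lam + 1 / 16 < i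
      rw [MzIn.Lam]
      linarith [hi.1, this.2]
    · show i < X.Lam - 1 / 16
      rw [MzIn.Lam]
      linarith [hi.2, this.1]
  · intro u hu
    have := abs_le.1 (hcu u hu)
    have hr := mz_bt_rng X hX u
    constructor <;> linarith [this.1, this.2, hr.1, hr.2]

theorem mpz_good_label (X : MzIn N) (hX : X.Ok) (O : MpOut X.T X.Lam (1 / 8) (7 / 8)) :
    ∀ᵐ u₀ : ℝ, u₀ ∈ Ioo (1 / 8 + 1 / 16 : ℝ) (7 / 8 - 1 / 16) →
      ∃ Tp Tm : ℝ, MStr (O.A X.T.v) X.bt u₀ 1 Tp ∧ MStr (O.A X.T.v) X.bt u₀ (-1) Tm := by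
  obtain ⟨C, σ₀, hσ₀, hbv⟩ := O.bv (1 / 16) (by norm_num) X.T.v
  have hV : X.T.V X.T.v = (-1, 0) := by rw [MpIn.V, hX.T_ok.e_v, hX.T_ok.t_v]
  have hm := hX.m_pos
  have hs : 0 ≤ ∑ β, |X.T.t β| := Finset.sum_nonneg fun _ _ => abs_nonneg _
  refine mpc_label (O.A X.T.v) (O.meas _) (X.T.d X.T.v) (mpz_abs_A_le X O _) X.bt _ (mz_bt_lip X hX)
    (-X.Lam + 1 / 16) (X.Lam - 1 / 16) (1 / 8 + 1 / 16) (7 / 8 - 1 / 16) C σ₀ hσ₀ ?_ ?_
  · intro σ h1 h2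
    have h3 := hbv σ h1 h2
    rw [hV] at h3
    exact h3
  · intro u _
    have hr := mz_bt_rng X hX u
    rw [MzIn.Lam]
    constructor <;> linarith [hr.1, hr.2]

theorem mpz_good_exists (X : MzIn N) (hX : X.Ok) (O : MpOut X.T X.Lam (1 / 8) (7 / 8)) : ∃ u₀ p s₀ : ℝ, MzGood X O.A u₀ p s₀ := by
  have hm := hX.m_pos
  have a1 : ∀ᵐ u₀ : ℝ, DifferentiableAt ℝ X.bt u₀ := (mz_bt_lip X hX).ae_differentiableAt
  have a2 := mpz_leb (deriv X.bt) (measurable_deriv _) (1 + X.m) (fun u => by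
    have := norm_deriv_le_of_lipschitz (mz_bt_lip X hX) (x₀ := u)
    rwa [Real.norm_eq_abs, Real.coe_toNNReal _ (by linarith)] at this)
  have a3 := mpz_leb (deriv X.St) (measurable_deriv _) 1 (fun u => by
    have := norm_deriv_le_of_lipschitz (mz_St_lip X hX) (x₀ := u)
    simpa using this)
  have a4 : ∀ᵐ u₀ : ℝ, ∀ α, α ≠ X.T.v → u₀ ∈ Ioo (1 / 8 + 1 / 16 : ℝ) (7 / 8 - 1 / 16) → ∀ p : ℝ,
      HasDerivAt X.bt (-p) u₀ → p ≠ X.T.t α →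
      ∃ Tp Tm : ℝ, MStr (O.A α) X.bt u₀ 1 Tp ∧ MStr (O.A α) X.bt u₀ (-1) Tm := by
    rw [ae_all_iff]
    intro α
    by_cases hα : α = X.T.v
    · exact Filter.Eventually.of_forall fun _ h => absurd hα h
    · filter_upwards [mpz_good_data X hX O α hα] with u₀ h _ using h
  have a5 := mpz_good_label X hX O
  have hall := a1.and (a2.and (a3.and (a4.and a5)))
  have hpos : volume (Ioo (1 / 4 : ℝ) (3 / 4)) ≠ 0 := by
    rw [Real.volume_Ioo]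
    simp
    norm_num
  obtain ⟨u₀, hu, b1, b2, b3, b4, b5⟩ := Measure.exists_mem_of_measure_ne_zero_of_ae hpos (ae_restrict_of_ae hall)
  have hu' : u₀ ∈ Ioo (1 / 8 + 1 / 16 : ℝ) (7 / 8 - 1 / 16) := ⟨by linarith [hu.1], by linarith [hu.2]⟩
  have hd : HasDerivAt X.bt (- -deriv X.bt u₀) u₀ := by rw [neg_neg]; exact b1.hasDerivAt
  refine ⟨u₀, -deriv X.bt u₀, deriv X.St u₀, hu, hd, ?_, b3, ?_, b5 hu'⟩
  · rw [neg_neg]; exact b2
  · intro α hα hne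
    exact b4 α hα hu' _ hd (Ne.symm hne)

theorem mpz_good_p (X : MzIn N) (hX : X.Ok) (A : Fin N → ℝ × ℝ → ℝ) (u₀ p s₀ : ℝ) (hg : MzGood X A u₀ p s₀) :
    0 ≤ p ∧ p ≤ 1 + X.m ∧ (0 < p → 0 < X.bt u₀) ∧ (p < 1 + X.m → X.bt u₀ + (1 + X.m) * u₀ < 1 + X.m) := by
  have hm := hX.m_pos
  have hd : deriv X.bt u₀ = -p := hg.db.deriv
  refine ⟨?_, ?_, ?_, ?_⟩
  · have := (mz_bt_anti X hX).deriv_nonpos (x := u₀)
    rw [hd] at this
    linarith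
  · have := norm_deriv_le_of_lipschitz (mz_bt_lip X hX) (x₀ := u₀)
    rw [hd, norm_neg, Real.norm_eq_abs, Real.coe_toNNReal _ (by linarith)] at this
    exact (le_abs_self p).trans this
  · intro hp
    by_contra h
    have h0 : X.bt u₀ = 0 := le_antisymm (not_lt.1 h) (mz_bt_rng X hX u₀).1
    have hmin : IsLocalMin X.bt u₀ := Filter.Eventually.of_forall fun u => by
      rw [h0]; exact (mz_bt_rng X hX u).1
    have := hmin.hasDerivAt_eq_zero hg.db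
    linarith
  · intro hp
    by_contra h
    have hnear : ∀ᶠ u in 𝓝 u₀, u ∈ Ioo (1 / 8 : ℝ) (7 / 8) :=
      isOpen_Ioo.mem_nhds ⟨by linarith [hg.hu.1], by linarith [hg.hu.2]⟩
    have htop : ∀ u ∈ Ioo (1 / 8 : ℝ) (7 / 8), X.bt u + (1 + X.m) * u ≤ 1 + X.m := by
      intro u hu
      rw [mz_bt_eq X u ⟨hu.1.le, hu.2.le⟩]
      exact hX.b_top u (by linarith [hu.1]) (by linarith [hu.2])
    have hmax : IsLocalMax (fun u => X.bt u + (1 + X.m) * u) u₀ := by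
      filter_upwards [hnear] with u hu
      exact (htop u hu).trans (not_lt.1 h)
    have hd2 : HasDerivAt (fun u => X.bt u + (1 + X.m) * u) (-p + (1 + X.m) * 1) u₀ :=
      hg.db.add ((hasDerivAt_id u₀).const_mul _)
    have := hmax.hasDerivAt_eq_zero hd2
    linarith

/-! ## C5 TAN -/

/-- bounded measurable functions are integrable on the flattened boxes -/
theorem mpz_tan_intble (b : ℝ → ℝ) (hb : Measurable b) (u₀ ρ τ sg : ℝ) (hsg : sg = 1 ∨ sg = -1) (hρ : 0 < ρ) (hτ : 0 < τ)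
    (g : ℝ × ℝ → ℝ) (hg : Measurable g) (C : ℝ) (hC : ∀ q, |g q| ≤ C) : IntegrableOn g (mbx b u₀ ρ τ sg) := by
  refine Measure.integrableOn_of_bounded (M := C) ?_ hg.aestronglyMeasurable
    (Eventually.of_forall fun q => ?_)
  · rw [mbx_volume b hb u₀ ρ τ sg hsg hρ hτ]
    exact ENNReal.ofReal_ne_top
  · rw [Real.norm_eq_abs]
    exact hC q

/-- (a) `𝒱_p` has a strong trace -/
theorem mpz_tan_trace (X : MzIn N) (hX : X.Ok) (O : MpOut X.T X.Lam (1 / 8) (7 / 8)) (u₀ p s₀ : ℝ)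
    (hg : MzGood X O.A u₀ p s₀) (sg : ℝ) (hsg : sg = 1 ∨ sg = -1) :
    ∃ κ : ℝ, MStr (X.Vq O.A p) X.bt u₀ sg κ := by
  have hbm : Measurable X.bt := (mz_bt_lip X hX).continuous.measurable
  have h1 : ∀ α, ∃ T, MStr (fun q => X.T.e α * (X.T.t α - p) * O.A α q) X.bt u₀ sg T := by
    intro α
    by_cases hc : X.T.e α * (X.T.t α - p) = 0
    · refine ⟨0, ?_⟩
      have : (fun q => X.T.e α * (X.T.t α - p) * O.A α q) = fun _ => (0 : ℝ) := by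
        funext q
        rw [hc, zero_mul]
      rw [this]
      exact mstr_const _ _ _ _
    · have hαv : α ≠ X.T.v := by
        rintro rfl
        exact hc (by rw [hX.T_ok.e_v, zero_mul])
      have htp : X.T.t α ≠ p := by
        intro h
        exact hc (by rw [h, sub_self, mul_zero])
      obtain ⟨Tp, Tm, hTp, hTm⟩ := hg.tr α hαv htp
      rcases hsg with rfl | rfl
      · exact ⟨_, mstr_smul _ _ _ _ _ _ hTp⟩
      · exact ⟨_, mstr_smul _ _ _ _ _ _ hTm⟩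
  choose T hT using h1
  have hd0 : ∀ α, 0 ≤ X.T.d α := fun α => le_trans (O.bd α (0, 0)).1 (O.bd α (0, 0)).2
  obtain ⟨C1, hC1⟩ : ∃ C1, C1 = ∑ α, |X.T.e α * (X.T.t α - p)| * X.T.d α := ⟨_, rfl⟩
  have hC10 : 0 ≤ C1 := by
    rw [hC1]
    exact Finset.sum_nonneg fun α _ => mul_nonneg (abs_nonneg _) (hd0 α)
  have hb1 : ∀ α q, |X.T.e α * (X.T.t α - p) * O.A α q| ≤ C1 := by
    intro α q
    rw [abs_mul, abs_of_nonneg (O.bd α q).1, hC1]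
    refine le_trans (mul_le_mul_of_nonneg_left (O.bd α q).2 (abs_nonneg _)) ?_
    exact Finset.single_le_sum (f := fun α => |X.T.e α * (X.T.t α - p)| * X.T.d α)
      (fun α _ => mul_nonneg (abs_nonneg _) (hd0 α)) (Finset.mem_univ α)
  have hm1 : ∀ α, Measurable (fun q => X.T.e α * (X.T.t α - p) * O.A α q) :=
    fun α => (O.meas α).const_mul _
  have hS1 := mstr_sum X.bt hbm u₀ sg hsg (fun α q => X.T.e α * (X.T.t α - p) * O.A α q) hm1 C1 hb1 T hT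
  obtain ⟨D, hD⟩ : ∃ D, MStr (O.A X.T.v) X.bt u₀ sg D := by
    obtain ⟨Dp, Dm, hDp, hDm⟩ := hg.trD
    rcases hsg with rfl | rfl
    · exact ⟨Dp, hDp⟩
    · exact ⟨Dm, hDm⟩
  have hdS : ∀ u, |deriv X.St u| ≤ 1 := by
    intro u
    have := norm_deriv_le_of_lipschitz (x₀ := u) (mz_St_lip X hX)
    simpa using this
  have hS3 := mstr_snd X.bt hbm u₀ sg hsg (deriv X.St) (measurable_deriv _) 1 hdS s₀ hg.lS
  have hS3' := mstr_smul X.bt u₀ sg (fun q => deriv X.St q.2) (-2) s₀ hS3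
  obtain ⟨k0, hk0⟩ : ∃ k0, k0 = 2 * p - X.m + X.β + X.γ * X.m := ⟨_, rfl⟩
  obtain ⟨C, hC⟩ : ∃ C, C = (Fintype.card (Fin N) : ℝ) * C1 + X.T.d X.T.v + 2 + |k0| := ⟨_, rfl⟩
  have hNC : 0 ≤ (Fintype.card (Fin N) : ℝ) * C1 := by positivity
  have hbs : ∀ q, |∑ α, X.T.e α * (X.T.t α - p) * O.A α q| ≤ (Fintype.card (Fin N) : ℝ) * C1 := by
    intro q
    refine (Finset.abs_sum_le_sum_abs _ _).trans ?_
    refine (Finset.sum_le_sum fun α _ => hb1 α q).trans ?_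
    rw [Finset.sum_const, nsmul_eq_mul, Finset.card_univ]
  have hb2 : ∀ q, |O.A X.T.v q| ≤ X.T.d X.T.v := by
    intro q
    rw [abs_of_nonneg (O.bd _ q).1]
    exact (O.bd _ q).2
  have hb3 : ∀ q : ℝ × ℝ, |(-2) * deriv X.St q.2| ≤ 2 := by
    intro q
    rw [abs_mul]
    have := hdS q.2
    norm_num
    linarith
  have hdv := hd0 X.T.v
  have hk := abs_nonneg k0
  have hmS : Measurable (fun q : ℝ × ℝ => ∑ α, X.T.e α * (X.T.t α - p) * O.A α q) :=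
    Finset.measurable_sum _ fun α _ => hm1 α
  have hm3 : Measurable (fun q : ℝ × ℝ => (-2) * deriv X.St q.2) :=
    ((measurable_deriv X.St).comp measurable_snd).const_mul _
  have hm12 : Measurable (fun q : ℝ × ℝ => (∑ α, X.T.e α * (X.T.t α - p) * O.A α q) + O.A X.T.v q) :=
    hmS.add (O.meas X.T.v)
  have hm123 : Measurable (fun q : ℝ × ℝ => (∑ α, X.T.e α * (X.T.t α - p) * O.A α q) + O.A X.T.v q
      + (-2) * deriv X.St q.2) := hm12.add hm3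
  have hA1 := mstr_add X.bt hbm u₀ sg hsg (fun q => ∑ α, X.T.e α * (X.T.t α - p) * O.A α q) (O.A X.T.v)
    hmS (O.meas X.T.v) C
    (fun q => (hbs q).trans (by rw [hC]; linarith)) (fun q => (hb2 q).trans (by rw [hC]; linarith)) _ _ hS1 hD
  have hA2 := mstr_add X.bt hbm u₀ sg hsg
    (fun q => (∑ α, X.T.e α * (X.T.t α - p) * O.A α q) + O.A X.T.v q) (fun q => (-2) * deriv X.St q.2)
    hm12 hm3 C
    (fun q => (abs_add_le _ _).trans (by rw [hC]; linarith [hbs q, hb2 q]))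
    (fun q => (hb3 q).trans (by rw [hC]; linarith)) _ _ hA1 hS3'
  have hA3 := mstr_add X.bt hbm u₀ sg hsg
    (fun q => (∑ α, X.T.e α * (X.T.t α - p) * O.A α q) + O.A X.T.v q + (-2) * deriv X.St q.2)
    (fun _ => k0) hm123 measurable_const C
    (fun q => (abs_add_le _ _).trans (by
      have := abs_add_le (∑ α, X.T.e α * (X.T.t α - p) * O.A α q) (O.A X.T.v q)
      rw [hC]; linarith [hbs q, hb2 q, hb3 q]))
    (fun _ => by rw [hC]; linarith) _ _ hA2 (mstr_const X.bt u₀ sg k0)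
  refine ⟨∑ k, T k + D + -2 * s₀ + k0, ?_⟩
  have heq : X.Vq O.A p = fun q => (∑ α, X.T.e α * (X.T.t α - p) * O.A α q) + O.A X.T.v q
      + (-2) * deriv X.St q.2 + k0 := by
    funext q
    unfold MzIn.Vq MzIn.F
    rw [hk0]
    ring
  rw [heq]
  exact hA3

/-- (b) thin strips -/
theorem mpz_tan_thin (X : MzIn N) (hX : X.Ok) (O : MpOut X.T X.Lam (1 / 8) (7 / 8)) (G : ℝ × ℝ → ℝ) (LG : ℝ≥0)
    (hG : MzPot X O.A G LG) (u₀ p s₀ : ℝ) (hg : MzGood X O.A u₀ p s₀) (sg : ℝ) (hsg : sg = 1 ∨ sg = -1)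
    (a : ℝ) (ha0 : 0 < a) (ha1 : a ≤ 1) (η : ℝ) (hη : 0 < η) :
    ∀ᶠ ρ in 𝓝[>] (0 : ℝ), |∫ q in mbx X.bt u₀ ρ (a * ρ) sg, X.Vq O.A p q| ≤ ((LG : ℝ) * a ^ 2 + η) * ρ ^ 2 := by
  have hbL := mz_bt_lip X hX
  have hbm : Measurable X.bt := hbL.continuous.measurable
  obtain ⟨CB, hCB0, hCB⟩ := mz_Bq_bd X O.A O.bd
  obtain ⟨CV, hCV0, hCV⟩ := mz_Vq_bd X hX O.A O.bd 0
  have hm0 : 0 ≤ 1 + X.m := by linarith [hX.m_pos]
  have hdb : ∀ u, |deriv X.bt u| ≤ 1 + X.m := by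
    intro u
    have := norm_deriv_le_of_lipschitz (x₀ := u) hbL
    rwa [Real.norm_eq_abs, Real.coe_toNNReal _ hm0] at this
  have hsmall : ∀ᶠ ρ in 𝓝[>] (0 : ℝ), ρ ≤ 1 / 8 := by
    have : Iio (1 / 8 : ℝ) ∈ 𝓝 (0 : ℝ) := Iio_mem_nhds (by norm_num)
    filter_upwards [mem_nhdsWithin_of_mem_nhds this] with ρ hρ using le_of_lt hρ
  have hlb : ∀ᶠ ρ in 𝓝[>] (0 : ℝ),
      ρ⁻¹ * ∫ u in (u₀ - ρ)..(u₀ + ρ), |deriv X.bt u - (-p)| < η / (CB + 1) :=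
    hg.lb.eventually (Iio_mem_nhds (by positivity))
  filter_upwards [hsmall, hlb, self_mem_nhdsWithin] with ρ hρ8 hJ hρ0
  have hρ0 : 0 < ρ := hρ0
  have hτ0 : 0 < a * ρ := mul_pos ha0 hρ0
  have hτ1 : a * ρ ≤ 1 := by nlinarith
  have hsub := mz_box_patch X hX u₀ hg.hu sg hsg ρ (a * ρ) hρ8 hτ1
  have h0 : ∀ u, |u - u₀| ≤ ρ → G (X.bt u, u) = 0 := by
    intro u hu
    rw [abs_le] at hu
    have hu1 : (1 / 8 : ℝ) < u := by linarith [hg.hu.1]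
    have hu2 : u < 7 / 8 := by linarith [hg.hu.2]
    have hr := mz_bt_rng X hX u
    have hLam : 1 + X.m < X.Lam := by
      unfold MzIn.Lam
      have : 0 ≤ ∑ α, |X.T.t α| := Finset.sum_nonneg fun α _ => abs_nonneg _
      linarith
    have hmem : (X.bt u, u) ∈ mpatch X.Lam (1 / 8) (7 / 8) 0 := by
      unfold mpatch
      refine ⟨⟨?_, ?_⟩, ⟨?_, ?_⟩⟩ <;> simp only <;> linarith
    rw [hG.eq _ hmem]
    simp only
    rw [mz_bt_eq X u ⟨hu1.le, hu2.le⟩, hX.cont u (by linarith) (by linarith), sub_self]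
  have hI1 := mpz_intV G LG hG.lip X.bt _ hbL (X.Bq O.A) (X.Vq O.A 0) (mz_Bq_meas X O.A O.meas)
    (mz_Vq_meas X O.A O.meas 0) (max CB CV) (fun q => (hCB q).trans (le_max_left _ _))
    (fun q => (hCV q).trans (le_max_right _ _)) _ hG.der u₀ ρ (a * ρ) sg hsg hρ0 hτ0 hsub h0
  -- measurability and bounds of the pieces
  have hmd : Measurable (fun q : ℝ × ℝ => deriv X.bt q.2) := (measurable_deriv X.bt).comp measurable_snd
  have hmB := mz_Bq_meas X O.A O.meas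
  have hmV := mz_Vq_meas X O.A O.meas 0
  have hm1 : Measurable (fun q : ℝ × ℝ => X.Vq O.A 0 q + deriv X.bt q.2 * X.Bq O.A q) := hmV.add (hmd.mul hmB)
  have hm2 : Measurable (fun q : ℝ × ℝ => (deriv X.bt q.2 - (-p)) * X.Bq O.A q) :=
    (hmd.sub measurable_const).mul hmB
  have hm3 : Measurable (fun q : ℝ × ℝ => |deriv X.bt q.2 - (-p)|) :=
    (hmd.sub measurable_const).abs
  have hb3 : ∀ q : ℝ × ℝ, |deriv X.bt q.2 - (-p)| ≤ 1 + X.m + |p| := by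
    intro q
    have h1 := abs_sub (deriv X.bt q.2) (-p)
    rw [abs_neg] at h1
    linarith [hdb q.2]
  have hb1 : ∀ q : ℝ × ℝ, |X.Vq O.A 0 q + deriv X.bt q.2 * X.Bq O.A q| ≤ CV + (1 + X.m) * CB := by
    intro q
    refine (abs_add_le _ _).trans ?_
    rw [abs_mul]
    have := mul_le_mul (hdb q.2) (hCB q) (abs_nonneg _) hm0
    linarith [hCV q]
  have hb2 : ∀ q : ℝ × ℝ, |(deriv X.bt q.2 - (-p)) * X.Bq O.A q| ≤ (1 + X.m + |p|) * CB := by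
    intro q
    rw [abs_mul]
    exact mul_le_mul (hb3 q) (hCB q) (abs_nonneg _) (by positivity)
  have hi1 := mpz_tan_intble X.bt hbm u₀ ρ (a * ρ) sg hsg hρ0 hτ0 _ hm1 _ hb1
  have hi2 := mpz_tan_intble X.bt hbm u₀ ρ (a * ρ) sg hsg hρ0 hτ0 _ hm2 _ hb2
  have hi3 := mpz_tan_intble X.bt hbm u₀ ρ (a * ρ) sg hsg hρ0 hτ0 _ hm3 (1 + X.m + |p|)
    (fun q => by rw [abs_abs]; exact hb3 q)
  have hsplit : ∫ q in mbx X.bt u₀ ρ (a * ρ) sg, X.Vq O.A p q =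
      (∫ q in mbx X.bt u₀ ρ (a * ρ) sg, (X.Vq O.A 0 q + deriv X.bt q.2 * X.Bq O.A q)) -
      ∫ q in mbx X.bt u₀ ρ (a * ρ) sg, (deriv X.bt q.2 - (-p)) * X.Bq O.A q := by
    rw [← integral_sub hi1 hi2]
    refine integral_congr_ae (Eventually.of_forall fun q => ?_)
    simp only
    rw [mz_V_shift X O.A p 0 q]
    ring
  have hI2 : |∫ q in mbx X.bt u₀ ρ (a * ρ) sg, (deriv X.bt q.2 - (-p)) * X.Bq O.A q| ≤
      CB * ∫ q in mbx X.bt u₀ ρ (a * ρ) sg, |deriv X.bt q.2 - (-p)| := by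
    rw [← integral_const_mul, ← Real.norm_eq_abs]
    refine norm_integral_le_of_norm_le (hi3.const_mul CB) (Eventually.of_forall fun q => ?_)
    rw [Real.norm_eq_abs, abs_mul, mul_comm]
    exact mul_le_mul_of_nonneg_right (hCB q) (abs_nonneg _)
  have hI3 : ∫ q in mbx X.bt u₀ ρ (a * ρ) sg, |deriv X.bt q.2 - (-p)| =
      (a * ρ) * ∫ u in (u₀ - ρ)..(u₀ + ρ), |deriv X.bt u - (-p)| := by
    rw [mbx_integral X.bt hbm u₀ ρ (a * ρ) sg hsg hρ0 hτ0 _ hm3 (1 + X.m + |p|)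
      (fun q => by rw [abs_abs]; exact hb3 q)]
    simp only [intervalIntegral.integral_const, sub_zero, smul_eq_mul]
    rw [intervalIntegral.integral_const_mul]
  rw [hsplit]
  refine (abs_sub _ _).trans ?_
  rw [hI3] at hI2
  obtain ⟨J, hJdef⟩ : ∃ J, J = ∫ u in (u₀ - ρ)..(u₀ + ρ), |deriv X.bt u - (-p)| := ⟨_, rfl⟩
  rw [← hJdef] at hI2 hJ
  have hJ2 : J < η / (CB + 1) * ρ := by
    rw [inv_mul_eq_div, div_lt_iff₀ hρ0] at hJ
    exact hJ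
  have hCB1 : 0 < CB + 1 := by linarith
  have h5 : CB * (a * ρ * J) ≤ η * ρ ^ 2 := by
    have h6 : CB * (a * ρ * J) ≤ CB * (a * ρ * (η / (CB + 1) * ρ)) := by
      apply mul_le_mul_of_nonneg_left _ hCB0
      exact mul_le_mul_of_nonneg_left hJ2.le hτ0.le
    have h7 : CB * (a * ρ * (η / (CB + 1) * ρ)) = (CB / (CB + 1)) * a * (η * ρ ^ 2) := by
      field_simp
    have h8 : CB / (CB + 1) ≤ 1 := by
      rw [div_le_one hCB1]
      linarith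
    have h9 : (CB / (CB + 1)) * a ≤ 1 := by
      have : 0 ≤ CB / (CB + 1) := by positivity
      nlinarith
    have h10 : 0 ≤ η * ρ ^ 2 := by positivity
    nlinarith
  have h11 : (LG : ℝ) * (a * ρ) ^ 2 = (LG : ℝ) * a ^ 2 * ρ ^ 2 := by ring
  nlinarith

theorem mpz_tan (X : MzIn N) (hX : X.Ok) (O : MpOut X.T X.Lam (1 / 8) (7 / 8)) (G : ℝ × ℝ → ℝ) (LG : ℝ≥0) (hG : MzPot X O.A G LG)
    (u₀ p s₀ : ℝ) (hg : MzGood X O.A u₀ p s₀) (sg : ℝ) (hsg : sg = 1 ∨ sg = -1) : MStr (X.Vq O.A p) X.bt u₀ sg 0 := by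
  have hbm : Measurable X.bt := (mz_bt_lip X hX).continuous.measurable
  obtain ⟨κ, hκ⟩ := mpz_tan_trace X hX O u₀ p s₀ hg sg hsg
  obtain ⟨CV, -, hCV⟩ := mz_Vq_bd X hX O.A O.bd p
  have hz : κ = 0 := mstr_zero_of_thin X.bt hbm u₀ sg hsg (X.Vq O.A p) (mz_Vq_meas X O.A O.meas p) CV κ LG hCV hκ
    (fun a ha0 ha1 η hη => mpz_tan_thin X hX O G LG hG u₀ p s₀ hg sg hsg a ha0 ha1 η hη)
  rw [hz] at hκ
  exact hκ

/-! ## C6 SIGN -/

/-- C6, common part: the far edge and the curve lie in the patch -/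
theorem mpz_sign_aux (X : MzIn N) (hX : X.Ok) (O : MpOut X.T X.Lam (1 / 8) (7 / 8)) (G : ℝ × ℝ → ℝ) (LG : ℝ≥0) (hG : MzPot X O.A G LG)
    (u₀ : ℝ) (hu₀ : u₀ ∈ Ioo (1 / 4 : ℝ) (3 / 4)) (sg : ℝ) (hsg : sg = 1 ∨ sg = -1) (ρ : ℝ) (hρ0 : 0 < ρ) (hρ : ρ ≤ 1 / 8)
    (hadm : ∀ u, |u - u₀| ≤ ρ → 0 ≤ X.bt u + sg * ρ ∧ X.bt u + sg * ρ + (1 + X.m) * u ≤ 1 + X.m) :
    ∫ q in mbx X.bt u₀ ρ ρ sg, X.Bq O.A q = sg * ∫ u in (u₀ - ρ)..(u₀ + ρ), G (X.bt u + sg * ρ, u) ∧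
      0 ≤ ∫ u in (u₀ - ρ)..(u₀ + ρ), G (X.bt u + sg * ρ, u) := by
  have hm := hX.m_pos
  have hLam : 3 + X.m ≤ X.Lam := by
    unfold MzIn.Lam
    have : 0 ≤ ∑ α, |X.T.t α| := Finset.sum_nonneg fun α _ => abs_nonneg _
    linarith
  have hsg' : |sg| = 1 := by rcases hsg with h | h <;> simp [h]
  have hsr : |sg * ρ| ≤ 1 / 8 := by rw [abs_mul, hsg', one_mul, abs_of_pos hρ0]; exact hρ
  have hu : ∀ u, |u - u₀| ≤ ρ → 1 / 8 < u ∧ u < 7 / 8 := by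
    intro u h
    have := abs_le.1 h
    exact ⟨by linarith [hu₀.1, this.1], by linarith [hu₀.2, this.2]⟩
  have hpat : ∀ u, |u - u₀| ≤ ρ → ∀ c : ℝ, |c| ≤ 1 / 8 → (X.bt u + c, u) ∈ mpatch X.Lam (1 / 8) (7 / 8) 0 := by
    intro u h c hc
    have h1 := mz_bt_rng X hX u
    have h2 := hu u h
    have h3 := abs_le.1 hc
    unfold mpatch
    refine ⟨⟨?_, ?_⟩, ⟨?_, ?_⟩⟩ <;> simp only <;> linarith [h1.1, h1.2, h2.1, h2.2, h3.1, h3.2]
  obtain ⟨C, -, hC⟩ := mz_Bq_bd X O.A O.bd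
  refine ⟨?_, ?_⟩
  · refine mpz_intB G LG hG.lip X.bt _ (mz_bt_lip X hX) (X.Bq O.A) (X.Vq O.A 0) (mz_Bq_meas X O.A O.meas) C hC
      (mpatch X.Lam (1 / 8) (7 / 8) 0) hG.der u₀ ρ ρ sg hsg hρ0 hρ0
      (mz_box_patch X hX u₀ hu₀ sg hsg ρ ρ hρ (by linarith)) ?_
    intro u h
    have h2 := hu u h.le
    have h3 := hpat u h.le 0 (by norm_num)
    rw [add_zero] at h3
    rw [hG.eq _ h3]
    have hb : X.bt u = X.b u := mz_bt_eq X u ⟨h2.1.le, h2.2.le⟩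
    show X.T.f (X.T.pl (X.bt u, u)) - X.psi (X.bt u) u = 0
    rw [hb, hX.cont u (by linarith) (by linarith), sub_self]
  · refine intervalIntegral.integral_nonneg (by linarith) fun u hu' => ?_
    have h : |u - u₀| ≤ ρ := abs_le.2 ⟨by linarith [hu'.1], by linarith [hu'.2]⟩
    have h2 := hu u h
    rw [hG.eq _ (hpat u h _ hsr)]
    have := hX.obst (X.bt u + sg * ρ) u (by linarith) (by linarith) (hadm u h).1 (hadm u h).2
    show 0 ≤ X.T.f (X.T.pl (X.bt u + sg * ρ, u)) - X.psi (X.bt u + sg * ρ) u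
    linarith

theorem mpz_sign_minus (X : MzIn N) (hX : X.Ok) (O : MpOut X.T X.Lam (1 / 8) (7 / 8)) (G : ℝ × ℝ → ℝ) (LG : ℝ≥0) (hG : MzPot X O.A G LG)
    (u₀ p s₀ : ℝ) (hg : MzGood X O.A u₀ p s₀) (hp : 0 < p) :
    ∀ᶠ ρ in 𝓝[>] (0 : ℝ), ∫ q in mbx X.bt u₀ ρ ρ (-1), X.Bq O.A q ≤ 0 := by
  have hm := hX.m_pos
  have hb0 : 0 < X.bt u₀ := (mpz_good_p X hX O.A u₀ p s₀ hg).2.2.1 hp
  have hε : 0 < min (1 / 8) (X.bt u₀ / (2 + X.m)) := lt_min (by norm_num) (by positivity)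
  have hev : ∀ᶠ ρ in 𝓝[>] (0 : ℝ), ρ < min (1 / 8) (X.bt u₀ / (2 + X.m)) :=
    mem_nhdsWithin_of_mem_nhds (Iio_mem_nhds hε)
  filter_upwards [hev, self_mem_nhdsWithin] with ρ hρ hρ0
  have hρ0 : 0 < ρ := hρ0
  have h1 : ρ ≤ 1 / 8 := (hρ.trans_le (min_le_left _ _)).le
  have h2 : ρ * (2 + X.m) < X.bt u₀ := (lt_div_iff₀ (by positivity)).1 (hρ.trans_le (min_le_right _ _))
  have hlip : ∀ u, |X.bt u - X.bt u₀| ≤ (1 + X.m) * |u - u₀| := by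
    intro u
    have := (mz_bt_lip X hX).dist_le_mul u u₀
    rwa [Real.dist_eq, Real.dist_eq, Real.coe_toNNReal _ (by linarith)] at this
  obtain ⟨e1, e2⟩ := mpz_sign_aux X hX O G LG hG u₀ hg.hu (-1) (Or.inr rfl) ρ hρ0 h1 (by
    intro u hu
    have h3 := abs_le.1 ((hlip u).trans (mul_le_mul_of_nonneg_left hu (by linarith)))
    have h4 := abs_le.1 hu
    have hu8 : 1 / 8 < u ∧ u < 7 / 8 := ⟨by linarith [hg.hu.1, h4.1], by linarith [hg.hu.2, h4.2]⟩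
    have hb : X.bt u = X.b u := mz_bt_eq X u ⟨hu8.1.le, hu8.2.le⟩
    have h5 := hX.b_top u (by linarith) (by linarith)
    rw [← hb] at h5
    constructor
    · nlinarith [h3.1]
    · linarith)
  rw [e1]
  linarith

theorem mpz_sign_plus (X : MzIn N) (hX : X.Ok) (O : MpOut X.T X.Lam (1 / 8) (7 / 8)) (G : ℝ × ℝ → ℝ) (LG : ℝ≥0) (hG : MzPot X O.A G LG)
    (u₀ p s₀ : ℝ) (hg : MzGood X O.A u₀ p s₀) (hp : p < 1 + X.m) :
    ∀ᶠ ρ in 𝓝[>] (0 : ℝ), 0 ≤ ∫ q in mbx X.bt u₀ ρ ρ 1, X.Bq O.A q := by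
  have hm := hX.m_pos
  have hb0 : X.bt u₀ + (1 + X.m) * u₀ < 1 + X.m := (mpz_good_p X hX O.A u₀ p s₀ hg).2.2.2 hp
  have hc : 0 < 1 + X.m - (X.bt u₀ + (1 + X.m) * u₀) := by linarith
  have hε : 0 < min (1 / 8) ((1 + X.m - (X.bt u₀ + (1 + X.m) * u₀)) / (3 + 2 * X.m)) :=
    lt_min (by norm_num) (by positivity)
  have hev : ∀ᶠ ρ in 𝓝[>] (0 : ℝ), ρ < min (1 / 8) ((1 + X.m - (X.bt u₀ + (1 + X.m) * u₀)) / (3 + 2 * X.m)) :=
    mem_nhdsWithin_of_mem_nhds (Iio_mem_nhds hε)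
  filter_upwards [hev, self_mem_nhdsWithin] with ρ hρ hρ0
  have hρ0 : 0 < ρ := hρ0
  have h1 : ρ ≤ 1 / 8 := (hρ.trans_le (min_le_left _ _)).le
  have h2 : ρ * (3 + 2 * X.m) < 1 + X.m - (X.bt u₀ + (1 + X.m) * u₀) :=
    (lt_div_iff₀ (by positivity)).1 (hρ.trans_le (min_le_right _ _))
  have hlip : ∀ u, |X.bt u - X.bt u₀| ≤ (1 + X.m) * |u - u₀| := by
    intro u
    have := (mz_bt_lip X hX).dist_le_mul u u₀
    rwa [Real.dist_eq, Real.dist_eq, Real.coe_toNNReal _ (by linarith)] at this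
  obtain ⟨e1, e2⟩ := mpz_sign_aux X hX O G LG hG u₀ hg.hu 1 (Or.inl rfl) ρ hρ0 h1 (by
    intro u hu
    have h3 := abs_le.1 ((hlip u).trans (mul_le_mul_of_nonneg_left hu (by linarith)))
    have h4 := abs_le.1 hu
    have h5 := (mz_bt_rng X hX u).1
    constructor
    · linarith
    · nlinarith [h3.2, h4.2])
  rw [e1]
  linarith

/-! ## C7 WEDGE -/

theorem mpz_wedge (X : MzIn N) (hX : X.Ok) (O : MpOut X.T X.Lam (1 / 8) (7 / 8)) (u₀ : ℝ) (hu : u₀ ∈ Ioo (1 / 4 : ℝ) (3 / 4))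
    (lam : ℝ) (hl : 0 < lam) (hl' : lam < min 1 X.m) :
    ∀ᶠ ρ in 𝓝[>] (0 : ℝ), X.γ * (3 / 2 * lam * ρ ^ 2) ≤ ∫ q in mwd (X.bt u₀) u₀ lam ρ, O.A X.jX q :=
  mpzw_wedge X hX O u₀ hu lam hl hl'

theorem mpz_trx (X : MzIn N) (hX : X.Ok) (O : MpOut X.T X.Lam (1 / 8) (7 / 8)) (u₀ p s₀ : ℝ) (hg : MzGood X O.A u₀ p s₀) (hp : 0 < p)
    (xm : ℝ) (h : MStr (O.A X.jX) X.bt u₀ (-1) xm) : X.γ ≤ xm :=
  mpzw_trx X hX O u₀ p s₀ hg hp xm h

theorem mpz_wed0 (X : MzIn N) (hX : X.Ok) (O : MpOut X.T X.Lam (1 / 8) (7 / 8)) (u₀ p s₀ : ℝ) (hg : MzGood X O.A u₀ p s₀) (hp : p = 0) :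
    ∃ c : ℝ, 0 < c ∧ ∀ᶠ ρ in 𝓝[>] (0 : ℝ), ENNReal.ofReal (c * ρ ^ 2) ≤ volume ({q | 0 < O.A X.jX q} ∩ mbx X.bt u₀ ρ ρ 1) :=
  mpzw_wed0 X hX O u₀ p s₀ hg hp

/-! ## C8 JUMP -/

theorem mpz_jump (X : MzIn N) (hX : X.Ok) (O : MpOut X.T X.Lam (1 / 8) (7 / 8)) (u₀ p s₀ : ℝ) (hg : MzGood X O.A u₀ p s₀) (hp : p < 1 + X.m)
    (zp zm Dp Dm : ℝ) (h1 : MStr (O.A X.jZ) X.bt u₀ 1 zp) (h2 : MStr (O.A X.jZ) X.bt u₀ (-1) zm)
    (h3 : MStr (O.A X.T.v) X.bt u₀ 1 Dp) (h4 : MStr (O.A X.T.v) X.bt u₀ (-1) Dm) :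
    (1 + X.m - p) * (zp - zm) ≤ Dm - Dp := by
  have hΛ : 0 < X.Lam := by
    unfold MzIn.Lam
    have := hX.m_pos
    positivity
  have := mpzj_main X.T hX.T_ok X.Lam hΛ O X.jZ hX.jZ_lt hX.jZ_top (hX.e_one X.jZ hX.jZ_lt.ne) X.bt _
    (mz_bt_lip X hX) (fun u => by
      have h := mz_bt_rng X hX u
      have hs : 0 ≤ ∑ α, |X.T.t α| := Finset.sum_nonneg fun α _ => abs_nonneg _
      rw [abs_of_nonneg h.1]
      unfold MzIn.Lam
      linarith [h.2]) u₀ hg.hu p hg.lb zp zm Dp Dm h1 h2 h3 h4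
  rwa [hX.tZ] at this

end Claimed.Agent.R255
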