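-- KEEP
import Claimed.Agent.R255.Plane.ClosePieces
import Claimed.Agent.R255.Plane.CloseCases

/-!
# Row 255, block (B), CHAPTER C = Section 8 (closure), abstract form: EXIT `mpz_main`      (architect helper7)

Everything happens in FLATTENED one-sided boxes `mbx b u₀ ρ τ ±1` at ONE good contact point; no tuple laws, no weak limits: only "most points / a positive proportion of points" of a box.

NOTATION at a generic plane point `q = (i,u)`: `a α = A α q`, `x = a jX`, `z = a jZ`, `D = a v`, `s(u) = S'(u)`,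
`ℬ q = ∑_data a α - 2`, `𝒱_P q = F(P) + D - (2 s(u) - β - γ m)`; `𝒱_P = 𝒱_{P'} - (P-P') ℬ`; `G = Φ - ψ`, `Φ = f ∘ Π`; `δ₁ = β + γ m > 0`, so `1 + s - (2s - β - γ m) ≥ δ₁`.
C0 SETUP. extend `b`, `S` from `[1/8,7/8]` to Lipschitz functions on `ℝ`; patch `Λ` large, `u₁ = 1/8`, `u₂ = 7/8`; `O := mpt_main`; contact points `u₀ ∈ (1/4,3/4)`.
C1 POT. for a.e. `q` of the patch `G` is Fréchet differentiable with `∂_i G = ℬ`, `∂_u G = 𝒱_0` (Rademacher for `Φ` [Lipschitz: A1 or directly from `cap` along `e`, `t`], `aff` with `ξ = ± Π w`, `S` differentiable a.e.).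
C2 GEN. a.e. `q` of the patch with `i > 0` satisfies the conclusions of `rate` with `a = A · q`, `s = S'(u)`.
C3 INT. shear `(r,u) ↦ (b u + r, u)`; `Ĝ(r,u) = G(b u + r,u)`, `|Ĝ| ≤ C|r|`, `∂_r Ĝ = ℬ`, `∂_u Ĝ = 𝒱_{p(u)}`, `p(u) = -b'(u)`:
   (I-B) `∫_{mbx u₀ ρ τ 1} ℬ = ∫ Ĝ(τ,u) du ≥ 0`, `∫_{mbx u₀ ρ τ (-1)} ℬ = -∫ Ĝ(-τ,u) du ≤ 0` when the far edge is an admissible aperture;
   (I-V) `|∫_{mbx u₀ ρ τ ±1} 𝒱_{p(u)}| ≤ C τ²`, hence `|∫ 𝒱_p| ≤ C τ² + C τ ∫_{|u-u₀|<ρ} |p(u) - p|`.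
C4 GOOD POINT. a.e. `u₀ ∈ (1/4,3/4)`: `b`, `S` differentiable, Lebesgue point of `b'`, `S'`; `MStr` traces `T_α^±` of every `A α` with `t α ≠ p` (`mpc_data`, hypothesis from `O.bv` on an aligned parallelogram inside the patch) and `D^±` of `A v` (`mpc_label`).
   `b₀ = 0 ⟹ p = 0`; `b₀ + (1+m)u₀ = 1+m ⟹ p = 1+m`; `0 ≤ p ≤ 1+m`.
C5 TANGENT RATE. `𝒱_p` has strong traces `κ^±` (sum of traces; the untraced field has coefficient `t α - p = 0`; `s(u) → s₀` by the Lebesgue point).  Thin strips `τ = aρ`: `|κ^±| 2aρ² ≤ C a²ρ² + o(ρ²)`, so `|κ^±| ≤ C a` for all `a`: `κ^± = 0`, i.e. `MStr 𝒱_p b u₀ ±1 0`.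
C6 SIGN. (I-B) with `τ = ρ` and `-2 ≤ ℬ ≤ C`: `{ℬ ≤ ε}` has proportion `≥ ε/(C+ε)` of the minus box, `{ℬ ≥ -ε}` of the plus box.
C7 WEDGE (Lemma 8.2). `W_ρ = {u₀-2ρ < u < u₀-ρ, b₀ < i < b₀ + λ(u₀-u)}`, `λ < min 1 m`: `∫_W x ≥ γ |W|`  (`hx2`, `hx1`, `g` monotone, `g t ≤ t`; `(1/t)∫_0^{λh}(g(d+t)-g d) dd ≥ g(λh) - g(t)`; `t = hs l → 0`, `aff` with `ξ = 1_X` + dominated convergence).
   `p > 0`, `λ < p`: `W ⊆` minus box of size `Cρ` ⟹ `x^- ≥ γ`.  `p = 0`: `W ⊆` plus box up to area `o(ρ²)`, and `|{x > 0} ∩ W| ≥ γ |W|`.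
C8 JUMP. `p < 1+m`: `D^- - D^+ ≥ (1+m-p)(z^+ - z^-)`: `mpt_weak` with `φ = φ₁(i - b u) φ₂(u)`, tents of widths `τ = aρ`, `ρ`: `(1/τ)[∫_{strip^-} wφ₂ - ∫_{strip^+} wφ₂] ≥ -2τ`, `w = (1+m-p(u)) z + D`; traces; `ρ → 0`, then `a → 0`.
C9 CASES (Completion).  `p_* = (1+m)/2`, all selections = a generic point in an intersection of one set of positive proportion with sets of proportion `→ 1`.
   I. `p ≥ p_*`: minus point with `ℬ ≤ ε`, `x > 0`, `𝒱_p ≤ ε`: `z < 1`: `𝒱_p = 𝒱_{p_*} - (p-p_*)ℬ ≥ δ₁ - Cε`; `z = 1`: `𝒱_p = 𝒱_0 - pℬ ≥ δ₁ - Cε`.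
   II. `p < p_*`. (a) `z^+ = 1`: else plus point with `ℬ ≥ -ε`, `z < 1`, `𝒱_p ≤ ε`: `x > 0`: `𝒱_p = 𝒱_{p_*} + (p_*-p)ℬ`; `x = 0`: `𝒱_p = 𝒱_{1+m} + (1+m-p)ℬ`.  (b) `p = 0`: point of `W` with `x > 0`, `z ≥ 1-ε`, `𝒱_0 ≤ ε`.
   (c) `0 < p`: `z^- = 1`: minus point with `ℬ ≤ ε`, `x > 0`, `z ≥ 1-ε`, `𝒱_p ≤ ε`; `z^- < 1`: `D^- ≥ (1+m-p)(1-z^-)` (C8, `D^+ ≥ 0`), minus point with `x > 0`, `z < 1`, `z ≈ z^-`, `D ≈ D^-`, `𝒱_p ≤ ε`, fourth bound of `rate`.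
-/

set_option autoImplicit false

namespace Claimed.Agent.R255

open Filter Topology MeasureTheory Set

/-- the generic bounds in the form used by `mpz_cases` -/
theorem mz_pt_of_gen {N : ℕ} (X : MzIn N) (A : Fin N → ℝ × ℝ → ℝ) (p : ℝ) (hp0 : 0 ≤ p) (q : ℝ × ℝ)
    (h : (0 < A X.jX q → A X.jZ q < 1 → X.del ≤ X.Vq A ((1 + X.m) / 2) q) ∧
      (0 < A X.jX q → X.del - (1 + X.m) * (1 - A X.jZ q) ≤ X.Vq A 0 q) ∧
      (A X.jZ q < 1 → X.del - (1 + X.m) * A X.jX q ≤ X.Vq A (1 + X.m) q) ∧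
      (0 < A X.jX q → A X.jZ q < 1 → ∀ P : ℝ, 0 ≤ P → P ≤ (1 + X.m) / 2 →
        X.del + A X.T.v q ≤ X.Vq A P q + (1 + X.m - P) * (1 - A X.jZ q))) :
    MzPt X.m p X.del (A X.jX q) (A X.jZ q) (A X.T.v q) (X.Bq A q) (X.Vq A p q) := by
  obtain ⟨h1, h2, h3, h4⟩ := h
  refine ⟨fun a b => ?_, fun a => ?_, fun b => ?_, fun c a b => h4 a b p hp0 c⟩
  · have := h1 a b
    rw [mz_V_shift X A ((1 + X.m) / 2) p q] at this
    linarith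
  · have := h2 a
    rw [mz_V_shift X A 0 p q] at this
    linarith
  · have := h3 b
    rw [mz_V_shift X A (1 + X.m) p q] at this
    linarith

/-- **Section 8**: no matched profile exists -/
theorem mpz_main {N : ℕ} (X : MzIn N) (hX : X.Ok) : False := by
  have hΛ : 0 < X.Lam := by
    unfold MzIn.Lam
    have := hX.m_pos
    positivity
  obtain ⟨O⟩ := mpt_main X.T hX.T_ok X.Lam (1 / 8) (7 / 8) hΛ (by norm_num) (by norm_num) (by norm_num)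
  obtain ⟨G, LG, hG⟩ := mpz_pot X hX O
  obtain ⟨u₀, p, s₀, hg⟩ := mpz_good_exists X hX O
  obtain ⟨hp0, hp1, hpb, hpt⟩ := mpz_good_p X hX O.A u₀ p s₀ hg
  obtain ⟨CB, hCB0, hCB⟩ := mz_Bq_bd X O.A O.bd
  obtain ⟨CV, hCV0, hCV⟩ := mz_Vq_bd X hX O.A O.bd p
  have hbm : Measurable X.bt := (mz_bt_lip X hX).continuous.measurable
  have hgen := mpz_gen X hX O
  have hsmall : ∀ᶠ ρ in 𝓝[>] (0 : ℝ), ρ ≤ 1 / 8 := by
    have : Iio (1 / 8 : ℝ) ∈ 𝓝 (0 : ℝ) := Iio_mem_nhds (by norm_num)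
    filter_upwards [mem_nhdsWithin_of_mem_nhds this] with ρ hρ using le_of_lt hρ
  have hdel : 0 < X.del := by
    unfold MzIn.del
    have := hX.m_pos
    have := hX.γ_pos
    have := hX.β_pos
    positivity
  refine mpz_cases X.bt hbm u₀ p X.m X.γ X.del (max (max CB CV) (X.T.d X.T.v)) (O.A X.jX) (O.A X.jZ) (O.A X.T.v)
    (X.Bq O.A) (X.Vq O.A p) (O.meas _) (O.meas _) (O.meas _) (mz_Bq_meas X O.A O.meas) (mz_Vq_meas X O.A O.meas p)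
    hX.m_pos hX.γ_pos hdel hp0 hp1 (fun q => ?_) (fun q => ?_) (fun q => ?_) (fun q => ?_) (fun q => ?_) ?_ ?_
    (mpz_tan X hX O G LG hG u₀ p s₀ hg 1 (Or.inl rfl)) (mpz_tan X hX O G LG hG u₀ p s₀ hg (-1) (Or.inr rfl))
    (fun hp => mpz_sign_minus X hX O G LG hG u₀ p s₀ hg hp) (fun hp => mpz_sign_plus X hX O G LG hG u₀ p s₀ hg hp)
    (fun hp => ?_) (fun hp => ?_) (fun hp => mpz_wed0 X hX O u₀ p s₀ hg hp)
  · have := O.bd X.jX q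
    rwa [hX.dX] at this
  · have := O.bd X.jZ q
    rwa [hX.dZ] at this
  · exact ⟨(O.bd X.T.v q).1, le_trans (O.bd X.T.v q).2 (le_max_right _ _)⟩
  · exact le_trans (hCB q) (le_trans (le_max_left _ _) (le_max_left _ _))
  · exact le_trans (hCV q) (le_trans (le_max_right _ _) (le_max_left _ _))
  · filter_upwards [hsmall] with ρ hρ
    filter_upwards [hgen] with q hq hqb
    exact mz_pt_of_gen X O.A p hp0 q
      (hq (mz_box_patch X hX u₀ hg.hu 1 (Or.inl rfl) ρ ρ hρ (by linarith) hqb) (mz_box_pos_plus X hX u₀ ρ ρ q hqb))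
  · intro hp
    filter_upwards [hsmall, mz_box_pos_minus X hX u₀ (hpb hp)] with ρ hρ hpos
    filter_upwards [hgen] with q hq hqb
    exact mz_pt_of_gen X O.A p hp0 q
      (hq (mz_box_patch X hX u₀ hg.hu (-1) (Or.inr rfl) ρ ρ hρ (by linarith) hqb) (hpos q hqb))
  · obtain ⟨Tp, Tm, -, hTm⟩ := hg.tr X.jX hX.jX_ne (by rw [hX.tX]; exact hp.ne)
    exact ⟨Tm, mpz_trx X hX O u₀ p s₀ hg hp Tm hTm, hTm⟩
  · obtain ⟨zp, zm, hzp, hzm⟩ := hg.tr X.jZ hX.jZ_lt.ne (by rw [hX.tZ]; exact hp.ne')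
    obtain ⟨Dp, Dm, hDp, hDm⟩ := hg.trD
    exact ⟨zp, zm, Dp, Dm, hzp, hzm, hDp, hDm, mpz_jump X hX O u₀ p s₀ hg hp zp zm Dp Dm hzp hzm hDp hDm⟩

end Claimed.Agent.R255
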