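-- KEEP
import Claimed.Agent.R255.Plane.Close

/-!
# Row 255, block (B), CHAPTER D = the three instances of the abstract closure; EXIT `plane_false`      (architect helper7)

Coordinates in CLOCK ORDER: (A) `m > 1`: `X,Y,W,Z,v`, clocks `0,1,m,1+m`; (B) `m < 1`: `X,W,Y,Z,v`, clocks `0,m,1,1+m`; (C) `m = 1`: `X,U,Z,v` with `U = (Y,W)` grouped (capacity 2), clocks `0,1,2`.
LEAVES: `mpd_alg4`, `mpd_alg3` (Lemma 8.3, pure algebra), `ppf_hx1`, `ppf_hx2` (Lemma 8.2 on `Cfg`: obstacle + capacity, resp. four rectangle steps `v, Y, W, Z`),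
`mpd_okA`, `mpd_okB`, `mpd_okC` (dictionary `Fin N → ℝ` ↔ `Cfg`; every field by `Fin.sum_univ_succ`/`simp`; `rate` = `Rate4`/`Rate3` at the trace point built from `AffAt` + algebra; for (C) a `U`-step = a `Y`-step and a `W`-step, the intermediate corner is admissible).
-/

set_option autoImplicit false

namespace Claimed.Agent.R255

open Filter Topology MeasureTheory Set

/-! ## Lemma 8.3 -/

theorem mpd_alg4 (m s σ x y w z : ℝ) (hm : 0 < m) (hs : 0 < s) (hs1 : s ≤ 1) (hσ : 0 < σ)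
    (hc : 0 ≤ x ∧ x ≤ 1 ∧ 0 ≤ y ∧ y ≤ 1 ∧ 0 ≤ w ∧ w ≤ 1 ∧ 0 ≤ z ∧ z ≤ 1)
    (h1 : 0 < x → min 1 (x + s) ≤ y) (h2 : 0 < w → min 1 (w + s) ≤ z)
    (h3 : 0 < x → min 1 (x + σ) ≤ w) (h4 : 0 < y → min 1 (y + σ) ≤ z)
    (Fm : ℝ → ℝ) (hF : ∀ P, Fm P = 2 * P - m - P * x + (1 - P) * y + (m - P) * w + (1 + m - P) * z) :
    (0 < x → z < 1 → 1 + s ≤ Fm ((1 + m) / 2)) ∧
    (0 < x → 1 + s - (1 + m) * (1 - z) ≤ Fm 0) ∧
    (z < 1 → 1 + s - (1 + m) * x ≤ Fm (1 + m)) ∧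
    (0 < x → z < 1 → ∀ P : ℝ, 0 ≤ P → P ≤ (1 + m) / 2 → 1 + s ≤ Fm P + (1 + m - P) * (1 - z)) := by
  obtain ⟨hx0, hx1, hy0, hy1, hw0, hw1, hz0, hz1⟩ := hc
  have hmin : ∀ a b : ℝ, min 1 a ≤ b → b < 1 → a ≤ b := by
    intro a b hab hb
    rcases min_le_iff.1 hab with h | h
    · linarith
    · exact h
  have hys : 0 < x → s ≤ y := by
    intro hx
    have := h1 hx
    rcases min_le_iff.1 this with h | h <;> linarith
  -- the chain of inequalities for `0 < x`, `z < 1`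
  have chain : 0 < x → z < 1 → x + s ≤ y ∧ x + σ ≤ w ∧ w + s ≤ z ∧ y + σ ≤ z := by
    intro hx hz
    have hy : 0 < y := lt_of_lt_of_le hs (hys hx)
    have a4 : y + σ ≤ z := hmin _ _ (h4 hy) hz
    have a1 : x + s ≤ y := hmin _ _ (h1 hx) (by linarith)
    have hw : 0 < w := by
      have := h3 hx
      rcases min_le_iff.1 this with h | h <;> linarith
    have a2 : w + s ≤ z := hmin _ _ (h2 hw) hz
    have a3 : x + σ ≤ w := hmin _ _ (h3 hx) (by linarith)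
    exact ⟨a1, a3, a2, a4⟩
  refine ⟨fun hx hz => ?_, fun hx => ?_, fun hz => ?_, fun hx hz P hP0 hP1 => ?_⟩
  · obtain ⟨a1, a3, a2, a4⟩ := chain hx hz
    rw [hF]
    nlinarith [mul_nonneg hm.le (by linarith : 0 ≤ (z - y) + (w - x))]
  · rw [hF]
    nlinarith [hys hx, mul_nonneg hm.le hw0]
  · rw [hF]
    have hsw : s ≤ 1 - w := by
      rcases hw0.eq_or_lt with h | h
      · rw [← h]; linarith
      · have := hmin _ _ (h2 h) hz
        linarith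
    nlinarith [mul_nonneg hm.le (by linarith : 0 ≤ 1 - y)]
  · obtain ⟨a1, a3, a2, a4⟩ := chain hx hz
    rw [hF]
    have H0 : 0 ≤ y + m * w - s := by nlinarith [hys hx, mul_nonneg hm.le hw0]
    have H1 : 0 ≤ (1 + m) * (1 - x) + (1 - m) * (y - w) - 2 * s := by
      nlinarith [mul_nonneg hm.le (by linarith : 0 ≤ (z - y) + (w - x)),
        mul_nonneg (by linarith : 0 ≤ 1 + m) (by linarith : 0 ≤ 1 - z)]
    have k1 := mul_nonneg (by linarith : 0 ≤ 1 + m - 2 * P) H0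
    have k2 := mul_nonneg hP0 H1
    have k3 : 0 ≤ (1 + m) * (P * (1 - x) + (1 - P) * y + (m - P) * w - s) := by nlinarith
    have k4 : 0 ≤ P * (1 - x) + (1 - P) * y + (m - P) * w - s :=
      nonneg_of_mul_nonneg_right k3 (by linarith)
    nlinarith

theorem mpd_alg3 (s x q z : ℝ) (hs : 0 < s) (hs1 : s ≤ 1)
    (hc : 0 ≤ x ∧ x ≤ 1 ∧ 0 ≤ q ∧ q ≤ 2 ∧ 0 ≤ z ∧ z ≤ 1)
    (h1 : 0 < x → s ≤ q) (h2 : 0 < x → z < 1 → x + s ≤ z) (h3 : z < 1 → q ≤ 2 - s)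
    (Fm : ℝ → ℝ) (hF : ∀ P, Fm P = 2 * P - 1 - P * x + (1 - P) * q + (2 - P) * z) :
    (0 < x → z < 1 → 1 + s ≤ Fm ((1 + 1) / 2)) ∧
    (0 < x → 1 + s - (1 + 1) * (1 - z) ≤ Fm 0) ∧
    (z < 1 → 1 + s - (1 + 1) * x ≤ Fm (1 + 1)) ∧
    (0 < x → z < 1 → ∀ P : ℝ, 0 ≤ P → P ≤ (1 + 1) / 2 → 1 + s ≤ Fm P + (1 + 1 - P) * (1 - z)) := by
  obtain ⟨hx0, hx1, hq0, hq2, hz0, hz1⟩ := hc
  refine ⟨fun hx hz => ?_, fun hx => ?_, fun hz => ?_, fun hx hz P hP0 hP1 => ?_⟩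
  · rw [hF]
    linarith [h2 hx hz]
  · rw [hF]
    linarith [h1 hx]
  · rw [hF]
    linarith [h3 hz]
  · rw [hF]
    have a1 := h1 hx
    have a2 := h2 hx hz
    nlinarith [mul_nonneg hP0 (by linarith : 0 ≤ 1 - x - s),
      mul_nonneg (by linarith : 0 ≤ 1 - P) (by linarith : 0 ≤ q - s)]

/-! ## Lemma 8.2 on configurations -/

/-- (8.6): refine `X, Y` by `d` at the contact configuration (obstacle with `B = b + d`, `A = b + m u`), the `Y`-step costs at most `d` -/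
theorem ppf_hx1 {γ β m : ℝ} (hm : 0 < m) (P : Prof γ β m) (u d : ℝ) (h0 : 0 < u) (h1 : u < 1) (hd : 0 ≤ d) (hd' : d ≤ m * u) :
    γ * d ≤ P.f ((plane m (P.b u) u).sh (cfgE 0) d) - P.f (plane m (P.b u) u) := by
  obtain ⟨b, hb⟩ : ∃ b : ℝ, b = P.b u := ⟨_, rfl⟩
  have hb0 : 0 ≤ b := by rw [hb]; exact P.b_nonneg u h0 h1
  have hbt : b + (1 + m) * u ≤ 1 + m := by rw [hb]; exact P.b_top u h0 h1
  have hc := P.cont u h0 h1
  rw [← hb] at hc ⊢
  have ho := P.obst (b + d) (b + m * u) u h0 h1 (by linarith) (by linarith) (by linarith) (by linarith)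
  have e1 : (plane m b u).sh (cfgE 0) d = ⟨b + d, b + u, b + m * u, b + (1 + m) * u, u⟩ := by
    simp [plane, Cfg.sh, cfgE]
  have e2 : (⟨b + d, b + u, b + m * u, b + (1 + m) * u, u⟩ : Cfg).sh (cfgE 1) d =
      ⟨b + d, b + d + u, b + m * u, b + m * u + u, u⟩ := by
    simp only [Cfg.sh, cfgE, mul_zero, mul_one, add_zero, Cfg.mk.injEq, true_and, and_true]
    constructor <;> ring
  have hcap := (P.cap 1 ⟨b + d, b + u, b + m * u, b + (1 + m) * u, u⟩ d hd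
    (by
      refine ⟨?_, ?_, ?_, ?_, h0, h1⟩ <;> dsimp only <;> linarith)
    (by
      rw [e2]
      refine ⟨?_, ?_, ?_, ?_, h0, h1⟩ <;> dsimp only <;> linarith)).2
  rw [e2] at hcap
  have hc1 : cfgCap m 1 = 1 := rfl
  rw [hc1] at hcap
  rw [e1, hc]
  linarith

theorem ppf_sh_comm (z ξ η : Cfg) (a b : ℝ) : (z.sh ξ a).sh η b = (z.sh η b).sh ξ a := by
  simp only [Cfg.sh, Cfg.mk.injEq]
  refine ⟨?_, ?_, ?_, ?_, ?_⟩ <;> ring

theorem ppf_adm_sh0 {m : ℝ} {z : Cfg} (hz : z.Adm m) {t : ℝ} (ht : 0 ≤ t) : (z.sh (cfgE 0) t).Adm m := by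
  obtain ⟨a1, a2, a3, a4, a5, a6⟩ := hz
  refine ⟨?_, ?_, ?_, ?_, ?_, ?_⟩ <;> simp only [Cfg.sh, cfgE, mul_zero, mul_one, add_zero] <;> linarith

/-- one rectangle step: raising coordinate `l ≠ X` decreases the `X`-increment -/
theorem ppf_rect0 {γ β m : ℝ} (P : Prof γ β m) (l : Fin 5) (hl : (0 : Fin 5) ≠ l) (z : Cfg) (t d : ℝ) (ht : 0 ≤ t) (hd : 0 ≤ d)
    (hz : z.Adm m) (hz' : (z.sh (cfgE l) d).Adm m) :
    P.f ((z.sh (cfgE l) d).sh (cfgE 0) t) - P.f (z.sh (cfgE l) d) ≤ P.f (z.sh (cfgE 0) t) - P.f z := by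
  have h := P.rect 0 l hl z t d ht hd hz (ppf_adm_sh0 hz ht) hz' (by
    rw [ppf_sh_comm]
    exact ppf_adm_sh0 hz' ht)
  rw [ppf_sh_comm] at h
  linarith

/-- (8.8): from `Π(i,u-h)` raise `v`, then `Y`, `W`, `Z` to the values of `Π(b u,u)`: the `X`-increment decreases at each step (P2) -/
theorem ppf_hx2 {γ β m : ℝ} (hm : 0 < m) (P : Prof γ β m) (u h i t : ℝ) (hh : 0 < h) (hu : h < u) (h1 : u < 1)
    (hi : P.b u ≤ i) (hi' : i ≤ P.b u + min 1 m * h) (ht : 0 ≤ t) :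
    P.f ((plane m (P.b u) u).sh (cfgE 0) (i - P.b u + t)) - P.f ((plane m (P.b u) u).sh (cfgE 0) (i - P.b u))
      ≤ P.f ((plane m i (u - h)).sh (cfgE 0) t) - P.f (plane m i (u - h)) := by
  obtain ⟨b, hb⟩ : ∃ b : ℝ, b = P.b u := ⟨_, rfl⟩
  rw [← hb] at hi hi' ⊢
  have hi1 : i - b ≤ h := by
    have : min 1 m * h ≤ 1 * h := mul_le_mul_of_nonneg_right (min_le_left _ _) hh.le
    linarith
  have hi2 : i - b ≤ m * h := by
    have : min 1 m * h ≤ m * h := mul_le_mul_of_nonneg_right (min_le_right _ _) hh.le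
    linarith
  have hmh : 0 < m * h := mul_pos hm hh
  have hu0 : 0 < u := hh.trans hu
  -- the five configurations
  have e1 : (plane m i (u - h)).sh (cfgE 4) h = ⟨i, i + (u - h), i + m * (u - h), i + (1 + m) * (u - h), u⟩ := by
    simp [plane, Cfg.sh, cfgE]
  have e2 : (⟨i, i + (u - h), i + m * (u - h), i + (1 + m) * (u - h), u⟩ : Cfg).sh (cfgE 1) (h - (i - b)) =
      ⟨i, b + u, i + m * (u - h), i + (1 + m) * (u - h), u⟩ := by
    simp only [Cfg.sh, cfgE, mul_zero, mul_one, add_zero, Cfg.mk.injEq, true_and, and_true]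
    ring
  have e3 : (⟨i, b + u, i + m * (u - h), i + (1 + m) * (u - h), u⟩ : Cfg).sh (cfgE 2) (m * h - (i - b)) =
      ⟨i, b + u, b + m * u, i + (1 + m) * (u - h), u⟩ := by
    simp only [Cfg.sh, cfgE, mul_zero, mul_one, add_zero, Cfg.mk.injEq, true_and, and_true]
    ring
  have e4 : (⟨i, b + u, b + m * u, i + (1 + m) * (u - h), u⟩ : Cfg).sh (cfgE 3) ((1 + m) * h - (i - b)) =
      ⟨i, b + u, b + m * u, b + (1 + m) * u, u⟩ := by
    simp only [Cfg.sh, cfgE, mul_zero, mul_one, add_zero, Cfg.mk.injEq, true_and, and_true]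
    ring
  have e5 : (plane m b u).sh (cfgE 0) (i - b) = ⟨i, b + u, b + m * u, b + (1 + m) * u, u⟩ := by
    simp [plane, Cfg.sh, cfgE]
  have e6 : (plane m b u).sh (cfgE 0) (i - b + t) = (⟨i, b + u, b + m * u, b + (1 + m) * u, u⟩ : Cfg).sh (cfgE 0) t := by
    simp only [plane, Cfg.sh, cfgE, mul_zero, mul_one, add_zero, Cfg.mk.injEq, true_and, and_true]
    ring
  have a0 : (plane m i (u - h)).Adm m := by
    refine ⟨?_, ?_, ?_, ?_, ?_, ?_⟩ <;> simp only [plane] <;> linarith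
  have a1 : (⟨i, i + (u - h), i + m * (u - h), i + (1 + m) * (u - h), u⟩ : Cfg).Adm m := by
    refine ⟨?_, ?_, ?_, ?_, hu0, h1⟩ <;> dsimp only <;> linarith
  have a2 : (⟨i, b + u, i + m * (u - h), i + (1 + m) * (u - h), u⟩ : Cfg).Adm m := by
    refine ⟨?_, ?_, ?_, ?_, hu0, h1⟩ <;> dsimp only <;> linarith
  have a3 : (⟨i, b + u, b + m * u, i + (1 + m) * (u - h), u⟩ : Cfg).Adm m := by
    refine ⟨?_, ?_, ?_, ?_, hu0, h1⟩ <;> dsimp only <;> linarith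
  have a4 : (⟨i, b + u, b + m * u, b + (1 + m) * u, u⟩ : Cfg).Adm m := by
    refine ⟨?_, ?_, ?_, ?_, hu0, h1⟩ <;> dsimp only <;> linarith
  have r1 := ppf_rect0 P 4 (by decide) (plane m i (u - h)) t h ht hh.le a0 (by rw [e1]; exact a1)
  have r2 := ppf_rect0 P 1 (by decide) ⟨i, i + (u - h), i + m * (u - h), i + (1 + m) * (u - h), u⟩ t (h - (i - b)) ht
    (by linarith) a1 (by rw [e2]; exact a2)
  have r3 := ppf_rect0 P 2 (by decide) ⟨i, b + u, i + m * (u - h), i + (1 + m) * (u - h), u⟩ t (m * h - (i - b)) ht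
    (by linarith) a2 (by rw [e3]; exact a3)
  have r4 := ppf_rect0 P 3 (by decide) ⟨i, b + u, b + m * u, i + (1 + m) * (u - h), u⟩ t ((1 + m) * h - (i - b)) ht
    (by linarith) a3 (by rw [e4]; exact a4)
  rw [e1] at r1
  rw [e2] at r2
  rw [e3] at r3
  rw [e4] at r4
  rw [e5, e6]
  linarith

/-! ## the three instances -/

def mdCfgA (z : Fin 5 → ℝ) : Cfg := ⟨z 0, z 1, z 2, z 3, z 4⟩

def mdCfgB (z : Fin 5 → ℝ) : Cfg := ⟨z 0, z 2, z 1, z 3, z 4⟩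

def mdCfgC (z : Fin 4 → ℝ) : Cfg := ⟨z 0, z 1, z 1, z 2, z 3⟩

def mdTA (m : ℝ) (f : Cfg → ℝ) : MpIn 5 where
  e := ![1, 1, 1, 1, 0]
  t := ![0, 1, m, 1 + m, 1]
  d := ![1, 1, 1, 1, 1 + m]
  M := 4
  lam := ![![-1, 1, 0, 0, -1], ![-1, 0, 1, 0, -m], ![0, 0, -1, 1, -1], ![0, -1, 0, 1, -m]]
  v := 4
  f := fun z => f (mdCfgA z)

def mdTB (m : ℝ) (f : Cfg → ℝ) : MpIn 5 where
  e := ![1, 1, 1, 1, 0]
  t := ![0, m, 1, 1 + m, 1]
  d := ![1, 1, 1, 1, 1 + m]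
  M := 4
  lam := ![![-1, 0, 1, 0, -1], ![-1, 1, 0, 0, -m], ![0, -1, 0, 1, -1], ![0, 0, -1, 1, -m]]
  v := 4
  f := fun z => f (mdCfgB z)

def mdTC (f : Cfg → ℝ) : MpIn 4 where
  e := ![1, 1, 1, 0]
  t := ![0, 1, 2, 1]
  d := ![1, 2, 1, 2]
  M := 2
  lam := ![![-1, 1, 0, -1], ![0, -1, 1, -1]]
  v := 3
  f := fun z => f (mdCfgC z)

def mdXA {γ β m : ℝ} (P : Prof γ β m) : MzIn 5 := ⟨mdTA m P.f, 0, 3, m, γ, β, P.τ, P.S, P.b⟩

def mdXB {γ β m : ℝ} (P : Prof γ β m) : MzIn 5 := ⟨mdTB m P.f, 0, 3, m, γ, β, P.τ, P.S, P.b⟩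

def mdXC {γ β : ℝ} (P : Prof γ β 1) : MzIn 4 := ⟨mdTC P.f, 0, 2, 1, γ, β, P.τ, P.S, P.b⟩

theorem mpd_A_pl (m : ℝ) (f : Cfg → ℝ) (i u : ℝ) : mdCfgA ((mdTA m f).pl (i, u)) = plane m i u := by
  simp only [mdCfgA, MpIn.pl, mdTA, plane, Cfg.mk.injEq]
  refine ⟨?_, ?_, ?_, ?_, ?_⟩ <;> simp <;> ring

theorem mpd_A_single (z : Fin 5 → ℝ) (α : Fin 5) (h : ℝ) :
    mdCfgA (z + Pi.single α h) = (mdCfgA z).sh (cfgE α) h := by
  fin_cases α <;> simp [mdCfgA, Cfg.sh, cfgE]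

theorem mpd_A_smul (z ξ : Fin 5 → ℝ) (c : ℝ) :
    mdCfgA (z + c • ξ) = (mdCfgA z).sh (mdCfgA ξ) c := by
  simp [mdCfgA, Cfg.sh]

theorem mpd_A_cone (m : ℝ) (f : Cfg → ℝ) (ξ : Fin 5 → ℝ) : (mdTA m f).Cone ξ ↔ (mdCfgA ξ).Cone m := by
  unfold MpIn.Cone Cfg.Cone
  constructor
  · intro h
    have h0 := h (0 : Fin 4)
    have h1 := h (1 : Fin 4)
    have h2 := h (2 : Fin 4)
    have h3 := h (3 : Fin 4)
    simp [mdTA, Fin.sum_univ_five] at h0 h1 h2 h3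
    simp only [mdCfgA]
    refine ⟨by linarith, by linarith, by linarith, by linarith⟩
  · rintro ⟨h0, h1, h2, h3⟩ l
    simp only [mdCfgA] at h0 h1 h2 h3
    change Fin 4 at l
    fin_cases l <;> simp [mdTA, Fin.sum_univ_five] <;> linarith

theorem mpd_A_dom (m : ℝ) (f : Cfg → ℝ) (z : Fin 5 → ℝ) : (mdTA m f).Dom z ↔ (mdCfgA z).Adm m := by
  unfold MpIn.Dom
  rw [mpd_A_cone]
  unfold Cfg.Cone Cfg.Adm
  simp only [mdCfgA, mdTA]
  tauto

theorem mpd_A_Tok {γ β m : ℝ} (hm : 1 < m) (P : Prof γ β m) : (mdTA m P.f).Ok where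
  om_pos := by
    intro α β hαβ
    fin_cases α <;> fin_cases β <;> simp [MpIn.om, mdTA] at hαβ ⊢ <;> linarith
  lam_e := by
    intro l
    change Fin 4 at l
    fin_cases l <;> simp [mdTA, Fin.sum_univ_five]
  lam_t := by
    intro l
    change Fin 4 at l
    fin_cases l <;> simp [mdTA, Fin.sum_univ_five]
  lam_v := by
    intro l
    change Fin 4 at l
    fin_cases l <;> simp [mdTA] <;> linarith
  e_v := by simp [mdTA]
  t_v := by simp [mdTA]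
  cap := by
    intro α z h hh hz hz'
    rw [mpd_A_dom] at hz hz'
    rw [mpd_A_single] at hz'
    have := P.cap α (mdCfgA z) h hh hz hz'
    have hd : (mdTA m P.f).d α = cfgCap m α := by
      fin_cases α <;> simp [mdTA, cfgCap]
    rw [hd]
    change 0 ≤ P.f (mdCfgA (z + Pi.single α h)) - P.f (mdCfgA z) ∧
      P.f (mdCfgA (z + Pi.single α h)) - P.f (mdCfgA z) ≤ cfgCap m α * h
    rw [mpd_A_single]
    exact this
  rect := by
    intro α β hαβ z h k hh hk hz h1 h2 h3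
    rw [mpd_A_dom] at hz h1 h2 h3
    rw [mpd_A_single] at h1 h2 h3
    rw [mpd_A_single] at h3
    have := P.rect α β hαβ (mdCfgA z) h k hh hk hz h1 h2 h3
    change P.f (mdCfgA (z + Pi.single α h + Pi.single β k)) - P.f (mdCfgA (z + Pi.single α h))
      - P.f (mdCfgA (z + Pi.single β k)) + P.f (mdCfgA z) ≤ 0
    rw [mpd_A_single, mpd_A_single, mpd_A_single]
    exact this

theorem mpd_A_tr4 {γ β m : ℝ} (P : Prof γ β m) (i u s : ℝ) (a : Fin 5 → ℝ) (hs : ℕ → ℝ) (hi : 0 < i) (hu : 0 < u)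
    (hu1 : u < 1) (hpos : ∀ l, 0 < hs l) (hlim : Tendsto hs atTop (𝓝 0)) (haff : (mdTA m P.f).AffAt (i, u) hs a)
    (hbd : ∀ α, 0 ≤ a α ∧ a α ≤ (mdTA m P.f).d α) (hS : HasDerivAt P.S s u) :
    Tr4 m P.f P.S i u (a 0) (a 1) (a 2) (a 3) (a 4) s where
  ipos := hi
  upos := hu
  ult := hu1
  cap := by
    have h0 := hbd 0
    have h1 := hbd 1
    have h2 := hbd 2
    have h3 := hbd 3
    simp [mdTA] at h0 h1 h2 h3
    exact ⟨h0.1, h0.2, h1.1, h1.2, h2.1, h2.2, h3.1, h3.2⟩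
  blow := by
    refine ⟨hs, hpos, hlim, fun R η hη => ?_⟩
    filter_upwards [haff R η hη] with l hl ξ hξ hR
    have hc : mdCfgA ![ξ.LX, ξ.LY, ξ.LW, ξ.LZ, ξ.v] = ξ := by
      simp [mdCfgA]
    have := hl ![ξ.LX, ξ.LY, ξ.LW, ξ.LZ, ξ.v] (by rw [mpd_A_cone, hc]; exact hξ) (by
      obtain ⟨r0, r1, r2, r3, r4⟩ := hR
      intro α
      fin_cases α <;> simp <;> assumption)
    change |P.f (mdCfgA ((mdTA m P.f).pl (i, u) + hs l • ![ξ.LX, ξ.LY, ξ.LW, ξ.LZ, ξ.v]))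
      - P.f (mdCfgA ((mdTA m P.f).pl (i, u))) - hs l * ∑ α, a α * ![ξ.LX, ξ.LY, ξ.LW, ξ.LZ, ξ.v] α| ≤ η * hs l at this
    rw [mpd_A_smul, mpd_A_pl, hc, Fin.sum_univ_five] at this
    simpa using this
  dS := hS

theorem mpd_okA {γ β m σ : ℝ} (hγ : 0 < γ) (hβ : 0 < β) (hm : 1 < m) (P : Prof γ β m) (hσ : 0 < σ)
    (hR : Rate4 m P.f P.S σ) : (mdXA P).Ok where
  T_ok := mpd_A_Tok hm P
  m_pos := by change 0 < m; linarith
  γ_pos := hγ
  β_pos := hβ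
  e_one := by
    intro α hα
    fin_cases α <;> simp [mdXA, mdTA] at hα ⊢
  jX_ne := by simp [mdXA, mdTA]
  tX := by simp [mdXA, mdTA]
  lamX := by
    intro l
    change Fin 4 at l
    fin_cases l <;> simp [mdXA, mdTA]
  tZ := by simp [mdXA, mdTA]
  jZ_lt := by simp [mdXA, mdTA]
  jZ_top := by
    intro β h1 h2
    fin_cases β <;> simp [mdXA, mdTA] at h1 h2 ⊢
  dX := by simp [mdXA, mdTA]
  dZ := by simp [mdXA, mdTA]
  S_lip := P.S_lip
  obst := by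
    intro i u hu hu1 hi htop
    change 2 * i + (1 - γ) * m * u + 2 * P.S u - β * u - P.τ ≤ P.f (mdCfgA ((mdTA m P.f).pl (i, u)))
    change i + (1 + m) * u ≤ 1 + m at htop
    rw [mpd_A_pl]
    have hmu : 0 ≤ m * u := by nlinarith
    have := P.obst i (i + m * u) u hu hu1 hi (by linarith) le_rfl (by linarith)
    have e : (⟨i, i + u, i + m * u, i + m * u + u, u⟩ : Cfg) = plane m i u := by
      simp only [plane, Cfg.mk.injEq, true_and, and_true]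
      ring
    rw [e] at this
    linarith
  cont := by
    intro u hu hu1
    change P.f (mdCfgA ((mdTA m P.f).pl (P.b u, u))) = 2 * P.b u + (1 - γ) * m * u + 2 * P.S u - β * u - P.τ
    rw [mpd_A_pl]
    exact P.cont u hu hu1
  b_nonneg := P.b_nonneg
  b_top := P.b_top
  b_anti := P.b_anti
  b_lip := P.b_lip
  rate := by
    intro i u s a hs hi hu hu1 hpos hlim haff hbd hS
    have T := mpd_A_tr4 P i u s a hs hi hu hu1 hpos hlim haff hbd hS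
    obtain ⟨s0, s1, r1, r2, r3, r4⟩ := hR _ _ _ _ _ _ _ _ T
    have := mpd_alg4 m s σ (a 0) (a 1) (a 2) (a 3) (by linarith) s0 s1 hσ T.cap r1 r2 r3 r4
      ((mdXA P).F a) (by
        intro Q
        simp [MzIn.F, mdXA, mdTA, Fin.sum_univ_five]
        ring)
    exact ⟨s0, s1, this⟩
  hx1 := by
    intro u d hu hu1 hd hd'
    change γ * d ≤ P.f (mdCfgA ((mdTA m P.f).pl (P.b u, u) + Pi.single 0 d)) - P.f (mdCfgA ((mdTA m P.f).pl (P.b u, u)))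
    rw [mpd_A_single, mpd_A_pl]
    exact ppf_hx1 (by linarith) P u d hu hu1 hd hd'
  hx2 := by
    intro u h i t hh hhu hu1 hi hi' ht _
    change P.f (mdCfgA ((mdTA m P.f).pl (P.b u, u) + Pi.single 0 (i - P.b u + t)))
        - P.f (mdCfgA ((mdTA m P.f).pl (P.b u, u) + Pi.single 0 (i - P.b u)))
      ≤ P.f (mdCfgA ((mdTA m P.f).pl (i, u - h) + Pi.single 0 t)) - P.f (mdCfgA ((mdTA m P.f).pl (i, u - h)))
    rw [mpd_A_single, mpd_A_single, mpd_A_single, mpd_A_pl, mpd_A_pl]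
    exact ppf_hx2 (by linarith) P u h i t hh hhu hu1 hi hi' ht

theorem mpd_adm_iff (m : ℝ) (z : Cfg) : z.Adm m ↔ z.Cone m ∧ 0 < z.v ∧ z.v < 1 := by
  simp only [Cfg.Adm, Cfg.Cone, and_assoc]

theorem mpd_coneB (m : ℝ) (f : Cfg → ℝ) (ξ : Fin 5 → ℝ) : (mdTB m f).Cone ξ ↔ (mdCfgB ξ).Cone m := by
  constructor
  · intro h
    have h0 := h (0 : Fin 4)
    have h1 := h (1 : Fin 4)
    have h2 := h (2 : Fin 4)
    have h3 := h (3 : Fin 4)
    simp [mdTB, Fin.sum_univ_five] at h0 h1 h2 h3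
    refine ⟨?_, ?_, ?_, ?_⟩ <;> simp only [mdCfgB] <;> linarith
  · rintro ⟨h0, h1, h2, h3⟩ l
    simp only [mdCfgB] at h0 h1 h2 h3
    change Fin 4 at l
    fin_cases l <;> simp [mdTB, Fin.sum_univ_five] <;> linarith

theorem mpd_domB (m : ℝ) (f : Cfg → ℝ) (z : Fin 5 → ℝ) : (mdTB m f).Dom z ↔ (mdCfgB z).Adm m := by
  rw [mpd_adm_iff, MpIn.Dom, mpd_coneB]
  rfl

/-- the position of the coordinates in instance (B) -/
def mdPB : Fin 5 → Fin 5 := ![0, 2, 1, 3, 4]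

theorem mpd_singleB (z : Fin 5 → ℝ) (α : Fin 5) (h : ℝ) :
    mdCfgB (z + Pi.single α h) = (mdCfgB z).sh (cfgE (mdPB α)) h := by
  fin_cases α <;> simp [mdCfgB, Cfg.sh, cfgE, mdPB]

theorem mpd_capB (m : ℝ) (f : Cfg → ℝ) (α : Fin 5) : (mdTB m f).d α = cfgCap m (mdPB α) := by
  fin_cases α <;> simp [mdTB, cfgCap, mdPB]

theorem mpd_PB_inj : Function.Injective mdPB := by
  intro a b
  fin_cases a <;> fin_cases b <;> simp [mdPB]

theorem mpd_plB (m : ℝ) (f : Cfg → ℝ) (q : ℝ × ℝ) : mdCfgB ((mdTB m f).pl q) = plane m q.1 q.2 := by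
  simp [mdCfgB, MpIn.pl, mdTB, plane]
  exact ⟨mul_comm _ _, mul_comm _ _⟩

theorem mpd_TokB {γ β m : ℝ} (hm0 : 0 < m) (hm : m < 1) (P : Prof γ β m) : (mdTB m P.f).Ok where
  om_pos := by
    intro α β h
    fin_cases α <;> fin_cases β <;> simp [MpIn.om, mdTB] at h ⊢ <;> linarith
  lam_e := by
    intro l
    change Fin 4 at l
    fin_cases l <;> simp [mdTB, Fin.sum_univ_five]
  lam_t := by
    intro l
    change Fin 4 at l
    fin_cases l <;> simp [mdTB, Fin.sum_univ_five]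
  lam_v := by
    intro l
    change Fin 4 at l
    fin_cases l <;> simp [mdTB] <;> linarith
  e_v := by simp [mdTB]
  t_v := by simp [mdTB]
  cap := by
    intro α z h hh h1 h2
    rw [mpd_domB] at h1 h2
    rw [mpd_singleB] at h2
    have := P.cap (mdPB α) (mdCfgB z) h hh h1 h2
    rw [mpd_capB]
    show 0 ≤ P.f (mdCfgB (z + Pi.single α h)) - P.f (mdCfgB z) ∧
      P.f (mdCfgB (z + Pi.single α h)) - P.f (mdCfgB z) ≤ _
    rw [mpd_singleB]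
    exact this
  rect := by
    intro α β hαβ z h k hh hk h1 h2 h3 h4
    rw [mpd_domB] at h1 h2 h3 h4
    rw [mpd_singleB] at h2 h3 h4
    rw [mpd_singleB] at h4
    have := P.rect (mdPB α) (mdPB β) (fun e => hαβ (mpd_PB_inj e)) (mdCfgB z) h k hh hk h1 h2 h3 h4
    show P.f (mdCfgB (z + Pi.single α h + Pi.single β k)) - P.f (mdCfgB (z + Pi.single α h))
      - P.f (mdCfgB (z + Pi.single β k)) + P.f (mdCfgB z) ≤ 0
    rw [mpd_singleB, mpd_singleB, mpd_singleB]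
    exact this

/-- the trace point of instance (B) -/
theorem mpd_trB {m : ℝ} {f : Cfg → ℝ} {S : ℝ → ℝ} {i u s : ℝ} {a : Fin 5 → ℝ} {hs : ℕ → ℝ} (hi : 0 < i) (hu : 0 < u)
    (hu1 : u < 1) (hs0 : ∀ l, 0 < hs l) (hs1 : Tendsto hs atTop (𝓝 0)) (hA : (mdTB m f).AffAt (i, u) hs a)
    (ha : ∀ α, 0 ≤ a α ∧ a α ≤ (mdTB m f).d α) (hS : HasDerivAt S s u) :
    Tr4 m f S i u (a 0) (a 2) (a 1) (a 3) (a 4) s where
  ipos := hi
  upos := hu
  ult := hu1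
  cap := by
    have h0 := ha 0
    have h1 := ha 1
    have h2 := ha 2
    have h3 := ha 3
    simp [mdTB] at h0 h1 h2 h3
    exact ⟨h0.1, h0.2, h2.1, h2.2, h1.1, h1.2, h3.1, h3.2⟩
  blow := by
    refine ⟨hs, hs0, hs1, fun R η hη => ?_⟩
    filter_upwards [hA R η hη] with l hl ξ hξ hR
    have h1 := hl ![ξ.LX, ξ.LW, ξ.LY, ξ.LZ, ξ.v] ((mpd_coneB m f _).2 hξ) (by
      obtain ⟨r0, r1, r2, r3, r4⟩ := hR
      intro α
      fin_cases α <;> simpa)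
    have e1 : mdCfgB ((mdTB m f).pl (i, u) + hs l • ![ξ.LX, ξ.LW, ξ.LY, ξ.LZ, ξ.v]) = (plane m i u).sh ξ (hs l) := by
      have := mpd_plB m f (i, u)
      simp only [mdCfgB, plane, Cfg.mk.injEq] at this
      obtain ⟨p0, p1, p2, p3, p4⟩ := this
      simp [mdCfgB, Cfg.sh, plane, p0, p1, p2, p3, p4]
    have e2 : (mdTB m f).f ((mdTB m f).pl (i, u) + hs l • ![ξ.LX, ξ.LW, ξ.LY, ξ.LZ, ξ.v])
        = f ((plane m i u).sh ξ (hs l)) := by
      rw [← e1]; rfl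
    have e3 : (mdTB m f).f ((mdTB m f).pl (i, u)) = f (plane m i u) := by
      rw [← mpd_plB m f (i, u)]; rfl
    rw [e2, e3, Fin.sum_univ_five] at h1
    simp only [Matrix.cons_val] at h1
    have e4 : a 0 * ξ.LX + a 1 * ξ.LW + a 2 * ξ.LY + a 3 * ξ.LZ + a 4 * ξ.v
        = a 0 * ξ.LX + a 2 * ξ.LY + a 1 * ξ.LW + a 3 * ξ.LZ + a 4 * ξ.v := by ring
    rw [← e4]
    exact h1
  dS := hS

theorem mpd_okB {γ β m σ : ℝ} (hγ : 0 < γ) (hβ : 0 < β) (hm0 : 0 < m) (hm : m < 1) (P : Prof γ β m) (hσ : 0 < σ)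
    (hR : Rate4 m P.f P.S σ) : (mdXB P).Ok where
  T_ok := mpd_TokB hm0 hm P
  m_pos := hm0
  γ_pos := hγ
  β_pos := hβ
  e_one := by
    intro α h
    fin_cases α <;> simp [mdXB, mdTB] at h ⊢
  jX_ne := by simp [mdXB, mdTB]
  tX := by simp [mdXB, mdTB]
  lamX := by
    intro l
    change Fin 4 at l
    fin_cases l <;> simp [mdXB, mdTB]
  tZ := by simp [mdXB, mdTB]
  jZ_lt := by simp [mdXB, mdTB]
  jZ_top := by
    intro β h1 h2
    fin_cases β <;> simp [mdXB, mdTB] at h1 h2 ⊢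
  dX := by simp [mdXB, mdTB]
  dZ := by simp [mdXB, mdTB]
  S_lip := P.S_lip
  obst := by
    intro i u hu hu1 hi htop
    show 2 * i + (1 - γ) * m * u + 2 * P.S u - β * u - P.τ ≤ P.f (mdCfgB ((mdTB m P.f).pl (i, u)))
    rw [mpd_plB]
    have h1 := P.obst i (i + m * u) u hu hu1 hi (by nlinarith) le_rfl (by
      have : i + (1 + m) * u ≤ 1 + m := htop
      linarith)
    have e : (⟨i, i + u, i + m * u, i + m * u + u, u⟩ : Cfg) = plane m i u := by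
      simp only [plane, Cfg.mk.injEq, true_and, and_true]
      ring
    rw [e] at h1
    show _ ≤ P.f (plane m i u)
    linarith
  cont := by
    intro u hu hu1
    show P.f (mdCfgB ((mdTB m P.f).pl (P.b u, u))) = 2 * P.b u + (1 - γ) * m * u + 2 * P.S u - β * u - P.τ
    rw [mpd_plB]
    exact P.cont u hu hu1
  b_nonneg := P.b_nonneg
  b_top := P.b_top
  b_anti := P.b_anti
  b_lip := P.b_lip
  rate := by
    intro i u s a hs hi hu hu1 hs0 hs1 hA ha hS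
    have tr := mpd_trB hi hu hu1 hs0 hs1 hA ha hS
    obtain ⟨r1, r2, r3, r4, r5, r6⟩ := hR _ _ _ _ _ _ _ _ tr
    refine ⟨r1, r2, ?_⟩
    exact mpd_alg4 m s σ (a 0) (a 2) (a 1) (a 3) hm0 r1 r2 hσ tr.cap r3 r4 r5 r6 ((mdXB P).F a) (by
      intro Q
      simp [MzIn.F, mdXB, mdTB, Fin.sum_univ_five]
      ring)
  hx1 := by
    intro u d hu hu1 hd hd'
    show γ * d ≤ P.f (mdCfgB ((mdTB m P.f).pl (P.b u, u) + Pi.single 0 d)) - P.f (mdCfgB ((mdTB m P.f).pl (P.b u, u)))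
    rw [mpd_singleB, mpd_plB]
    exact ppf_hx1 hm0 P u d hu hu1 hd hd'
  hx2 := by
    intro u h i t hh hu hu1 hi hi' ht _
    show P.f (mdCfgB ((mdTB m P.f).pl (P.b u, u) + Pi.single 0 (i - P.b u + t)))
        - P.f (mdCfgB ((mdTB m P.f).pl (P.b u, u) + Pi.single 0 (i - P.b u)))
      ≤ P.f (mdCfgB ((mdTB m P.f).pl (i, u - h) + Pi.single 0 t)) - P.f (mdCfgB ((mdTB m P.f).pl (i, u - h)))
    rw [mpd_singleB, mpd_singleB, mpd_singleB, mpd_plB, mpd_plB]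
    exact ppf_hx2 hm0 P u h i t hh hu hu1 hi hi' ht

theorem mpd_coneC (f : Cfg → ℝ) (ξ : Fin 4 → ℝ) : (mdTC f).Cone ξ ↔ (mdCfgC ξ).Cone 1 := by
  constructor
  · intro h
    have h0 := h (0 : Fin 2)
    have h1 := h (1 : Fin 2)
    simp [mdTC, Fin.sum_univ_four] at h0 h1
    refine ⟨?_, ?_, ?_, ?_⟩ <;> simp only [mdCfgC] <;> linarith
  · rintro ⟨h0, h1, h2, h3⟩ l
    simp only [mdCfgC] at h0 h1 h2 h3
    change Fin 2 at l
    fin_cases l <;> simp [mdTC, Fin.sum_univ_four] <;> linarith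

theorem mpd_domC (f : Cfg → ℝ) (z : Fin 4 → ℝ) : (mdTC f).Dom z ↔ (mdCfgC z).Adm 1 := by
  rw [mpd_adm_iff, MpIn.Dom, mpd_coneC]
  rfl

theorem mpd_plC (f : Cfg → ℝ) (q : ℝ × ℝ) : mdCfgC ((mdTC f).pl q) = plane 1 q.1 q.2 := by
  simp [mdCfgC, MpIn.pl, mdTC, plane]
  ring

/-- the single steps of instance (C): `X`, `Z`, `v` -/
def mdPC : Fin 4 → Fin 5 := ![0, 1, 3, 4]

theorem mpd_singleC (z : Fin 4 → ℝ) (α : Fin 4) (hα : α ≠ 1) (h : ℝ) :
    mdCfgC (z + Pi.single α h) = (mdCfgC z).sh (cfgE (mdPC α)) h := by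
  fin_cases α <;> simp [mdCfgC, Cfg.sh, cfgE, mdPC] at hα ⊢

/-- the grouped step `U` = a `Y`-step and a `W`-step -/
theorem mpd_singleU (z : Fin 4 → ℝ) (h : ℝ) :
    mdCfgC (z + Pi.single 1 h) = ((mdCfgC z).sh (cfgE 1) h).sh (cfgE 2) h := by
  simp [mdCfgC, Cfg.sh, cfgE]

/-- the intermediate corner of a `U`-step is admissible -/
theorem mpd_midU {z : Cfg} {h : ℝ} (hh : 0 ≤ h) (h1 : z.Adm 1) (h2 : ((z.sh (cfgE 1) h).sh (cfgE 2) h).Adm 1) :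
    (z.sh (cfgE 1) h).Adm 1 := by
  simp only [Cfg.Adm, Cfg.sh, cfgE] at h1 h2 ⊢
  obtain ⟨a1, a2, a3, a4, a5, a6⟩ := h1
  obtain ⟨b1, b2, b3, b4, b5, b6⟩ := h2
  refine ⟨?_, ?_, ?_, ?_, ?_, ?_⟩ <;> linarith

theorem mpd_capC (f : Cfg → ℝ) (α : Fin 4) (hα : α ≠ 1) : (mdTC f).d α = cfgCap 1 (mdPC α) := by
  fin_cases α <;> simp [mdTC, cfgCap, mdPC] at hα ⊢
  norm_num

theorem mpd_PC_ne {α β : Fin 4} (h : α ≠ β) : mdPC α ≠ mdPC β := by
  revert h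
  fin_cases α <;> fin_cases β <;> simp [mdPC]

theorem mpd_PC_ne1 {α : Fin 4} (h : α ≠ 1) : mdPC α ≠ 1 ∧ mdPC α ≠ 2 := by
  revert h
  fin_cases α <;> simp [mdPC]

/-- rectangle of a grouped step and a single step -/
theorem mpd_rectU {γ β : ℝ} (P : Prof γ β 1) (l : Fin 5) (hl1 : l ≠ 1) (hl2 : l ≠ 2) (c : Cfg) (h k : ℝ) (hh : 0 ≤ h)
    (hk : 0 ≤ k) (a1 : c.Adm 1) (a2 : ((c.sh (cfgE 1) h).sh (cfgE 2) h).Adm 1) (a3 : (c.sh (cfgE l) k).Adm 1)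
    (a4 : (((c.sh (cfgE 1) h).sh (cfgE 2) h).sh (cfgE l) k).Adm 1) :
    P.f (((c.sh (cfgE 1) h).sh (cfgE 2) h).sh (cfgE l) k) - P.f ((c.sh (cfgE 1) h).sh (cfgE 2) h)
      - P.f (c.sh (cfgE l) k) + P.f c ≤ 0 := by
  have m1 : (c.sh (cfgE 1) h).Adm 1 := mpd_midU hh a1 a2
  have m2 : ((c.sh (cfgE 1) h).sh (cfgE l) k).Adm 1 := by
    rw [ppf_sh_comm]
    refine mpd_midU hh a3 ?_
    rw [ppf_sh_comm c, ppf_sh_comm (c.sh (cfgE 1) h)]
    exact a4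
  have r1 := P.rect 1 l (Ne.symm hl1) c h k hh hk a1 m1 a3 m2
  have r2 := P.rect 2 l (Ne.symm hl2) (c.sh (cfgE 1) h) h k hh hk m1 a2 m2 a4
  linarith

theorem mpd_TokC {γ β : ℝ} (P : Prof γ β 1) : (mdTC P.f).Ok where
  om_pos := by
    intro α β h
    fin_cases α <;> fin_cases β <;> simp [MpIn.om, mdTC] at h ⊢
  lam_e := by
    intro l
    change Fin 2 at l
    fin_cases l <;> simp [mdTC, Fin.sum_univ_four]
  lam_t := by
    intro l
    change Fin 2 at l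
    fin_cases l <;> simp [mdTC, Fin.sum_univ_four] <;> norm_num
  lam_v := by
    intro l
    change Fin 2 at l
    fin_cases l <;> simp [mdTC]
  e_v := by simp [mdTC]
  t_v := by simp [mdTC]
  cap := by
    intro α z h hh h1 h2
    rw [mpd_domC] at h1 h2
    show 0 ≤ P.f (mdCfgC (z + Pi.single α h)) - P.f (mdCfgC z) ∧
      P.f (mdCfgC (z + Pi.single α h)) - P.f (mdCfgC z) ≤ (mdTC P.f).d α * h
    by_cases hα : α = 1
    · subst hα
      rw [mpd_singleU] at h2 ⊢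
      have m1 := mpd_midU hh h1 h2
      have c1 := P.cap 1 (mdCfgC z) h hh h1 m1
      have c2 := P.cap 2 _ h hh m1 h2
      have e : (mdTC P.f).d 1 = 2 := by simp [mdTC]
      simp only [cfgCap] at c1 c2
      rw [e]
      constructor <;> linarith [c1.1, c1.2, c2.1, c2.2]
    · rw [mpd_singleC _ _ hα] at h2 ⊢
      rw [mpd_capC _ _ hα]
      exact P.cap (mdPC α) (mdCfgC z) h hh h1 h2
  rect := by
    intro α β hαβ z h k hh hk h1 h2 h3 h4
    rw [mpd_domC] at h1 h2 h3 h4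
    show P.f (mdCfgC (z + Pi.single α h + Pi.single β k)) - P.f (mdCfgC (z + Pi.single α h))
      - P.f (mdCfgC (z + Pi.single β k)) + P.f (mdCfgC z) ≤ 0
    by_cases hα : α = 1
    · subst hα
      have hβ : β ≠ 1 := Ne.symm hαβ
      rw [mpd_singleC _ _ hβ, mpd_singleU] at h4 ⊢
      rw [mpd_singleC _ _ hβ] at h3 ⊢
      rw [mpd_singleU] at h2
      exact mpd_rectU P _ (mpd_PC_ne1 hβ).1 (mpd_PC_ne1 hβ).2 _ h k hh hk h1 h2 h3 h4
    · by_cases hβ : β = 1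
      · subst hβ
        rw [mpd_singleU, mpd_singleC _ _ hα] at h4 ⊢
        rw [mpd_singleU] at h3 ⊢
        rw [mpd_singleC _ _ hα] at h2
        have e : (((mdCfgC z).sh (cfgE (mdPC α)) h).sh (cfgE 1) k).sh (cfgE 2) k
            = (((mdCfgC z).sh (cfgE 1) k).sh (cfgE 2) k).sh (cfgE (mdPC α)) h := by
          rw [ppf_sh_comm (mdCfgC z), ppf_sh_comm ((mdCfgC z).sh (cfgE 1) k)]
        rw [e] at h4 ⊢
        have := mpd_rectU P _ (mpd_PC_ne1 hα).1 (mpd_PC_ne1 hα).2 _ k h hk hh h1 h3 h2 h4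
        linarith
      · rw [mpd_singleC _ _ hβ, mpd_singleC _ _ hα] at h4 ⊢
        rw [mpd_singleC _ _ hβ] at h3 ⊢
        rw [mpd_singleC _ _ hα] at h2
        exact P.rect (mdPC α) (mdPC β) (mpd_PC_ne hαβ) (mdCfgC z) h k hh hk h1 h2 h3 h4

/-- the trace point of instance (C) -/
theorem mpd_trC {f : Cfg → ℝ} {S : ℝ → ℝ} {i u s : ℝ} {a : Fin 4 → ℝ} {hs : ℕ → ℝ} (hi : 0 < i) (hu : 0 < u)
    (hu1 : u < 1) (hs0 : ∀ l, 0 < hs l) (hs1 : Tendsto hs atTop (𝓝 0)) (hA : (mdTC f).AffAt (i, u) hs a)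
    (ha : ∀ α, 0 ≤ a α ∧ a α ≤ (mdTC f).d α) (hS : HasDerivAt S s u) :
    Tr3 1 f S i u (a 0) (a 1) (a 2) (a 3) s where
  ipos := hi
  upos := hu
  ult := hu1
  cap := by
    have h0 := ha 0
    have h1 := ha 1
    have h2 := ha 2
    simp [mdTC] at h0 h1 h2
    exact ⟨h0.1, h0.2, h1.1, h1.2, h2.1, h2.2⟩
  blow := by
    refine ⟨hs, hs0, hs1, fun R η hη => ?_⟩
    filter_upwards [hA R η hη] with l hl ξ hξ hR hYW
    have hc : (mdCfgC ![ξ.LX, ξ.LY, ξ.LZ, ξ.v]) = ξ := by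
      cases ξ
      simp only at hYW
      simp [mdCfgC, hYW]
    have h1 := hl ![ξ.LX, ξ.LY, ξ.LZ, ξ.v] ((mpd_coneC f _).2 (by rw [hc]; exact hξ)) (by
      obtain ⟨r0, r1, r2, r3, r4⟩ := hR
      intro α
      fin_cases α <;> simpa)
    have e1 : mdCfgC ((mdTC f).pl (i, u) + hs l • ![ξ.LX, ξ.LY, ξ.LZ, ξ.v]) = (plane 1 i u).sh ξ (hs l) := by
      have := mpd_plC f (i, u)
      simp only [mdCfgC, plane, Cfg.mk.injEq] at this
      obtain ⟨p0, p1, p2, p3, p4⟩ := this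
      simp [mdCfgC, Cfg.sh, plane, p0, p1, p3, p4, hYW]
    have e2 : (mdTC f).f ((mdTC f).pl (i, u) + hs l • ![ξ.LX, ξ.LY, ξ.LZ, ξ.v])
        = f ((plane 1 i u).sh ξ (hs l)) := by
      rw [← e1]; rfl
    have e3 : (mdTC f).f ((mdTC f).pl (i, u)) = f (plane 1 i u) := by
      rw [← mpd_plC f (i, u)]; rfl
    rw [e2, e3, Fin.sum_univ_four] at h1
    simp only [Matrix.cons_val] at h1
    exact h1
  dS := hS

theorem mpd_okC {γ β : ℝ} (hγ : 0 < γ) (hβ : 0 < β) (P : Prof γ β 1) (hR : Rate3 1 P.f P.S) : (mdXC P).Ok where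
  T_ok := mpd_TokC P
  m_pos := one_pos
  γ_pos := hγ
  β_pos := hβ
  e_one := by
    intro α h
    fin_cases α <;> simp [mdXC, mdTC] at h ⊢
  jX_ne := by simp [mdXC, mdTC]
  tX := by simp [mdXC, mdTC]
  lamX := by
    intro l
    change Fin 2 at l
    fin_cases l <;> simp [mdXC, mdTC]
  tZ := by simp [mdXC, mdTC]; norm_num
  jZ_lt := by simp [mdXC, mdTC]
  jZ_top := by
    intro β h1 h2
    fin_cases β <;> simp [mdXC, mdTC] at h1 h2 ⊢
  dX := by simp [mdXC, mdTC]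
  dZ := by simp [mdXC, mdTC]
  S_lip := P.S_lip
  obst := by
    intro i u hu hu1 hi htop
    show 2 * i + (1 - γ) * 1 * u + 2 * P.S u - β * u - P.τ ≤ P.f (mdCfgC ((mdTC P.f).pl (i, u)))
    rw [mpd_plC]
    have h1 := P.obst i (i + 1 * u) u hu hu1 hi (by nlinarith) le_rfl (by
      have : i + (1 + 1) * u ≤ 1 + 1 := htop
      linarith)
    have e : (⟨i, i + u, i + 1 * u, i + 1 * u + u, u⟩ : Cfg) = plane 1 i u := by
      simp only [plane, Cfg.mk.injEq, true_and, and_true]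
      ring
    rw [e] at h1
    show _ ≤ P.f (plane 1 i u)
    linarith
  cont := by
    intro u hu hu1
    show P.f (mdCfgC ((mdTC P.f).pl (P.b u, u))) = 2 * P.b u + (1 - γ) * 1 * u + 2 * P.S u - β * u - P.τ
    rw [mpd_plC]
    exact P.cont u hu hu1
  b_nonneg := P.b_nonneg
  b_top := P.b_top
  b_anti := P.b_anti
  b_lip := P.b_lip
  rate := by
    intro i u s a hs hi hu hu1 hs0 hs1 hA ha hS
    have tr := mpd_trC hi hu hu1 hs0 hs1 hA ha hS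
    obtain ⟨r1, r2, r3, r4, r5⟩ := hR _ _ _ _ _ _ _ tr
    refine ⟨r1, r2, ?_⟩
    exact mpd_alg3 s (a 0) (a 1) (a 2) r1 r2 tr.cap r3 r4 r5 ((mdXC P).F a) (by
      intro Q
      simp [MzIn.F, mdXC, mdTC, Fin.sum_univ_four]
      ring)
  hx1 := by
    intro u d hu hu1 hd hd'
    show γ * d ≤ P.f (mdCfgC ((mdTC P.f).pl (P.b u, u) + Pi.single 0 d)) - P.f (mdCfgC ((mdTC P.f).pl (P.b u, u)))
    rw [mpd_singleC _ _ (by decide), mpd_plC]
    exact ppf_hx1 one_pos P u d hu hu1 hd hd'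
  hx2 := by
    intro u h i t hh hu hu1 hi hi' ht _
    show P.f (mdCfgC ((mdTC P.f).pl (P.b u, u) + Pi.single 0 (i - P.b u + t)))
        - P.f (mdCfgC ((mdTC P.f).pl (P.b u, u) + Pi.single 0 (i - P.b u)))
      ≤ P.f (mdCfgC ((mdTC P.f).pl (i, u - h) + Pi.single 0 t)) - P.f (mdCfgC ((mdTC P.f).pl (i, u - h)))
    rw [mpd_singleC _ _ (by decide), mpd_singleC _ _ (by decide), mpd_singleC _ _ (by decide), mpd_plC, mpd_plC]
    exact ppf_hx2 one_pos P u h i t hh hu hu1 hi hi' ht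

/-- **EXIT of block (B)**: the profile package and the pointwise rate transfer are contradictory -/
theorem plane_false {γ β m σ : ℝ} (hγ : 0 < γ) (hβ : 0 < β) (hm : 0 < m) (P : Prof γ β m) (hσ : 0 < σ)
    (h4 : m ≠ 1 → Rate4 m P.f P.S σ) (h3 : m = 1 → Rate3 m P.f P.S) : False := by
  rcases lt_trichotomy m 1 with h | h | h
  · exact mpz_main _ (mpd_okB hγ hβ hm h P hσ (h4 h.ne))
  · subst h
    exact mpz_main _ (mpd_okC hγ hβ P (h3 rfl))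
  · exact mpz_main _ (mpd_okA hγ hβ h P hσ (h4 h.ne'))

theorem md_defs_eqns_cite : True := by
  have := @mdCfgA.eq_1
  have := @mdCfgB.eq_1
  have := @mdCfgC.eq_1
  have := @mdTA.eq_1
  have := @mdTB.eq_1
  have := @mdTC.eq_1
  have := @mdXA.eq_1
  have := @mdXB.eq_1
  have := @mdXC.eq_1
  trivial

end Claimed.Agent.R255
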