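-- KEEP
import Claimed.Agent.R255.Rate.Trace

/-!
# Row 255 (BR paper), Secs 6 and 8: THE PROFILE PACKAGE = interface between the entropy world and pure real analysis      (chief helper216)

* `Crd`, `Crd.e`, `Crd.cap` : the five coordinates `(L_X, L_Y, L_W, L_Z, v)` of a configuration, unit vectors, capacities.
* `PkProf γ m β τ κ f S b` : everything Secs 6.2-6.4 and 8 use about the limiting profiles, in FINITE-DIFFERENCE form (no derivative, no distribution):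
  monotone, capacities, mixed rectangle differences `≤ 0` (all on the closed-sided domain `Cfg.Adm m`), time profile, general obstacle, contact relation, contact curve.
* `Trace4`, `Trace3` : abstract copies of `RtTrace4`, `RtTrace3` (for an arbitrary `f`, `S`).
Producer of `PkProf` : Sec. 6.1 = `Plane/Fin.lean`, `Plane/Lim.lean` (helper216).   Consumer : `pl_closure` in `Plane/Closure.lean` (helper7; Mathlib only).
-/

set_option autoImplicit false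

namespace Claimed.Agent.R255

open Filter Topology

/-- the coordinates of a configuration -/
inductive Crd
  | X
  | Y
  | W
  | Z
  | V
  deriving DecidableEq

/-- unit vectors -/
def Crd.e : Crd → Cfg
  | Crd.X => ⟨1, 0, 0, 0, 0⟩
  | Crd.Y => ⟨0, 1, 0, 0, 0⟩
  | Crd.W => ⟨0, 0, 1, 0, 0⟩
  | Crd.Z => ⟨0, 0, 0, 1, 0⟩
  | Crd.V => ⟨0, 0, 0, 0, 1⟩

/-- capacities -/
def Crd.cap (m : ℝ) : Crd → ℝ
  | Crd.V => 1 + m
  | _ => 1

/-- the profile package -/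
structure PkProf (γ m β τ κ : ℝ) (f : Cfg → ℝ) (S b : ℝ → ℝ) : Prop where
  /-- monotone in every coordinate -/
  mono : ∀ (α : Crd) (z : Cfg) (d : ℝ), 0 ≤ d → z.Adm m → (z.shift α.e d).Adm m → f z ≤ f (z.shift α.e d)
  /-- capacities -/
  cap : ∀ (α : Crd) (z : Cfg) (d : ℝ), 0 ≤ d → z.Adm m → (z.shift α.e d).Adm m →
    f (z.shift α.e d) ≤ f z + α.cap m * d
  /-- mixed rectangle differences are nonpositive -/
  rect : ∀ (α α' : Crd), α ≠ α' → ∀ (z : Cfg) (d d' : ℝ), 0 ≤ d → 0 ≤ d' → z.Adm m →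
    (z.shift α.e d).Adm m → (z.shift α'.e d').Adm m → ((z.shift α.e d).shift α'.e d').Adm m →
    f ((z.shift α.e d).shift α'.e d') + f z ≤ f (z.shift α.e d) + f (z.shift α'.e d')
  /-- the time profile -/
  S_lip : ∀ u a : ℝ, 0 < u → 0 ≤ a → u + a < 1 → S (u + a) - S u ≤ a
  S_grow : ∀ u a : ℝ, 0 < u → 0 ≤ a → u + a < 1 → κ * a ≤ S (u + a) - S u
  /-- the universal bound for all apertures `(B, A)` in the frame of depth `m v` -/
  obst : ∀ B A v : ℝ, 0 ≤ B → B ≤ A → A ≤ B + m * v → 0 < v → v < 1 → A + v ≤ 1 + m →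
    (1 + γ) * B + (1 - γ) * A + 2 * S v - β * v - τ ≤ f ⟨B, B + v, A, A + v, v⟩
  /-- the contact relation -/
  contact : ∀ u : ℝ, 0 < u → u < 1 → f (plane m (b u) u) = 2 * b u + (1 - γ) * m * u + 2 * S u - β * u - τ
  b_nonneg : ∀ u, 0 < u → u < 1 → 0 ≤ b u
  b_top : ∀ u, 0 < u → u < 1 → b u + (1 + m) * u ≤ 1 + m
  b_anti : ∀ r t, 0 < r → r ≤ t → t < 1 → b t ≤ b r
  b_lip : ∀ r t, 0 < r → r ≤ t → t < 1 → b r - b t ≤ (1 + m) * (t - r)

/-- abstract trace point, distinct clocks -/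
structure Trace4 (f : Cfg → ℝ) (S : ℝ → ℝ) (m i u x y w z D s : ℝ) : Prop where
  ipos : 0 < i
  upos : 0 < u
  ult : u < 1
  cap : 0 ≤ x ∧ x ≤ 1 ∧ 0 ≤ y ∧ y ≤ 1 ∧ 0 ≤ w ∧ w ≤ 1 ∧ 0 ≤ z ∧ z ≤ 1
  blow : ∃ h : ℕ → ℝ, (∀ l, 0 < h l) ∧ Tendsto h atTop (𝓝 0) ∧ ∀ R η : ℝ, 0 < η → ∀ᶠ l in atTop,
    ∀ ξ : Cfg, ξ.InCone m → ξ.Bd R →
      |f ((plane m i u).shift ξ (h l)) - f (plane m i u)
        - h l * (x * ξ.LX + y * ξ.LY + w * ξ.LW + z * ξ.LZ + D * ξ.v)| ≤ η * h l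
  dS : HasDerivAt S s u

/-- abstract trace point, tied clocks -/
structure Trace3 (f : Cfg → ℝ) (S : ℝ → ℝ) (m i u x q z D s : ℝ) : Prop where
  ipos : 0 < i
  upos : 0 < u
  ult : u < 1
  cap : 0 ≤ x ∧ x ≤ 1 ∧ 0 ≤ q ∧ q ≤ 2 ∧ 0 ≤ z ∧ z ≤ 1
  blow : ∃ h : ℕ → ℝ, (∀ l, 0 < h l) ∧ Tendsto h atTop (𝓝 0) ∧ ∀ R η : ℝ, 0 < η → ∀ᶠ l in atTop,
    ∀ ξ : Cfg, ξ.InCone m → ξ.Bd R → ξ.LY = ξ.LW →
      |f ((plane m i u).shift ξ (h l)) - f (plane m i u)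
        - h l * (x * ξ.LX + q * ξ.LY + z * ξ.LZ + D * ξ.v)| ≤ η * h l
  dS : HasDerivAt S s u

theorem Trace4.toRt {γ m : ℝ} {M : Matched γ m} {i u x y w z D s : ℝ}
    (h : Trace4 M.f M.Sp m i u x y w z D s) : RtTrace4 M i u x y w z D s :=
  ⟨h.ipos, h.upos, h.ult, h.cap, h.blow, h.dS⟩

theorem Trace3.toRt {γ m : ℝ} {M : Matched γ m} {i u x q z D s : ℝ}
    (h : Trace3 M.f M.Sp m i u x q z D s) : RtTrace3 M i u x q z D s :=
  ⟨h.ipos, h.upos, h.ult, h.cap, h.blow, h.dS⟩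

end Claimed.Agent.R255
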