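-- KEEP
import Claimed.Agent.R255.Plane.Pkg
import Claimed.Agent.R255.Plane.Inst

/-!
# Row 255 (BR paper), Secs 6.2-6.4 and 8: THE ABSTRACT CLOSURE THEOREM      (contract by helper216; glue helper142)

PURE REAL ANALYSIS (Mathlib only): the profile package + the pointwise rate transfer are contradictory if `γ < β`.
PROVED GLUE: dictionary `PkProf` (Plane/Pkg.lean, entropy side, helper216) `→ Prof` (Plane/Defs.lean, analysis side, helper7), then `plane_false` (Plane/Inst.lean).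
-/

set_option autoImplicit false

namespace Claimed.Agent.R255

/-- the coordinate with number `k` -/
def pcCrd : Fin 5 → Crd
  | 0 => Crd.X
  | 1 => Crd.Y
  | 2 => Crd.W
  | 3 => Crd.Z
  | 4 => Crd.V

theorem pc_crd_e (k : Fin 5) : (pcCrd k).e = cfgE k := by
  fin_cases k <;> rfl

theorem pc_crd_cap (m : ℝ) (k : Fin 5) : (pcCrd k).cap m = cfgCap m k := by
  fin_cases k <;> rfl

theorem pc_crd_inj {k l : Fin 5} (h : k ≠ l) : pcCrd k ≠ pcCrd l := by
  intro h'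
  apply h
  fin_cases k <;> fin_cases l <;> first | rfl | (exfalso; revert h'; simp [pcCrd])

theorem pc_sh_eq (z ξ : Cfg) (h : ℝ) : z.sh ξ h = z.shift ξ h := rfl

/-- the dictionary -/
def PkProf.toProf {γ m β τ κ : ℝ} {f : Cfg → ℝ} {S b : ℝ → ℝ} (hκ : 0 ≤ κ) (P : PkProf γ m β τ κ f S b) :
    Prof γ β m where
  f := f
  S := S
  b := b
  τ := τ
  cap := by
    intro k z d hd hz hz'
    rw [pc_sh_eq, ← pc_crd_e] at hz' ⊢
    have h1 := P.mono (pcCrd k) z d hd hz hz'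
    have h2 := P.cap (pcCrd k) z d hd hz hz'
    rw [pc_crd_cap] at h2
    constructor <;> linarith
  rect := by
    intro k l hkl z d d' hd hd' h00 h10 h01 h11
    rw [pc_sh_eq, ← pc_crd_e] at h10 h01
    rw [pc_sh_eq, pc_sh_eq, ← pc_crd_e, ← pc_crd_e] at h11
    have := P.rect (pcCrd k) (pcCrd l) (pc_crd_inj hkl) z d d' hd hd' h00 h10 h01 h11
    rw [pc_sh_eq, pc_sh_eq, pc_sh_eq, ← pc_crd_e, ← pc_crd_e]
    linarith
  S_lip := by
    intro r t hr hrt ht
    have h1 := P.S_lip r (t - r) hr (by linarith) (by linarith)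
    have h2 := P.S_grow r (t - r) hr (by linarith) (by linarith)
    have h3 : 0 ≤ κ * (t - r) := mul_nonneg hκ (by linarith)
    rw [show r + (t - r) = t by ring] at h1 h2
    rw [abs_le]
    constructor <;> linarith
  obst := fun B A v hv hv1 hB hBA hA hL => P.obst B A v hB hBA hA hv hv1 hL
  cont := P.contact
  b_nonneg := P.b_nonneg
  b_top := P.b_top
  b_anti := P.b_anti
  b_lip := P.b_lip

theorem pl_closure (γ m β τ κ σ : ℝ) (f : Cfg → ℝ) (S b : ℝ → ℝ) (h0 : 0 < γ) (h1 : γ < 1) (hm : 0 < m)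
    (hβ : γ < β) (hκ : 0 < κ) (hσ : 0 < σ) (P : PkProf γ m β τ κ f S b)
    (rt4 : m ≠ 1 → ∀ i u x y w z D s : ℝ, Trace4 f S m i u x y w z D s →
      0 < s ∧ s ≤ 1 ∧ (0 < x → min 1 (x + s) ≤ y) ∧ (0 < w → min 1 (w + s) ≤ z) ∧
        (0 < x → min 1 (x + σ) ≤ w) ∧ (0 < y → min 1 (y + σ) ≤ z))
    (rt3 : m = 1 → ∀ i u x q z D s : ℝ, Trace3 f S m i u x q z D s →
      0 < s ∧ s ≤ 1 ∧ (0 < x → s ≤ q) ∧ (0 < x → z < 1 → x + s ≤ z) ∧ (z < 1 → q ≤ 2 - s)) : False :=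
  plane_false h0 (h0.trans hβ) hm (P.toProf hκ.le) hσ
    (fun hm1 i u x y w z D s tp => rt4 hm1 i u x y w z D s ⟨tp.ipos, tp.upos, tp.ult, tp.cap, tp.blow, tp.dS⟩)
    (fun hm1 i u x q z D s tp => rt3 hm1 i u x q z D s ⟨tp.ipos, tp.upos, tp.ult, tp.cap, tp.blow, tp.dS⟩)

theorem pc_defs_eqns_cite : True := by
  have := @pcCrd.eq_1
  have := @PkProf.toProf.eq_1
  trivial

end Claimed.Agent.R255
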