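-- KEEP
import Claimed.Agent.R255.Plane.Pkg
import Claimed.Agent.R255.Cl.Dich.Canon
import Claimed.Agent.R255.Cl.Dich.Iso
import Claimed.Agent.R255.Rate.ExtGrid

/-!
# Row 255 (BR paper), Sec. 6.1, FINITE LEVEL: the canonical observations `O(𝐋, v)` on one system      (chief helper216; prefix `pp_`)

One finite system `S` with a slope observation `R : S.Ω → ℝ`, one precision `ε`.  `S.mO m ε z R` (`Cl/Dich/Canon.lean`) is the observation (6.1), `S.lO ε v₁ v₂ R` the label-only observation.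
With `C̄_v = trep ε v c`, `R̄_v = trep ε (m v) R`:  `X = V₁`, `Y_v = A₁ + C̄_v X`, `W_v = V₂ - R̄_v X`, `Z_v = A₂ + C̄_v V₂ - R̄_v Y_v`.
FRAME CHANGE (6.5), `v ≤ v'`, `a = C̄_{v'} - C̄_v ∈ [0, ε^v]`, `r = R̄_v - R̄_{v'} ∈ [-ε^(m v), 0]`:
  `Y_{v'} = Y_v + a X`,  `W_{v'} = W_v + r X`,  `Z_{v'} = Z_v + a W_v + r Y_v + a r X`.
Cells: `tcell ε d` has length `2^(-tlev ε d) ∈ (ε^d / 2, ε^d]` for `d ≥ 0`, and `tcell ε d = tcell ε 0` for `d ≤ 0`; the positive parts of admissible depths are admissible.  No bound on the data is needed: only widths matter.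
PACKAGES: PP-DATA (`pp_mi_data`, `pp_entC_data_le`, `pp_rect_data`), PP-FRAME (`pp_frame_down`, `pp_frame_up`, `pp_lab_le`), PP-V (`pp_mi_v_ge`, `pp_mi_v_le`, `pp_rect_v`; glue), PP-LABEL (`pp_label`), PP-CARD (`pp_card`).
STATEMENTS ARE FROZEN (ask helper216); provers replace the `sorry`s in place.
-/

set_option autoImplicit false

namespace Claimed.Agent.R255

open Classical

/-- the label-only observation on a system with a slope observation -/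
noncomputable def CSys.lO (S : CSys) (ε v₁ v₂ : ℝ) (R : S.Ω → ℝ) : S.Ω → ℤ × ℤ × ℤ × ℤ × ℤ × ℤ :=
  fun ω => lObs ε v₁ v₂ (S.c ω) (R ω)

/-! ## PP-DATA : refinement of one datum at fixed labels -/

/-- the depth of a coordinate -/
def Crd.dep (α : Crd) (z : Cfg) : ℝ :=
  match α with
  | Crd.X => z.LX
  | Crd.Y => z.LY
  | Crd.W => z.LW
  | Crd.Z => z.LZ
  | Crd.V => z.v

/-- the datum (a real number) of a coordinate, in the frame of the labels of depth `v` -/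
noncomputable def ppDat (α : Crd) (m ε v : ℝ) (V A : ℝ × ℝ) (c R : ℝ) : ℝ :=
  match α with
  | Crd.X => V.1
  | Crd.Y => A.1 + trep ε v c * V.1
  | Crd.W => V.2 - trep ε (m * v) R * V.1
  | Crd.Z => A.2 + trep ε v c * V.2 - trep ε (m * v) R * (A.1 + trep ε v c * V.1)
  | Crd.V => 0

/-- replace one datum of an observation -/
def ppSet (α : Crd) (o : ℤ × ℤ × ℤ × ℤ × ℤ × ℤ) (j : ℤ) : ℤ × ℤ × ℤ × ℤ × ℤ × ℤ :=
  match α with
  | Crd.X => (o.1, o.2.1, j, o.2.2.2.1, o.2.2.2.2.1, o.2.2.2.2.2)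
  | Crd.Y => (o.1, o.2.1, o.2.2.1, j, o.2.2.2.2.1, o.2.2.2.2.2)
  | Crd.W => (o.1, o.2.1, o.2.2.1, o.2.2.2.1, j, o.2.2.2.2.2)
  | Crd.Z => (o.1, o.2.1, o.2.2.1, o.2.2.2.1, o.2.2.2.2.1, j)
  | Crd.V => o

/-- read one datum of an observation -/
def ppGet (α : Crd) (o : ℤ × ℤ × ℤ × ℤ × ℤ × ℤ) : ℤ :=
  match α with
  | Crd.X => o.2.2.1
  | Crd.Y => o.2.2.2.1
  | Crd.W => o.2.2.2.2.1
  | Crd.Z => o.2.2.2.2.2
  | Crd.V => 0

theorem pp_dep_shift (α α' : Crd) (z : Cfg) (d : ℝ) (h : α ≠ α') : α'.dep (z.shift α.e d) = α'.dep z := by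
  cases α <;> cases α' <;> simp_all [Crd.dep, Cfg.shift, Crd.e]

theorem pp_set_get (α : Crd) (o : ℤ × ℤ × ℤ × ℤ × ℤ × ℤ) : ppSet α o (ppGet α o) = o := by
  cases α <;> rfl

theorem pp_get_set (α : Crd) (hα : α ≠ Crd.V) (o : ℤ × ℤ × ℤ × ℤ × ℤ × ℤ) (j : ℤ) : ppGet α (ppSet α o j) = j := by
  cases α <;> first | rfl | exact absurd rfl hα

theorem pp_set_set (α : Crd) (o : ℤ × ℤ × ℤ × ℤ × ℤ × ℤ) (j j' : ℤ) : ppSet α (ppSet α o j) j' = ppSet α o j' := by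
  cases α <;> rfl

theorem pp_mObs_shift (m ε : ℝ) (z : Cfg) (α : Crd) (hα : α ≠ Crd.V) (d : ℝ) (V A : ℝ × ℝ) (c R : ℝ) :
    mObs m ε (z.shift α.e d) V A c R =
      ppSet α (mObs m ε z V A c R) (tcell ε (α.dep z + d) (ppDat α m ε z.v V A c R)) := by
  cases α <;> first | exact absurd rfl hα | simp [mObs, ppSet, ppDat, Crd.dep, Cfg.shift, Crd.e]

theorem pp_get_mObs (m ε : ℝ) (z : Cfg) (α : Crd) (hα : α ≠ Crd.V) (V A : ℝ × ℝ) (c R : ℝ) :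
    ppGet α (mObs m ε z V A c R) = tcell ε (α.dep z) (ppDat α m ε z.v V A c R) := by
  cases α <;> first | exact absurd rfl hα | rfl

/-- the coarser observation is a function of the finer one -/
theorem pp_fine_coarse (S : CSys) (m ε : ℝ) (h0 : 0 < ε) (h1 : ε < 1) (R : S.Ω → ℝ) (z : Cfg) (α : Crd)
    (hα : α ≠ Crd.V) (d : ℝ) (hd : 0 ≤ d) (ω ω' : S.Ω)
    (h : S.mO m ε (z.shift α.e d) R ω = S.mO m ε (z.shift α.e d) R ω') : S.mO m ε z R ω = S.mO m ε z R ω' := by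
  unfold CSys.mO at h ⊢
  rw [pp_mObs_shift m ε z α hα, pp_mObs_shift m ε z α hα] at h
  have g := congrArg (ppGet α) h
  rw [pp_get_set α hα, pp_get_set α hα] at g
  have g' := rx_cell_nest h0 h1 (le_add_of_nonneg_right hd) g
  have s := congrArg (fun o => ppSet α o (tcell ε (α.dep z) (ppDat α m ε z.v (S.V (S.T ω)) (S.A (S.T ω)) (S.c ω) (R ω)))) h
  simp only [pp_set_set] at s
  rw [← pp_get_mObs m ε z α hα, pp_set_get] at s
  rw [s, pp_get_mObs m ε z α hα, g', ← pp_get_mObs m ε z α hα, pp_set_get]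

/-- every observation with the same label depth is a function of the particle and of the labels -/
theorem pp_of_T (S : CSys) (m ε : ℝ) (R : S.Ω → ℝ) (z z' : Cfg) (hv : z'.v = z.v) (ω ω' : S.Ω)
    (hT : S.T ω = S.T ω') (h : S.mO m ε z R ω = S.mO m ε z R ω') : S.mO m ε z' R ω = S.mO m ε z' R ω' := by
  unfold CSys.mO mObs at h ⊢
  simp only [Prod.mk.injEq] at h
  obtain ⟨h1, h2, -⟩ := h
  have t1 : trep ε z.v (S.c ω) = trep ε z.v (S.c ω') := by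
    unfold trep
    rw [h1]
  have t2 : trep ε (m * z.v) (R ω) = trep ε (m * z.v) (R ω') := by
    unfold trep
    rw [h2]
  rw [hv, hT, h1, h2, t1, t2]

theorem pp_data_eqns_cite : True := by
  have := @Crd.dep.eq_1
  have := @ppDat.eq_1
  have := @ppSet.eq_1
  have := @ppGet.eq_1
  trivial

/-- the number of children of a cell -/
theorem pp_children_log {ε : ℝ} (h0 : 0 < ε) (h1 : ε < 1) (L d : ℝ) (hd : 0 ≤ d) :
    Real.log (((2 : ℝ) ^ (tlev ε (L + d) - tlev ε L))) ≤ d * lg ε + Real.log 2 := by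
  have hl := rx_logb_pos h0 h1
  have h2 : tlev ε (L + d) - tlev ε L ≤ ⌈d * Real.logb 2 (1 / ε)⌉₊ := by
    unfold tlev
    rw [add_mul]
    have := Nat.ceil_add_le (L * Real.logb 2 (1 / ε)) (d * Real.logb 2 (1 / ε))
    omega
  have h3 : ((tlev ε (L + d) - tlev ε L : ℕ) : ℝ) ≤ d * Real.logb 2 (1 / ε) + 1 :=
    le_trans (by exact_mod_cast h2) (Nat.ceil_lt_add_one (mul_nonneg hd hl.le)).le
  have hl2 : 0 < Real.log 2 := Real.log_pos (by norm_num)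
  have e : Real.logb 2 (1 / ε) * Real.log 2 = lg ε := by
    unfold lg Real.logb
    field_simp
  rw [Real.log_pow]
  calc ((tlev ε (L + d) - tlev ε L : ℕ) : ℝ) * Real.log 2 ≤ (d * Real.logb 2 (1 / ε) + 1) * Real.log 2 :=
        mul_le_mul_of_nonneg_right h3 hl2.le
    _ = d * (Real.logb 2 (1 / ε) * Real.log 2) + Real.log 2 := by ring
    _ = d * lg ε + Real.log 2 := by rw [e]

/-- the increase of particle information is EXACTLY the conditional entropy (the finer observation is a function of the particle and of the labels, the coarser one is a function of the finer one) -/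
theorem pp_mi_data (S : CSys) (m ε : ℝ) (h0 : 0 < ε) (h1 : ε < 1) (R : S.Ω → ℝ) (z : Cfg) (α : Crd)
    (hα : α ≠ Crd.V) (d : ℝ) (hd : 0 ≤ d) :
    S.P.mi S.T (S.mO m ε (z.shift α.e d) R) - S.P.mi S.T (S.mO m ε z R)
      = S.P.entC (S.mO m ε (z.shift α.e d) R) (S.mO m ε z R) := by
  have F1 := pp_fine_coarse S m ε h0 h1 R z α hα d hd
  have F2 := pp_of_T S m ε R z (z.shift α.e d) (pp_dep_shift α Crd.V z d hα)
  unfold FLaw.mi FLaw.entC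
  have e1 : S.P.ent (FLaw.pair S.T (S.mO m ε (z.shift α.e d) R)) = S.P.ent (FLaw.pair S.T (S.mO m ε z R)) := by
    refine ent_congr_ker _ _ _ fun ω ω' _ _ => ?_
    simp only [FLaw.pair, Prod.mk.injEq]
    exact ⟨fun h => ⟨h.1, F1 ω ω' h.2⟩, fun h => ⟨h.1, F2 ω ω' h.1 h.2⟩⟩
  have e2 : S.P.ent (FLaw.pair (S.mO m ε (z.shift α.e d) R) (S.mO m ε z R)) = S.P.ent (S.mO m ε (z.shift α.e d) R) :=
    ent_pair_of_ker _ _ _ fun ω ω' _ _ h => F1 ω ω' h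
  rw [e1, e2]
  ring

/-- scalar box counting -/
theorem pp_entC_data_le (S : CSys) (m ε : ℝ) (h0 : 0 < ε) (h1 : ε < 1) (R : S.Ω → ℝ) (z : Cfg) (α : Crd)
    (hα : α ≠ Crd.V) (d : ℝ) (hd : 0 ≤ d) :
    S.P.entC (S.mO m ε (z.shift α.e d) R) (S.mO m ε z R) ≤ d * lg ε + Real.log 2 := by
  refine le_trans (ent_entC_le_log_nval S.P _ _ (N := (2 : ℝ) ^ (tlev ε (α.dep z + d) - tlev ε (α.dep z))) ?_)
    (pp_children_log h0 h1 _ d hd)
  intro ω₀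
  obtain ⟨K, hK⟩ : ∃ K : ℤ, K = 2 ^ (tlev ε (α.dep z + d) - tlev ε (α.dep z)) := ⟨_, rfl⟩
  have hK0 : 0 < K := by
    rw [hK]
    positivity
  obtain ⟨k, hk⟩ : ∃ k : ℤ, k = ppGet α (S.mO m ε z R ω₀) := ⟨_, rfl⟩
  refine ⟨(Finset.Ico (k * K) ((k + 1) * K)).image (ppSet α (S.mO m ε z R ω₀)), ?_, ?_⟩
  · refine le_trans (Nat.cast_le.2 Finset.card_image_le) (le_of_eq ?_)
    rw [Int.card_Ico]
    have e : (k + 1) * K - k * K = K := by ring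
    rw [e, hK]
    have e2 : ((2 : ℤ) ^ (tlev ε (α.dep z + d) - tlev ε (α.dep z))).toNat
        = 2 ^ (tlev ε (α.dep z + d) - tlev ε (α.dep z)) := by
      have : ((2 : ℤ) ^ (tlev ε (α.dep z + d) - tlev ε (α.dep z)))
          = ((2 ^ (tlev ε (α.dep z + d) - tlev ε (α.dep z)) : ℕ) : ℤ) := by push_cast; rfl
      rw [this, Int.toNat_natCast]
    rw [e2]
    push_cast
    rfl
  · intro ω _ _ hω
    refine Finset.mem_image.2 ⟨tcell ε (α.dep z + d) (ppDat α m ε z.v (S.V (S.T ω)) (S.A (S.T ω)) (S.c ω) (R ω)), ?_, ?_⟩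
    · have e1 : k = tcell ε (α.dep z) (ppDat α m ε z.v (S.V (S.T ω)) (S.A (S.T ω)) (S.c ω) (R ω)) := by
        rw [hk, ← hω]
        exact pp_get_mObs m ε z α hα _ _ _ _
      have e2 : k = tcell ε (α.dep z + d) (ppDat α m ε z.v (S.V (S.T ω)) (S.A (S.T ω)) (S.c ω) (R ω)) / K := by
        rw [e1, hK]
        unfold tcell
        exact rx_floor_div _ (rx_tlev_mono h0 h1 (le_add_of_nonneg_right hd))
      rw [Finset.mem_Ico, e2]
      exact ⟨Int.ediv_mul_le _ hK0.ne', Int.lt_ediv_add_one_mul_self _ hK0⟩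
    · rw [← hω]
      exact (pp_mObs_shift m ε z α hα d _ _ _ _).symm

/-- a further refinement of another datum can only decrease the conditional entropy -/
theorem pp_rect_data (S : CSys) (m ε : ℝ) (h0 : 0 < ε) (h1 : ε < 1) (R : S.Ω → ℝ) (z : Cfg) (α α' : Crd)
    (hα : α ≠ Crd.V) (hα' : α' ≠ Crd.V) (hne : α ≠ α') (d d' : ℝ) (hd : 0 ≤ d) (hd' : 0 ≤ d') :
    S.P.entC (S.mO m ε ((z.shift α.e d).shift α'.e d') R) (S.mO m ε (z.shift α'.e d') R)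
      ≤ S.P.entC (S.mO m ε (z.shift α.e d) R) (S.mO m ε z R) := by
  have hfun : ∀ ω, S.mO m ε ((z.shift α.e d).shift α'.e d') R ω =
      ppSet α' (S.mO m ε (z.shift α.e d) R ω) (ppGet α' (S.mO m ε (z.shift α'.e d') R ω)) := by
    intro ω
    unfold CSys.mO
    rw [pp_mObs_shift m ε (z.shift α.e d) α' hα', pp_mObs_shift m ε z α' hα', pp_get_set α' hα',
      pp_dep_shift α α' z d hne]
    have hv : (z.shift α.e d).v = z.v := pp_dep_shift α Crd.V z d hα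
    rw [hv]
  refine le_trans (ent_entC_mono S.P (S.mO m ε (z.shift α.e d) R) _ _ fun ω ω' _ _ h1' h2' => ?_)
    (ent_entC_anti S.P _ _ _ fun ω ω' _ _ h => pp_fine_coarse S m ε h0 h1 R z α' hα' d' hd' ω ω' h)
  rw [hfun, hfun, h1', h2']

/-! ## PP-FRAME : advancing the label at fixed admissible depths -/

/-! ### helper lemmas of PP-FRAME (helper243) -/

theorem pp_lev_neg (ε d : ℝ) (h0 : 0 < ε) (h1 : ε < 1) : tlev ε d = tlev ε (max d 0) := by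
  rcases le_total 0 d with h | h
  · rw [max_eq_left h]
  · rw [max_eq_right h, ig_lev_zero]
    unfold tlev
    exact Nat.ceil_eq_zero.2 (mul_nonpos_of_nonpos_of_nonneg h (ig_logb_pos ε h0 h1).le)

/-- widths: `msh u · msh d ≤ 2 msh d'` if `d' ≤ d + u` (all signs of `d`, `d'`) -/
theorem pp_msh_mul_le (ε u d d' : ℝ) (h0 : 0 < ε) (h1 : ε < 1) (hu : 0 ≤ u) (h : d' ≤ d + u) :
    msh ε u * msh ε d ≤ 2 * msh ε d' := by
  have e1 : msh ε d = msh ε (max d 0) := by unfold msh; rw [pp_lev_neg ε d h0 h1]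
  have e2 : msh ε d' = msh ε (max d' 0) := by unfold msh; rw [pp_lev_neg ε d' h0 h1]
  rw [e1, e2]
  have a1 := ig_msh_le ε u h0
  have a2 := ig_msh_le ε (max d 0) h0
  have a3 := ig_le_msh ε (max d' 0) h0 h1 (le_max_right _ _)
  have a4 : ε ^ u * ε ^ (max d 0) ≤ ε ^ (max d' 0) := by
    rw [← Real.rpow_add h0]
    refine Real.rpow_le_rpow_of_exponent_ge h0 h1.le (max_le ?_ ?_)
    · linarith [le_max_left d 0]
    · linarith [le_max_right d 0]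
  calc msh ε u * msh ε (max d 0) ≤ ε ^ u * ε ^ (max d 0) :=
        mul_le_mul a1 a2 (ig_msh_pos _ _).le (Real.rpow_pos_of_pos h0 _).le
    _ ≤ 2 * msh ε (max d' 0) := a4.trans a3

theorem pp_cell_dist (ε d x y : ℝ) (h : tcell ε d x = tcell ε d y) : |x - y| ≤ msh ε d := by
  have a1 := ig_cell_le ε d x
  have a2 := ig_lt_cell ε d x
  have b1 := ig_cell_le ε d y
  have b2 := ig_lt_cell ε d y
  rw [h] at a1 a2
  rw [abs_le]
  constructor <;> linarith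

theorem pp_trep_congr (ε d x y : ℝ) (h : tcell ε d x = tcell ε d y) : trep ε d x = trep ε d y := by
  unfold trep
  rw [h]

theorem pp_cell_nest (ε u u' x y : ℝ) (h0 : 0 < ε) (h1 : ε < 1) (hu : u ≤ u')
    (h : tcell ε u' x = tcell ε u' y) : tcell ε u x = tcell ε u y := by
  rw [ig_cell_nest ε u u' x h0 h1 hu, ig_cell_nest ε u u' y h0 h1 hu, h]

/-- the frame change (6.5) on two samples in common source cells -/
theorem pp_frame_core (a r X Y W Z X₀ Y₀ W₀ Z₀ wX wY wW wZ : ℝ) (hX : |X - X₀| ≤ wX) (hY : |Y - Y₀| ≤ wY)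
    (hW : |W - W₀| ≤ wW) (hZ : |Z - Z₀| ≤ wZ) (h1 : |a| * wX ≤ 2 * wY) (h2 : |r| * wX ≤ 2 * wW)
    (h3 : |a| * wW ≤ 2 * wZ) (h4 : |r| * wY ≤ 2 * wZ) (h5 : |a| * (|r| * wX) ≤ 4 * wZ) :
    |(Y + a * X) - (Y₀ + a * X₀)| ≤ 3 * wY ∧ |(W + r * X) - (W₀ + r * X₀)| ≤ 3 * wW ∧
      |(Z + a * W + r * Y + a * r * X) - (Z₀ + a * W₀ + r * Y₀ + a * r * X₀)| ≤ 9 * wZ := by
  have aX : |a * (X - X₀)| ≤ 2 * wY := by
    rw [abs_mul]; exact (mul_le_mul_of_nonneg_left hX (abs_nonneg a)).trans h1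
  have rX : |r * (X - X₀)| ≤ 2 * wW := by
    rw [abs_mul]; exact (mul_le_mul_of_nonneg_left hX (abs_nonneg r)).trans h2
  have aW : |a * (W - W₀)| ≤ 2 * wZ := by
    rw [abs_mul]; exact (mul_le_mul_of_nonneg_left hW (abs_nonneg a)).trans h3
  have rY : |r * (Y - Y₀)| ≤ 2 * wZ := by
    rw [abs_mul]; exact (mul_le_mul_of_nonneg_left hY (abs_nonneg r)).trans h4
  have arX : |a * (r * (X - X₀))| ≤ 4 * wZ := by
    rw [abs_mul, abs_mul]
    exact (mul_le_mul_of_nonneg_left (mul_le_mul_of_nonneg_left hX (abs_nonneg r)) (abs_nonneg a)).trans h5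
  rw [abs_le] at hY hW hZ aX rX aW rY arX
  refine ⟨?_, ?_, ?_⟩
  · rw [abs_le]; constructor <;> nlinarith [hY.1, hY.2, aX.1, aX.2]
  · rw [abs_le]; constructor <;> nlinarith [hW.1, hW.2, rX.1, rX.2]
  · rw [abs_le]; constructor <;> nlinarith [hZ.1, hZ.2, aW.1, aW.2, rY.1, rY.2, arX.1, arX.2]

/-- two samples with common labels at the depths `v₁`, `v₂` and common data cells in the frame `v₁`: their data in the frame `v₂` are close -/
theorem pp_frame_pt (m ε : ℝ) (hm : 0 ≤ m) (h0 : 0 < ε) (h1 : ε < 1) (z : Cfg) (hz : z.Adm m) (v₁ v₂ : ℝ)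
    (V A V₀ A₀ : ℝ × ℝ) (c R c₀ R₀ : ℝ)
    (ha : |trep ε v₂ c - trep ε v₁ c| ≤ msh ε z.v)
    (hr : |trep ε (m * v₁) R - trep ε (m * v₂) R| ≤ msh ε (m * z.v))
    (hc1 : trep ε v₁ c = trep ε v₁ c₀) (hc2 : trep ε v₂ c = trep ε v₂ c₀)
    (hR1 : trep ε (m * v₁) R = trep ε (m * v₁) R₀) (hR2 : trep ε (m * v₂) R = trep ε (m * v₂) R₀)
    (hX : tcell ε z.LX V.1 = tcell ε z.LX V₀.1)
    (hY : tcell ε z.LY (A.1 + trep ε v₁ c * V.1) = tcell ε z.LY (A₀.1 + trep ε v₁ c₀ * V₀.1))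
    (hW : tcell ε z.LW (V.2 - trep ε (m * v₁) R * V.1) = tcell ε z.LW (V₀.2 - trep ε (m * v₁) R₀ * V₀.1))
    (hZ : tcell ε z.LZ (A.2 + trep ε v₁ c * V.2 - trep ε (m * v₁) R * (A.1 + trep ε v₁ c * V.1)) =
      tcell ε z.LZ (A₀.2 + trep ε v₁ c₀ * V₀.2 - trep ε (m * v₁) R₀ * (A₀.1 + trep ε v₁ c₀ * V₀.1))) :
    |(A.1 + trep ε v₂ c * V.1) - (A₀.1 + trep ε v₂ c₀ * V₀.1)| ≤ 3 * msh ε z.LY ∧
    |(V.2 - trep ε (m * v₂) R * V.1) - (V₀.2 - trep ε (m * v₂) R₀ * V₀.1)| ≤ 3 * msh ε z.LW ∧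
    |(A.2 + trep ε v₂ c * V.2 - trep ε (m * v₂) R * (A.1 + trep ε v₂ c * V.1)) -
      (A₀.2 + trep ε v₂ c₀ * V₀.2 - trep ε (m * v₂) R₀ * (A₀.1 + trep ε v₂ c₀ * V₀.1))| ≤ 9 * msh ε z.LZ := by
  obtain ⟨z1, z2, z3, z4, z5, -⟩ := hz
  have hmv : 0 ≤ m * z.v := mul_nonneg hm z5.le
  have dX := pp_cell_dist _ _ _ _ hX
  have dY := pp_cell_dist _ _ _ _ hY
  have dW := pp_cell_dist _ _ _ _ hW
  have dZ := pp_cell_dist _ _ _ _ hZ
  have pX := (ig_msh_pos ε z.LX).le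
  have pY := (ig_msh_pos ε z.LY).le
  have pW := (ig_msh_pos ε z.LW).le
  have k1 : |trep ε v₂ c - trep ε v₁ c| * msh ε z.LX ≤ 2 * msh ε z.LY :=
    (mul_le_mul_of_nonneg_right ha pX).trans (pp_msh_mul_le ε z.v z.LX z.LY h0 h1 z5.le (by linarith))
  have k2 : |trep ε (m * v₁) R - trep ε (m * v₂) R| * msh ε z.LX ≤ 2 * msh ε z.LW :=
    (mul_le_mul_of_nonneg_right hr pX).trans (pp_msh_mul_le ε (m * z.v) z.LX z.LW h0 h1 hmv (by linarith))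
  have k3 : |trep ε v₂ c - trep ε v₁ c| * msh ε z.LW ≤ 2 * msh ε z.LZ :=
    (mul_le_mul_of_nonneg_right ha pW).trans (pp_msh_mul_le ε z.v z.LW z.LZ h0 h1 z5.le (by linarith))
  have k4 : |trep ε (m * v₁) R - trep ε (m * v₂) R| * msh ε z.LY ≤ 2 * msh ε z.LZ :=
    (mul_le_mul_of_nonneg_right hr pY).trans (pp_msh_mul_le ε (m * z.v) z.LY z.LZ h0 h1 hmv (by linarith))
  have k5 : |trep ε v₂ c - trep ε v₁ c| * (|trep ε (m * v₁) R - trep ε (m * v₂) R| * msh ε z.LX)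
      ≤ 4 * msh ε z.LZ := by
    calc |trep ε v₂ c - trep ε v₁ c| * (|trep ε (m * v₁) R - trep ε (m * v₂) R| * msh ε z.LX)
        ≤ |trep ε v₂ c - trep ε v₁ c| * (2 * msh ε z.LW) := mul_le_mul_of_nonneg_left k2 (abs_nonneg _)
      _ = 2 * (|trep ε v₂ c - trep ε v₁ c| * msh ε z.LW) := by ring
      _ ≤ 4 * msh ε z.LZ := by linarith
  have core := pp_frame_core (trep ε v₂ c - trep ε v₁ c) (trep ε (m * v₁) R - trep ε (m * v₂) R)
    V.1 (A.1 + trep ε v₁ c * V.1) (V.2 - trep ε (m * v₁) R * V.1)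
    (A.2 + trep ε v₁ c * V.2 - trep ε (m * v₁) R * (A.1 + trep ε v₁ c * V.1))
    V₀.1 (A₀.1 + trep ε v₁ c₀ * V₀.1) (V₀.2 - trep ε (m * v₁) R₀ * V₀.1)
    (A₀.2 + trep ε v₁ c₀ * V₀.2 - trep ε (m * v₁) R₀ * (A₀.1 + trep ε v₁ c₀ * V₀.1))
    _ _ _ _ dX dY dW dZ k1 k2 k3 k4 k5
  obtain ⟨g1, g2, g3⟩ := core
  rw [← hc1] at g1 g3
  rw [← hR1] at g2 g3
  rw [← hc2, ← hR2]
  refine ⟨?_, ?_, ?_⟩
  · refine le_of_eq_of_le (congrArg _ ?_) g1; ring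
  · refine le_of_eq_of_le (congrArg _ ?_) g2; ring
  · refine le_of_eq_of_le (congrArg _ ?_) g3; ring

/-- bounded ambiguity of the frame change, generic conditioning -/
theorem pp_frame_nval (m ε : ℝ) (hm : 0 ≤ m) (h0 : 0 < ε) (h1 : ε < 1) (S : CSys) (R : S.Ω → ℝ) (z : Cfg)
    (hz : z.Adm m) (v₁ v₂ : ℝ) {β : Type} (Cnd : S.Ω → β)
    (H : ∀ ω ω₀, Cnd ω = Cnd ω₀ →
      S.mO m ε ⟨z.LX, z.LY, z.LW, z.LZ, v₁⟩ R ω = S.mO m ε ⟨z.LX, z.LY, z.LW, z.LZ, v₁⟩ R ω₀ ∧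
      tcell ε v₂ (S.c ω) = tcell ε v₂ (S.c ω₀) ∧ tcell ε (m * v₂) (R ω) = tcell ε (m * v₂) (R ω₀))
    (ha : ∀ ω, |trep ε v₂ (S.c ω) - trep ε v₁ (S.c ω)| ≤ msh ε z.v)
    (hr : ∀ ω, |trep ε (m * v₁) (R ω) - trep ε (m * v₂) (R ω)| ≤ msh ε (m * z.v)) :
    S.P.entC (S.mO m ε ⟨z.LX, z.LY, z.LW, z.LZ, v₂⟩ R) Cnd ≤ Real.log 1280 := by
  refine ent_entC_le_log_nval S.P _ _ ?_
  intro ω₀
  obtain ⟨FY, cY, mY⟩ := dc_cell_fin ε z.LY ((S.A (S.T ω₀)).1 + trep ε v₂ (S.c ω₀) * (S.V (S.T ω₀)).1)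
    (3 * msh ε z.LY) (by have := ig_msh_pos ε z.LY; positivity)
  obtain ⟨FW, cW, mW⟩ := dc_cell_fin ε z.LW ((S.V (S.T ω₀)).2 - trep ε (m * v₂) (R ω₀) * (S.V (S.T ω₀)).1)
    (3 * msh ε z.LW) (by have := ig_msh_pos ε z.LW; positivity)
  obtain ⟨FZ, cZ, mZ⟩ := dc_cell_fin ε z.LZ ((S.A (S.T ω₀)).2 + trep ε v₂ (S.c ω₀) * (S.V (S.T ω₀)).2 -
      trep ε (m * v₂) (R ω₀) * ((S.A (S.T ω₀)).1 + trep ε v₂ (S.c ω₀) * (S.V (S.T ω₀)).1))
    (9 * msh ε z.LZ) (by have := ig_msh_pos ε z.LZ; positivity)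
  have cY' : (FY.card : ℝ) ≤ 8 := by
    refine cY.trans (le_of_eq ?_)
    have := (ig_msh_pos ε z.LY).ne'
    field_simp
    norm_num
  have cW' : (FW.card : ℝ) ≤ 8 := by
    refine cW.trans (le_of_eq ?_)
    have := (ig_msh_pos ε z.LW).ne'
    field_simp
    norm_num
  have cZ' : (FZ.card : ℝ) ≤ 20 := by
    refine cZ.trans (le_of_eq ?_)
    have := (ig_msh_pos ε z.LZ).ne'
    field_simp
    norm_num
  refine ⟨{tcell ε v₂ (S.c ω₀)} ×ˢ ({tcell ε (m * v₂) (R ω₀)} ×ˢ ({tcell ε z.LX (S.V (S.T ω₀)).1} ×ˢ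
    (FY ×ˢ (FW ×ˢ FZ)))), ?_, ?_⟩
  · simp only [Finset.card_product, Finset.card_singleton, one_mul]
    push_cast
    have c23 : (FW.card : ℝ) * FZ.card ≤ 8 * 20 := mul_le_mul cW' cZ' (Nat.cast_nonneg _) (by norm_num)
    calc (FY.card : ℝ) * ((FW.card : ℝ) * FZ.card) ≤ 8 * (8 * 20) :=
          mul_le_mul cY' c23 (by positivity) (by norm_num)
      _ = 1280 := by norm_num
  · intro ω _ _ hC
    obtain ⟨hO, hc2, hR2⟩ := H ω ω₀ hC
    simp only [CSys.mO, mObs, Prod.mk.injEq] at hO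
    obtain ⟨hc1, hR1, hX, hY, hW, hZ⟩ := hO
    obtain ⟨g1, g2, g3⟩ := pp_frame_pt m ε hm h0 h1 z hz v₁ v₂ (S.V (S.T ω)) (S.A (S.T ω)) (S.V (S.T ω₀))
      (S.A (S.T ω₀)) (S.c ω) (R ω) (S.c ω₀) (R ω₀) (ha ω) (hr ω) (pp_trep_congr _ _ _ _ hc1)
      (pp_trep_congr _ _ _ _ hc2) (pp_trep_congr _ _ _ _ hR1) (pp_trep_congr _ _ _ _ hR2) hX hY hW hZ
    simp only [CSys.mO, mObs, Finset.mem_product, Finset.mem_singleton]
    exact ⟨hc2, hR2, hX, mY _ g1, mW _ g2, mZ _ g3⟩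

theorem pp_shiftV (z : Cfg) (d : ℝ) : z.shift Crd.V.e d = ⟨z.LX, z.LY, z.LW, z.LZ, z.v + d⟩ := by
  simp [Cfg.shift, Crd.e]

/-- the old description is determined by the new one up to bounded ambiguity -/
theorem pp_frame_down (m : ℝ) (hm : 0 ≤ m) : ∃ C : ℝ, ∀ (S : CSys) (ε : ℝ) (R : S.Ω → ℝ) (z : Cfg) (d : ℝ),
    0 < ε → ε < 1 → z.Adm m → 0 ≤ d →
    S.P.entC (S.mO m ε z R) (S.mO m ε (z.shift Crd.V.e d) R) ≤ C := by
  refine ⟨Real.log 1280, fun S ε R z d h0 h1 hz hd => ?_⟩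
  rw [pp_shiftV]
  have hv : z.v ≤ z.v + d := by linarith
  have hmv : m * z.v ≤ m * (z.v + d) := mul_le_mul_of_nonneg_left hv hm
  refine pp_frame_nval m ε hm h0 h1 S R z hz (z.v + d) z.v _ (fun ω ω₀ h => ⟨h, ?_, ?_⟩) (fun ω => ?_)
    (fun ω => ?_)
  · simp only [CSys.mO, mObs, Prod.mk.injEq] at h
    exact pp_cell_nest ε _ _ _ _ h0 h1 hv h.1
  · simp only [CSys.mO, mObs, Prod.mk.injEq] at h
    exact pp_cell_nest ε _ _ _ _ h0 h1 hmv h.2.1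
  · have := ig_trep_diff_bd ε z.v (z.v + d) (S.c ω) h0 h1 hv
    rw [abs_sub_comm, abs_of_nonneg this.1]
    exact this.2.le
  · have := ig_trep_diff_bd ε (m * z.v) (m * (z.v + d)) (R ω) h0 h1 hmv
    rw [abs_of_nonneg this.1]
    exact this.2.le

/-- the new description is determined by the old one and the new labels up to bounded ambiguity -/
theorem pp_frame_up (m : ℝ) (hm : 0 ≤ m) : ∃ C : ℝ, ∀ (S : CSys) (ε : ℝ) (R : S.Ω → ℝ) (z : Cfg) (d : ℝ),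
    0 < ε → ε < 1 → z.Adm m → 0 ≤ d →
    S.P.entC (S.mO m ε (z.shift Crd.V.e d) R)
      (FLaw.pair (S.mO m ε z R) (S.lO ε (z.v + d) (m * (z.v + d)) R)) ≤ C := by
  refine ⟨Real.log 1280, fun S ε R z d h0 h1 hz hd => ?_⟩
  rw [pp_shiftV]
  have hv : z.v ≤ z.v + d := by linarith
  have hmv : m * z.v ≤ m * (z.v + d) := mul_le_mul_of_nonneg_left hv hm
  refine pp_frame_nval m ε hm h0 h1 S R z hz z.v (z.v + d) _ (fun ω ω₀ h => ?_) (fun ω => ?_)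
    (fun ω => ?_)
  · simp only [FLaw.pair, CSys.lO, lObs, Prod.mk.injEq] at h
    exact ⟨h.1, h.2.1, h.2.2.1⟩
  · have := ig_trep_diff_bd ε z.v (z.v + d) (S.c ω) h0 h1 hv
    rw [abs_of_nonneg this.1]
    exact this.2.le
  · have := ig_trep_diff_bd ε (m * z.v) (m * (z.v + d)) (R ω) h0 h1 hmv
    rw [abs_sub_comm, abs_of_nonneg this.1]
    exact this.2.le

/-- the sub-cells of depth `u + g` of a cell of depth `u` -/
theorem pp_sub_fin (ε u g : ℝ) (h0 : 0 < ε) (h1 : ε < 1) (hg : 0 ≤ g) (k : ℤ) :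
    ∃ F : Finset ℤ, (F.card : ℝ) ≤ 2 * ε ^ (-g) ∧ ∀ x, tcell ε u x = k → tcell ε (u + g) x ∈ F := by
  refine ⟨Finset.Ico (k * 2 ^ (tlev ε (u + g) - tlev ε u))
    (k * 2 ^ (tlev ε (u + g) - tlev ε u) + 2 ^ (tlev ε (u + g) - tlev ε u)), ?_, ?_⟩
  · rw [Int.card_Ico, add_sub_cancel_left]
    have : (((2 : ℤ) ^ (tlev ε (u + g) - tlev ε u)).toNat : ℝ) = (2 : ℝ) ^ (tlev ε (u + g) - tlev ε u) := by
      have h := Int.toNat_of_nonneg (a := (2 : ℤ) ^ (tlev ε (u + g) - tlev ε u)) (by positivity)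
      have h2 : ((((2 : ℤ) ^ (tlev ε (u + g) - tlev ε u)).toNat : ℤ) : ℝ) =
          (((2 : ℤ) ^ (tlev ε (u + g) - tlev ε u) : ℤ) : ℝ) := by rw [h]
      push_cast at h2
      exact h2
    rw [this]
    exact ig_ratio_le ε u g h0 h1 hg
  · intro x hx
    obtain ⟨r1, r2⟩ := ig_rel_nonneg ε u (u + g) x h0 h1 (by linarith)
    rw [hx] at r1 r2
    rw [Finset.mem_Ico]
    constructor
    · have : ((k * 2 ^ (tlev ε (u + g) - tlev ε u) : ℤ) : ℝ) ≤ (tcell ε (u + g) x : ℝ) := by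
        push_cast; linarith
      exact_mod_cast this
    · have : (tcell ε (u + g) x : ℝ) <
          ((k * 2 ^ (tlev ε (u + g) - tlev ε u) + 2 ^ (tlev ε (u + g) - tlev ε u) : ℤ) : ℝ) := by
        push_cast; linarith
      exact_mod_cast this

/-- the cost of the new labels -/
theorem pp_lab_le (S : CSys) (m ε : ℝ) (hm : 0 ≤ m) (h0 : 0 < ε) (h1 : ε < 1) (R : S.Ω → ℝ) (z : Cfg)
    (hv : 0 ≤ z.v) (d : ℝ) (hd : 0 ≤ d) :
    S.P.entC (S.lO ε (z.v + d) (m * (z.v + d)) R) (S.mO m ε z R) ≤ (1 + m) * d * lg ε + 2 * Real.log 2 := by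
  have hN : S.P.NVal (fun _ => True) (S.lO ε (z.v + d) (m * (z.v + d)) R) (S.mO m ε z R)
      ((2 * ε ^ (-d)) * (2 * ε ^ (-(m * d)))) := by
    intro ω₀
    obtain ⟨F1, c1, m1⟩ := pp_sub_fin ε z.v d h0 h1 hd (tcell ε z.v (S.c ω₀))
    obtain ⟨F2, c2, m2⟩ := pp_sub_fin ε (m * z.v) (m * d) h0 h1 (mul_nonneg hm hd) (tcell ε (m * z.v) (R ω₀))
    refine ⟨F1 ×ˢ (F2 ×ˢ ({0} ×ˢ ({0} ×ˢ ({0} ×ˢ {0})))), ?_, ?_⟩
    · simp only [Finset.card_product, Finset.card_singleton, mul_one]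
      push_cast
      exact mul_le_mul c1 c2 (Nat.cast_nonneg _) (by positivity)
    · intro ω _ _ hO
      simp only [CSys.mO, mObs, Prod.mk.injEq] at hO
      simp only [CSys.lO, lObs, Finset.mem_product, Finset.mem_singleton, and_true]
      refine ⟨m1 _ hO.1, ?_⟩
      rw [mul_add]
      exact m2 _ hO.2.1
  refine (ent_entC_le_log_nval S.P _ _ hN).trans (le_of_eq ?_)
  have p1 : 0 < ε ^ (-d) := Real.rpow_pos_of_pos h0 _
  have p2 : 0 < ε ^ (-(m * d)) := Real.rpow_pos_of_pos h0 _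
  rw [Real.log_mul (by positivity) (by positivity), Real.log_mul (by norm_num) p1.ne',
    Real.log_mul (by norm_num) p2.ne', Real.log_rpow h0, Real.log_rpow h0]
  unfold lg
  rw [one_div, Real.log_inv]
  ring

/-! ## PP-V : consequences for the particle information (glue from PP-DATA, PP-FRAME, Ent/Basic) -/

/-- (2.1): `I(T; B) ≤ I(T; A) + H(B | A)` -/
theorem pp_mi_le_add {Ω α β γ : Type} [Fintype Ω] (P : FLaw Ω) (T : Ω → α) (A : Ω → β) (B : Ω → γ) :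
    P.mi T B ≤ P.mi T A + P.entC B A := by
  have m1 : P.mi T B ≤ P.mi T (FLaw.pair B A) :=
    ent_mi_mono P T _ _ fun ω ω' _ _ h => (Prod.mk.inj h).1
  have m2 := ent_mi_chain P T B A
  have m3 := ent_miC_le_right P T B A
  linarith

/-- `H(A | B) ≤ H(C | B) + H(A | C, B)` -/
theorem pp_entC_via {Ω α β γ : Type} [Fintype Ω] (P : FLaw Ω) (A : Ω → α) (B : Ω → β) (C : Ω → γ) :
    P.entC A B ≤ P.entC C B + P.entC A (FLaw.pair C B) := by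
  have h1 : P.entC A B ≤ P.entC (FLaw.pair C A) B :=
    ent_entC_mono P _ _ _ fun ω ω' _ _ h _ => (Prod.mk.inj h).2
  have h2 := ent_entC_chain P C A B
  linarith

theorem pp_mi_v_ge (m : ℝ) (hm : 0 ≤ m) : ∃ C : ℝ, ∀ (S : CSys) (ε : ℝ) (R : S.Ω → ℝ) (z : Cfg) (d : ℝ),
    0 < ε → ε < 1 → z.Adm m → 0 ≤ d →
    S.P.mi S.T (S.mO m ε z R) - C ≤ S.P.mi S.T (S.mO m ε (z.shift Crd.V.e d) R) := by
  obtain ⟨C, hC⟩ := pp_frame_down m hm
  refine ⟨C, fun S ε R z d h0 h1 hz hd => ?_⟩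
  have := pp_mi_le_add S.P S.T (S.mO m ε (z.shift Crd.V.e d) R) (S.mO m ε z R)
  linarith [hC S ε R z d h0 h1 hz hd]

theorem pp_mi_v_le (m : ℝ) (hm : 0 ≤ m) : ∃ C : ℝ, ∀ (S : CSys) (ε : ℝ) (R : S.Ω → ℝ) (z : Cfg) (d : ℝ),
    0 < ε → ε < 1 → z.Adm m → 0 ≤ d →
    S.P.mi S.T (S.mO m ε (z.shift Crd.V.e d) R) ≤ S.P.mi S.T (S.mO m ε z R) + (1 + m) * d * lg ε + C := by
  obtain ⟨C, hC⟩ := pp_frame_up m hm
  refine ⟨C + 2 * Real.log 2, fun S ε R z d h0 h1 hz hd => ?_⟩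
  have a1 := pp_mi_le_add S.P S.T (S.mO m ε z R) (S.mO m ε (z.shift Crd.V.e d) R)
  have a2 := pp_entC_via S.P (S.mO m ε (z.shift Crd.V.e d) R) (S.mO m ε z R)
    (S.lO ε (z.v + d) (m * (z.v + d)) R)
  have a3 := pp_lab_le S m ε hm h0 h1 R z hz.2.2.2.2.1.le d hd
  have a4 := hC S ε R z d h0 h1 hz hd
  have a5 : S.P.entC (S.mO m ε (z.shift Crd.V.e d) R)
      (FLaw.pair (S.lO ε (z.v + d) (m * (z.v + d)) R) (S.mO m ε z R)) ≤
      S.P.entC (S.mO m ε (z.shift Crd.V.e d) R)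
      (FLaw.pair (S.mO m ε z R) (S.lO ε (z.v + d) (m * (z.v + d)) R)) :=
    ent_entC_anti S.P _ _ _ fun ω ω' _ _ h => by
      simp only [FLaw.pair, Prod.mk.injEq] at h ⊢
      exact ⟨h.2, h.1⟩
  linarith

/-- datum against label: `H(O₁₁ | O₀₁) ≤ H(O₁₀ | O₀₀) + C`  (`O₁₁` is determined by `(O₁₀, O₀₁)`, `O₀₀` by `O₀₁`, up to bounded ambiguity) -/
theorem pp_rect_v (m : ℝ) (hm : 0 ≤ m) : ∃ C : ℝ, ∀ (S : CSys) (ε : ℝ) (R : S.Ω → ℝ) (z : Cfg) (α : Crd)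
    (d d' : ℝ), 0 < ε → ε < 1 → α ≠ Crd.V → 0 ≤ d → 0 ≤ d' → z.Adm m → (z.shift α.e d).Adm m →
    S.P.entC (S.mO m ε ((z.shift α.e d).shift Crd.V.e d') R) (S.mO m ε (z.shift Crd.V.e d') R)
      ≤ S.P.entC (S.mO m ε (z.shift α.e d) R) (S.mO m ε z R) + C := by
  obtain ⟨C1, hC1⟩ := pp_frame_down m hm
  obtain ⟨C2, hC2⟩ := pp_frame_up m hm
  refine ⟨C1 + C2, fun S ε R z α d d' h0 h1 hα hd hd' hz hz' => ?_⟩
  have hv : (z.shift α.e d).v = z.v := by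
    cases α <;> first | exact absurd rfl hα | simp [Cfg.shift, Crd.e]
  -- `H(O11 | O01) ≤ H(O10 | O01) + H(O11 | O10, O01)`
  have a1 := pp_entC_via S.P (S.mO m ε ((z.shift α.e d).shift Crd.V.e d') R)
    (S.mO m ε (z.shift Crd.V.e d') R) (S.mO m ε (z.shift α.e d) R)
  -- `H(O11 | O10, O01) ≤ H(O11 | O10, labels) ≤ C2`
  have a2 := hC2 S ε R (z.shift α.e d) d' h0 h1 hz' hd'
  have a3 : S.P.entC (S.mO m ε ((z.shift α.e d).shift Crd.V.e d') R)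
      (FLaw.pair (S.mO m ε (z.shift α.e d) R) (S.mO m ε (z.shift Crd.V.e d') R)) ≤
      S.P.entC (S.mO m ε ((z.shift α.e d).shift Crd.V.e d') R)
      (FLaw.pair (S.mO m ε (z.shift α.e d) R)
        (S.lO ε ((z.shift α.e d).v + d') (m * ((z.shift α.e d).v + d')) R)) :=
    ent_entC_anti S.P _ _ _ fun ω ω' _ _ h => by
      rw [hv]
      rw [pp_shiftV] at h
      simp only [FLaw.pair, CSys.mO, CSys.lO, lObs, mObs, Prod.mk.injEq] at h ⊢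
      exact ⟨h.1, h.2.1, h.2.2.1, trivial⟩
  -- `H(O10 | O01) ≤ H(O00 | O01) + H(O10 | O00, O01) ≤ C1 + H(O10 | O00)`
  have a4 := pp_entC_via S.P (S.mO m ε (z.shift α.e d) R) (S.mO m ε (z.shift Crd.V.e d') R) (S.mO m ε z R)
  have a5 := hC1 S ε R z d' h0 h1 hz hd'
  have a6 := ent_entC_pair_le S.P (S.mO m ε (z.shift α.e d) R) (S.mO m ε z R)
    (S.mO m ε (z.shift Crd.V.e d') R)
  linarith

/-! ## PP-LABEL, PP-CARD -/

/-- `O(B, B + v, A, A + v, v)` is an aperture label of shape `(B, A)` at duration `v`, frame `arctan` of the recorded slope prefix (generalises `dc_canon_label`).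
Row frame `(1,0), (-R̄,1)` versus orthogonal frame: normal component `= W/√(1+R̄²)`, tangent component `= (X (1+R̄²) + R̄ W)/√(1+R̄²)`; the same for the position column. -/
theorem pp_label (m RB : ℝ) (hm : 0 ≤ m) : ∃ K₁ : ℝ, ∀ (S : CSys) (ε B A v L : ℝ) (R : S.Ω → ℝ),
    0 < ε → ε < 1 → (∀ ω, |R ω| ≤ RB) → 0 ≤ B → B ≤ A → 0 ≤ v → A + v ≤ L →
    ∃ geo : ℤ × ℤ × ℤ × ℤ × ℤ × ℤ → Geo,
      (∀ j, (geo j).b = B ∧ (geo j).a = A ∧ (geo j).th = Real.arctan (crep ε (m * v) j.2.1)) ∧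
      S.IsLabel K₁ ε v L (S.mO m ε ⟨B, B + v, A, A + v, v⟩ R) geo :=
  dc_canon_label_gen m RB hm

/-- entropy of the cell of a bounded datum -/
theorem pp_ent_cell {Ω : Type} [Fintype Ω] (P : FLaw Ω) {ε : ℝ} (h0 : 0 < ε) (h1 : ε < 1) (d M : ℝ) (hM : 0 ≤ M)
    (x : Ω → ℝ) (hx : ∀ ω, P.p ω ≠ 0 → |x ω| ≤ M) :
    P.ent (fun ω => tcell ε d (x ω)) ≤ max d 0 * lg ε + Real.log (4 * M + 4) := by
  obtain ⟨n, hn⟩ : ∃ n, n = tlev ε d := ⟨_, rfl⟩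
  have hlog : Real.log ((2 : ℝ) ^ n) ≤ max d 0 * lg ε + Real.log 2 := by
    have h := pp_children_log h0 h1 0 (max d 0) (le_max_right _ _)
    have e0 : tlev ε 0 = 0 := by
      unfold tlev
      simp
    rw [zero_add, e0, Nat.sub_zero, ← dc_cn_tlev_max h0 h1 d, ← hn] at h
    exact h
  have hp : (0 : ℝ) < 2 ^ n := by positivity
  have hS : ∀ ω, P.p ω ≠ 0 → tcell ε d (x ω) ∈ Finset.Icc ⌊-M * 2 ^ n⌋ ⌊M * 2 ^ n⌋ := by
    intro ω hω
    obtain ⟨a1, a2⟩ := abs_le.1 (hx ω hω)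
    unfold tcell
    rw [← hn, Finset.mem_Icc]
    exact ⟨Int.floor_le_floor (mul_le_mul_of_nonneg_right a1 hp.le),
      Int.floor_le_floor (mul_le_mul_of_nonneg_right a2 hp.le)⟩
  refine le_trans (ent_le_log_card P _ _ hS) ?_
  have hcard : ((Finset.Icc ⌊-M * 2 ^ n⌋ ⌊M * 2 ^ n⌋).card : ℝ) ≤ (2 * M + 2) * 2 ^ n := by
    rw [Int.card_Icc]
    have hle : ⌊-M * 2 ^ n⌋ ≤ ⌊M * 2 ^ n⌋ :=
      Int.floor_le_floor (mul_le_mul_of_nonneg_right (by linarith) hp.le)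
    have e : ((⌊M * 2 ^ n⌋ + 1 - ⌊-M * 2 ^ n⌋).toNat : ℝ) = ((⌊M * 2 ^ n⌋ + 1 - ⌊-M * 2 ^ n⌋ : ℤ) : ℝ) := by
      rw [← Int.cast_natCast, Int.toNat_of_nonneg (by omega)]
    rw [e]
    push_cast
    have b1 := Int.floor_le (M * 2 ^ n)
    have b2 := Int.lt_floor_add_one (-M * 2 ^ n)
    have b3 : (1 : ℝ) ≤ 2 ^ n := one_le_pow₀ (by norm_num)
    nlinarith
  have hpos : (0 : ℝ) < (Finset.Icc ⌊-M * 2 ^ n⌋ ⌊M * 2 ^ n⌋).card := by
    obtain ⟨ω, hω⟩ := ent_exists_supp P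
    exact_mod_cast Finset.card_pos.2 ⟨_, hS ω hω⟩
  calc Real.log (Finset.Icc ⌊-M * 2 ^ n⌋ ⌊M * 2 ^ n⌋).card ≤ Real.log ((2 * M + 2) * 2 ^ n) :=
        Real.log_le_log hpos hcard
    _ = Real.log (2 * M + 2) + Real.log ((2 : ℝ) ^ n) := Real.log_mul (by positivity) hp.ne'
    _ ≤ Real.log (2 * M + 2) + (max d 0 * lg ε + Real.log 2) := by linarith
    _ = max d 0 * lg ε + (Real.log (2 * M + 2) + Real.log 2) := by ring
    _ = max d 0 * lg ε + Real.log (4 * M + 4) := by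
        rw [← Real.log_mul (by positivity) (by norm_num)]
        congr 2
        ring

/-- the representative of a bounded number -/
theorem pp_trep_abs {ε : ℝ} (h0 : 0 < ε) (h1 : ε < 1) {d c M : ℝ} (hd : 0 ≤ d) (hc : |c| ≤ M) :
    |trep ε d c| ≤ M + 1 := by
  have h2 := dc_cn_trep_abs h0 h1 d c
  have h3 : ε ^ d ≤ 1 := Real.rpow_le_one h0.le h1.le hd
  have h4 : |trep ε d c| ≤ |c| + |c - trep ε d c| := by
    have := abs_sub (c) (c - trep ε d c)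
    rwa [sub_sub_cancel] at this
  linarith

/-- the alphabet of a canonical observation on the support of a bounded system -/
theorem pp_card (m RB B : ℝ) (hm : 0 ≤ m) : ∃ C : ℝ, ∀ (S : CSys) (ε : ℝ) (R : S.Ω → ℝ) (z : Cfg),
    0 < ε → ε < 1 → S.Bdd B → (∀ ω, |R ω| ≤ RB) → 0 ≤ z.v →
    S.P.ent (S.mO m ε z R) ≤
      (max z.LX 0 + max z.LY 0 + max z.LW 0 + max z.LZ 0 + (1 + m) * z.v) * lg ε + C := by
  obtain ⟨M, hMdef⟩ : ∃ M, M = RB + (B + (B + 1) * B + (RB + 1) * (B + (B + 1) * B)) := ⟨_, rfl⟩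
  refine ⟨6 * Real.log (4 * M + 4), fun S ε R z h0 h1 hB hR hv => ?_⟩
  obtain ⟨ω₀, hω₀⟩ := ent_exists_supp S.P
  have hsupp : ∀ ω, S.P.p ω ≠ 0 → 0 < S.P.p ω := fun ω h => lt_of_le_of_ne (S.P.nonneg ω) (Ne.symm h)
  have hB0 : 0 ≤ B := (abs_nonneg _).trans (hB ω₀ (hsupp ω₀ hω₀)).1
  have hRB0 : 0 ≤ RB := (abs_nonneg _).trans (hR ω₀)
  have hmv : 0 ≤ m * z.v := mul_nonneg hm hv
  have hM0 : 0 ≤ M := by
    rw [hMdef]
    positivity
  -- bounds of the six numbers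
  have bY : ∀ ω, S.P.p ω ≠ 0 → |(S.A (S.T ω)).1 + trep ε z.v (S.c ω) * (S.V (S.T ω)).1| ≤ B + (B + 1) * B := by
    intro ω hω
    obtain ⟨v1, v2, a1, a2, c1⟩ := hB ω (hsupp ω hω)
    have t1 := pp_trep_abs h0 h1 hv c1
    have h2 : |trep ε z.v (S.c ω) * (S.V (S.T ω)).1| ≤ (B + 1) * B := by
      rw [abs_mul]
      exact mul_le_mul t1 v1 (abs_nonneg _) (by positivity)
    exact (abs_add_le _ _).trans (add_le_add a1 h2)
  have e1 := pp_ent_cell S.P h0 h1 z.v M hM0 (fun ω => S.c ω) (fun ω hω => by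
    obtain ⟨v1, v2, a1, a2, c1⟩ := hB ω (hsupp ω hω)
    refine c1.trans ?_
    rw [hMdef]
    nlinarith [mul_nonneg hB0 hB0, mul_nonneg hRB0 hB0, mul_nonneg hRB0 (mul_nonneg hB0 hB0)])
  have e2 := pp_ent_cell S.P h0 h1 (m * z.v) M hM0 (fun ω => R ω) (fun ω _ => by
    refine (hR ω).trans ?_
    rw [hMdef]
    nlinarith [mul_nonneg hB0 hB0, mul_nonneg hRB0 hB0, mul_nonneg hRB0 (mul_nonneg hB0 hB0)])
  have e3 := pp_ent_cell S.P h0 h1 z.LX M hM0 (fun ω => (S.V (S.T ω)).1) (fun ω hω => by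
    obtain ⟨v1, v2, a1, a2, c1⟩ := hB ω (hsupp ω hω)
    refine v1.trans ?_
    rw [hMdef]
    nlinarith [mul_nonneg hB0 hB0, mul_nonneg hRB0 hB0, mul_nonneg hRB0 (mul_nonneg hB0 hB0)])
  have e4 := pp_ent_cell S.P h0 h1 z.LY M hM0
    (fun ω => (S.A (S.T ω)).1 + trep ε z.v (S.c ω) * (S.V (S.T ω)).1) (fun ω hω => by
    refine (bY ω hω).trans ?_
    rw [hMdef]
    nlinarith [mul_nonneg hB0 hB0, mul_nonneg hRB0 hB0, mul_nonneg hRB0 (mul_nonneg hB0 hB0)])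
  have e5 := pp_ent_cell S.P h0 h1 z.LW M hM0
    (fun ω => (S.V (S.T ω)).2 - trep ε (m * z.v) (R ω) * (S.V (S.T ω)).1) (fun ω hω => by
    obtain ⟨v1, v2, a1, a2, c1⟩ := hB ω (hsupp ω hω)
    have t2 := pp_trep_abs h0 h1 hmv (hR ω)
    have h2 : |trep ε (m * z.v) (R ω) * (S.V (S.T ω)).1| ≤ (RB + 1) * B := by
      rw [abs_mul]
      exact mul_le_mul t2 v1 (abs_nonneg _) (by positivity)
    refine (abs_sub _ _).trans ((add_le_add v2 h2).trans ?_)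
    rw [hMdef]
    nlinarith [mul_nonneg hB0 hB0, mul_nonneg hRB0 hB0, mul_nonneg hRB0 (mul_nonneg hB0 hB0)])
  have e6 := pp_ent_cell S.P h0 h1 z.LZ M hM0
    (fun ω => (S.A (S.T ω)).2 + trep ε z.v (S.c ω) * (S.V (S.T ω)).2 -
      trep ε (m * z.v) (R ω) * ((S.A (S.T ω)).1 + trep ε z.v (S.c ω) * (S.V (S.T ω)).1)) (fun ω hω => by
    obtain ⟨v1, v2, a1, a2, c1⟩ := hB ω (hsupp ω hω)
    have t1 := pp_trep_abs h0 h1 hv c1
    have t2 := pp_trep_abs h0 h1 hmv (hR ω)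
    have h2 : |trep ε z.v (S.c ω) * (S.V (S.T ω)).2| ≤ (B + 1) * B := by
      rw [abs_mul]
      exact mul_le_mul t1 v2 (abs_nonneg _) (by positivity)
    have h3 : |trep ε (m * z.v) (R ω) * ((S.A (S.T ω)).1 + trep ε z.v (S.c ω) * (S.V (S.T ω)).1)| ≤
        (RB + 1) * (B + (B + 1) * B) := by
      rw [abs_mul]
      exact mul_le_mul t2 (bY ω hω) (abs_nonneg _) (by positivity)
    refine (abs_sub _ _).trans ((add_le_add ((abs_add_le _ _).trans (add_le_add a2 h2)) h3).trans ?_)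
    rw [hMdef]
    linarith)
  -- subadditivity
  have hsub : S.P.ent (S.mO m ε z R) ≤
      S.P.ent (fun ω => tcell ε z.v (S.c ω)) + (S.P.ent (fun ω => tcell ε (m * z.v) (R ω)) +
      (S.P.ent (fun ω => tcell ε z.LX (S.V (S.T ω)).1) +
      (S.P.ent (fun ω => tcell ε z.LY ((S.A (S.T ω)).1 + trep ε z.v (S.c ω) * (S.V (S.T ω)).1)) +
      (S.P.ent (fun ω => tcell ε z.LW ((S.V (S.T ω)).2 - trep ε (m * z.v) (R ω) * (S.V (S.T ω)).1)) +
      S.P.ent (fun ω => tcell ε z.LZ ((S.A (S.T ω)).2 + trep ε z.v (S.c ω) * (S.V (S.T ω)).2 -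
        trep ε (m * z.v) (R ω) * ((S.A (S.T ω)).1 + trep ε z.v (S.c ω) * (S.V (S.T ω)).1))))))) := by
    refine le_trans (ent_pair_le S.P (fun ω => tcell ε z.v (S.c ω)) _) (add_le_add le_rfl ?_)
    refine le_trans (ent_pair_le S.P (fun ω => tcell ε (m * z.v) (R ω)) _) (add_le_add le_rfl ?_)
    refine le_trans (ent_pair_le S.P (fun ω => tcell ε z.LX (S.V (S.T ω)).1) _) (add_le_add le_rfl ?_)
    refine le_trans (ent_pair_le S.P
      (fun ω => tcell ε z.LY ((S.A (S.T ω)).1 + trep ε z.v (S.c ω) * (S.V (S.T ω)).1)) _) (add_le_add le_rfl ?_)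
    exact ent_pair_le S.P
      (fun ω => tcell ε z.LW ((S.V (S.T ω)).2 - trep ε (m * z.v) (R ω) * (S.V (S.T ω)).1)) _
  rw [max_eq_left hv] at e1
  rw [max_eq_left hmv] at e2
  refine hsub.trans ?_
  have e : (max z.LX 0 + max z.LY 0 + max z.LW 0 + max z.LZ 0 + (1 + m) * z.v) * lg ε + 6 * Real.log (4 * M + 4)
      = (z.v * lg ε + Real.log (4 * M + 4)) + ((m * z.v * lg ε + Real.log (4 * M + 4)) +
        ((max z.LX 0 * lg ε + Real.log (4 * M + 4)) + ((max z.LY 0 * lg ε + Real.log (4 * M + 4)) +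
        ((max z.LW 0 * lg ε + Real.log (4 * M + 4)) + (max z.LZ 0 * lg ε + Real.log (4 * M + 4)))))) := by ring
  rw [e]
  exact add_le_add e1 (add_le_add e2 (add_le_add e3 (add_le_add e4 (add_le_add e5 e6))))

end Claimed.Agent.R255
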