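-- KEEP
import Claimed.Agent.R255.Plane.Fin
import Claimed.Agent.R255.Cl.ToolsSeq

/-!
# Row 255 (BR paper), Sec. 6.1, LIMIT LEVEL: `Matched.Good ⟹ PkProf`      (chief helper216; prefix `pp_`)

`M.f z = ulim I(T; O z)/ℓ`, `M.Sp v = ulim H(C_v | T)/ℓ`, `M.tauL = ulim τ_{1+m}(T)`.  Every statement = a finite statement of `Plane/Fin.lean` (or `Cl/Tools/Tau.lean`) divided by `ℓ = lg ε → ∞` + the `ulim` calculus (`Base/Ulim.lean`).
`(M.O z n) = (M.Q.S n).mO m (M.Q.ε n) z (M.R n)` by `rfl`.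
PACKAGES: PP-LIM-A (`pp_lg_tendsto`, `pp_ubdd_*`), PP-LIM-B (`pp_mono`, `pp_cap`, `pp_rect`), PP-LIM-C (`pp_S_lip`, `pp_S_grow`), PP-LIM-D (`pp_obst`, `pp_contact`).
-/

set_option autoImplicit false

namespace Claimed.Agent.R255

open Filter Topology
open Classical

/-- the limiting root level -/
noncomputable def Matched.tauL {γ m : ℝ} (M : Matched γ m) : ℝ := ulim (M.Q.seqTau γ (1 + m))

/-! ## PP-LIM-A -/

theorem pp_lg_tendsto (Q : CSeq) : Tendsto (fun n => lg (Q.ε n)) uf atTop := by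
  have h1 : Tendsto Q.ε uf (𝓝[>] 0) :=
    tendsto_nhdsWithin_iff.2 ⟨Q.lim, Eventually.of_forall fun n => (Q.pos n).1⟩
  have h2 : Tendsto (fun n => (Q.ε n)⁻¹) uf atTop := tendsto_inv_nhdsGT_zero.comp h1
  refine (Real.tendsto_log_atTop.comp h2).congr fun n => ?_
  simp [lg]

/-- constants disappear -/
theorem pp_const_div (Q : CSeq) (C : ℝ) : Tendsto (fun n => C / lg (Q.ε n)) uf (𝓝 0) := by
  exact (pp_lg_tendsto Q).const_div_atTop C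

/-- `ℓ > 0` -/
theorem pp_lg_pos (Q : CSeq) (n : ℕ) : 0 < lg (Q.ε n) := tl_tau_lg_pos (Q.pos n).1 (Q.pos n).2

/-- eventually `|C / ℓ| ≤ 1` -/
theorem pp_const_div_le (Q : CSeq) (C : ℝ) : ∀ᶠ n in uf, |C / lg (Q.ε n)| ≤ 1 := by
  have h := (pp_const_div Q C).eventually (Metric.ball_mem_nhds (0 : ℝ) one_pos)
  filter_upwards [h] with n hn
  rw [Real.dist_eq, sub_zero] at hn
  exact hn.le

/-- passage to the limit in an inequality with an error `C / ℓ` -/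
theorem pp_ulim_le (Q : CSeq) (x y : ℕ → ℝ) (hx : UBdd x) (hy : UBdd y) (c C : ℝ)
    (h : ∀ᶠ n in uf, x n ≤ y n + c + C / lg (Q.ε n)) : ulim x ≤ ulim y + c := by
  have := uf_neBot
  have h1 := ((ulim_tendsto y hy).add_const c).add (pp_const_div Q C)
  rw [add_zero] at h1
  exact le_of_tendsto_of_tendsto (ulim_tendsto x hx) h1 h

theorem pp_ubdd_f {γ m : ℝ} (hm : 0 < m) (M : Matched γ m) (z : Cfg) (hv : 0 ≤ z.v) :
    UBdd (M.Q.seqI M.Q.T (M.O z)) := by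
  obtain ⟨C, hC⟩ := pp_card m M.RB M.Q.B hm.le
  refine UBdd.of_le 0 ((max z.LX 0 + max z.LY 0 + max z.LW 0 + max z.LZ 0 + (1 + m) * z.v) + 1) ?_
  filter_upwards [M.Q.bdd, pp_const_div_le M.Q C] with n hB h1
  have hl := pp_lg_pos M.Q n
  have h2 := hC (M.Q.S n) (M.Q.ε n) (M.R n) z (M.Q.pos n).1 (M.Q.pos n).2 hB (M.Rbd n) hv
  have h3 : (M.Q.S n).P.mi (M.Q.S n).T ((M.Q.S n).mO m (M.Q.ε n) z (M.R n))
      ≤ (M.Q.S n).P.ent ((M.Q.S n).mO m (M.Q.ε n) z (M.R n)) := ent_mi_le_right _ _ _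
  have h4 : 0 ≤ (M.Q.S n).P.mi (M.Q.S n).T ((M.Q.S n).mO m (M.Q.ε n) z (M.R n)) := ent_mi_nonneg _ _ _
  have e : M.Q.seqI M.Q.T (M.O z) n
      = (M.Q.S n).P.mi (M.Q.S n).T ((M.Q.S n).mO m (M.Q.ε n) z (M.R n)) / lg (M.Q.ε n) := rfl
  rw [e]
  refine ⟨div_nonneg h4 hl.le, ?_⟩
  rw [div_le_iff₀ hl]
  have h5 : C ≤ 1 * lg (M.Q.ε n) := by
    rw [← div_le_iff₀ hl]
    exact (le_abs_self _).trans h1
  nlinarith

theorem pp_seqHC_eq (Q : CSeq) (v : ℝ) (n : ℕ) : Q.seqHC (Q.C v) Q.T n = (Q.S n).St (Q.ε n) v := rfl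

theorem pp_ubdd_S (Q : CSeq) (v : ℝ) (hv : 0 ≤ v) : UBdd (Q.seqHC (Q.C v) Q.T) := by
  obtain ⟨C, hC⟩ := tl_St_le Q.B
  refine UBdd.of_le 0 (v + 1) ?_
  filter_upwards [Q.bdd, pp_const_div_le Q C] with n hB h1
  rw [pp_seqHC_eq]
  refine ⟨tl_St_nonneg _ _ _ (Q.pos n).1 (Q.pos n).2, ?_⟩
  have h2 := hC (Q.S n) (Q.ε n) v hB (Q.pos n).1 (Q.pos n).2 hv
  have h3 := (le_abs_self _).trans h1
  linarith

theorem pp_ubdd_tau (γ : ℝ) (h0 : 0 < γ) (h1 : γ < 1) (Q : CSeq) (L : ℝ) (hL : 0 ≤ L) : UBdd (Q.seqTau γ L) := by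
  obtain ⟨C, hC⟩ := tl_tau_ge Q.B
  refine UBdd.of_le (-1) (2 * L) ?_
  filter_upwards [Q.bdd, pp_const_div_le Q (-C)] with n hB h2
  have h3 := hC (Q.S n) γ (Q.ε n) L hB h0 h1 (Q.pos n).1 (Q.pos n).2 hL
  have h4 := (abs_le.1 h2).1
  exact ⟨h4.trans h3, tl_tau_le (Q.S n) Q.B γ (Q.ε n) L hB h0 h1 (Q.pos n).1 (Q.pos n).2 hL⟩

/-! ## PP-LIM-B -/

theorem pp_seqI_eq {γ m : ℝ} (M : Matched γ m) (z : Cfg) (n : ℕ) : M.Q.seqI M.Q.T (M.O z) n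
    = (M.Q.S n).P.mi (M.Q.S n).T ((M.Q.S n).mO m (M.Q.ε n) z (M.R n)) / lg (M.Q.ε n) := rfl

theorem pp_f_eq {γ m : ℝ} (M : Matched γ m) (z : Cfg) : M.f z = ulim (M.Q.seqI M.Q.T (M.O z)) := rfl

theorem pp_div_le {a b c C l : ℝ} (hl : 0 < l) (h : a ≤ b + c * l + C) : a / l ≤ b / l + c + C / l := by
  have e : b / l + c + C / l = (b + c * l + C) / l := by
    field_simp
  rw [e]
  exact div_le_div_of_nonneg_right h hl.le

theorem pp_shift_comm (z a b : Cfg) (d d' : ℝ) : (z.shift a d).shift b d' = (z.shift b d').shift a d := by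
  simp only [Cfg.shift, Cfg.mk.injEq]
  refine ⟨by ring, by ring, by ring, by ring, by ring⟩

theorem pp_adm_v {m : ℝ} {z : Cfg} (h : z.Adm m) : 0 ≤ z.v := h.2.2.2.2.1.le

theorem pp_mono {γ m : ℝ} (hm : 0 < m) (M : Matched γ m) (α : Crd) (z : Cfg) (d : ℝ) (hd : 0 ≤ d)
    (hz : z.Adm m) (hz' : (z.shift α.e d).Adm m) : M.f z ≤ M.f (z.shift α.e d) := by
  have hb0 := pp_ubdd_f hm M z (pp_adm_v hz)
  have hb1 := pp_ubdd_f hm M (z.shift α.e d) (pp_adm_v hz')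
  rw [pp_f_eq, pp_f_eq]
  by_cases hα : α = Crd.V
  · subst hα
    obtain ⟨C, hC⟩ := pp_mi_v_ge m hm.le
    have h := pp_ulim_le M.Q _ _ hb0 hb1 0 C (Eventually.of_forall fun n => by
      rw [pp_seqI_eq, pp_seqI_eq]
      have h1 := hC (M.Q.S n) (M.Q.ε n) (M.R n) z d (M.Q.pos n).1 (M.Q.pos n).2 hz hd
      exact pp_div_le (pp_lg_pos M.Q n) (by linarith))
    rwa [add_zero] at h
  · refine ulim_le _ _ hb0 hb1 (Eventually.of_forall fun n => ?_)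
    rw [pp_seqI_eq, pp_seqI_eq]
    have h1 := pp_mi_data (M.Q.S n) m (M.Q.ε n) (M.Q.pos n).1 (M.Q.pos n).2 (M.R n) z α hα d hd
    have h2 := ent_entC_nonneg (M.Q.S n).P ((M.Q.S n).mO m (M.Q.ε n) (z.shift α.e d) (M.R n))
      ((M.Q.S n).mO m (M.Q.ε n) z (M.R n))
    exact div_le_div_of_nonneg_right (by linarith) (pp_lg_pos M.Q n).le

theorem pp_cap {γ m : ℝ} (hm : 0 < m) (M : Matched γ m) (α : Crd) (z : Cfg) (d : ℝ) (hd : 0 ≤ d)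
    (hz : z.Adm m) (hz' : (z.shift α.e d).Adm m) : M.f (z.shift α.e d) ≤ M.f z + α.cap m * d := by
  have hb0 := pp_ubdd_f hm M z (pp_adm_v hz)
  have hb1 := pp_ubdd_f hm M (z.shift α.e d) (pp_adm_v hz')
  rw [pp_f_eq, pp_f_eq]
  by_cases hα : α = Crd.V
  · subst hα
    obtain ⟨C, hC⟩ := pp_mi_v_le m hm.le
    refine pp_ulim_le M.Q _ _ hb1 hb0 _ C (Eventually.of_forall fun n => ?_)
    rw [pp_seqI_eq, pp_seqI_eq]
    have h1 := hC (M.Q.S n) (M.Q.ε n) (M.R n) z d (M.Q.pos n).1 (M.Q.pos n).2 hz hd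
    exact pp_div_le (pp_lg_pos M.Q n) h1
  · have hcap : α.cap m = 1 := by
      cases α <;> first | rfl | exact (hα rfl).elim
    rw [hcap, one_mul]
    refine pp_ulim_le M.Q _ _ hb1 hb0 _ (Real.log 2) (Eventually.of_forall fun n => ?_)
    rw [pp_seqI_eq, pp_seqI_eq]
    have h1 := pp_mi_data (M.Q.S n) m (M.Q.ε n) (M.Q.pos n).1 (M.Q.pos n).2 (M.R n) z α hα d hd
    have h2 := pp_entC_data_le (M.Q.S n) m (M.Q.ε n) (M.Q.pos n).1 (M.Q.pos n).2 (M.R n) z α hα d hd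
    exact pp_div_le (pp_lg_pos M.Q n) (by linarith)

/-- the finite rectangle inequality, first direction a datum -/
theorem pp_rect_fin (m : ℝ) (hm : 0 ≤ m) : ∃ C : ℝ, ∀ (S : CSys) (ε : ℝ) (R : S.Ω → ℝ) (z : Cfg) (α α' : Crd)
    (d d' : ℝ), 0 < ε → ε < 1 → α ≠ Crd.V → α ≠ α' → 0 ≤ d → 0 ≤ d' → z.Adm m → (z.shift α.e d).Adm m →
    S.P.mi S.T (S.mO m ε ((z.shift α.e d).shift α'.e d') R) + S.P.mi S.T (S.mO m ε z R)
      ≤ S.P.mi S.T (S.mO m ε (z.shift α.e d) R) + S.P.mi S.T (S.mO m ε (z.shift α'.e d') R) + C := by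
  obtain ⟨C, hC⟩ := pp_rect_v m hm
  refine ⟨|C|, fun S ε R z α α' d d' h0 h1 hα hne hd hd' hz hz' => ?_⟩
  have e1 := pp_mi_data S m ε h0 h1 R z α hα d hd
  have e2 := pp_mi_data S m ε h0 h1 R (z.shift α'.e d') α hα d hd
  rw [pp_shift_comm z α'.e α.e d' d] at e2
  have hC0 := le_abs_self C
  have hC1 := abs_nonneg C
  by_cases hα' : α' = Crd.V
  · subst hα'
    have h3 := hC S ε R z α d d' h0 h1 hα hd hd' hz hz'
    linarith
  · have h3 := pp_rect_data S m ε h0 h1 R z α α' hα hα' hne d d' hd hd'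
    linarith

theorem pp_rect {γ m : ℝ} (hm : 0 < m) (M : Matched γ m) (α α' : Crd) (hne : α ≠ α') (z : Cfg) (d d' : ℝ)
    (hd : 0 ≤ d) (hd' : 0 ≤ d') (h00 : z.Adm m) (h10 : (z.shift α.e d).Adm m) (h01 : (z.shift α'.e d').Adm m)
    (h11 : ((z.shift α.e d).shift α'.e d').Adm m) :
    M.f ((z.shift α.e d).shift α'.e d') + M.f z ≤ M.f (z.shift α.e d) + M.f (z.shift α'.e d') := by
  have b00 := pp_ubdd_f hm M z (pp_adm_v h00)
  have b10 := pp_ubdd_f hm M _ (pp_adm_v h10)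
  have b01 := pp_ubdd_f hm M _ (pp_adm_v h01)
  have b11 := pp_ubdd_f hm M _ (pp_adm_v h11)
  obtain ⟨C, hC⟩ := pp_rect_fin m hm.le
  rw [pp_f_eq, pp_f_eq, pp_f_eq, pp_f_eq, ← ulim_add _ _ b11 b00, ← ulim_add _ _ b10 b01]
  have h := pp_ulim_le M.Q _ _ (b11.add b00) (b10.add b01) 0 C (Eventually.of_forall fun n => by
    rw [pp_seqI_eq, pp_seqI_eq, pp_seqI_eq, pp_seqI_eq, ← add_div, ← add_div]
    refine pp_div_le (pp_lg_pos M.Q n) ?_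
    rw [zero_mul, add_zero]
    by_cases hα : α = Crd.V
    · have hα' : α' ≠ Crd.V := fun h => hne (hα.trans h.symm)
      have h1 := hC (M.Q.S n) (M.Q.ε n) (M.R n) z α' α d' d (M.Q.pos n).1 (M.Q.pos n).2 hα' hne.symm hd' hd
        h00 h01
      rw [pp_shift_comm z α'.e α.e d' d] at h1
      linarith
    · exact hC (M.Q.S n) (M.Q.ε n) (M.R n) z α α' d d' (M.Q.pos n).1 (M.Q.pos n).2 hα hne hd hd' h00 h10)
  rwa [add_zero] at h

/-! ## PP-LIM-C -/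

theorem pp_Sp_eq {γ m : ℝ} (M : Matched γ m) (v : ℝ) : M.Sp v = ulim (M.Q.seqHC (M.Q.C v) M.Q.T) := rfl

theorem pp_S_lip {γ m : ℝ} (M : Matched γ m) (u a : ℝ) (hu : 0 < u) (ha : 0 ≤ a) (h1 : u + a < 1) :
    M.Sp (u + a) - M.Sp u ≤ a := by
  have b0 := pp_ubdd_S M.Q u hu.le
  have b1 := pp_ubdd_S M.Q (u + a) (by linarith)
  rw [pp_Sp_eq, pp_Sp_eq]
  have h := pp_ulim_le M.Q _ _ b1 b0 a (Real.log 2) (Eventually.of_forall fun n => by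
    rw [pp_seqHC_eq, pp_seqHC_eq]
    have h2 := tl_St_incr (M.Q.S n) (M.Q.ε n) u (u + a) (M.Q.pos n).1 (M.Q.pos n).2 hu.le (by linarith)
    linarith)
  linarith

/-- `H(C_{u+a} | T, C_u) ≥ I(R_{m(u+a)} ; C_{u+a} | T, C_u) = H(R_{m(u+a)} | T, C_u) - H(R_{m(u+a)} | T, C_{u+a}) ≥ κ a - o(1)`  (`growth`, `pred`) -/
theorem pp_S_grow {γ m : ℝ} (M : Matched γ m) (hM : M.Good) (u a : ℝ) (hu : 0 < u) (ha : 0 ≤ a)
    (h1 : u + a < 1) : M.κ * a ≤ M.Sp (u + a) - M.Sp u := by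
  rcases ha.eq_or_lt with rfl | ha'
  · simp
  have b0 := pp_ubdd_S M.Q u hu.le
  have b1 := pp_ubdd_S M.Q (u + a) (by linarith)
  have hpred : Tendsto (M.Q.seqHC (M.Rd (m * (u + a))) (M.Q.pr2 M.Q.T (M.Q.C (u + a)))) uf (𝓝 0) :=
    hM.pred (u + a) (by linarith) h1
  have := uf_neBot
  have hlim : Tendsto (fun n => M.Q.seqHC (M.Q.C (u + a)) M.Q.T n - M.Q.seqHC (M.Q.C u) M.Q.T n
      + M.Q.seqHC (M.Rd (m * (u + a))) (M.Q.pr2 M.Q.T (M.Q.C (u + a))) n) uf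
      (𝓝 (M.Sp (u + a) - M.Sp u + 0)) :=
    ((ulim_tendsto _ b1).sub (ulim_tendsto _ b0)).add hpred
  rw [add_zero] at hlim
  refine le_of_forall_pos_lt_add fun η hη => ?_
  have hg := hM.growth u a hu ha' h1 (η / 2) (by linarith)
  have h2 : M.κ * a - η / 2 ≤ M.Sp (u + a) - M.Sp u := by
    refine ge_of_tendsto hlim ?_
    filter_upwards [hg] with n hn
    refine hn.trans ?_
    have hl := pp_lg_pos M.Q n
    rw [pp_seqHC_eq, pp_seqHC_eq,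
      tl_St_chain (M.Q.S n) (M.Q.ε n) u (u + a) (M.Q.pos n).1 (M.Q.pos n).2 (by linarith)]
    show (M.Q.S n).P.entC (M.Rd (m * (u + a)) n) (FLaw.pair (M.Q.S n).T ((M.Q.S n).Ct (M.Q.ε n) u)) / lg (M.Q.ε n)
      ≤ (M.Q.S n).P.entC ((M.Q.S n).Ct (M.Q.ε n) (u + a)) (FLaw.pair (M.Q.S n).T ((M.Q.S n).Ct (M.Q.ε n) u))
          / lg (M.Q.ε n)
        + (M.Q.S n).P.entC (M.Rd (m * (u + a)) n) (FLaw.pair (M.Q.S n).T ((M.Q.S n).Ct (M.Q.ε n) (u + a)))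
          / lg (M.Q.ε n)
    rw [← add_div]
    refine div_le_div_of_nonneg_right ?_ hl.le
    have k1 := ent_miC_le_right (M.Q.S n).P (M.Rd (m * (u + a)) n) ((M.Q.S n).Ct (M.Q.ε n) (u + a))
      (FLaw.pair (M.Q.S n).T ((M.Q.S n).Ct (M.Q.ε n) u))
    have k2 := ent_miC_eq (M.Q.S n).P (M.Rd (m * (u + a)) n) ((M.Q.S n).Ct (M.Q.ε n) (u + a))
      (FLaw.pair (M.Q.S n).T ((M.Q.S n).Ct (M.Q.ε n) u))
    have k3 : (M.Q.S n).P.entC (M.Rd (m * (u + a)) n)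
        (FLaw.pair ((M.Q.S n).Ct (M.Q.ε n) (u + a)) (FLaw.pair (M.Q.S n).T ((M.Q.S n).Ct (M.Q.ε n) u)))
        ≤ (M.Q.S n).P.entC (M.Rd (m * (u + a)) n)
          (FLaw.pair (M.Q.S n).T ((M.Q.S n).Ct (M.Q.ε n) (u + a))) := by
      refine ent_entC_anti _ _ _ _ fun ω ω' _ _ h => ?_
      simp only [FLaw.pair, Prod.mk.injEq] at h ⊢
      exact ⟨h.2.1, h.1⟩
    linarith
  linarith

/-! ## PP-LIM-D -/

/-- `pp_label` + `tl_univBound_beta` -/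
theorem pp_obst {γ m : ℝ} (h0 : 0 < γ) (h1 : γ < 1) (hm : 0 < m) (M : Matched γ m) (B A v : ℝ) (hB : 0 ≤ B)
    (hBA : B ≤ A) (hA : A ≤ B + m * v) (hv : 0 < v) (hv1 : v < 1) (hL : A + v ≤ 1 + m) :
    (1 + γ) * B + (1 - γ) * A + 2 * M.Sp v - beta γ * v - M.tauL ≤ M.f ⟨B, B + v, A, A + v, v⟩ := by
  obtain ⟨K₁, hK⟩ := pp_label m M.RB hm.le
  have bf := pp_ubdd_f hm M ⟨B, B + v, A, A + v, v⟩ hv.le
  have bS := pp_ubdd_S M.Q v hv.le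
  have bt := pp_ubdd_tau γ h0 h1 M.Q (1 + m) (by linarith)
  have := uf_neBot
  have hlim : Tendsto (fun n => M.Q.seqTau γ (1 + m) n + M.Q.seqI M.Q.T (M.O ⟨B, B + v, A, A + v, v⟩) n
      - 2 * M.Q.seqHC (M.Q.C v) M.Q.T n) uf
      (𝓝 (M.tauL + M.f ⟨B, B + v, A, A + v, v⟩ - 2 * M.Sp v)) :=
    ((ulim_tendsto _ bt).add (ulim_tendsto _ bf)).sub ((ulim_tendsto _ bS).const_mul 2)
  suffices hs : ∀ ν : ℝ, 0 < ν → (1 + γ) * B + (1 - γ) * A - beta γ * v - ν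
      ≤ M.tauL + M.f ⟨B, B + v, A, A + v, v⟩ - 2 * M.Sp v by
    have h2 : (1 + γ) * B + (1 - γ) * A - beta γ * v ≤ M.tauL + M.f ⟨B, B + v, A, A + v, v⟩ - 2 * M.Sp v :=
      le_of_forall_pos_le_add fun ν hν => by linarith [hs ν hν]
    linarith
  intro ν hν
  obtain ⟨ε₀, hε₀, -, hU⟩ := tl_univBound_beta γ h0 h1 K₁ M.Q.B (1 + m) v ν hv hν
  refine ge_of_tendsto hlim ?_
  have hsmall : ∀ᶠ n in uf, M.Q.ε n < ε₀ := M.Q.lim.eventually_lt_const hε₀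
  filter_upwards [hsmall, M.Q.bdd] with n hn hBd
  obtain ⟨geo, hgeo, hlab⟩ := hK (M.Q.S n) (M.Q.ε n) B A v (1 + m) (M.R n) (M.Q.pos n).1 (M.Q.pos n).2 (M.Rbd n)
    hB hBA hv.le hL
  have hsc := hU (M.Q.ε n) (M.Q.pos n).1 hn v (1 + m) le_rfl (by linarith) le_rfl (M.Q.S n) _ _ geo hBd hlab
  have hw : (M.Q.S n).P.ev (fun ω => wt γ (geo ((M.Q.S n).mO m (M.Q.ε n) ⟨B, B + v, A, A + v, v⟩ (M.R n) ω)))
      = (1 + γ) * B + (1 - γ) * A := by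
    rw [← ent_ev_const (M.Q.S n).P ((1 + γ) * B + (1 - γ) * A)]
    refine ent_ev_congr _ fun ω _ => ?_
    unfold wt
    rw [(hgeo _).1, (hgeo _).2.1]
  unfold CSys.score at hsc
  rw [hw] at hsc
  rw [pp_seqI_eq, pp_seqHC_eq]
  show _ ≤ (M.Q.S n).tau γ (M.Q.ε n) (1 + m) + _ - _
  linarith

/-- `Good.sat` -/
theorem pp_contact {γ m : ℝ} (h0 : 0 < γ) (h1 : γ < 1) (hm : 0 < m) (M : Matched γ m) (hM : M.Good) (u : ℝ)
    (hu : 0 < u) (hu1 : u < 1) :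
    M.f (plane m (M.b u) u) = 2 * M.b u + (1 - γ) * m * u + 2 * M.Sp u - beta γ * u - M.tauL := by
  have bf := pp_ubdd_f hm M (plane m (M.b u) u) hu.le
  have bS := pp_ubdd_S M.Q u hu.le
  have bt := pp_ubdd_tau γ h0 h1 M.Q (1 + m) (by linarith)
  have := uf_neBot
  have hlim : Tendsto (fun n => 2 * M.b u + (1 - γ) * m * u - M.Q.seqI M.Q.T (M.O (plane m (M.b u) u)) n
      + 2 * M.Q.seqHC (M.Q.C u) M.Q.T n - M.Q.seqTau γ (1 + m) n) uf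
      (𝓝 (2 * M.b u + (1 - γ) * m * u - M.f (plane m (M.b u) u) + 2 * M.Sp u - M.tauL)) :=
    (((ulim_tendsto _ bf).const_sub _).add ((ulim_tendsto _ bS).const_mul 2)).sub (ulim_tendsto _ bt)
  have he := tendsto_nhds_unique hlim (hM.sat u hu hu1)
  linarith

/-- **Section 6.1** -/
theorem pp_prof {γ m : ℝ} (h0 : 0 < γ) (h1 : γ < 1) (hm : 0 < m) (M : Matched γ m) (hM : M.Good) :
    PkProf γ m (beta γ) M.tauL M.κ M.f M.Sp M.b where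
  mono := fun α z d hd hz hz' => pp_mono hm M α z d hd hz hz'
  cap := fun α z d hd hz hz' => pp_cap hm M α z d hd hz hz'
  rect := fun α α' hne z d d' hd hd' h00 h10 h01 h11 => pp_rect hm M α α' hne z d d' hd hd' h00 h10 h01 h11
  S_lip := fun u a hu ha h => pp_S_lip M u a hu ha h
  S_grow := fun u a hu ha h => pp_S_grow M hM u a hu ha h
  obst := fun B A v hB hBA hA hv hv1 hL => pp_obst h0 h1 hm M B A v hB hBA hA hv hv1 hL
  contact := fun u hu hu1 => pp_contact h0 h1 hm M hM u hu hu1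
  b_nonneg := M.b_nonneg
  b_top := M.b_top
  b_anti := M.b_anti
  b_lip := M.b_lip

end Claimed.Agent.R255
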