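-- KEEP
import Claimed.Agent.R255.Plane.Lim
import Claimed.Agent.R255.Plane.Closure
import Claimed.Agent.R255.Rate.Contracts

/-!
# Row 255 (BR paper), Secs 6, 7, 8: exclusion of the matched extremiser, GLUE      (chief helper216)
`pp_prof` (Sec. 6.1) + `rt_distinct`, `rt_tied` (Sec. 7) + `pl_closure` (Secs 6.2-6.4, 8).
-/

set_option autoImplicit false

namespace Claimed.Agent.R255

theorem pl_matched_excl (γ : ℝ) (h0 : 0 < γ) (h1 : γ < 1) (hβ : γ < beta γ) (m : ℝ) (hm : 0 < m)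
    (M : Matched γ m) (hM : M.Good) : False :=
  pl_closure γ m (beta γ) M.tauL M.κ M.sig M.f M.Sp M.b h0 h1 hm hβ M.κpos (M.sig_pos hm)
    (pp_prof h0 h1 hm M hM)
    (fun hm1 i u x y w z D s tp => rt_distinct hm hm1 M hM i u x y w z D s tp.toRt)
    (fun hm1 i u x q z D s tp => rt_tied hm1 M hM i u x q z D s tp.toRt)

end Claimed.Agent.R255
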